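import Vale.Agent.Lib.P205F.TDefs

/-!
# P205F: conventions for surfaces (model space `E2 = ℝ × ℝ`)

Tensors on `M` are pointwise (no compatibility condition): `H p` is a bilinear form on
`T_p M = ℝ × ℝ` (coordinates of the preferred chart at `p`).
-/

noncomputable section

namespace P205F

open scoped Manifold ContDiff Topology RealInnerProductSpace
open Set

/-- bilinear forms on the plane -/
abbrev Bil := E2 →L[ℝ] E2 →L[ℝ] ℝ

def e1 : E2 := (1, 0)
def e2 : E2 := (0, 1)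

section Planar

/-- `Gram (F_1, F_2, F_vv)` at `x` -/
def gramV (F : E2 → V4) (v x : E2) : ℝ := gram3 (pd 0 F x) (pd 1 F x) (ddv v F x)

/-- induced metric of a map of the plane -/
def metrU (F : E2 → V4) (x : E2) : Bil :=
  (innerSL ℝ).bilinearComp (fderiv ℝ F x) (fderiv ℝ F x)

/-- the square of a covector -/
def sqC (α : E2 →L[ℝ] ℝ) : Bil := α.smulRight α

/-- symmetric positive definite bilinear form -/
def PosDef (G : Bil) : Prop := (∀ v w, G v w = G w v) ∧ ∀ v, v ≠ 0 → 0 < G v v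

/-- flat at its zero set: all roots are smooth on `U` -/
def FlatOn {E : Type*} [NormedAddCommGroup E] [NormedSpace ℝ E] (a : E → ℝ) (U : Set E) : Prop :=
  ∀ n : ℕ, 1 ≤ n → ∃ θ : E → ℝ, ContDiffOn ℝ ∞ θ U ∧ ∀ x ∈ U, 0 ≤ θ x ∧ θ x ^ n = a x

end Planar

section Mfd

variable {M : Type*} [TopologicalSpace M] [ChartedSpace E2 M]
variable {V : Type*} [NormedAddCommGroup V] [NormedSpace ℝ V]

/-- all smooth charts -/
def ATL (M : Type*) [TopologicalSpace M] [ChartedSpace E2 M] :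
    Set (OpenPartialHomeomorph M E2) :=
  IsManifold.maximalAtlas 𝓘(ℝ, E2) ∞ M

/-- smooth function on `M` -/
def Sm (F : M → V) : Prop := ContMDiff 𝓘(ℝ, E2) 𝓘(ℝ, V) ∞ F

/-- differential at `p`, on `T_p M = ℝ × ℝ` (preferred chart) -/
def dP (F : M → V) (p : M) : E2 →L[ℝ] V :=
  fderiv ℝ (F ∘ (chartAt E2 p).symm) (chartAt E2 p p)

/-- differential of the chart `φ` at `p` -/
def TT (φ : OpenPartialHomeomorph M E2) (p : M) : E2 →L[ℝ] E2 :=
  fderiv ℝ (φ ∘ (chartAt E2 p).symm) (chartAt E2 p p)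

/-- differential of `φ.symm` at `x` -/
def TTi (φ : OpenPartialHomeomorph M E2) (x : E2) : E2 →L[ℝ] E2 :=
  fderiv ℝ (chartAt E2 (φ.symm x) ∘ φ.symm) x

/-- local expression of a tensor in a chart -/
def locT (φ : OpenPartialHomeomorph M E2) (H : M → Bil) (x : E2) : Bil :=
  (H (φ.symm x)).bilinearComp (TTi φ x) (TTi φ x)

/-- smooth tensor -/
def SmT (H : M → Bil) : Prop := ∀ φ ∈ ATL M, ContDiffOn ℝ ∞ (locT φ H) φ.target

/-- induced metric -/
def metr (F : M → V4) (p : M) : Bil := (innerSL ℝ).bilinearComp (dP F p) (dP F p)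

/-- `du²` -/
def sqT (u : M → ℝ) (p : M) : Bil := sqC (dP u p)

/-- `dφ₁²` (first component of the chart `φ`) -/
def sq1 (φ : OpenPartialHomeomorph M E2) (p : M) : Bil :=
  sqC ((ContinuousLinearMap.fst ℝ ℝ ℝ).comp (TT φ p))

/-- `M` with a Riemannian metric -/
def IsMetric (g : M → Bil) : Prop := SmT g ∧ ∀ p, PosDef (g p)

/-- parameter dependent smooth functions and tensors, parameter `|h| < h₁` -/
def SmP (h₁ : ℝ) (u : M → ℝ → V) : Prop :=
  ∀ φ ∈ ATL M, ContDiffOn ℝ ∞ (fun q : E2 × ℝ => u (φ.symm q.1) q.2)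
    (φ.target ×ˢ Ioo (-h₁) h₁)

def SmTP (h₁ : ℝ) (H : M → ℝ → Bil) : Prop :=
  ∀ φ ∈ ATL M, ContDiffOn ℝ ∞ (fun q : E2 × ℝ => locT φ (fun p => H p q.2) q.1)
    (φ.target ×ˢ Ioo (-h₁) h₁)

/-- flat function on `M`: all roots are smooth and nonnegative -/
def Flat (a : M → ℝ) : Prop :=
  ∀ n : ℕ, 1 ≤ n → ∃ θ : M → ℝ, Sm θ ∧ ∀ p, 0 ≤ θ p ∧ θ p ^ n = a p

/-- the direction `v` (in the chart `φ`) is good for `F` at the point `x` of the chart -/
def GoodIn (φ : OpenPartialHomeomorph M E2) (F : M → V4) (v x : E2) : Prop :=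
  0 < gramV (F ∘ φ.symm) v x

/-- `F` has a good direction at every point -/
def GoodAll (F : M → V4) : Prop :=
  ∀ p : M, ∃ v : E2, GoodIn (chartAt E2 p) F v (chartAt E2 p p)

/-- a finite atlas as in theorem T -/
structure FinAtlas (M : Type*) [TopologicalSpace M] [ChartedSpace E2 M] where
  n : ℕ
  φ : Fin n → OpenPartialHomeomorph M E2
  mem : ∀ k, φ k ∈ ATL M
  target : ∀ k, Metric.closedBall (0 : E2) 4 ⊆ (φ k).target
  cover : ∀ p : M, ∃ k, p ∈ (φ k).source ∧ φ k p ∈ Metric.ball (0 : E2) 1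

/-- all derivatives of `u` of order `≤ r` in the charts of the finite atlas, at the point `p`,
are `≤ η` -/
def ClAt (𝒜 : FinAtlas M) (r : ℕ) (u : M → V) (η : ℝ) (p : M) : Prop :=
  ∀ k, p ∈ (𝒜.φ k).source → 𝒜.φ k p ∈ Metric.closedBall (0 : E2) 3 →
    ∀ j ≤ r, ‖iteratedFDeriv ℝ j (u ∘ (𝒜.φ k).symm) (𝒜.φ k p)‖ ≤ η

end Mfd

end P205F
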