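import Vale.Agent.Lib.P205F.MDefs

/-!
# P205F: statements of theorem T and theorem ES on a closed surface
-/

noncomputable section

namespace P205F

open scoped Manifold ContDiff Topology RealInnerProductSpace
open Set

/-- projection of `u` to `span (b, c)` (for independent `b, c`) -/
def par2 (b c u : V4) : V4 :=
  (⟪b, b⟫ * ⟪c, c⟫ - ⟪b, c⟫ ^ 2)⁻¹ •
    ((⟪u, b⟫ * ⟪c, c⟫ - ⟪u, c⟫ * ⟪b, c⟫) • b + (⟪u, c⟫ * ⟪b, b⟫ - ⟪u, b⟫ * ⟪b, c⟫) • c)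

/-- component of `u` orthogonal to `span (b, c)` -/
def per2 (b c u : V4) : V4 := u - par2 b c u

/-- the rotating first derivative of an exact stage: `u₁ = f_1`, `u₂ = f_2`, `u₃ = f_22`,
amplitude `α`, `c = cos θ`; `tf` is a fixed smooth function of one variable.
`F0 = par + R e`, `R² = |per|² + α²`, `e = (1 + τ²c²)^{-1/2} (z/|z| + τ c y)`, `τ = tf (α/|z|)`,
`z = per`, `y` the unit normal of `u₁, u₂, u₃`. -/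
def F0 (tf : ℝ → ℝ) (u₁ u₂ u₃ : V4) (α c : ℝ) : V4 :=
  par2 u₂ u₃ u₁ +
    (Real.sqrt (‖per2 u₂ u₃ u₁‖ ^ 2 + α ^ 2) *
      (Real.sqrt (1 + tf (α / ‖per2 u₂ u₃ u₁‖) ^ 2 * c ^ 2))⁻¹) •
      (‖per2 u₂ u₃ u₁‖⁻¹ • per2 u₂ u₃ u₁ + (tf (α / ‖per2 u₂ u₃ u₁‖) * c) • nor u₁ u₂ u₃)

variable (M : Type) [TopologicalSpace M] [ChartedSpace E2 M]

/-- Theorem T (quantitative openness, exact) on `M` -/
def ThmT : Prop :=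
  ∀ (𝒜 : FinAtlas M) (r0 : ℕ), ∃ (m s : ℕ) (C : ℝ), 0 < C ∧
    ∀ (Λ δ : ℝ) (F : M → V4) (tgt : M → Bil), 1 ≤ Λ → 0 < δ → C * Λ ^ m * δ ≤ 1 →
      Sm F → SmT tgt → (∀ p v w, tgt p v w = tgt p w v) →
      (∀ p, ClAt 𝒜 s F Λ p) →
      (∀ k, ∀ x ∈ Metric.closedBall (0 : E2) 3, ∀ v : E2,
        ‖v‖ ^ 2 ≤ Λ * locT (𝒜.φ k) (metr F) x v v) →
      (∀ k, ∀ x ∈ Metric.closedBall (0 : E2) 3, ∃ v : E2, ‖v‖ = 1 ∧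
        1 ≤ Λ * gramV (F ∘ (𝒜.φ k).symm) v x) →
      (∀ k, ∀ x ∈ Metric.closedBall (0 : E2) 3, ∀ j ≤ s,
        ‖iteratedFDeriv ℝ j (fun y => locT (𝒜.φ k) tgt y - locT (𝒜.φ k) (metr F) y) x‖ ≤ δ) →
      ∃ F' : M → V4, Sm F' ∧ (∀ p, metr F' p = tgt p) ∧
        ∀ p, ClAt 𝒜 r0 (F' - F) (δ ^ ((1 : ℝ) / 4)) p

/-- Theorem ES (exact stage) on `M` -/
def ThmES : Prop :=
  ∃ tf : ℝ → ℝ, ContDiff ℝ ∞ tf ∧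
    ∀ (f : M → V4) (κ : OpenPartialHomeomorph M E2) (a : M → ℝ),
      Sm f → GoodAll f → κ ∈ ATL M → Metric.closedBall (0 : E2) 4 ⊆ κ.target →
      Flat a → (∀ p, 0 ≤ a p) →
      (∀ p, a p ≠ 0 → p ∈ κ.source ∧ κ p ∈ Metric.closedBall (0 : E2) 1) →
      (∀ x ∈ Metric.closedBall (0 : E2) 3, GoodIn κ f e2 x) →
      ∀ (𝒜 : FinAtlas M) (tol : ℝ), 0 < tol →
      ∃ F' : M → V4, Sm F' ∧ GoodAll F' ∧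
        (∀ p, metr F' p = metr f p + a p ^ 2 • sq1 κ p) ∧
        (∀ p, ¬ (p ∈ κ.source ∧ κ p ∈ Metric.ball (0 : E2) 2) → ClAt 𝒜 3 (F' - f) tol p) ∧
        ∀ x ∈ Metric.closedBall (0 : E2) 3,
          ‖pd 1 (F' ∘ κ.symm) x - pd 1 (f ∘ κ.symm) x‖ ≤ tol ∧
          ‖pd 1 (pd 1 (F' ∘ κ.symm)) x - pd 1 (pd 1 (f ∘ κ.symm)) x‖ ≤ tol ∧
          ‖pd 1 (pd 1 (pd 1 (F' ∘ κ.symm))) x - pd 1 (pd 1 (pd 1 (f ∘ κ.symm))) x‖ ≤ tol ∧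
          ∃ c ∈ Icc (-1 : ℝ) 1,
            ‖pd 0 (F' ∘ κ.symm) x - F0 tf (pd 0 (f ∘ κ.symm) x) (pd 1 (f ∘ κ.symm) x)
              (pd 1 (pd 1 (f ∘ κ.symm)) x) (a (κ.symm x)) c‖ ≤ tol ∧
            ‖pd 1 (pd 0 (F' ∘ κ.symm)) x - pd 1 (fun y => F0 tf (pd 0 (f ∘ κ.symm) y)
              (pd 1 (f ∘ κ.symm) y) (pd 1 (pd 1 (f ∘ κ.symm)) y) (a (κ.symm y)) c) x‖ ≤ tol

end P205F
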