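import Vale.Agent.Lib.P205F.TDefs

/-! # P205F module TA: linear algebra in `ℝ⁴`, partial derivatives on open sets -/

open scoped ContDiff Topology
open Set

namespace P205F

theorem TA_inner (x y : V4) :
    inner ℝ x y = x 0 * y 0 + x 1 * y 1 + x 2 * y 2 + x 3 * y 3 := by
  simp only [PiLp.inner_apply, Fin.sum_univ_four, RCLike.inner_apply, conj_trivial]
  ring

variable (a b c : V4)

theorem TA_cr3_0 : cr3 a b c 0 = minor3 a b c 1 2 3 := rfl

theorem TA_cr3_1 : cr3 a b c 1 = -minor3 a b c 0 2 3 := rfl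

theorem TA_cr3_2 : cr3 a b c 2 = minor3 a b c 0 1 3 := rfl

theorem TA_cr3_3 : cr3 a b c 3 = -minor3 a b c 0 1 2 := rfl

theorem gram3_swap : gram3 b a c = gram3 a b c := by
  unfold gram3
  rw [real_inner_comm a b]
  ring

theorem gram3_rot : gram3 c a b = gram3 a b c := by
  unfold gram3
  rw [real_inner_comm a c, real_inner_comm b c]
  ring

theorem inner_cr3_fst : inner ℝ (cr3 a b c) a = 0 := by
  rw [TA_inner, TA_cr3_0, TA_cr3_1, TA_cr3_2, TA_cr3_3]
  unfold minor3
  ring

theorem inner_cr3_snd : inner ℝ (cr3 a b c) b = 0 := by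
  rw [TA_inner, TA_cr3_0, TA_cr3_1, TA_cr3_2, TA_cr3_3]
  unfold minor3
  ring

theorem inner_cr3_thd : inner ℝ (cr3 a b c) c = 0 := by
  rw [TA_inner, TA_cr3_0, TA_cr3_1, TA_cr3_2, TA_cr3_3]
  unfold minor3
  ring

theorem inner_cr3_self : inner ℝ (cr3 a b c) (cr3 a b c) = gram3 a b c := by
  rw [TA_inner, TA_cr3_0, TA_cr3_1, TA_cr3_2, TA_cr3_3]
  unfold gram3 minor3
  simp only [TA_inner]
  ring

theorem gram3_nonneg : 0 ≤ gram3 a b c := by
  rw [← inner_cr3_self]
  exact real_inner_self_nonneg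

theorem inner_dual_fst (h : gram3 a b c ≠ 0) : inner ℝ (dual a b c) a = 1 := by
  have key : (inner ℝ b b * inner ℝ c c - inner ℝ b c ^ 2) * inner ℝ a a
      - (inner ℝ a b * inner ℝ c c - inner ℝ a c * inner ℝ b c) * inner ℝ b a
      + (inner ℝ a b * inner ℝ b c - inner ℝ a c * inner ℝ b b) * inner ℝ c a
      = gram3 a b c := by
    unfold gram3
    rw [real_inner_comm a b, real_inner_comm a c]
    ring
  unfold dual
  rw [real_inner_smul_left, inner_add_left, inner_sub_left, real_inner_smul_left,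
    real_inner_smul_left, real_inner_smul_left, key]
  exact inv_mul_cancel₀ h

theorem inner_dual_snd : inner ℝ (dual a b c) b = 0 := by
  unfold dual
  rw [real_inner_smul_left, inner_add_left, inner_sub_left, real_inner_smul_left,
    real_inner_smul_left, real_inner_smul_left, real_inner_comm b c]
  ring

theorem inner_dual_thd : inner ℝ (dual a b c) c = 0 := by
  unfold dual
  rw [real_inner_smul_left, inner_add_left, inner_sub_left, real_inner_smul_left,
    real_inner_smul_left, real_inner_smul_left]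
  ring

theorem inner_nor_fst : inner ℝ (nor a b c) a = 0 := by
  unfold nor
  rw [real_inner_smul_left, inner_cr3_fst, mul_zero]

theorem inner_nor_snd : inner ℝ (nor a b c) b = 0 := by
  unfold nor
  rw [real_inner_smul_left, inner_cr3_snd, mul_zero]

theorem inner_nor_thd : inner ℝ (nor a b c) c = 0 := by
  unfold nor
  rw [real_inner_smul_left, inner_cr3_thd, mul_zero]

theorem inner_nor_self (h : 0 < gram3 a b c) : inner ℝ (nor a b c) (nor a b c) = 1 := by
  unfold nor
  rw [real_inner_smul_left, real_inner_smul_right, inner_cr3_self]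
  have h1 : 0 < Real.sqrt (gram3 a b c) := Real.sqrt_pos.mpr h
  have h2 : Real.sqrt (gram3 a b c) * Real.sqrt (gram3 a b c) = gram3 a b c :=
    Real.mul_self_sqrt h.le
  nth_rewrite 3 [← h2]
  field_simp

theorem cdot_toC : cdot a (toC b) = (inner ℝ a b : ℝ) := by
  unfold cdot toC
  rw [TA_inner, Fin.sum_univ_four]
  push_cast
  ring

theorem cdot_add (A B : C4) : cdot a (A + B) = cdot a A + cdot a B := by
  unfold cdot
  rw [← Finset.sum_add_distrib]
  refine Finset.sum_congr rfl fun k _ => ?_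
  rw [Pi.add_apply]
  ring

theorem cdot_smul (z : ℂ) (A : C4) : cdot a (z • A) = z * cdot a A := by
  unfold cdot
  rw [Finset.mul_sum]
  refine Finset.sum_congr rfl fun k _ => ?_
  rw [Pi.smul_apply, smul_eq_mul]
  ring

theorem inner_reV (A : C4) : inner ℝ a (reV A) = (cdot a A).re := by
  have e0 : reV A 0 = (A 0).re := rfl
  have e1 : reV A 1 = (A 1).re := rfl
  have e2 : reV A 2 = (A 2).re := rfl
  have e3 : reV A 3 = (A 3).re := rfl
  unfold cdot
  rw [TA_inner, e0, e1, e2, e3, Fin.sum_univ_four]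
  simp only [Complex.add_re, Complex.re_ofReal_mul]

theorem gram3_add_smul (x y : ℝ) : gram3 a b (c + x • a + y • b) = gram3 a b c := by
  unfold gram3
  simp only [inner_add_right, inner_add_left, real_inner_smul_left, real_inner_smul_right]
  rw [real_inner_comm a b, real_inner_comm a c, real_inner_comm b c]
  ring

theorem gram3_smul (x : ℝ) : gram3 a b (x • c) = x ^ 2 * gram3 a b c := by
  unfold gram3
  simp only [real_inner_smul_left, real_inner_smul_right]
  ring

section derivatives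

variable {V : Type} [NormedAddCommGroup V] [NormedSpace ℝ V] {U : Set E2} {u : E2 → V}

theorem eq_sum_bv (v : E2) : v = ∑ i, co v i • bv i := by
  rw [Fin.sum_univ_two]
  refine Prod.ext ?_ ?_ <;> simp [co, bv]

theorem norm_bv_le (i : Fin 2) : ‖bv i‖ ≤ 1 := by
  fin_cases i <;> simp [bv, Prod.norm_def]

theorem TA_fderiv_contDiffOn (hU : IsOpen U) (hu : ContDiffOn ℝ ∞ u U) (v : E2) :
    ContDiffOn ℝ ∞ (fun x => fderiv ℝ u x v) U :=
  (hu.fderiv_of_isOpen hU (by norm_cast)).clm_apply contDiffOn_const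

theorem pd_contDiffOn (hU : IsOpen U) (hu : ContDiffOn ℝ ∞ u U) (i : Fin 2) :
    ContDiffOn ℝ ∞ (pd i u) U := TA_fderiv_contDiffOn hU hu (bv i)

/-- second derivatives -/
theorem TA_second (hU : IsOpen U) (hu : ContDiffOn ℝ ∞ u U) (v w : E2) {x : E2} (hx : x ∈ U) :
    fderiv ℝ (fun y => fderiv ℝ u y v) x w = fderiv ℝ (fderiv ℝ u) x w v := by
  have h1 : ContDiffOn ℝ ∞ (fderiv ℝ u) U := hu.fderiv_of_isOpen hU (by norm_cast)
  have h2 : DifferentiableAt ℝ (fderiv ℝ u) x :=
    (h1.contDiffAt (hU.mem_nhds hx)).differentiableAt (by simp)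
  have h3 := h2.hasFDerivAt.clm_apply (hasFDerivAt_const v x)
  rw [h3.fderiv]
  simp

theorem TA_symm (hU : IsOpen U) (hu : ContDiffOn ℝ ∞ u U) (v w : E2) {x : E2} (hx : x ∈ U) :
    fderiv ℝ (fderiv ℝ u) x v w = fderiv ℝ (fderiv ℝ u) x w v := by
  have h1 : ContDiffAt ℝ ∞ u x := hu.contDiffAt (hU.mem_nhds hx)
  have h2 : IsSymmSndFDerivAt ℝ u x :=
    h1.isSymmSndFDerivAt (by simp only [minSmoothness_of_isRCLikeNormedField]; norm_cast)
  exact h2 v w

theorem pd_comm (hU : IsOpen U) (hu : ContDiffOn ℝ ∞ u U) (i j : Fin 2) {x : E2} (hx : x ∈ U) :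
    pd i (pd j u) x = pd j (pd i u) x := by
  have h1 : pd i (pd j u) x = fderiv ℝ (fderiv ℝ u) x (bv i) (bv j) :=
    TA_second hU hu (bv j) (bv i) hx
  have h2 : pd j (pd i u) x = fderiv ℝ (fderiv ℝ u) x (bv j) (bv i) :=
    TA_second hU hu (bv i) (bv j) hx
  rw [h1, h2]
  exact TA_symm hU hu _ _ hx

theorem TA_clm (L : E2 →L[ℝ] V) (v : E2) : L v = ∑ i, co v i • L (bv i) := by
  conv_lhs => rw [eq_sum_bv v]
  rw [map_sum]
  refine Finset.sum_congr rfl fun i _ => ?_
  rw [map_smul]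

theorem fderiv_eq_sum_pd (hU : IsOpen U) (hu : ContDiffOn ℝ ∞ u U) (v : E2) {x : E2} (hx : x ∈ U) :
    fderiv ℝ u x v = ∑ i, co v i • pd i u x := by
  have _ := hU
  have _ := hu
  have _ := hx
  exact TA_clm (fderiv ℝ u x) v

theorem ddv_eq_sum (hU : IsOpen U) (hu : ContDiffOn ℝ ∞ u U) (v : E2) {x : E2} (hx : x ∈ U) :
    ddv v u x = ∑ i, ∑ j, (co v i * co v j) • pd i (pd j u) x := by
  have h1 : ddv v u x = fderiv ℝ (fderiv ℝ u) x v v := TA_second hU hu v v hx
  have h2 : fderiv ℝ (fderiv ℝ u) x v = ∑ i, co v i • fderiv ℝ (fderiv ℝ u) x (bv i) := by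
    conv_lhs => rw [eq_sum_bv v]
    rw [map_sum]
    refine Finset.sum_congr rfl fun i _ => ?_
    rw [map_smul]
  rw [h1, h2, _root_.sum_apply]
  refine Finset.sum_congr rfl fun i _ => ?_
  rw [_root_.smul_apply, TA_clm (fderiv ℝ (fderiv ℝ u) x (bv i)) v, Finset.smul_sum]
  refine Finset.sum_congr rfl fun j _ => ?_
  have h3 : pd i (pd j u) x = fderiv ℝ (fderiv ℝ u) x (bv i) (bv j) :=
    TA_second hU hu (bv j) (bv i) hx
  rw [h3, smul_smul]

theorem ddv_contDiffOn (hU : IsOpen U) (hu : ContDiffOn ℝ ∞ u U) (v : E2) :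
    ContDiffOn ℝ ∞ (ddv v u) U :=
  TA_fderiv_contDiffOn hU (TA_fderiv_contDiffOn hU hu v) v

/-- the values of `pd` depend only on the germ -/
theorem pd_congr {u' : E2 → V} (hU : IsOpen U) (h : ∀ x ∈ U, u' x = u x) (i : Fin 2) {x : E2}
    (hx : x ∈ U) : pd i u' x = pd i u x := by
  have h1 : u' =ᶠ[𝓝 x] u := by
    filter_upwards [hU.mem_nhds hx] with y hy
    exact h y hy
  unfold pd
  rw [h1.fderiv_eq]

end derivatives

end P205F
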