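import Vale.Agent.Lib.P205F.MD1
import Vale.Agent.Lib.P205F.TA

/-!
# P205F: good directions, Gram determinants, change of chart
-/

noncomputable section

namespace P205F

open scoped Manifold ContDiff Topology RealInnerProductSpace
open Set

theorem MD2_inner (x y : V4) :
    inner ℝ x y = x 0 * y 0 + x 1 * y 1 + x 2 * y 2 + x 3 * y 3 := by
  simp only [PiLp.inner_apply, Fin.sum_univ_four, RCLike.inner_apply, conj_trivial]
  ring

/-- Cauchy-Binet -/
theorem gram3_eq_minors (a b c : V4) :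
    gram3 a b c = minor3 a b c 1 2 3 ^ 2 + minor3 a b c 0 2 3 ^ 2 + minor3 a b c 0 1 3 ^ 2
      + minor3 a b c 0 1 2 ^ 2 := by
  unfold gram3 minor3
  simp only [MD2_inner]
  ring

/-- change of basis: `a' = p a + q b`, `b' = r a + s b`, `c' = t c + u a + w b` -/
theorem gram3_comb (a b c : V4) (p q r s t u w : ℝ) :
    gram3 (p • a + q • b) (r • a + s • b) (t • c + u • a + w • b) =
      (p * s - q * r) ^ 2 * t ^ 2 * gram3 a b c := by
  unfold gram3
  simp only [inner_add_left, inner_add_right, real_inner_smul_left, real_inner_smul_right]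
  rw [real_inner_comm a b, real_inner_comm a c, real_inner_comm b c]
  ring

theorem MD2_zero_left (b c : V4) : gram3 0 b c = 0 := by
  unfold gram3; simp

theorem MD2_dep {a b c : V4} {x y z : ℝ} (h : x • a + y • b + z • c = 0)
    (hg : 0 < gram3 a b c) : x = 0 ∧ y = 0 ∧ z = 0 := by
  refine ⟨?_, ?_, ?_⟩
  · have h1 : gram3 (x • a + y • b + z • c) b c = x ^ 2 * gram3 a b c := by
      unfold gram3
      simp only [inner_add_left, inner_add_right, real_inner_smul_left, real_inner_smul_right]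
      rw [real_inner_comm a b, real_inner_comm a c, real_inner_comm b c]
      ring
    rw [h, MD2_zero_left] at h1
    have h2 := mul_eq_zero.1 h1.symm
    rcases h2 with h2 | h2
    · exact pow_eq_zero_iff (two_ne_zero) |>.1 h2
    · exact absurd h2 hg.ne'
  · have h1 : gram3 a (x • a + y • b + z • c) c = y ^ 2 * gram3 a b c := by
      unfold gram3
      simp only [inner_add_left, inner_add_right, real_inner_smul_left, real_inner_smul_right]
      rw [real_inner_comm a b, real_inner_comm a c, real_inner_comm b c]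
      ring
    have h0 : gram3 a 0 c = 0 := by unfold gram3; simp
    rw [h, h0] at h1
    have h2 := mul_eq_zero.1 h1.symm
    rcases h2 with h2 | h2
    · exact pow_eq_zero_iff (two_ne_zero) |>.1 h2
    · exact absurd h2 hg.ne'
  · have h1 : gram3 a b (x • a + y • b + z • c) = z ^ 2 * gram3 a b c := by
      unfold gram3
      simp only [inner_add_left, inner_add_right, real_inner_smul_left, real_inner_smul_right]
      rw [real_inner_comm a b, real_inner_comm a c, real_inner_comm b c]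
      ring
    have h0 : gram3 a b 0 = 0 := by unfold gram3; simp
    rw [h, h0] at h1
    have h2 := mul_eq_zero.1 h1.symm
    rcases h2 with h2 | h2
    · exact pow_eq_zero_iff (two_ne_zero) |>.1 h2
    · exact absurd h2 hg.ne'

/-- `gram3 > 0` iff linearly independent -/
theorem gram3_pos_iff (a b c : V4) : 0 < gram3 a b c ↔ LinearIndependent ℝ ![a, b, c] := by
  constructor
  · intro hg
    rw [Fintype.linearIndependent_iff]
    intro g h
    rw [Fin.sum_univ_three] at h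
    have h' : g 0 • a + g 1 • b + g 2 • c = 0 := by simpa using h
    obtain ⟨h0, h1, h2⟩ := MD2_dep h' hg
    intro i
    fin_cases i
    · exact h0
    · exact h1
    · exact h2
  · intro hl
    refine lt_of_le_of_ne (gram3_nonneg a b c) fun h0 => ?_
    let N : Matrix (Fin 3) (Fin 3) ℝ :=
      !![inner ℝ a a, inner ℝ a b, inner ℝ a c; inner ℝ a b, inner ℝ b b, inner ℝ b c;
        inner ℝ a c, inner ℝ b c, inner ℝ c c]
    have hdet : N.det = 0 := by
      rw [Matrix.det_fin_three]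
      simp only [N, Matrix.of_apply, Matrix.cons_val', Matrix.cons_val_zero, Matrix.cons_val_one,
        Matrix.cons_val]
      rw [h0]
      unfold gram3
      ring
    obtain ⟨x, hx, hNx⟩ := Matrix.exists_mulVec_eq_zero_iff.2 hdet
    have e0 := congrFun hNx 0
    have e1' := congrFun hNx 1
    have e2' := congrFun hNx 2
    simp only [N, Matrix.mulVec, dotProduct, Fin.sum_univ_three, Matrix.of_apply,
      Matrix.cons_val', Matrix.cons_val_zero, Matrix.cons_val_one, Matrix.cons_val,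
      Pi.zero_apply] at e0 e1' e2'
    have hz : x 0 • a + x 1 • b + x 2 • c = 0 := by
      rw [← inner_self_eq_zero (𝕜 := ℝ)]
      simp only [inner_add_left, inner_add_right, real_inner_smul_left, real_inner_smul_right]
      rw [real_inner_comm a b, real_inner_comm a c, real_inner_comm b c]
      linear_combination (x 0) * e0 + (x 1) * e1' + (x 2) * e2'
    rw [Fintype.linearIndependent_iff] at hl
    have h3 := hl x (by rw [Fin.sum_univ_three]; simpa using hz)
    exact hx (funext h3)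

/-- `gram3` is locally Lipschitz -/
theorem gram3_sub_le (a b c a' b' c' : V4) (R e : ℝ) (ha : ‖a‖ ≤ R) (hb : ‖b‖ ≤ R) (hc : ‖c‖ ≤ R)
    (ha' : ‖a' - a‖ ≤ e) (hb' : ‖b' - b‖ ≤ e) (hc' : ‖c' - c‖ ≤ e) (he : e ≤ 1) (hR : 1 ≤ R) :
    |gram3 a' b' c' - gram3 a b c| ≤ 1000 * R ^ 5 * e := by
  have he0 : 0 ≤ e := (norm_nonneg _).trans ha'
  have key : ∀ x y x' y' : V4, ‖x‖ ≤ R → ‖y‖ ≤ R → ‖x' - x‖ ≤ e → ‖y' - y‖ ≤ e →
      |(inner ℝ x' y' : ℝ) - inner ℝ x y| ≤ 3 * R * e ∧ |(inner ℝ x y : ℝ)| ≤ 4 * R ^ 2 ∧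
      |(inner ℝ x' y' : ℝ)| ≤ 4 * R ^ 2 := by
    intro x y x' y' hx hy hx' hy'
    have hxn : ‖x'‖ ≤ 2 * R := by
      have : x' = (x' - x) + x := by abel
      rw [this]
      exact (norm_add_le _ _).trans (by linarith)
    have hyn : ‖y'‖ ≤ 2 * R := by
      have : y' = (y' - y) + y := by abel
      rw [this]
      exact (norm_add_le _ _).trans (by linarith)
    refine ⟨?_, ?_, ?_⟩
    · have h1 : (inner ℝ x' y' : ℝ) - inner ℝ x y = inner ℝ (x' - x) y' + inner ℝ x (y' - y) := by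
        rw [inner_sub_left, inner_sub_right]; ring
      rw [h1]
      refine (abs_add_le _ _).trans ?_
      have h2 := abs_real_inner_le_norm (x' - x) y'
      have h3 := abs_real_inner_le_norm x (y' - y)
      have h4 : ‖x' - x‖ * ‖y'‖ ≤ e * (2 * R) := mul_le_mul hx' hyn (norm_nonneg _) he0
      have h5 : ‖x‖ * ‖y' - y‖ ≤ R * e := mul_le_mul hx hy' (norm_nonneg _) (by linarith)
      linarith
    · have h2 := abs_real_inner_le_norm x y
      have h4 : ‖x‖ * ‖y‖ ≤ R * R := mul_le_mul hx hy (norm_nonneg _) (by linarith)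
      nlinarith
    · have h2 := abs_real_inner_le_norm x' y'
      have h4 : ‖x'‖ * ‖y'‖ ≤ (2 * R) * (2 * R) := mul_le_mul hxn hyn (norm_nonneg _) (by linarith)
      nlinarith
  have tri : ∀ x y z x' y' z' : ℝ, |x' - x| ≤ 3 * R * e → |y' - y| ≤ 3 * R * e →
      |z' - z| ≤ 3 * R * e → |x| ≤ 4 * R ^ 2 → |y| ≤ 4 * R ^ 2 → |y'| ≤ 4 * R ^ 2 →
      |z'| ≤ 4 * R ^ 2 → |x' * (y' * z') - x * (y * z)| ≤ 144 * R ^ 5 * e := by
    intro x y z x' y' z' h1 h2 h3 hx hy hy' hz'
    have e1' : x' * (y' * z') - x * (y * z)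
        = (x' - x) * (y' * z') + x * ((y' - y) * z') + x * (y * (z' - z)) := by ring
    rw [e1']
    refine (abs_add_le _ _).trans ?_
    refine (add_le_add (abs_add_le _ _) le_rfl).trans ?_
    simp only [abs_mul]
    have hA : (0 : ℝ) ≤ 3 * R * e := by positivity
    have hB : (0 : ℝ) ≤ 4 * R ^ 2 := by positivity
    have t1 : |x' - x| * (|y'| * |z'|) ≤ (3 * R * e) * ((4 * R ^ 2) * (4 * R ^ 2)) :=
      mul_le_mul h1 (mul_le_mul hy' hz' (abs_nonneg _) hB) (by positivity) hA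
    have t2 : |x| * (|y' - y| * |z'|) ≤ (4 * R ^ 2) * ((3 * R * e) * (4 * R ^ 2)) :=
      mul_le_mul hx (mul_le_mul h2 hz' (abs_nonneg _) hA) (by positivity) hB
    have t3 : |x| * (|y| * |z' - z|) ≤ (4 * R ^ 2) * ((4 * R ^ 2) * (3 * R * e)) :=
      mul_le_mul hx (mul_le_mul hy h3 (abs_nonneg _) hB) (by positivity) hB
    have t4 : (3 * R * e) * ((4 * R ^ 2) * (4 * R ^ 2)) + (4 * R ^ 2) * ((3 * R * e) * (4 * R ^ 2))
        + (4 * R ^ 2) * ((4 * R ^ 2) * (3 * R * e)) = 144 * R ^ 5 * e := by ring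
    linarith
  have kaa := key a a a' a' ha ha ha' ha'
  have kab := key a b a' b' ha hb ha' hb'
  have kac := key a c a' c' ha hc ha' hc'
  have kbb := key b b b' b' hb hb hb' hb'
  have kbc := key b c b' c' hb hc hb' hc'
  have kcc := key c c c' c' hc hc hc' hc'
  have T1 := tri _ _ _ _ _ _ kaa.1 kbb.1 kcc.1 kaa.2.1 kbb.2.1 kbb.2.2 kcc.2.2
  have T2 := tri _ _ _ _ _ _ kaa.1 kbc.1 kbc.1 kaa.2.1 kbc.2.1 kbc.2.2 kbc.2.2
  have T3 := tri _ _ _ _ _ _ kab.1 kab.1 kcc.1 kab.2.1 kab.2.1 kab.2.2 kcc.2.2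
  have T4 := tri _ _ _ _ _ _ kab.1 kbc.1 kac.1 kab.2.1 kbc.2.1 kbc.2.2 kac.2.2
  have T5 := tri _ _ _ _ _ _ kac.1 kab.1 kbc.1 kac.2.1 kab.2.1 kab.2.2 kbc.2.2
  have T6 := tri _ _ _ _ _ _ kac.1 kbb.1 kac.1 kac.2.1 kbb.2.1 kbb.2.2 kac.2.2
  rw [abs_le] at T1 T2 T3 T4 T5 T6
  have hR5 : 0 ≤ R ^ 5 * e := by positivity
  unfold gram3
  rw [abs_le]
  constructor
  · linarith [T1.1, T2.2, T3.2, T4.1, T5.1, T6.2]
  · linarith [T1.2, T2.1, T3.1, T4.2, T5.2, T6.1]

/-- second order chain rule: for a smooth change of variables `τ` and `F = G ∘ τ` near `x`,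
`F_vv = G_{v'v'} + DG (D²τ (v, v))` with `v' = Dτ v` -/
theorem ddv_comp {G : E2 → V4} {τ : E2 → E2} {x : E2} (hG : ContDiffAt ℝ 2 G (τ x))
    (hτ : ContDiffAt ℝ 2 τ x) (v : E2) :
    ddv v (G ∘ τ) x = ddv (fderiv ℝ τ x v) G (τ x) + fderiv ℝ G (τ x) (ddv v τ x) := by
  have hG1 : DifferentiableAt ℝ (fderiv ℝ G) (τ x) :=
    (hG.fderiv_right (m := 1) (by norm_num)).differentiableAt (by norm_num)
  have hτ1 : DifferentiableAt ℝ (fderiv ℝ τ) x :=
    (hτ.fderiv_right (m := 1) (by norm_num)).differentiableAt (by norm_num)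
  have hτ0 : DifferentiableAt ℝ τ x := hτ.differentiableAt (by norm_num)
  have hev : (fun y => fderiv ℝ (G ∘ τ) y v) =ᶠ[𝓝 x]
      fun y => fderiv ℝ G (τ y) (fderiv ℝ τ y v) := by
    have h1 : ∀ᶠ y in 𝓝 x, ContDiffAt ℝ 1 τ y :=
      (hτ.of_le (by norm_num)).eventually (by simp)
    have h2 : ∀ᶠ y in 𝓝 x, ContDiffAt ℝ 1 G (τ y) :=
      hτ.continuousAt.eventually ((hG.of_le (by norm_num)).eventually (by simp))
    filter_upwards [h1, h2] with y hy1 hy2
    rw [fderiv_comp y (hy2.differentiableAt (by norm_num)) (hy1.differentiableAt (by norm_num))]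
    rfl
  unfold ddv
  rw [hev.fderiv_eq]
  have hA : HasFDerivAt (fun y => fderiv ℝ G (τ y))
      ((fderiv ℝ (fderiv ℝ G) (τ x)).comp (fderiv ℝ τ x)) x :=
    hG1.hasFDerivAt.comp x hτ0.hasFDerivAt
  have hB : HasFDerivAt (fun y => fderiv ℝ τ y v)
      ((fderiv ℝ (fderiv ℝ τ) x).flip v) x := by
    have h1 := hτ1.hasFDerivAt.clm_apply (hasFDerivAt_const v x)
    simpa using h1
  have hC := hA.clm_apply hB
  rw [hC.fderiv]
  have e1' : fderiv ℝ (fun y => fderiv ℝ τ y v) x v = (fderiv ℝ (fderiv ℝ τ) x v) v := by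
    rw [hB.fderiv]; rfl
  have e2' : fderiv ℝ (fun y => fderiv ℝ G y (fderiv ℝ τ x v)) (τ x) (fderiv ℝ τ x v)
      = (fderiv ℝ (fderiv ℝ G) (τ x) (fderiv ℝ τ x v)) (fderiv ℝ τ x v) := by
    have h1 := hG1.hasFDerivAt.clm_apply (hasFDerivAt_const (fderiv ℝ τ x v) (τ x))
    rw [h1.fderiv]
    simp
  rw [e1', e2']
  simp only [add_apply, ContinuousLinearMap.comp_apply,
    ContinuousLinearMap.flip_apply]
  rw [add_comm]

theorem MD2_app {V : Type*} [NormedAddCommGroup V] [NormedSpace ℝ V] (L : E2 →L[ℝ] V) (v : E2) :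
    L v = v.1 • L (bv 0) + v.2 • L (bv 1) := by
  have h : v = v.1 • bv 0 + v.2 • bv 1 := by
    ext <;> simp [bv]
  conv_lhs => rw [h]
  rw [map_add, map_smul, map_smul]

theorem MD2_e1 : e1 = bv 0 := by simp [e1, bv]

theorem MD2_e2 : e2 = bv 1 := by simp [e2, bv]

theorem MD2_ddv_congr {V : Type} [NormedAddCommGroup V] [NormedSpace ℝ V] {u w : E2 → V}
    {x : E2} (h : u =ᶠ[𝓝 x] w) (v : E2) : ddv v u x = ddv v w x := by
  unfold ddv
  have h1 : (fun y => fderiv ℝ u y v) =ᶠ[𝓝 x] fun y => fderiv ℝ w y v := by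
    filter_upwards [Filter.EventuallyEq.fderiv (𝕜 := ℝ) h] with y hy
    rw [hy]
  rw [h1.fderiv_eq]

theorem MD2_gramV_congr {u w : E2 → V4} {x : E2} (h : u =ᶠ[𝓝 x] w) (v : E2) :
    gramV u v x = gramV w v x := by
  unfold gramV pd
  rw [MD2_ddv_congr h, h.fderiv_eq]

/-- transformation of `gramV`: `J` is the Jacobian determinant of `τ` -/
theorem gramV_comp {G : E2 → V4} {τ : E2 → E2} {x : E2} (hG : ContDiffAt ℝ 2 G (τ x))
    (hτ : ContDiffAt ℝ 2 τ x) (v : E2) :
    gramV (G ∘ τ) v x =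
      ((fderiv ℝ τ x e1).1 * (fderiv ℝ τ x e2).2 - (fderiv ℝ τ x e1).2 * (fderiv ℝ τ x e2).1) ^ 2 *
        gramV G (fderiv ℝ τ x v) (τ x) := by
  have h1 : ∀ w : E2, fderiv ℝ (G ∘ τ) x w = fderiv ℝ G (τ x) (fderiv ℝ τ x w) := by
    intro w
    rw [fderiv_comp x (hG.differentiableAt (by norm_num)) (hτ.differentiableAt (by norm_num))]
    rfl
  unfold gramV
  have a0 : pd 0 (G ∘ τ) x = (fderiv ℝ τ x e1).1 • pd 0 G (τ x) + (fderiv ℝ τ x e1).2 • pd 1 G (τ x) := by
    unfold pd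
    rw [h1, MD2_app (fderiv ℝ G (τ x)) (fderiv ℝ τ x (bv 0)), MD2_e1]
  have a1 : pd 1 (G ∘ τ) x = (fderiv ℝ τ x e2).1 • pd 0 G (τ x) + (fderiv ℝ τ x e2).2 • pd 1 G (τ x) := by
    unfold pd
    rw [h1, MD2_app (fderiv ℝ G (τ x)) (fderiv ℝ τ x (bv 1)), MD2_e2]
  have a2 : ddv v (G ∘ τ) x = (1 : ℝ) • ddv (fderiv ℝ τ x v) G (τ x)
      + (ddv v τ x).1 • pd 0 G (τ x) + (ddv v τ x).2 • pd 1 G (τ x) := by
    rw [ddv_comp hG hτ, one_smul, MD2_app (fderiv ℝ G (τ x)) (ddv v τ x), add_assoc]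
    rfl
  rw [a0, a1, a2, gram3_comb]
  ring

theorem gramV_smul (G : E2 → V4) (t : ℝ) (v x : E2) : gramV G (t • v) x = t ^ 4 * gramV G v x := by
  have h1 : ddv (t • v) G x = (0 : ℝ) • pd 0 G x + ((0 : ℝ) • pd 1 G x + (t * t) • ddv v G x) := by
    unfold ddv
    have h2 : (fun y => fderiv ℝ G y (t • v)) = fun y => t • fderiv ℝ G y v := by
      funext y
      rw [map_smul]
    rw [h2, map_smul]
    rcases eq_or_ne t 0 with rfl | ht
    · simp
    · have h3 : fderiv ℝ (fun y => t • fderiv ℝ G y v) x = t • fderiv ℝ (fun y => fderiv ℝ G y v) x := by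
        have h4 := congrFun (fderiv_const_smul_field (𝕜 := ℝ) (f := fun y => fderiv ℝ G y v) t) x
        exact h4
      rw [h3]
      change t • (t • fderiv ℝ (fun y => fderiv ℝ G y v) x v) = _
      rw [smul_smul, zero_smul, zero_smul, zero_add, zero_add]
  unfold gramV
  rw [h1]
  have h4 := gram3_comb (pd 0 G x) (pd 1 G x) (ddv v G x) 1 0 0 1 (t * t) 0 0
  simp only [one_smul, zero_smul, add_zero, zero_add] at h4 ⊢
  rw [h4]
  ring

/-- `gramV` for vectors `v, n`: `Gram (F_v, F_n, F_vv) = det(v, n)² Gram (F_1, F_2, F_vv)` -/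
theorem gram3_vn {G : E2 → V4} {x : E2} (v n : E2) :
    gram3 (fderiv ℝ G x v) (fderiv ℝ G x n) (ddv v G x) =
      (v.1 * n.2 - v.2 * n.1) ^ 2 * gramV G v x := by
  have h4 := gram3_comb (pd 0 G x) (pd 1 G x) (ddv v G x) v.1 v.2 n.1 n.2 1 0 0
  rw [one_smul, zero_smul, zero_smul, add_zero, add_zero] at h4
  rw [MD2_app (fderiv ℝ G x) v, MD2_app (fderiv ℝ G x) n]
  refine h4.trans ?_
  unfold gramV
  ring

variable {M : Type} [TopologicalSpace M] [ChartedSpace E2 M] [IsManifold 𝓘(ℝ, E2) ∞ M]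

/-- goodness does not depend on the chart -/
theorem goodIn_trans {F : M → V4} (hF : Sm F) {φ ψ : OpenPartialHomeomorph M E2} (hφ : φ ∈ ATL M)
    (hψ : ψ ∈ ATL M) {p : M} (h1 : p ∈ φ.source) (h2 : p ∈ ψ.source) (v : E2) :
    GoodIn φ F v (φ p) ↔ GoodIn ψ F (fderiv ℝ (ψ ∘ φ.symm) (φ p) v) (ψ p) := by
  have hx : φ p ∈ φ.target := φ.map_source h1
  have hs : φ.symm (φ p) = p := φ.left_inv h1
  have hmem : φ p ∈ φ.target ∩ φ.symm ⁻¹' ψ.source := ⟨hx, by simpa [hs] using h2⟩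
  have hopen : IsOpen (φ.target ∩ φ.symm ⁻¹' ψ.source) :=
    φ.symm.isOpen_inter_preimage ψ.open_source
  have hτx : (ψ ∘ φ.symm) (φ p) = ψ p := by
    rw [Function.comp_apply, hs]
  have hτ : ContDiffAt ℝ 2 (ψ ∘ φ.symm) (φ p) :=
    ((ATL_trans hφ hψ).contDiffAt (hopen.mem_nhds hmem)).of_le
      ENat.LEInfty.out
  have hG : ContDiffAt ℝ 2 (F ∘ ψ.symm) ((ψ ∘ φ.symm) (φ p)) := by
    rw [hτx]
    exact ((hF.loc hψ).contDiffAt (ψ.open_target.mem_nhds (ψ.map_source h2))).of_le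
      ENat.LEInfty.out
  have hev : (F ∘ φ.symm) =ᶠ[𝓝 (φ p)] (F ∘ ψ.symm) ∘ (ψ ∘ φ.symm) := by
    filter_upwards [hopen.mem_nhds hmem] with y hy
    have : ψ.symm (ψ (φ.symm y)) = φ.symm y := ψ.left_inv hy.2
    simp only [Function.comp_apply, this]
  unfold GoodIn
  rw [MD2_gramV_congr hev, gramV_comp hG hτ, hτx]
  have hinv := trans_inv hφ hψ hx (by simpa [hs] using h2)
  have hJ : (fderiv ℝ (ψ ∘ φ.symm) (φ p) e1).1 * (fderiv ℝ (ψ ∘ φ.symm) (φ p) e2).2
      - (fderiv ℝ (ψ ∘ φ.symm) (φ p) e1).2 * (fderiv ℝ (ψ ∘ φ.symm) (φ p) e2).1 ≠ 0 := by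
    set A := fderiv ℝ (ψ ∘ φ.symm) (φ p) with hA
    intro h0
    -- the vector `A e2 .2 e1 - A e1 .2 e2` and its companion are in the kernel
    have hinj : ∀ w, A w = 0 → w = 0 := by
      intro w hw
      have h3 := congrArg (fun L : E2 →L[ℝ] E2 => L w) hinv
      simp only [ContinuousLinearMap.comp_apply, ContinuousLinearMap.id_apply] at h3
      rw [hw, map_zero] at h3
      exact h3.symm
    have hk1 : A ((A e2).2 • e1 - (A e1).2 • e2) = 0 := by
      rw [map_sub, map_smul, map_smul]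
      ext
      · simp only [Prod.fst_sub, Prod.smul_fst, smul_eq_mul, Prod.fst_zero]
        linarith
      · simp only [Prod.snd_sub, Prod.smul_snd, smul_eq_mul, Prod.snd_zero]
        ring
    have hk2 : A ((A e2).1 • e1 - (A e1).1 • e2) = 0 := by
      rw [map_sub, map_smul, map_smul]
      ext
      · simp only [Prod.fst_sub, Prod.smul_fst, smul_eq_mul, Prod.fst_zero]
        ring
      · simp only [Prod.snd_sub, Prod.smul_snd, smul_eq_mul, Prod.snd_zero]
        linarith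
    have g1 := hinj _ hk1
    have g2 := hinj _ hk2
    have g1a := congrArg Prod.snd g1
    have g2a := congrArg Prod.snd g2
    simp only [e1, e2, Prod.snd_sub, Prod.smul_snd, smul_eq_mul, Prod.snd_zero, mul_zero, mul_one,
      zero_sub, neg_eq_zero] at g1a g2a
    have h5 : A e1 = 0 := by
      ext
      · simpa [e1] using g2a
      · simpa [e1] using g1a
    have h6 := hinj _ h5
    simp [e1] at h6
  constructor
  · intro h
    exact (pos_iff_pos_of_mul_pos h).1 (by positivity)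
  · intro h
    positivity

/-- goodness of a tangent vector `v ∈ T_p M` in a chart -/
theorem goodIn_TT {F : M → V4} (hF : Sm F) {φ : OpenPartialHomeomorph M E2} (hφ : φ ∈ ATL M)
    {p : M} (h1 : p ∈ φ.source) (v : E2) :
    GoodIn (chartAt E2 p) F v (chartAt E2 p p) ↔ GoodIn φ F (TT φ p v) (φ p) :=
  goodIn_trans hF (chart_mem_ATL p) hφ (mem_chart_source E2 p) h1 v

/-- goodness is invariant under scaling of the direction -/
theorem goodIn_smul {F : M → V4} {φ : OpenPartialHomeomorph M E2} {v x : E2} {t : ℝ} (ht : t ≠ 0) :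
    GoodIn φ F (t • v) x ↔ GoodIn φ F v x := by
  unfold GoodIn
  rw [gramV_smul]
  have h4 : 0 < t ^ 4 := by positivity
  exact mul_pos_iff_of_pos_left h4

/-- a map with a good direction is an immersion -/
theorem posDef_metr_of_good {F : M → V4} (hF : Sm F) {φ : OpenPartialHomeomorph M E2}
    (hφ : φ ∈ ATL M) {p : M} (hp : p ∈ φ.source) {v : E2} (h : GoodIn φ F v (φ p)) :
    PosDef (metr F p) := by
  have hx : φ p ∈ φ.target := φ.map_source hp
  have hd : DifferentiableAt ℝ (F ∘ φ.symm) (φ p) :=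
    ((hF.loc hφ).contDiffAt (φ.open_target.mem_nhds hx)).differentiableAt (by simp)
  have hinj1 : ∀ w, fderiv ℝ (F ∘ φ.symm) (φ p) w = 0 → w = 0 := by
    intro w hw
    rw [MD2_app] at hw
    have h1 : w.1 • pd 0 (F ∘ φ.symm) (φ p) + w.2 • pd 1 (F ∘ φ.symm) (φ p)
        + (0 : ℝ) • ddv v (F ∘ φ.symm) (φ p) = 0 := by
      rw [zero_smul, add_zero]
      exact hw
    obtain ⟨h2, h3, -⟩ := MD2_dep h1 h
    exact Prod.ext h2 h3
  have hinj2 : ∀ w, dP F p w = 0 → w = 0 := by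
    intro w hw
    rw [dP_eq hφ hp hd, ContinuousLinearMap.comp_apply] at hw
    have h1 := hinj1 _ hw
    have h2 := congrArg (fun L : E2 →L[ℝ] E2 => L w) (TTi_comp_TT hφ hp)
    simp only [ContinuousLinearMap.comp_apply, ContinuousLinearMap.id_apply] at h2
    rw [h1, map_zero] at h2
    exact h2.symm
  have hm : ∀ v w, metr F p v w = inner ℝ (dP F p v) (dP F p w) := by
    intro v w
    unfold metr
    rw [ContinuousLinearMap.bilinearComp_apply]
    rfl
  constructor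
  · intro v w
    rw [hm, hm, real_inner_comm]
  · intro w hw
    rw [hm]
    exact real_inner_self_pos.2 fun h0 => hw (hinj2 w h0)

end P205F
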