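import Vale.Agent.Lib.P205F.MDefs

/-!
# P205F: basic lemmas on surfaces (chain rules, tensors in charts)
-/

set_option maxSynthPendingDepth 3

noncomputable section

namespace P205F

open scoped Manifold ContDiff Topology RealInnerProductSpace
open Set

variable {M : Type} [TopologicalSpace M] [ChartedSpace E2 M] [IsManifold 𝓘(ℝ, E2) ∞ M]
variable {V : Type*} [NormedAddCommGroup V] [NormedSpace ℝ V]

theorem chart_mem_ATL (p : M) : chartAt E2 p ∈ ATL M :=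
  IsManifold.chart_mem_maximalAtlas p

/-- transition maps are smooth -/
theorem ATL_trans {φ ψ : OpenPartialHomeomorph M E2} (hφ : φ ∈ ATL M) (hψ : ψ ∈ ATL M) :
    ContDiffOn ℝ ∞ (ψ ∘ φ.symm) (φ.target ∩ φ.symm ⁻¹' ψ.source) := by
  have h1 : ContMDiffOn 𝓘(ℝ, E2) 𝓘(ℝ, E2) ∞ ψ ψ.source :=
    contMDiffOn_of_mem_maximalAtlas hψ
  have h2 : ContMDiffOn 𝓘(ℝ, E2) 𝓘(ℝ, E2) ∞ φ.symm φ.target :=
    contMDiffOn_symm_of_mem_maximalAtlas hφ
  exact (contMDiffOn_iff_contDiffOn.mp (h1.comp (h2.mono inter_subset_left)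
    (fun x hx => hx.2)))

theorem Sm.loc {F : M → V} (hF : Sm F) {φ : OpenPartialHomeomorph M E2} (hφ : φ ∈ ATL M) :
    ContDiffOn ℝ ∞ (F ∘ φ.symm) φ.target := by
  have h2 : ContMDiffOn 𝓘(ℝ, E2) 𝓘(ℝ, E2) ∞ φ.symm φ.target :=
    contMDiffOn_symm_of_mem_maximalAtlas hφ
  have h1 : ContMDiff 𝓘(ℝ, E2) 𝓘(ℝ, V) ∞ F := hF
  exact contMDiffOn_iff_contDiffOn.mp (h1.comp_contMDiffOn h2)

theorem sm_of_loc {F : M → V} (h : ∀ p : M, ∃ φ ∈ ATL M, p ∈ φ.source ∧
    ContDiffAt ℝ ∞ (F ∘ φ.symm) (φ p)) : Sm F := by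
  intro p
  obtain ⟨φ, hφ, hp, hc⟩ := h p
  have h1 : ContMDiffAt 𝓘(ℝ, E2) 𝓘(ℝ, E2) ∞ φ p :=
    (contMDiffOn_of_mem_maximalAtlas hφ).contMDiffAt (φ.open_source.mem_nhds hp)
  have h2 : ContMDiffAt 𝓘(ℝ, E2) 𝓘(ℝ, V) ∞ ((F ∘ φ.symm) ∘ φ) p :=
    (contMDiffAt_iff_contDiffAt.mpr hc).comp p h1
  refine h2.congr_of_eventuallyEq ?_
  filter_upwards [φ.open_source.mem_nhds hp] with q hq
  simp [φ.left_inv hq]

private theorem nhd_tr {φ ψ : OpenPartialHomeomorph M E2} {x : E2}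
    (hx : x ∈ φ.target) (h2 : φ.symm x ∈ ψ.source) :
    φ.target ∩ φ.symm ⁻¹' ψ.source ∈ 𝓝 x := by
  have h := (φ.symm.trans ψ).open_source
  have he : (φ.symm.trans ψ).source = φ.target ∩ φ.symm ⁻¹' ψ.source := by
    rw [OpenPartialHomeomorph.trans_source, OpenPartialHomeomorph.symm_source]
  rw [he] at h
  exact h.mem_nhds ⟨hx, h2⟩

private theorem tr_cd {φ ψ : OpenPartialHomeomorph M E2} (hφ : φ ∈ ATL M) (hψ : ψ ∈ ATL M)
    {x : E2} (hx : x ∈ φ.target) (h2 : φ.symm x ∈ ψ.source) :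
    ContDiffAt ℝ ∞ (ψ ∘ φ.symm) x :=
  (ATL_trans hφ hψ).contDiffAt (nhd_tr hx h2)

private theorem tr_diff {φ ψ : OpenPartialHomeomorph M E2} (hφ : φ ∈ ATL M) (hψ : ψ ∈ ATL M)
    {x : E2} (hx : x ∈ φ.target) (h2 : φ.symm x ∈ ψ.source) :
    DifferentiableAt ℝ (ψ ∘ φ.symm) x :=
  (tr_cd hφ hψ hx h2).differentiableAt (by simp)

private theorem ev_tr (F : M → V) {φ ψ : OpenPartialHomeomorph M E2} {x : E2}
    (hx : x ∈ φ.target) (h2 : φ.symm x ∈ ψ.source) :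
    (F ∘ φ.symm) =ᶠ[𝓝 x] (F ∘ ψ.symm) ∘ (ψ ∘ φ.symm) := by
  filter_upwards [nhd_tr hx h2] with y hy
  simp only [Function.comp_apply]
  rw [ψ.left_inv hy.2]

private theorem cocyc {F : M → V} {φ ψ : OpenPartialHomeomorph M E2} (hφ : φ ∈ ATL M)
    (hψ : ψ ∈ ATL M) {x : E2} (hx : x ∈ φ.target) (h2 : φ.symm x ∈ ψ.source)
    (hF : DifferentiableAt ℝ (F ∘ ψ.symm) (ψ (φ.symm x))) :
    fderiv ℝ (F ∘ φ.symm) x =
      (fderiv ℝ (F ∘ ψ.symm) (ψ (φ.symm x))).comp (fderiv ℝ (ψ ∘ φ.symm) x) := by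
  rw [(ev_tr F hx h2).fderiv_eq]
  exact fderiv_comp x hF (tr_diff hφ hψ hx h2)

private theorem diff_tr {F : M → V} {φ ψ : OpenPartialHomeomorph M E2} (hφ : φ ∈ ATL M)
    (hψ : ψ ∈ ATL M) {x : E2} (hx : x ∈ φ.target) (h2 : φ.symm x ∈ ψ.source)
    (hF : DifferentiableAt ℝ (F ∘ ψ.symm) (ψ (φ.symm x))) :
    DifferentiableAt ℝ (F ∘ φ.symm) x :=
  (hF.comp x (tr_diff hφ hψ hx h2)).congr_of_eventuallyEq (ev_tr F hx h2)

private theorem fd_self {φ : OpenPartialHomeomorph M E2} {x : E2} (hx : x ∈ φ.target) :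
    fderiv ℝ (φ ∘ φ.symm) x = ContinuousLinearMap.id ℝ E2 := by
  have h : (φ ∘ φ.symm : E2 → E2) =ᶠ[𝓝 x] id := by
    filter_upwards [φ.open_target.mem_nhds hx] with y hy
    exact φ.right_inv hy
  rw [h.fderiv_eq, fderiv_id]

/-- `d(φ⁻¹) dφ = id` -/
theorem TTi_comp_TT {φ : OpenPartialHomeomorph M E2} (hφ : φ ∈ ATL M) {p : M}
    (hp : p ∈ φ.source) : (TTi φ (φ p)).comp (TT φ p) = ContinuousLinearMap.id ℝ E2 := by
  unfold TTi TT
  rw [φ.left_inv hp]
  have hp' : p ∈ (chartAt E2 p).source := mem_chart_source E2 p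
  have h1 : (chartAt E2 p) p ∈ (chartAt E2 p).target := (chartAt E2 p).map_source hp'
  have h2 : (chartAt E2 p).symm ((chartAt E2 p) p) = p := (chartAt E2 p).left_inv hp'
  have h3 := cocyc (F := chartAt E2 p) (chart_mem_ATL p) hφ h1 (by rw [h2]; exact hp)
    (tr_diff hφ (chart_mem_ATL p) (by rw [h2]; exact φ.map_source hp)
      (by rw [h2, φ.left_inv hp]; exact hp'))
  rw [h2, fd_self h1] at h3
  exact h3.symm

theorem TT_comp_TTi {φ : OpenPartialHomeomorph M E2} (hφ : φ ∈ ATL M) {x : E2}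
    (hx : x ∈ φ.target) : (TT φ (φ.symm x)).comp (TTi φ x) = ContinuousLinearMap.id ℝ E2 := by
  unfold TTi TT
  have hp' : φ.symm x ∈ (chartAt E2 (φ.symm x)).source := mem_chart_source E2 _
  have h2 : (chartAt E2 (φ.symm x)).symm ((chartAt E2 (φ.symm x)) (φ.symm x)) = φ.symm x :=
    (chartAt E2 (φ.symm x)).left_inv hp'
  have h3 := cocyc (F := φ) hφ (chart_mem_ATL (φ.symm x)) hx hp'
    (tr_diff (chart_mem_ATL _) hφ ((chartAt E2 (φ.symm x)).map_source hp')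
      (by rw [h2]; exact φ.map_target hx))
  rw [fd_self hx] at h3
  exact h3.symm

theorem TT_chartAt (p : M) : TT (chartAt E2 p) p = ContinuousLinearMap.id ℝ E2 :=
  fd_self ((chartAt E2 p).map_source (mem_chart_source E2 p))

theorem TTi_chartAt (p : M) :
    TTi (chartAt E2 p) (chartAt E2 p p) = ContinuousLinearMap.id ℝ E2 := by
  unfold TTi
  rw [(chartAt E2 p).left_inv (mem_chart_source E2 p)]
  exact fd_self ((chartAt E2 p).map_source (mem_chart_source E2 p))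

/-- chain rule; `F` only needs to be differentiable at the point -/
theorem dP_comp_TTi {F : M → V} {φ : OpenPartialHomeomorph M E2} (hφ : φ ∈ ATL M) {x : E2}
    (hx : x ∈ φ.target) (hF : DifferentiableAt ℝ (F ∘ φ.symm) x) :
    (dP F (φ.symm x)).comp (TTi φ x) = fderiv ℝ (F ∘ φ.symm) x := by
  unfold dP TTi
  have hp' : φ.symm x ∈ (chartAt E2 (φ.symm x)).source := mem_chart_source E2 _
  have h2 : (chartAt E2 (φ.symm x)).symm ((chartAt E2 (φ.symm x)) (φ.symm x)) = φ.symm x :=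
    (chartAt E2 (φ.symm x)).left_inv hp'
  refine (cocyc hφ (chart_mem_ATL (φ.symm x)) hx hp' ?_).symm
  refine diff_tr (chart_mem_ATL _) hφ ((chartAt E2 (φ.symm x)).map_source hp') ?_ ?_
  · rw [h2]; exact φ.map_target hx
  · rw [h2, φ.right_inv hx]; exact hF

theorem dP_eq {F : M → V} {φ : OpenPartialHomeomorph M E2} (hφ : φ ∈ ATL M) {p : M}
    (hp : p ∈ φ.source) (hF : DifferentiableAt ℝ (F ∘ φ.symm) (φ p)) :
    dP F p = (fderiv ℝ (F ∘ φ.symm) (φ p)).comp (TT φ p) := by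
  unfold dP TT
  have hp' : p ∈ (chartAt E2 p).source := mem_chart_source E2 p
  have h1 : (chartAt E2 p) p ∈ (chartAt E2 p).target := (chartAt E2 p).map_source hp'
  have h2 : (chartAt E2 p).symm ((chartAt E2 p) p) = p := (chartAt E2 p).left_inv hp'
  have h3 := cocyc (F := F) (chart_mem_ATL p) hφ h1 (by rw [h2]; exact hp)
    (by rw [h2]; exact hF)
  rw [h2] at h3
  exact h3

/-- differential of a transition map -/
theorem TT_trans {φ ψ : OpenPartialHomeomorph M E2} (hφ : φ ∈ ATL M) (hψ : ψ ∈ ATL M) {p : M}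
    (h1 : p ∈ φ.source) (h2 : p ∈ ψ.source) :
    TT ψ p = (fderiv ℝ (ψ ∘ φ.symm) (φ p)).comp (TT φ p) :=
  dP_eq (F := ψ) hφ h1 (tr_diff hφ hψ (φ.map_source h1) (by rw [φ.left_inv h1]; exact h2))

theorem TTi_trans {φ ψ : OpenPartialHomeomorph M E2} (hφ : φ ∈ ATL M) (hψ : ψ ∈ ATL M) {x : E2}
    (hx : x ∈ φ.target) (h2 : φ.symm x ∈ ψ.source) :
    TTi φ x = (TTi ψ (ψ (φ.symm x))).comp (fderiv ℝ (ψ ∘ φ.symm) x) := by
  unfold TTi
  rw [ψ.left_inv h2]
  have hp' : φ.symm x ∈ (chartAt E2 (φ.symm x)).source := mem_chart_source E2 _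
  exact cocyc hφ hψ hx h2 (tr_diff hψ (chart_mem_ATL _) (ψ.map_source h2)
    (by rw [ψ.left_inv h2]; exact hp'))

/-- transition maps have invertible differential -/
theorem trans_inv {φ ψ : OpenPartialHomeomorph M E2} (hφ : φ ∈ ATL M) (hψ : ψ ∈ ATL M) {x : E2}
    (hx : x ∈ φ.target) (h2 : φ.symm x ∈ ψ.source) :
    (fderiv ℝ (φ ∘ ψ.symm) (ψ (φ.symm x))).comp (fderiv ℝ (ψ ∘ φ.symm) x) =
      ContinuousLinearMap.id ℝ E2 := by
  rw [← cocyc (F := φ) hφ hψ hx h2 (tr_diff hψ hφ (ψ.map_source h2)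
    (by rw [ψ.left_inv h2]; exact φ.map_target hx)), fd_self hx]

/-- change of chart for tensors -/
theorem locT_trans (H : M → Bil) {φ ψ : OpenPartialHomeomorph M E2} (hφ : φ ∈ ATL M)
    (hψ : ψ ∈ ATL M) {x : E2} (hx : x ∈ φ.target) (h2 : φ.symm x ∈ ψ.source) :
    locT φ H x = (locT ψ H (ψ (φ.symm x))).bilinearComp (fderiv ℝ (ψ ∘ φ.symm) x)
      (fderiv ℝ (ψ ∘ φ.symm) x) := by
  unfold locT
  rw [TTi_trans hφ hψ hx h2, ψ.left_inv h2]
  refine ContinuousLinearMap.ext fun v => ContinuousLinearMap.ext fun w => ?_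
  simp only [ContinuousLinearMap.bilinearComp_apply, ContinuousLinearMap.comp_apply]

/-- the tensor is recovered from its local expression -/
theorem tens_eq (H : M → Bil) {φ : OpenPartialHomeomorph M E2} (hφ : φ ∈ ATL M) {p : M}
    (hp : p ∈ φ.source) : H p = (locT φ H (φ p)).bilinearComp (TT φ p) (TT φ p) := by
  unfold locT
  rw [φ.left_inv hp]
  have h := TTi_comp_TT hφ hp
  refine ContinuousLinearMap.ext fun v => ContinuousLinearMap.ext fun w => ?_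
  have h1 : ∀ v, TTi φ (φ p) (TT φ p v) = v := fun v => by
    rw [← ContinuousLinearMap.comp_apply, h]; rfl
  simp only [ContinuousLinearMap.bilinearComp_apply, h1]

theorem tens_ext {H H' : M → Bil} {φ : OpenPartialHomeomorph M E2} (hφ : φ ∈ ATL M) {p : M}
    (hp : p ∈ φ.source) (h : locT φ H (φ p) = locT φ H' (φ p)) : H p = H' p := by
  rw [tens_eq H hφ hp, tens_eq H' hφ hp, h]

private theorem cd_flip {X Y Z : Type*} [NormedAddCommGroup X] [NormedSpace ℝ X]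
    [NormedAddCommGroup Y] [NormedSpace ℝ Y] [NormedAddCommGroup Z] [NormedSpace ℝ Z]
    {G : X → Y →L[ℝ] Z →L[ℝ] ℝ} {x : X} (hG : ContDiffAt ℝ ∞ G x) :
    ContDiffAt ℝ ∞ (fun y => (G y).flip) x :=
  (LinearIsometryEquiv.contDiff (ContinuousLinearMap.flipₗᵢ ℝ Y Z ℝ)).comp_contDiffAt x hG

/-- `bilinearComp` depends smoothly on everything -/
private theorem cd_bc {X W : Type*} [NormedAddCommGroup X] [NormedSpace ℝ X]
    [NormedAddCommGroup W] [NormedSpace ℝ W] {B : X → W →L[ℝ] W →L[ℝ] ℝ}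
    {L : X → E2 →L[ℝ] W} {x : X} (hB : ContDiffAt ℝ ∞ B x) (hL : ContDiffAt ℝ ∞ L x) :
    ContDiffAt ℝ ∞ (fun y => (B y).bilinearComp (L y) (L y)) x :=
  cd_flip ((cd_flip (hB.clm_comp hL)).clm_comp hL)

/-- it is enough to check smoothness of a tensor in one chart around every point -/
theorem smT_of_loc {H : M → Bil} (h : ∀ p : M, ∃ φ ∈ ATL M, p ∈ φ.source ∧
    ContDiffAt ℝ ∞ (locT φ H) (φ p)) : SmT H := by
  intro ψ hψ x hx
  obtain ⟨φ, hφ, hp, hc⟩ := h (ψ.symm x)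
  have h1 : ContDiffAt ℝ ∞ (fun y => (locT φ H (φ (ψ.symm y))).bilinearComp
      (fderiv ℝ (φ ∘ ψ.symm) y) (fderiv ℝ (φ ∘ ψ.symm) y)) x := by
    have ht := tr_cd hψ hφ hx hp
    refine cd_bc ?_ ?_
    · exact ContDiffAt.comp x (f := φ ∘ ψ.symm) hc ht
    · exact ht.fderiv_right (m := ∞) (by simp)
  refine (h1.congr_of_eventuallyEq ?_).contDiffWithinAt
  filter_upwards [nhd_tr hx hp] with y hy
  exact locT_trans H hψ hφ hy.1 hy.2

theorem locT_metr {F : M → V4} (hF : Sm F) {φ : OpenPartialHomeomorph M E2} (hφ : φ ∈ ATL M)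
    {x : E2} (hx : x ∈ φ.target) : locT φ (metr F) x = metrU (F ∘ φ.symm) x := by
  have hd : DifferentiableAt ℝ (F ∘ φ.symm) x :=
    ((hF.loc hφ).contDiffAt (φ.open_target.mem_nhds hx)).differentiableAt (by simp)
  have h := dP_comp_TTi hφ hx hd
  unfold locT metr metrU
  rw [← h]
  refine ContinuousLinearMap.ext fun v => ContinuousLinearMap.ext fun w => ?_
  simp only [ContinuousLinearMap.bilinearComp_apply, ContinuousLinearMap.comp_apply]

private theorem sqC_comp (α : E2 →L[ℝ] ℝ) (T : E2 →L[ℝ] E2) :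
    (sqC α).bilinearComp T T = sqC (α.comp T) := by
  refine ContinuousLinearMap.ext fun v => ContinuousLinearMap.ext fun w => ?_
  simp only [sqC, ContinuousLinearMap.bilinearComp_apply, ContinuousLinearMap.comp_apply,
    ContinuousLinearMap.smulRight_apply, ContinuousLinearMap.smul_apply]

theorem locT_sqT {u : M → ℝ} (hu : Sm u) {φ : OpenPartialHomeomorph M E2} (hφ : φ ∈ ATL M)
    {x : E2} (hx : x ∈ φ.target) : locT φ (sqT u) x = sqC (fderiv ℝ (u ∘ φ.symm) x) := by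
  have hd : DifferentiableAt ℝ (u ∘ φ.symm) x :=
    ((hu.loc hφ).contDiffAt (φ.open_target.mem_nhds hx)).differentiableAt (by simp)
  rw [← dP_comp_TTi hφ hx hd]
  exact sqC_comp _ _

theorem locT_sq1 {φ ψ : OpenPartialHomeomorph M E2} (hφ : φ ∈ ATL M) (hψ : ψ ∈ ATL M)
    {x : E2} (hx : x ∈ φ.target) (h2 : φ.symm x ∈ ψ.source) :
    locT φ (sq1 ψ) x = sqC ((ContinuousLinearMap.fst ℝ ℝ ℝ).comp (fderiv ℝ (ψ ∘ φ.symm) x)) := by
  rw [← dP_comp_TTi (F := ψ) hφ hx (tr_diff hφ hψ hx h2)]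
  exact sqC_comp _ _

theorem locT_sq1_self {φ : OpenPartialHomeomorph M E2} (hφ : φ ∈ ATL M)
    {x : E2} (hx : x ∈ φ.target) : locT φ (sq1 φ) x = sqC (ContinuousLinearMap.fst ℝ ℝ ℝ) := by
  rw [locT_sq1 hφ hφ hx (φ.map_target hx), fd_self hx]
  rfl

theorem smT_metr {F : M → V4} (hF : Sm F) : SmT (metr F) := by
  intro φ hφ x hx
  have hn := φ.open_target.mem_nhds hx
  have hc : ContDiffAt ℝ ∞ (F ∘ φ.symm) x := (hF.loc hφ).contDiffAt hn
  have h1 : ContDiffAt ℝ ∞ (fun y => ((innerSL ℝ : V4 →L[ℝ] V4 →L[ℝ] ℝ)).bilinearComp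
      (fderiv ℝ (F ∘ φ.symm) y) (fderiv ℝ (F ∘ φ.symm) y)) x :=
    cd_bc contDiffAt_const (hc.fderiv_right (m := ∞) (by simp))
  refine (h1.congr_of_eventuallyEq ?_).contDiffWithinAt
  filter_upwards [hn] with y hy
  exact locT_metr hF hφ hy

theorem smT_sqT {u : M → ℝ} (hu : Sm u) : SmT (sqT u) := by
  intro φ hφ x hx
  have hn := φ.open_target.mem_nhds hx
  have hc : ContDiffAt ℝ ∞ (u ∘ φ.symm) x := (hu.loc hφ).contDiffAt hn
  have hc' : ContDiffAt ℝ ∞ (fderiv ℝ (u ∘ φ.symm)) x := hc.fderiv_right (m := ∞) (by simp)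
  have h1 : ContDiffAt ℝ ∞ (fun y => sqC (fderiv ℝ (u ∘ φ.symm) y)) x :=
    ContDiffAt.smulRight hc' hc'
  refine (h1.congr_of_eventuallyEq ?_).contDiffWithinAt
  filter_upwards [hn] with y hy
  exact locT_sqT hu hφ hy

theorem SmT.add {H H' : M → Bil} (h : SmT H) (h' : SmT H') : SmT (fun p => H p + H' p) := by
  intro φ hφ
  refine ((h φ hφ).add (h' φ hφ)).congr fun x _ => ?_
  refine ContinuousLinearMap.ext fun v => ContinuousLinearMap.ext fun w => ?_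
  simp only [locT, ContinuousLinearMap.bilinearComp_apply, ContinuousLinearMap.add_apply]

theorem SmT.sub {H H' : M → Bil} (h : SmT H) (h' : SmT H') : SmT (fun p => H p - H' p) := by
  intro φ hφ
  refine ((h φ hφ).sub (h' φ hφ)).congr fun x _ => ?_
  refine ContinuousLinearMap.ext fun v => ContinuousLinearMap.ext fun w => ?_
  simp only [locT, ContinuousLinearMap.bilinearComp_apply, ContinuousLinearMap.sub_apply]

theorem SmT.smul {u : M → ℝ} (hu : Sm u) {H : M → Bil} (h : SmT H) :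
    SmT (fun p => u p • H p) := by
  intro φ hφ
  refine (ContDiffOn.smul (hu.loc hφ) (h φ hφ)).congr fun x _ => ?_
  refine ContinuousLinearMap.ext fun v => ContinuousLinearMap.ext fun w => ?_
  rfl

theorem posDef_locT {H : M → Bil} {φ : OpenPartialHomeomorph M E2} (hφ : φ ∈ ATL M) {x : E2}
    (hx : x ∈ φ.target) : PosDef (locT φ H x) ↔ PosDef (H (φ.symm x)) := by
  have h1 : ∀ v, TT φ (φ.symm x) (TTi φ x v) = v := fun v => by
    rw [← ContinuousLinearMap.comp_apply, TT_comp_TTi hφ hx]; rfl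
  have h2 : ∀ v, TTi φ x (TT φ (φ.symm x) v) = v := fun v => by
    have h := TTi_comp_TT hφ (φ.map_target hx)
    rw [φ.right_inv hx] at h
    rw [← ContinuousLinearMap.comp_apply, h]; rfl
  have e : ∀ v w, locT φ H x v w = H (φ.symm x) (TTi φ x v) (TTi φ x w) := fun v w => rfl
  constructor
  · rintro ⟨hs, hp⟩
    refine ⟨fun v w => ?_, fun v hv => ?_⟩
    · have := hs (TT φ (φ.symm x) v) (TT φ (φ.symm x) w)
      rwa [e, e, h2, h2] at this
    · have := hp (TT φ (φ.symm x) v) (fun h => hv (by rw [← h2 v, h, map_zero]))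
      rwa [e, h2] at this
  · rintro ⟨hs, hp⟩
    refine ⟨fun v w => ?_, fun v hv => ?_⟩
    · rw [e, e]; exact hs _ _
    · rw [e]
      exact hp _ (fun h => hv (by rw [← h1 v, h, map_zero]))

end P205F
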