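import Vale.Agent.Lib.P205F.MD2

/-!
# P205F: finite atlases, comparison of norms, stability of good directions
-/

noncomputable section

namespace P205F

open scoped Manifold ContDiff Topology RealInnerProductSpace
open Set

section MD3_planar

theorem MD3_ddv {G : E2 → V4} {x : E2} (hG : ContDiffAt ℝ 2 G x) (v : E2) :
    ddv v G x = fderiv ℝ (fderiv ℝ G) x v v := by
  have h1 : ContDiffAt ℝ 1 (fderiv ℝ G) x := hG.fderiv_right (by norm_num)
  have h2 : HasFDerivAt (fderiv ℝ G) (fderiv ℝ (fderiv ℝ G) x) x :=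
    (h1.differentiableAt (by norm_num)).hasFDerivAt
  have h3 := (h2.clm_apply (hasFDerivAt_const v x)).fderiv
  unfold ddv
  rw [h3]
  simp

theorem MD3_ddv_norm {G : E2 → V4} {x : E2} (hG : ContDiffAt ℝ 2 G x) (v : E2) (hv : ‖v‖ = 1) :
    ‖ddv v G x‖ ≤ ‖iteratedFDeriv ℝ 2 G x‖ := by
  rw [MD3_ddv hG]
  have h1 : fderiv ℝ (fderiv ℝ G) x v v = iteratedFDeriv ℝ 2 G x ![v, v] := by
    rw [iteratedFDeriv_two_apply]
    rfl
  rw [h1]
  refine (ContinuousMultilinearMap.le_opNorm _ _).trans ?_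
  simp [hv]

theorem MD3_bv (i : Fin 2) : ‖bv i‖ = 1 := by
  fin_cases i <;> simp [bv, Prod.norm_def]

theorem MD3_pd_norm (G : E2 → V4) (x : E2) (i : Fin 2) :
    ‖pd i G x‖ ≤ ‖iteratedFDeriv ℝ 1 G x‖ := by
  unfold pd
  refine (ContinuousLinearMap.le_opNorm _ _).trans ?_
  rw [MD3_bv, mul_one, norm_iteratedFDeriv_one]

theorem MD3_pd_sub {G G' : E2 → V4} {x : E2} (hG : ContDiffAt ℝ 2 G x) (hG' : ContDiffAt ℝ 2 G' x)
    (i : Fin 2) : pd i (G' - G) x = pd i G' x - pd i G x := by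
  unfold pd
  rw [fderiv_sub (hG'.differentiableAt (by norm_num)) (hG.differentiableAt (by norm_num))]
  rfl

theorem MD3_ddv_sub {G G' : E2 → V4} {x : E2} (hG : ContDiffAt ℝ 2 G x)
    (hG' : ContDiffAt ℝ 2 G' x) (v : E2) : ddv v (G' - G) x = ddv v G' x - ddv v G x := by
  rw [MD3_ddv hG, MD3_ddv hG', MD3_ddv (G := G' - G) (hG'.sub hG)]
  have e1 : iteratedFDeriv ℝ 2 (G' - G) x = iteratedFDeriv ℝ 2 G' x - iteratedFDeriv ℝ 2 G x :=
    iteratedFDeriv_sub_apply hG' hG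
  have h : ∀ (H : E2 → V4), fderiv ℝ (fderiv ℝ H) x v v = iteratedFDeriv ℝ 2 H x ![v, v] := by
    intro H
    rw [iteratedFDeriv_two_apply]
    rfl
  rw [h, h, h, e1]
  rfl

theorem MD3_gram3_cont {X : Type*} [TopologicalSpace X] {s : Set X} {a b c : X → V4}
    (ha : ContinuousOn a s) (hb : ContinuousOn b s) (hc : ContinuousOn c s) :
    ContinuousOn (fun x => gram3 (a x) (b x) (c x)) s := by
  unfold gram3
  have haa := ha.inner ha (𝕜 := ℝ)
  have hbb := hb.inner hb (𝕜 := ℝ)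
  have hcc := hc.inner hc (𝕜 := ℝ)
  have hab := ha.inner hb (𝕜 := ℝ)
  have hbc := hb.inner hc (𝕜 := ℝ)
  have hac := ha.inner hc (𝕜 := ℝ)
  exact ((haa.mul ((hbb.mul hcc).sub (hbc.pow 2))).sub (hab.mul ((hab.mul hcc).sub (hbc.mul hac)))).add
    (hac.mul ((hab.mul hbc).sub (hbb.mul hac)))

theorem MD3_deriv_cont {G : E2 → V4} {O : Set E2} (hO : IsOpen O) (hG : ContDiffOn ℝ ∞ G O) :
    ContinuousOn (fderiv ℝ G) O ∧ ContinuousOn (fderiv ℝ (fderiv ℝ G)) O := by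
  have h1 : ContDiffOn ℝ ∞ (fderiv ℝ G) O := hG.fderiv_of_isOpen hO (by simp)
  have h2 : ContDiffOn ℝ ∞ (fderiv ℝ (fderiv ℝ G)) O := h1.fderiv_of_isOpen hO (by simp)
  exact ⟨h1.continuousOn, h2.continuousOn⟩

theorem MD3_at {G : E2 → V4} {O : Set E2} (hO : IsOpen O) (hG : ContDiffOn ℝ ∞ G O) {x : E2}
    (hx : x ∈ O) : ContDiffAt ℝ 2 G x :=
  ((hG.contDiffAt (hO.mem_nhds hx)).of_le (WithTop.coe_le_coe.2 le_top))

theorem MD3_pd_cont {G : E2 → V4} {O : Set E2} (hO : IsOpen O) (hG : ContDiffOn ℝ ∞ G O)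
    (i : Fin 2) : ContinuousOn (fun q : E2 × E2 => pd i G q.1) (O ×ˢ univ) := by
  have h1 := (MD3_deriv_cont hO hG).1
  have h2 : ContinuousOn (fun q : E2 × E2 => fderiv ℝ G q.1) (O ×ˢ univ) :=
    h1.comp continuousOn_fst (fun q hq => hq.1)
  exact h2.clm_apply continuousOn_const

theorem MD3_ddv_cont {G : E2 → V4} {O : Set E2} (hO : IsOpen O) (hG : ContDiffOn ℝ ∞ G O) :
    ContinuousOn (fun q : E2 × E2 => ddv q.2 G q.1) (O ×ˢ univ) := by
  have h1 := (MD3_deriv_cont hO hG).2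
  have h2 : ContinuousOn (fun q : E2 × E2 => fderiv ℝ (fderiv ℝ G) q.1) (O ×ˢ univ) :=
    h1.comp continuousOn_fst (fun q hq => hq.1)
  have h3 : ContinuousOn (fun q : E2 × E2 => fderiv ℝ (fderiv ℝ G) q.1 q.2 q.2) (O ×ˢ univ) :=
    (h2.clm_apply continuousOn_snd).clm_apply continuousOn_snd
  refine h3.congr fun q hq => ?_
  exact MD3_ddv (MD3_at hO hG hq.1) q.2

theorem MD3_gramV_cont {G : E2 → V4} {O : Set E2} (hO : IsOpen O) (hG : ContDiffOn ℝ ∞ G O) :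
    ContinuousOn (fun q : E2 × E2 => gramV G q.2 q.1) (O ×ˢ univ) := by
  unfold gramV
  exact MD3_gram3_cont (MD3_pd_cont hO hG 0) (MD3_pd_cont hO hG 1) (MD3_ddv_cont hO hG)

theorem MD3_fin_pos {n : ℕ} (c : Fin n → ℝ) (hc : ∀ k, 0 < c k) : ∃ c0 : ℝ, 0 < c0 ∧ ∀ k, c0 ≤ c k := by
  rcases isEmpty_or_nonempty (Fin n) with h | h
  · exact ⟨1, one_pos, fun k => (h.false k).elim⟩
  · obtain ⟨k0, hk0⟩ := Finite.exists_min c
    exact ⟨c k0, hc k0, hk0⟩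

/-- bounds for the derivatives of `G` on a compact set, uniform in unit directions -/
theorem MD3_bound {G : E2 → V4} {O K : Set E2} (hO : IsOpen O) (hG : ContDiffOn ℝ ∞ G O)
    (hK : IsCompact K) (hKO : K ⊆ O) : ∃ R : ℝ, 1 ≤ R ∧ ∀ x ∈ K, ∀ v : E2, ‖v‖ = 1 →
      ‖pd 0 G x‖ ≤ R ∧ ‖pd 1 G x‖ ≤ R ∧ ‖ddv v G x‖ ≤ R := by
  have hT : IsCompact (K ×ˢ Metric.sphere (0 : E2) 1) := hK.prod (isCompact_sphere 0 1)
  have hsub : K ×ˢ Metric.sphere (0 : E2) 1 ⊆ O ×ˢ (univ : Set E2) :=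
    prod_mono hKO (subset_univ _)
  obtain ⟨R0, h0⟩ := hT.exists_bound_of_continuousOn ((MD3_pd_cont hO hG 0).mono hsub)
  obtain ⟨R1, h1⟩ := hT.exists_bound_of_continuousOn ((MD3_pd_cont hO hG 1).mono hsub)
  obtain ⟨R2, h2⟩ := hT.exists_bound_of_continuousOn ((MD3_ddv_cont hO hG).mono hsub)
  refine ⟨max 1 (max R0 (max R1 R2)), le_max_left _ _, fun x hx v hv => ?_⟩
  have hm : ((x, v) : E2 × E2) ∈ K ×ˢ Metric.sphere (0 : E2) 1 := ⟨hx, by simpa using hv⟩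
  refine ⟨(h0 _ hm).trans ?_, (h1 _ hm).trans ?_, (h2 _ hm).trans ?_⟩
  · exact (le_max_left _ _).trans (le_max_right _ _)
  · exact (le_max_left _ _).trans ((le_max_right _ _).trans (le_max_right _ _))
  · exact (le_max_right _ _).trans ((le_max_right _ _).trans (le_max_right _ _))

end MD3_planar

variable {M : Type} [TopologicalSpace M] [ChartedSpace E2 M] [IsManifold 𝓘(ℝ, E2) ∞ M]

/-- a chart with `φ p = 0` whose target contains `closedBall 0 4` and whose source lies in a given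
neighbourhood of `p`: scale a restriction of `chartAt p` -/
theorem exists_chart_in (p : M) {W : Set M} (hW : W ∈ 𝓝 p) :
    ∃ φ ∈ ATL M, p ∈ φ.source ∧ φ p = 0 ∧ Metric.closedBall (0 : E2) 4 ⊆ φ.target ∧
      φ.source ⊆ W := by
  obtain ⟨O, hOW, hO, hpO⟩ := mem_nhds_iff.1 hW
  set χ : OpenPartialHomeomorph M E2 := (chartAt E2 p).restr O with hχ
  have hχA : χ ∈ ATL M :=
    restr_mem_maximalAtlas (contDiffGroupoid ∞ 𝓘(ℝ, E2)) (chart_mem_ATL p) hO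
  have hsrc : χ.source = (chartAt E2 p).source ∩ O := by
    rw [hχ, OpenPartialHomeomorph.restr_source, hO.interior_eq]
  have hpχ : p ∈ χ.source := by
    rw [hsrc]
    exact ⟨mem_chart_source E2 p, hpO⟩
  obtain ⟨ε, hε, hball⟩ := Metric.isOpen_iff.1 χ.open_target (χ p) (χ.map_source hpχ)
  have hc : (8 / ε : ℝ) ≠ 0 := by positivity
  set A : E2 ≃ₜ E2 := (Homeomorph.addRight (-(χ p))).trans (Homeomorph.smulOfNeZero (8 / ε : ℝ) hc)
    with hA
  have hAapp : ∀ y, A y = (8 / ε : ℝ) • (y + -(χ p)) := fun y => rfl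
  have hAsymm : ∀ z, A.symm z = (8 / ε : ℝ)⁻¹ • z + χ p := by
    intro z
    rw [Homeomorph.symm_apply_eq]
    rw [hAapp, add_neg_cancel_right, smul_smul, mul_inv_cancel₀ hc, one_smul]
  have hAs : ContDiff ℝ ∞ (A : E2 → E2) := by
    have : (A : E2 → E2) = fun y => (8 / ε : ℝ) • (y + -(χ p)) := funext hAapp
    rw [this]
    fun_prop
  have hAs' : ContDiff ℝ ∞ (A.symm : E2 → E2) := by
    have : (A.symm : E2 → E2) = fun z => (8 / ε : ℝ)⁻¹ • z + χ p := funext hAsymm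
    rw [this]
    fun_prop
  refine ⟨χ.transHomeomorph A, ?_, ?_, ?_, ?_, ?_⟩
  · refine OpenPartialHomeomorph.mem_maximalAtlas_of_contMDiffOn _ ?_ ?_
    · have h1 := contMDiffOn_of_mem_maximalAtlas hχA
      exact (hAs.contMDiff.contMDiffOn (s := univ)).comp h1 (fun _ _ => mem_univ _)
    · have h1 := contMDiffOn_symm_of_mem_maximalAtlas hχA
      exact h1.comp (hAs'.contMDiff.contMDiffOn (s := A.symm ⁻¹' χ.target)) (fun z hz => hz)
  · exact hpχ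
  · change A (χ p) = 0
    rw [hAapp, add_neg_cancel, smul_zero]
  · intro z hz
    change A.symm z ∈ χ.target
    apply hball
    rw [hAsymm, Metric.mem_ball, dist_eq_norm, add_sub_cancel_right, norm_smul, norm_inv,
      Real.norm_of_nonneg (by positivity : (0 : ℝ) ≤ 8 / ε)]
    rw [mem_closedBall_zero_iff] at hz
    have h8 : (8 / ε : ℝ)⁻¹ = ε / 8 := by rw [inv_div]
    rw [h8]
    have : ε / 8 * ‖z‖ ≤ ε / 8 * 4 := mul_le_mul_of_nonneg_left hz (by positivity)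
    linarith
  · intro y hy
    have hy' : y ∈ χ.source := hy
    rw [hsrc] at hy'
    exact hOW hy'.2

theorem exists_finAtlas [CompactSpace M] : Nonempty (FinAtlas M) := by
  choose φ hφ hp h0 ht hs using fun p : M => exists_chart_in p (Filter.univ_mem : univ ∈ 𝓝 p)
  let U : M → Set M := fun p => (φ p).source ∩ (φ p) ⁻¹' Metric.ball (0 : E2) 1
  have hU : ∀ p, U p ∈ 𝓝 p := by
    intro p
    refine ((φ p).isOpen_inter_preimage Metric.isOpen_ball).mem_nhds ⟨hp p, ?_⟩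
    change φ p p ∈ Metric.ball (0 : E2) 1
    rw [h0]
    exact Metric.mem_ball_self one_pos
  obtain ⟨t, ht'⟩ := CompactSpace.elim_nhds_subcover U hU
  refine ⟨{ n := t.card
            φ := fun k => φ (t.equivFin.symm k).1
            mem := fun k => hφ _
            target := fun k => ht _
            cover := ?_ }⟩
  intro p
  have hp' : p ∈ ⋃ x ∈ t, U x := by
    rw [ht']
    trivial
  simp only [mem_iUnion] at hp'
  obtain ⟨x, hx, hpx⟩ := hp'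
  refine ⟨t.equivFin ⟨x, hx⟩, ?_⟩
  rw [Equiv.symm_apply_apply]
  exact ⟨hpx.1, hpx.2⟩

/-- local comparison of derivatives -/
theorem MD3_local (𝒜 : FinAtlas M) {φ : OpenPartialHomeomorph M E2} (hφ : φ ∈ ATL M) (r : ℕ)
    {x0 : E2} (hx0 : x0 ∈ φ.target) :
    ∃ N ∈ 𝓝 x0, ∃ C : ℝ, 0 < C ∧ ∀ (u : M → V4) (η : ℝ), Sm u → 0 ≤ η → ∀ x ∈ N,
      ClAt 𝒜 r u η (φ.symm x) → ∀ j ≤ r, ‖iteratedFDeriv ℝ j (u ∘ φ.symm) x‖ ≤ C * η := by
  obtain ⟨k, hk1, hk2⟩ := 𝒜.cover (φ.symm x0)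
  set ψ := 𝒜.φ k with hψ
  have hψA : ψ ∈ ATL M := 𝒜.mem k
  set τ : E2 → E2 := ψ ∘ φ.symm with hτ
  -- the open set where everything is defined
  have hT0 : IsOpen (φ.target ∩ φ.symm ⁻¹' ψ.source) := φ.isOpen_inter_preimage_symm ψ.open_source
  have hτs : ContDiffOn ℝ ∞ τ (φ.target ∩ φ.symm ⁻¹' ψ.source) := ATL_trans hφ hψA
  set T : Set E2 := (φ.target ∩ φ.symm ⁻¹' ψ.source) ∩ τ ⁻¹' Metric.ball (0 : E2) 1 with hT
  have hTo : IsOpen T := hτs.continuousOn.isOpen_inter_preimage hT0 Metric.isOpen_ball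
  have hx0T : x0 ∈ T := ⟨⟨hx0, hk1⟩, hk2⟩
  have hτT : ContDiffOn ℝ ∞ τ T := hτs.mono inter_subset_left
  obtain ⟨ρ, hρ, hρT⟩ := Metric.nhds_basis_closedBall.mem_iff.1 (hTo.mem_nhds hx0T)
  -- bounds for the derivatives of the transition map
  have hb : ∀ i : ℕ, ∃ D : ℝ, ∀ x ∈ Metric.closedBall x0 ρ, ‖iteratedFDerivWithin ℝ i τ T x‖ ≤ D := by
    intro i
    have h1 : ContinuousOn (iteratedFDerivWithin ℝ i τ T) T :=
      hτT.continuousOn_iteratedFDerivWithin (by exact_mod_cast le_top) hTo.uniqueDiffOn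
    exact (isCompact_closedBall x0 ρ).exists_bound_of_continuousOn (h1.mono hρT)
  choose D hD using hb
  set D1 : ℝ := 1 + ∑ i ∈ Finset.range (r + 1), |D i| with hD1
  have hD1' : 1 ≤ D1 := by
    rw [hD1]
    have : 0 ≤ ∑ i ∈ Finset.range (r + 1), |D i| := Finset.sum_nonneg fun i _ => abs_nonneg _
    linarith
  have hDle : ∀ i ≤ r, D i ≤ D1 := by
    intro i hi
    have h1 : |D i| ≤ ∑ i ∈ Finset.range (r + 1), |D i| :=
      Finset.single_le_sum (f := fun i => |D i|) (fun i _ => abs_nonneg _)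
        (Finset.mem_range.2 (by omega))
    have := le_abs_self (D i)
    linarith
  refine ⟨Metric.closedBall x0 ρ, Metric.closedBall_mem_nhds x0 hρ,
    (r.factorial : ℝ) * D1 ^ r, by positivity, ?_⟩
  intro u η hu hη x hx hcl j hj
  have hxT : x ∈ T := hρT hx
  have hxφ : x ∈ φ.target := hxT.1.1
  have hcl' := hcl k hxT.1.2 (by
    have h1 : τ x ∈ Metric.ball (0 : E2) 1 := hxT.2
    exact Metric.ball_subset_closedBall (Metric.ball_subset_ball (by norm_num) h1))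
  -- the composition
  set g : E2 → V4 := u ∘ ψ.symm with hg
  have hgs : ContDiffOn ℝ ∞ g ψ.target := hu.loc hψA
  have hmaps : MapsTo τ T ψ.target := fun y hy => ψ.map_source hy.1.2
  have heq : EqOn (u ∘ φ.symm) (g ∘ τ) T := by
    intro y hy
    change u (φ.symm y) = u (ψ.symm (ψ (φ.symm y)))
    rw [ψ.left_inv hy.1.2]
  have h1 : iteratedFDeriv ℝ j (u ∘ φ.symm) x = iteratedFDerivWithin ℝ j (g ∘ τ) T x := by
    rw [← iteratedFDerivWithin_of_isOpen j hTo hxT]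
    exact iteratedFDerivWithin_congr heq hxT j
  rw [h1]
  have hη' : ∀ i ≤ j, ‖iteratedFDerivWithin ℝ i g ψ.target (τ x)‖ ≤ η := by
    intro i hi
    rw [iteratedFDerivWithin_of_isOpen i ψ.open_target (hmaps hxT)]
    exact hcl' i (hi.trans hj)
  have hDi : ∀ i, 1 ≤ i → i ≤ j → ‖iteratedFDerivWithin ℝ i τ T x‖ ≤ D1 ^ i := by
    intro i hi1 hij
    refine ((hD i x hx).trans (hDle i (hij.trans hj))).trans ?_
    exact le_self_pow₀ hD1' (by omega)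
  have h2 := norm_iteratedFDerivWithin_comp_le (n := j) (N := ∞) hgs hτT (by exact_mod_cast le_top)
    ψ.open_target.uniqueDiffOn hTo.uniqueDiffOn hmaps hxT hη' hDi
  refine h2.trans ?_
  have h3 : (j.factorial : ℝ) ≤ r.factorial := by exact_mod_cast Nat.factorial_le hj
  have h4 : D1 ^ j ≤ D1 ^ r := pow_le_pow_right₀ hD1' hj
  have h5 : (0 : ℝ) ≤ D1 ^ j := by positivity
  calc (j.factorial : ℝ) * η * D1 ^ j = ((j.factorial : ℝ) * D1 ^ j) * η := by ring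
    _ ≤ ((r.factorial : ℝ) * D1 ^ r) * η :=
        mul_le_mul_of_nonneg_right (mul_le_mul h3 h4 h5 (by positivity)) hη

/-- derivatives in a chart on a compact set are controlled by the derivatives in the atlas charts -/
theorem clAt_chart (𝒜 : FinAtlas M) {φ : OpenPartialHomeomorph M E2} (hφ : φ ∈ ATL M)
    {K : Set E2} (hK : IsCompact K) (hKt : K ⊆ φ.target) (r : ℕ) :
    ∃ C : ℝ, 0 < C ∧ ∀ (u : M → V4) (η : ℝ), Sm u → 0 ≤ η → ∀ x ∈ K, ClAt 𝒜 r u η (φ.symm x) →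
      ∀ j ≤ r, ‖iteratedFDeriv ℝ j (u ∘ φ.symm) x‖ ≤ C * η := by
  refine hK.induction_on (p := fun s => ∃ C : ℝ, 0 < C ∧ ∀ (u : M → V4) (η : ℝ), Sm u → 0 ≤ η →
    ∀ x ∈ s, ClAt 𝒜 r u η (φ.symm x) →
      ∀ j ≤ r, ‖iteratedFDeriv ℝ j (u ∘ φ.symm) x‖ ≤ C * η) ?_ ?_ ?_ ?_
  · exact ⟨1, one_pos, fun u η _ _ x hx => absurd hx (notMem_empty x)⟩
  · rintro s t hst ⟨C, hC, h⟩
    exact ⟨C, hC, fun u η hu hη x hx => h u η hu hη x (hst hx)⟩
  · rintro s t ⟨C, hC, h⟩ ⟨C', hC', h'⟩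
    refine ⟨max C C', lt_max_of_lt_left hC, fun u η hu hη x hx hcl j hj => ?_⟩
    rcases hx with hx | hx
    · exact (h u η hu hη x hx hcl j hj).trans (mul_le_mul_of_nonneg_right (le_max_left _ _) hη)
    · exact (h' u η hu hη x hx hcl j hj).trans (mul_le_mul_of_nonneg_right (le_max_right _ _) hη)
  · intro x hx
    obtain ⟨N, hN, C, hC, h⟩ := MD3_local 𝒜 hφ r (hKt hx)
    exact ⟨N, mem_nhdsWithin_of_mem_nhds hN, C, hC, h⟩

/-- quantitative stability of the Gram determinant -/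
theorem MD3_stable (𝒜 : FinAtlas M) {F : M → V4} (hF : Sm F) (k : Fin 𝒜.n) :
    ∃ R : ℝ, 1 ≤ R ∧ ∀ F' : M → V4, Sm F' → ∀ x ∈ Metric.closedBall (0 : E2) 3, ∀ v : E2,
      ‖v‖ = 1 → ∀ η ≤ 1, ClAt 𝒜 2 (F' - F) η ((𝒜.φ k).symm x) →
      |gramV (F' ∘ (𝒜.φ k).symm) v x - gramV (F ∘ (𝒜.φ k).symm) v x| ≤ 1000 * R ^ 5 * η := by
  have hsub : Metric.closedBall (0 : E2) 3 ⊆ (𝒜.φ k).target :=
    (Metric.closedBall_subset_closedBall (by norm_num)).trans (𝒜.target k)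
  have hG := hF.loc (𝒜.mem k)
  obtain ⟨R, hR, hRb⟩ := MD3_bound (𝒜.φ k).open_target hG (isCompact_closedBall (0 : E2) 3) hsub
  refine ⟨R, hR, fun F' hF' x hx v hv η hη hcl => ?_⟩
  have hxt := hsub hx
  have hG' := hF'.loc (𝒜.mem k)
  have h1 := MD3_at (𝒜.φ k).open_target hG hxt
  have h2 := MD3_at (𝒜.φ k).open_target hG' hxt
  have h3 := hcl k ((𝒜.φ k).map_target hxt) (by rw [(𝒜.φ k).right_inv hxt]; exact hx)
  rw [(𝒜.φ k).right_inv hxt] at h3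
  have h4 : (F' - F) ∘ (𝒜.φ k).symm = F' ∘ (𝒜.φ k).symm - F ∘ (𝒜.φ k).symm := rfl
  rw [h4] at h3
  obtain ⟨ha, hb, hc⟩ := hRb x hx v hv
  unfold gramV
  refine gram3_sub_le _ _ _ _ _ _ R η ha hb hc ?_ ?_ ?_ hη hR
  · rw [← MD3_pd_sub h1 h2]
    exact (MD3_pd_norm _ x 0).trans (h3 1 (by norm_num))
  · rw [← MD3_pd_sub h1 h2]
    exact (MD3_pd_norm _ x 1).trans (h3 1 (by norm_num))
  · rw [← MD3_ddv_sub h1 h2]
    exact (MD3_ddv_norm (h2.sub h1) v hv).trans (h3 2 le_rfl)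

theorem MD3_eta {R c : ℝ} (hR : 1 ≤ R) (hc : 0 < c) : ∃ η : ℝ, 0 < η ∧ η ≤ 1 ∧
    1000 * R ^ 5 * η < c := by
  have hR5 : (0 : ℝ) < 1000 * R ^ 5 := by positivity
  refine ⟨min 1 (c / (2 * (1000 * R ^ 5))), lt_min one_pos (by positivity), min_le_left _ _, ?_⟩
  calc 1000 * R ^ 5 * min 1 (c / (2 * (1000 * R ^ 5)))
      ≤ 1000 * R ^ 5 * (c / (2 * (1000 * R ^ 5))) :=
        mul_le_mul_of_nonneg_left (min_le_right _ _) hR5.le
    _ = c / 2 := by field_simp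
    _ < c := by linarith

/-- Set of pairs (point, direction) where we want good directions is compact and `F` is good there:
there is room for `C²`-small perturbations, in every chart of the atlas.
`S k x v` : closed condition on pairs (`x` in the closed ball of radius 3 of the chart `k`, `‖v‖ = 1`) -/
theorem good_stable (𝒜 : FinAtlas M) {F : M → V4} (hF : Sm F) (k : Fin 𝒜.n) {S : Set (E2 × E2)}
    (hS : IsClosed S) (hG : ∀ x ∈ Metric.closedBall (0 : E2) 3, ∀ v : E2, ‖v‖ = 1 → (x, v) ∈ S →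
      GoodIn (𝒜.φ k) F v x) :
    ∃ η : ℝ, 0 < η ∧ ∀ F' : M → V4, Sm F' → ∀ x ∈ Metric.closedBall (0 : E2) 3, ∀ v : E2,
      ‖v‖ = 1 → (x, v) ∈ S → ClAt 𝒜 2 (F' - F) η ((𝒜.φ k).symm x) → GoodIn (𝒜.φ k) F' v x := by
  have hsub : Metric.closedBall (0 : E2) 3 ⊆ (𝒜.φ k).target :=
    (Metric.closedBall_subset_closedBall (by norm_num)).trans (𝒜.target k)
  have hT : IsCompact ((Metric.closedBall (0 : E2) 3 ×ˢ Metric.sphere (0 : E2) 1) ∩ S) :=
    ((isCompact_closedBall 0 3).prod (isCompact_sphere 0 1)).inter_right hS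
  have hcont : ContinuousOn (fun q : E2 × E2 => gramV (F ∘ (𝒜.φ k).symm) q.2 q.1)
      ((Metric.closedBall (0 : E2) 3 ×ˢ Metric.sphere (0 : E2) 1) ∩ S) :=
    (MD3_gramV_cont (𝒜.φ k).open_target (hF.loc (𝒜.mem k))).mono
      (inter_subset_left.trans (prod_mono hsub (subset_univ _)))
  obtain ⟨c, hc, hcb⟩ := hT.exists_forall_le' hcont (a := 0) (by
    rintro ⟨x, v⟩ ⟨⟨hx, hv⟩, hs⟩
    exact hG x hx v (by simpa using hv) hs)
  obtain ⟨R, hR, hst⟩ := MD3_stable 𝒜 hF k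
  obtain ⟨η, hη, hη1, hηc⟩ := MD3_eta hR hc
  refine ⟨η, hη, fun F' hF' x hx v hv hs hcl => ?_⟩
  have h1 := hst F' hF' x hx v hv η hη1 hcl
  have h2 := hcb (x, v) ⟨⟨hx, by simpa using hv⟩, hs⟩
  have h3 := (abs_le.1 h1).1
  unfold GoodIn
  dsimp only at h2
  linarith

/-- `GoodAll` in the charts of an atlas -/
theorem goodAll_iff {F : M → V4} (hF : Sm F) :
    GoodAll F ↔ ∀ φ ∈ ATL M, ∀ x ∈ φ.target, ∃ v : E2, GoodIn φ F v x := by
  constructor
  · intro h φ hφ x hx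
    obtain ⟨v, hv⟩ := h (φ.symm x)
    refine ⟨TT φ (φ.symm x) v, ?_⟩
    have h1 := (goodIn_TT hF hφ (φ.map_target hx) v).1 hv
    rwa [φ.right_inv hx] at h1
  · intro h p
    exact h _ (chart_mem_ATL p) _ (mem_chart_target E2 p)

/-- `GoodAll`, quantitatively on a compact surface -/
theorem goodAll_quant [CompactSpace M] (𝒜 : FinAtlas M) {F : M → V4} (hF : Sm F)
    (h : GoodAll F) : ∃ c : ℝ, 0 < c ∧ ∀ k, ∀ x ∈ Metric.closedBall (0 : E2) 3, ∃ v : E2,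
      ‖v‖ = 1 ∧ c ≤ gramV (F ∘ (𝒜.φ k).symm) v x := by
  have key : ∀ k : Fin 𝒜.n, ∃ c : ℝ, 0 < c ∧ ∀ x ∈ Metric.closedBall (0 : E2) 3, ∃ v : E2,
      ‖v‖ = 1 ∧ c ≤ gramV (F ∘ (𝒜.φ k).symm) v x := by
    intro k
    have hsub : Metric.closedBall (0 : E2) 3 ⊆ (𝒜.φ k).target :=
      (Metric.closedBall_subset_closedBall (by norm_num)).trans (𝒜.target k)
    refine (isCompact_closedBall (0 : E2) 3).induction_on
      (p := fun s => ∃ c : ℝ, 0 < c ∧ ∀ x ∈ s, ∃ v : E2,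
        ‖v‖ = 1 ∧ c ≤ gramV (F ∘ (𝒜.φ k).symm) v x) ?_ ?_ ?_ ?_
    · exact ⟨1, one_pos, fun x hx => absurd hx (notMem_empty x)⟩
    · rintro s t hst ⟨c, hc, hh⟩
      exact ⟨c, hc, fun x hx => hh x (hst hx)⟩
    · rintro s t ⟨c, hc, hh⟩ ⟨c', hc', hh'⟩
      refine ⟨min c c', lt_min hc hc', fun x hx => ?_⟩
      rcases hx with hx | hx
      · obtain ⟨v, hv, hvc⟩ := hh x hx
        exact ⟨v, hv, (min_le_left _ _).trans hvc⟩
      · obtain ⟨v, hv, hvc⟩ := hh' x hx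
        exact ⟨v, hv, (min_le_right _ _).trans hvc⟩
    · intro x0 hx0
      obtain ⟨v0, hv0⟩ := (goodAll_iff hF).1 h _ (𝒜.mem k) x0 (hsub hx0)
      have hv0ne : v0 ≠ 0 := by
        rintro rfl
        have h1 := gramV_smul (F ∘ (𝒜.φ k).symm) 0 (0 : E2) x0
        rw [zero_smul] at h1
        unfold GoodIn at hv0
        rw [h1] at hv0
        norm_num at hv0
      have hn : ‖v0‖ ≠ 0 := norm_ne_zero_iff.2 hv0ne
      have hv1 : GoodIn (𝒜.φ k) F (‖v0‖⁻¹ • v0) x0 :=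
        (goodIn_smul (inv_ne_zero hn)).2 hv0
      have hnorm : ‖‖v0‖⁻¹ • v0‖ = 1 := by
        rw [norm_smul, norm_inv, norm_norm, inv_mul_cancel₀ hn]
      set v : E2 := ‖v0‖⁻¹ • v0 with hv
      have hcont : ContinuousAt (fun x => gramV (F ∘ (𝒜.φ k).symm) v x) x0 := by
        have h1 := MD3_gramV_cont (𝒜.φ k).open_target (hF.loc (𝒜.mem k))
        have h2 : ContinuousAt (fun q : E2 × E2 => gramV (F ∘ (𝒜.φ k).symm) q.2 q.1) (x0, v) :=
          h1.continuousAt (((𝒜.φ k).open_target.prod isOpen_univ).mem_nhds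
            ⟨hsub hx0, mem_univ _⟩)
        have h3 : ContinuousAt (fun x : E2 => ((x, v) : E2 × E2)) x0 := by fun_prop
        exact ContinuousAt.comp (f := fun x : E2 => ((x, v) : E2 × E2))
          (g := fun q : E2 × E2 => gramV (F ∘ (𝒜.φ k).symm) q.2 q.1) h2 h3
      have hpos : 0 < gramV (F ∘ (𝒜.φ k).symm) v x0 := hv1
      have hev : ∀ᶠ x in 𝓝 x0, gramV (F ∘ (𝒜.φ k).symm) v x0 / 2 <
          gramV (F ∘ (𝒜.φ k).symm) v x :=
        hcont.eventually (lt_mem_nhds (by linarith))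
      refine ⟨_, mem_nhdsWithin_of_mem_nhds hev, gramV (F ∘ (𝒜.φ k).symm) v x0 / 2, by linarith,
        fun x hx => ⟨v, hnorm, ?_⟩⟩
      exact le_of_lt hx
  choose c hc hcb using key
  obtain ⟨c0, hc0, hle⟩ := MD3_fin_pos c hc
  refine ⟨c0, hc0, fun k x hx => ?_⟩
  obtain ⟨v, hv, hvc⟩ := hcb k x hx
  exact ⟨v, hv, (hle k).trans hvc⟩

/-- `GoodAll` is stable: there is `η > 0` such that at every point `p` where `F' - F` is `C²` small,
`F'` has a good direction -/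
theorem goodAll_stable [CompactSpace M] (𝒜 : FinAtlas M) {F : M → V4} (hF : Sm F)
    (h : GoodAll F) : ∃ η : ℝ, 0 < η ∧ ∀ F' : M → V4, Sm F' → ∀ p, ClAt 𝒜 2 (F' - F) η p →
      ∃ v : E2, GoodIn (chartAt E2 p) F' v (chartAt E2 p p) := by
  obtain ⟨c, hc, hq⟩ := goodAll_quant 𝒜 hF h
  choose R hR hst using fun k => MD3_stable 𝒜 hF k
  choose η hη hη1 hηc using fun k => MD3_eta (hR k) hc
  obtain ⟨η0, hη0, hle⟩ := MD3_fin_pos η hη
  refine ⟨η0, hη0, fun F' hF' p hcl => ?_⟩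
  obtain ⟨k, hk1, hk2⟩ := 𝒜.cover p
  have hx3 : 𝒜.φ k p ∈ Metric.closedBall (0 : E2) 3 :=
    Metric.ball_subset_closedBall (Metric.ball_subset_ball (by norm_num) hk2)
  obtain ⟨v, hv, hvc⟩ := hq k _ hx3
  have hcl' : ClAt 𝒜 2 (F' - F) (η k) ((𝒜.φ k).symm (𝒜.φ k p)) := by
    rw [(𝒜.φ k).left_inv hk1]
    intro k' h1 h2 j hj
    exact (hcl k' h1 h2 j hj).trans (hle k)
  have h1 := hst k F' hF' _ hx3 v hv (η k) (hη1 k) hcl'
  have h2 := (abs_le.1 h1).1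
  have h3 := hηc k
  have hgood : GoodIn (𝒜.φ k) F' v (𝒜.φ k p) := by
    unfold GoodIn
    linarith
  have hxt : 𝒜.φ k p ∈ (𝒜.φ k).target := (𝒜.φ k).map_source hk1
  refine ⟨TTi (𝒜.φ k) (𝒜.φ k p) v, ?_⟩
  rw [goodIn_TT hF' (𝒜.mem k) hk1]
  have h4 := TT_comp_TTi (𝒜.mem k) hxt
  rw [(𝒜.φ k).left_inv hk1] at h4
  have h5 : TT (𝒜.φ k) p (TTi (𝒜.φ k) (𝒜.φ k p) v) = v := by
    have := congrArg (fun L : E2 →L[ℝ] E2 => L v) h4
    simpa using this
  rw [h5]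
  exact hgood

end P205F
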