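import Vale.Agent.Lib.P205F.FlowA

/-!
# P205F: flow box in the plane

A smooth vector field `(a, b)` on the plane with `(a, b) p ≠ 0` has a first integral `φ` near `p`
with `dφ ≠ 0`.
-/

namespace P205F

open scoped ContDiff Topology
open Set

/-- cut-off: a function smooth near `p` agrees near `p` with a globally smooth function -/
theorem FlowC_cut {h : ℝ × ℝ → ℝ} {p : ℝ × ℝ} (hh : ∀ᶠ x in 𝓝 p, ContDiffAt ℝ ∞ h x) :
    ∃ H : ℝ × ℝ → ℝ, ContDiff ℝ ∞ H ∧ H =ᶠ[𝓝 p] h := by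
  obtain ⟨r, hr, hb⟩ := Metric.eventually_nhds_iff_ball.1 hh
  let β : ContDiffBump p := ⟨r / 4, r / 2, by positivity, by linarith⟩
  refine ⟨fun x => β x * h x, ?_, ?_⟩
  · rw [contDiff_iff_contDiffAt]
    intro x
    by_cases hx : x ∈ Metric.ball p r
    · exact β.contDiffAt.mul (hb x hx)
    · have h1 : x ∉ Metric.closedBall p (r / 2) := by
        intro h2
        rw [Metric.mem_closedBall] at h2
        rw [Metric.mem_ball] at hx
        linarith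
      have h2 : (fun x => β x * h x) =ᶠ[𝓝 x] fun _ => 0 := by
        filter_upwards [Metric.isClosed_closedBall.isOpen_compl.mem_nhds h1] with y hy
        have h3 : β y = 0 := by
          apply β.zero_of_le_dist
          rw [mem_compl_iff, Metric.mem_closedBall, not_le] at hy
          exact hy.le
        rw [h3, zero_mul]
      exact contDiffAt_const.congr_of_eventuallyEq h2
  · filter_upwards [β.eventuallyEq_one] with x hx
    simp [hx]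

/-- the linear map `v ↦ (v.1, c v.1 + d v.2)` -/
noncomputable def FlowC_lin (c d : ℝ) (hd : d ≠ 0) : (ℝ × ℝ) ≃L[ℝ] (ℝ × ℝ) :=
  ContinuousLinearEquiv.equivOfInverse
    ((ContinuousLinearMap.fst ℝ ℝ ℝ).prod
      (c • ContinuousLinearMap.fst ℝ ℝ ℝ + d • ContinuousLinearMap.snd ℝ ℝ ℝ))
    ((ContinuousLinearMap.fst ℝ ℝ ℝ).prod
      (d⁻¹ • (ContinuousLinearMap.snd ℝ ℝ ℝ - c • ContinuousLinearMap.fst ℝ ℝ ℝ)))
    (by
      intro v
      ext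
      · simp
      · simp
        field_simp)
    (by
      intro v
      ext
      · simp
      · simp
        field_simp
        ring)

theorem FlowC_lin_eq (g : ℝ × ℝ →L[ℝ] ℝ) (hd : g (0, 1) ≠ 0) :
    ((FlowC_lin (g (1, 0)) (g (0, 1)) hd : (ℝ × ℝ) ≃L[ℝ] (ℝ × ℝ)) : ℝ × ℝ →L[ℝ] ℝ × ℝ) =
      (ContinuousLinearMap.fst ℝ ℝ ℝ).prod g := by
  ext
  · rfl
  · simp [FlowC_lin]
  · rfl
  · simp [FlowC_lin]

theorem FlowC_box (f : ℝ × ℝ → ℝ) (hf : ContDiff ℝ ∞ f) (y₀ : ℝ) :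
    ∃ φ : ℝ × ℝ → ℝ, ∀ᶠ x in 𝓝 ((0 : ℝ), y₀), ContDiffAt ℝ ∞ φ x ∧
      fderiv ℝ φ x (1, f x) = 0 ∧ fderiv ℝ φ x ≠ 0 := by
  obtain ⟨ε, hε, η, hη, h0, hd⟩ := exists_smooth_flow f hf y₀
  set R : Set (ℝ × ℝ) := Ioo (-ε) ε ×ˢ Ioo (y₀ - ε) (y₀ + ε) with hR
  have hRo : IsOpen R := isOpen_Ioo.prod isOpen_Ioo
  have hq0 : ((0 : ℝ), y₀) ∈ R := by
    refine ⟨⟨?_, ?_⟩, ⟨?_, ?_⟩⟩ <;> simp [hε]
  have hηat : ∀ q ∈ R, ContDiffAt ℝ ∞ η q :=
    fun q hq => (hη q hq).contDiffAt (hRo.mem_nhds hq)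
  have hηd : ∀ q ∈ R, HasFDerivAt η (fderiv ℝ η q) q :=
    fun q hq => ((hηat q hq).differentiableAt (by simp)).hasFDerivAt
  set Ψ : ℝ × ℝ → ℝ × ℝ := fun q => (q.1, η q) with hΨ
  have hΨat : ∀ q ∈ R, ContDiffAt ℝ ∞ Ψ q := fun q hq => contDiffAt_fst.prodMk (hηat q hq)
  have hΨd : ∀ q ∈ R, HasFDerivAt Ψ ((ContinuousLinearMap.fst ℝ ℝ ℝ).prod (fderiv ℝ η q)) q :=
    fun q hq => hasFDerivAt_fst.prodMk (hηd q hq)
  have hx : ∀ q ∈ R, fderiv ℝ η q (1, 0) = f (Ψ q) := by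
    intro q hq
    have h1 : HasDerivAt (fun s => η (s, q.2)) (f (q.1, η (q.1, q.2))) q.1 :=
      hd q.1 hq.1 q.2 hq.2
    have h2 : HasDerivAt (fun s : ℝ => (s, q.2)) ((1 : ℝ), (0 : ℝ)) q.1 :=
      (hasDerivAt_id q.1).prodMk (hasDerivAt_const q.1 q.2)
    exact ((hηd q hq).comp_hasDerivAt q.1 h2).unique h1
  have hy : fderiv ℝ η (0, y₀) (0, 1) = 1 := by
    have h1 : HasDerivAt (fun y => η (0, y)) 1 y₀ := by
      have h2 : (fun y => η (0, y)) =ᶠ[𝓝 y₀] id := by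
        filter_upwards [isOpen_Ioo.mem_nhds hq0.2] with y hy using h0 y hy
      exact (hasDerivAt_id y₀).congr_of_eventuallyEq h2
    have h2 : HasDerivAt (fun y : ℝ => ((0 : ℝ), y)) ((0 : ℝ), (1 : ℝ)) y₀ :=
      (hasDerivAt_const y₀ (0 : ℝ)).prodMk (hasDerivAt_id y₀)
    exact ((hηd _ hq0).comp_hasDerivAt y₀ h2).unique h1
  have hy0 : fderiv ℝ η (0, y₀) (0, 1) ≠ 0 := by
    rw [hy]
    exact one_ne_zero
  have hev : ∀ᶠ q in 𝓝 ((0 : ℝ), y₀), q ∈ R ∧ fderiv ℝ η q (0, 1) ≠ 0 := by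
    have hc : ContinuousAt (fun q => fderiv ℝ η q (0, 1)) (0, y₀) :=
      (((hηat _ hq0).fderiv_right (m := 0) (by simp)).continuousAt).clm_apply
        continuousAt_const
    have h1 : ∀ᶠ q in 𝓝 ((0 : ℝ), y₀), q ∈ R := hRo.mem_nhds hq0
    exact Filter.Eventually.and h1 (hc.eventually_ne hy0)
  have hΨ0 : HasFDerivAt Ψ ((FlowC_lin (fderiv ℝ η (0, y₀) (1, 0)) _ hy0 :
      (ℝ × ℝ) ≃L[ℝ] (ℝ × ℝ)) : ℝ × ℝ →L[ℝ] ℝ × ℝ) (0, y₀) := by
    rw [FlowC_lin_eq]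
    exact hΨd _ hq0
  set e := (hΨat _ hq0).toOpenPartialHomeomorph Ψ hΨ0 (by simp) with he
  have hec : ∀ q, e q = Ψ q := fun q => rfl
  have hq0s : ((0 : ℝ), y₀) ∈ e.source :=
    (hΨat _ hq0).mem_toOpenPartialHomeomorph_source hΨ0 (by simp)
  have hΨq0 : Ψ (0, y₀) = (0, y₀) := by
    simp only [hΨ]
    rw [h0 y₀ hq0.2]
  have ht : ((0 : ℝ), y₀) ∈ e.target := by
    have h := e.map_source hq0s
    rwa [hec, hΨq0] at h
  have hsymm : e.symm (0, y₀) = (0, y₀) := by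
    have h := e.left_inv hq0s
    rwa [hec, hΨq0] at h
  have hcs : Filter.Tendsto e.symm (𝓝 ((0 : ℝ), y₀)) (𝓝 ((0 : ℝ), y₀)) := by
    have h := (e.symm.continuousAt ht).tendsto
    rwa [hsymm] at h
  refine ⟨fun z => (e.symm z).2, ?_⟩
  filter_upwards [hcs.eventually hev, e.open_target.mem_nhds ht] with z hz hzt
  obtain ⟨hzR, hz1⟩ := hz
  have hqs : e.symm z ∈ e.source := e.map_target hzt
  have hΨq : Ψ (e.symm z) = z := e.right_inv hzt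
  have hcd : ContDiffAt ℝ ∞ e.symm z := by
    refine e.contDiffAt_symm hzt (f₀' := FlowC_lin (fderiv ℝ η (e.symm z) (1, 0)) _ hz1) ?_ ?_
    · rw [FlowC_lin_eq]
      exact hΨd _ hzR
    · exact hΨat _ hzR
  have hφ : ContDiffAt ℝ ∞ (fun z => (e.symm z).2) z := contDiffAt_snd.comp z hcd
  have hφd : HasFDerivAt (fun z => (e.symm z).2) (fderiv ℝ (fun z => (e.symm z).2) z) z :=
    (hφ.differentiableAt (by simp)).hasFDerivAt
  have hcomp : ∀ v : ℝ × ℝ, fderiv ℝ (fun z => (e.symm z).2) z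
      (v.1, fderiv ℝ η (e.symm z) v) = v.2 := by
    have h1 : HasFDerivAt (fun q' => (e.symm (Ψ q')).2)
        ((fderiv ℝ (fun z => (e.symm z).2) z).comp
          ((ContinuousLinearMap.fst ℝ ℝ ℝ).prod (fderiv ℝ η (e.symm z)))) (e.symm z) := by
      have hφd' : HasFDerivAt (fun z => (e.symm z).2)
          (fderiv ℝ (fun z => (e.symm z).2) z) (Ψ (e.symm z)) := by
        rw [hΨq]
        exact hφd
      exact hφd'.comp (e.symm z) (hΨd _ hzR)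
    have h2 : (fun q' => (e.symm (Ψ q')).2) =ᶠ[𝓝 (e.symm z)] Prod.snd := by
      filter_upwards [e.open_source.mem_nhds hqs] with q' hq'
      rw [← hec, e.left_inv hq']
    have h3 : HasFDerivAt (fun q' => (e.symm (Ψ q')).2) (ContinuousLinearMap.snd ℝ ℝ ℝ)
        (e.symm z) := hasFDerivAt_snd.congr_of_eventuallyEq h2
    have h4 := h1.unique h3
    intro v
    exact DFunLike.congr_fun h4 v
  refine ⟨hφ, ?_, ?_⟩
  · have h := hcomp (1, 0)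
    rwa [hx _ hzR, hΨq] at h
  · intro h5
    have h := hcomp (0, 1)
    rw [h5] at h
    simp at h

theorem FlowC_aux (a b : ℝ × ℝ → ℝ) (ha : ContDiff ℝ ∞ a) (hb : ContDiff ℝ ∞ b) (p : ℝ × ℝ)
    (hp : a p ≠ 0) :
    ∃ φ : ℝ × ℝ → ℝ, ContDiff ℝ ∞ φ ∧
      ∀ᶠ x in 𝓝 p, fderiv ℝ φ x (a x, b x) = 0 ∧ fderiv ℝ φ x ≠ 0 := by
  set t : ℝ × ℝ := (p.1, 0) with htdef
  have hpt : p - t = (0, p.2) := by
    ext <;> simp [htdef]
  have htp : ((0 : ℝ), p.2) + t = p := by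
    ext <;> simp [htdef]
  have hsh : Filter.Tendsto (fun x : ℝ × ℝ => x + t) (𝓝 ((0 : ℝ), p.2)) (𝓝 p) := by
    have h : ContinuousAt (fun x : ℝ × ℝ => x + t) ((0 : ℝ), p.2) := by fun_prop
    have h2 := h.tendsto
    rwa [htp] at h2
  have hsh' : Filter.Tendsto (fun x : ℝ × ℝ => x - t) (𝓝 p) (𝓝 ((0 : ℝ), p.2)) := by
    have h : ContinuousAt (fun x : ℝ × ℝ => x - t) p := by fun_prop
    have h2 := h.tendsto
    rwa [hpt] at h2
  have hane : ∀ᶠ x in 𝓝 p, a x ≠ 0 := ha.continuous.continuousAt.eventually_ne hp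
  obtain ⟨f, hf, hfe⟩ := FlowC_cut (h := fun x => b (x + t) / a (x + t)) (p := (0, p.2)) (by
    filter_upwards [hsh.eventually hane] with x hx
    have h1 : ContDiff ℝ ∞ fun x : ℝ × ℝ => x + t := contDiff_id.add contDiff_const
    exact ((hb.comp h1).contDiffAt).div ((ha.comp h1).contDiffAt) hx)
  obtain ⟨φ₀, hφ₀⟩ := FlowC_box f hf p.2
  have hcd : ContDiff ℝ ∞ fun x : ℝ × ℝ => x - t := contDiff_id.sub contDiff_const
  obtain ⟨φ, hφ, hφe⟩ := FlowC_cut (h := fun x => φ₀ (x - t)) (p := p) (by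
    filter_upwards [hsh'.eventually hφ₀] with x hx
    exact ContDiffAt.comp x hx.1 hcd.contDiffAt)
  refine ⟨φ, hφ, ?_⟩
  filter_upwards [hφe.eventually_nhds, hsh'.eventually hφ₀, hsh'.eventually hfe, hane]
    with x h1 h2 h3 h4
  have h5 : fderiv ℝ φ x = fderiv ℝ φ₀ (x - t) := by
    rw [Filter.EventuallyEq.fderiv_eq h1]
    exact fderiv_comp_sub t
  rw [h5]
  refine ⟨?_, h2.2.2⟩
  have h6 : f (x - t) = b x / a x := by
    rw [h3, sub_add_cancel]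
  have h7 : ((a x, b x) : ℝ × ℝ) = a x • ((1 : ℝ), f (x - t)) := by
    rw [h6, Prod.smul_mk, smul_eq_mul, smul_eq_mul, mul_one, mul_div_cancel₀ _ h4]
  rw [h7, map_smul, h2.2.1, smul_zero]

theorem flowBox (a b : ℝ × ℝ → ℝ) (ha : ContDiff ℝ ∞ a) (hb : ContDiff ℝ ∞ b) (p : ℝ × ℝ)
    (hp : a p ≠ 0 ∨ b p ≠ 0) :
  ∃ φ : ℝ × ℝ → ℝ, ContDiff ℝ ∞ φ ∧ ∃ U ∈ 𝓝 p, ∀ x ∈ U, fderiv ℝ φ x (a x, b x) = 0 ∧ fderiv ℝ φ x ≠ 0 := by
  rcases hp with hp | hp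
  · obtain ⟨φ, hφ, h⟩ := FlowC_aux a b ha hb p hp
    exact ⟨φ, hφ, _, h, fun x hx => hx⟩
  · have hsw : ContDiff ℝ ∞ (Prod.swap : ℝ × ℝ → ℝ × ℝ) := contDiff_snd.prodMk contDiff_fst
    obtain ⟨φ, hφ, h⟩ := FlowC_aux (b ∘ Prod.swap) (a ∘ Prod.swap) (hb.comp hsw) (ha.comp hsw)
      p.swap (by simpa using hp)
    refine ⟨φ ∘ Prod.swap, hφ.comp hsw, {x | fderiv ℝ φ x.swap (b x, a x) = 0 ∧
      fderiv ℝ φ x.swap ≠ 0}, ?_, ?_⟩
    · have h1 : Filter.Tendsto (Prod.swap : ℝ × ℝ → ℝ × ℝ) (𝓝 p) (𝓝 p.swap) :=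
        continuous_swap.continuousAt
      filter_upwards [h1.eventually h] with x hx
      simpa using hx
    · intro x hx
      have h2 : HasFDerivAt (Prod.swap : ℝ × ℝ → ℝ × ℝ)
          ((ContinuousLinearMap.snd ℝ ℝ ℝ).prod (ContinuousLinearMap.fst ℝ ℝ ℝ)) x :=
        hasFDerivAt_snd.prodMk hasFDerivAt_fst
      have h3 : HasFDerivAt (φ ∘ Prod.swap) ((fderiv ℝ φ x.swap).comp
          ((ContinuousLinearMap.snd ℝ ℝ ℝ).prod (ContinuousLinearMap.fst ℝ ℝ ℝ))) x :=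
        ((hφ.differentiable (by simp)) x.swap).hasFDerivAt.comp x h2
      rw [h3.fderiv]
      refine ⟨hx.1, ?_⟩
      intro h4
      apply hx.2
      ext
      · have h5 := DFunLike.congr_fun h4 ((0 : ℝ), (1 : ℝ))
        simpa using h5
      · have h5 := DFunLike.congr_fun h4 ((1 : ℝ), (0 : ℝ))
        simpa using h5

end P205F
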