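import Vale.Agent.Lib.P205F.KDefs

/-!
# P205F: definitions for the linear WKB solution and the cell theorem
-/

open scoped ContDiff Topology
open Set

namespace P205F

/-- the plane (with the sup norm) -/
abbrev E2 := ℝ × ℝ
abbrev V4 := EuclideanSpace ℝ (Fin 4)
abbrev C4 := Fin 4 → ℂ
/-- real two-tensors (components) -/
abbrev T2 := Fin 2 → Fin 2 → ℝ
/-- complex two-tensors (components) -/
abbrev T2C := Fin 2 → Fin 2 → ℂ

/-- restriction of the index set: the domains of the excluded indices become empty -/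
def Setting.restrict {ι E : Type} [NormedAddCommGroup E] [NormedSpace ℝ E] (S : Setting ι E)
    (P : ι → Prop) : Setting ι E :=
  { S with
    U := fun i => {x | x ∈ S.U i ∧ P i}
    isOpen := by
      intro i
      by_cases h : P i
      · simpa [h] using S.isOpen i
      · simp [h] }

/-- basis vectors of the plane -/
def bv (i : Fin 2) : E2 := if i = 0 then (1, 0) else (0, 1)

/-- components of a vector of the plane -/
def co (v : E2) (i : Fin 2) : ℝ := if i = 0 then v.1 else v.2

/-- partial derivatives -/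
noncomputable def pd {V : Type} [NormedAddCommGroup V] [NormedSpace ℝ V] (i : Fin 2) (u : E2 → V)
    (x : E2) : V := fderiv ℝ u x (bv i)

/-- second derivative in the direction `v` -/
noncomputable def ddv {V : Type} [NormedAddCommGroup V] [NormedSpace ℝ V] (v : E2) (u : E2 → V)
    (x : E2) : V := fderiv ℝ (fun y => fderiv ℝ u y v) x v

/-- the metric induced by a map -/
noncomputable def met (F : E2 → V4) (x : E2) : T2 := fun i j => inner ℝ (pd i F x) (pd j F x)

/-- the linearised metric operator -/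
noncomputable def linF (F w : E2 → V4) (x : E2) : T2 :=
  fun i j => inner ℝ (pd i F x) (pd j w x) + inner ℝ (pd j F x) (pd i w x)

/-- Gram determinant of three vectors -/
noncomputable def gram3 (a b c : V4) : ℝ :=
  inner ℝ a a * (inner ℝ b b * inner ℝ c c - inner ℝ b c ^ 2)
    - inner ℝ a b * (inner ℝ a b * inner ℝ c c - inner ℝ b c * inner ℝ a c)
    + inner ℝ a c * (inner ℝ a b * inner ℝ b c - inner ℝ b b * inner ℝ a c)

/-- the vector of `span (a, b, c)` dual to `a`: `⟪dual, a⟫ = 1`, `⟪dual, b⟫ = ⟪dual, c⟫ = 0` -/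
noncomputable def dual (a b c : V4) : V4 :=
  (gram3 a b c)⁻¹ • ((inner ℝ b b * inner ℝ c c - inner ℝ b c ^ 2) • a
    - (inner ℝ a b * inner ℝ c c - inner ℝ a c * inner ℝ b c) • b
    + (inner ℝ a b * inner ℝ b c - inner ℝ a c * inner ℝ b b) • c)

/-- three by three minors -/
noncomputable def minor3 (a b c : V4) (i j k : Fin 4) : ℝ :=
  a i * (b j * c k - b k * c j) - a j * (b i * c k - b k * c i) + a k * (b i * c j - b j * c i)

/-- the cross product of three vectors of `ℝ⁴` -/
noncomputable def cr3 (a b c : V4) : V4 :=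
  !₂[minor3 a b c 1 2 3, -minor3 a b c 0 2 3, minor3 a b c 0 1 3, -minor3 a b c 0 1 2]

/-- the unit normal of three independent vectors -/
noncomputable def nor (a b c : V4) : V4 := (Real.sqrt (gram3 a b c))⁻¹ • cr3 a b c

/-- real vectors as complex vectors -/
noncomputable def toC (a : V4) : C4 := fun k => (a k : ℂ)

/-- real part of a complex vector -/
noncomputable def reV (A : C4) : V4 := !₂[(A 0).re, (A 1).re, (A 2).re, (A 3).re]

/-- the complex bilinear product of a real and a complex vector -/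
noncomputable def cdot (a : V4) (A : C4) : ℂ := ∑ k, (a k : ℂ) * A k

/-- the complex bilinear product of complex vectors -/
noncomputable def cdot2 (A B : C4) : ℂ := ∑ k, A k * B k

/-- the rotated vector, in the kernel of the covector `ζ` -/
def perp (ζ : E2) : E2 := (-ζ.2, ζ.1)

def nsq (ζ : E2) : ℝ := ζ.1 ^ 2 + ζ.2 ^ 2

/-- the dual vector `u` of a covector `ζ`: `ζ(u) = 1` -/
noncomputable def dl (ζ : E2) : E2 := (ζ.1 / nsq ζ, ζ.2 / nsq ζ)

/-- evaluation of a complex tensor -/
noncomputable def ev2 (Y : T2C) (u v : E2) : ℂ := ∑ i, ∑ j, ((co u i * co v j : ℝ) : ℂ) * Y i j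

/-- the phase `ζ.x` -/
def ph (ζ x : E2) : ℝ := ζ.1 * x.1 + ζ.2 * x.2

/-- the residual `Y` of the WKB recursion -/
noncomputable def wY (F : E2 → V4) (R : E2 → T2C) (p : E2 → Fin 2 → ℂ) (A : E2 → C4) : E2 → T2C :=
  fun x i j => R x i j - (pd j (fun y => p y i) x + pd i (fun y => p y j) x
    - 2 * cdot (pd i (pd j F) x) (A x))

/-- the next `p` of the WKB recursion -/
noncomputable def wP (ζ : E2) (Y : E2 → T2C) : E2 → Fin 2 → ℂ :=
  fun x i => (co ζ i : ℂ) * ev2 (Y x) (dl ζ) (dl ζ) / (2 * Complex.I)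
    + ((co (perp ζ) i / nsq ζ : ℝ) : ℂ) * ev2 (Y x) (dl ζ) (perp ζ) / Complex.I

/-- the next amplitude of the WKB recursion -/
noncomputable def wA (F : E2 → V4) (ζ : E2) (p : E2 → Fin 2 → ℂ) : E2 → C4 :=
  fun x => p x 0 • toC (dual (pd 0 F x) (pd 1 F x) (ddv (perp ζ) F x))
    + p x 1 • toC (dual (pd 1 F x) (pd 0 F x) (ddv (perp ζ) F x))
    + (∑ k, ∑ l, ((co (perp ζ) k * co (perp ζ) l : ℝ) : ℂ) * pd l (fun y => p y k) x) •
      toC (dual (ddv (perp ζ) F x) (pd 0 F x) (pd 1 F x))

/-- the WKB recursion `(p j, A j)` -/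
noncomputable def wkb (F : E2 → V4) (ζ : E2) (R : E2 → T2C) (A0 : E2 → C4) :
    ℕ → (E2 → Fin 2 → ℂ) × (E2 → C4)
  | 0 => (fun _ _ => 0, A0)
  | j + 1 =>
    (wP ζ (wY F (if j = 0 then R else fun _ _ _ => 0) (wkb F ζ R A0 j).1 (wkb F ζ R A0 j).2),
      wA F ζ (wP ζ (wY F (if j = 0 then R else fun _ _ _ => 0) (wkb F ζ R A0 j).1
        (wkb F ζ R A0 j).2)))

/-- the residual of order `j` -/
noncomputable def wkbY (F : E2 → V4) (ζ : E2) (R : E2 → T2C) (A0 : E2 → C4) (j : ℕ) : E2 → T2C :=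
  wY F (if j = 0 then R else fun _ _ _ => 0) (wkb F ζ R A0 j).1 (wkb F ζ R A0 j).2

/-- the truncated amplitude `∑_{j ≤ J} e ^ j A j` -/
noncomputable def wsum (F : E2 → V4) (ζ : E2) (R : E2 → T2C) (A0 : E2 → C4) (J : ℕ) (e : ℝ) :
    E2 → C4 := fun x => ∑ j ∈ Finset.range (J + 1), (e ^ j : ℝ) • (wkb F ζ R A0 j).2 x

/-- start of the solution of the inhomogeneous equation -/
noncomputable def lsA (F : E2 → V4) (ζ : E2) (R : E2 → T2C) : E2 → C4 :=
  fun x => (-ev2 (R x) (perp ζ) (perp ζ) / 2) • toC (dual (ddv (perp ζ) F x) (pd 0 F x) (pd 1 F x))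

/-- start of the kernel element -/
noncomputable def keA (F : E2 → V4) (ζ : E2) (α : E2 → ℝ) : E2 → C4 :=
  fun x => (α x : ℂ) • toC (nor (pd 0 F x) (pd 1 F x) (ddv (perp ζ) F x))

/-- the oscillating real field `Re (A e^{i ζ.x / e})` -/
noncomputable def osc (A : E2 → C4) (ζ : E2) (e : ℝ) : E2 → V4 :=
  fun x => reV (Complex.exp (((ph ζ x / e : ℝ) : ℂ) * Complex.I) • A x)

end P205F
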