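import Mathlib
import Vale.Agent.Lib.P205F.TDefs

/-!
# P205F: definitions for the one-chart theorem TL
-/

open scoped ContDiff Topology
open Set

namespace P205F

/-- the growth class of part T: `∀ c > 0, g ≤ C Lam ^ C δ ^ (-c)` -/
def GTmem {ι : Type} (Lam δ : ι → ℝ) (g : ι → ℝ) : Prop :=
  (∀ i, 1 ≤ g i) ∧ ∀ c : ℝ, 0 < c → ∃ C : ℕ, ∀ i, g i ≤ C * Lam i ^ C * (δ i) ^ (-c)

/-- a single flat function on the plane: all the roots are smooth -/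
def Flat1 (χ : E2 → ℝ) : Prop :=
  ∀ n : ℕ, 1 ≤ n → ∃ θ : E2 → ℝ, ContDiff ℝ ∞ θ ∧ ∀ x, 0 ≤ θ x ∧ θ x ^ n = χ x

/-- second directional value of a two-jet -/
noncomputable def Qv (Q : Fin 2 → Fin 2 → V4) (v : E2) : V4 := ∑ i, ∑ j, (co v i * co v j) • Q i j

/-- nondegeneracy of a covector for a two-jet -/
def ND0 (g : ℝ) (a b : V4) (Q : Fin 2 → Fin 2 → V4) (ζ : E2) : Prop :=
  ‖ζ‖ ≤ g ∧ 1 ≤ g * nsq ζ ∧ 1 ≤ g * gram3 a b (Qv Q (perp ζ))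

/-- a nondegenerate two-jet with a positive tensor (constants `Lam`) -/
structure JetOK (Lam : ℝ) (a b : V4) (Q : Fin 2 → Fin 2 → V4) (gs : T2) : Prop where
  ha : ‖a‖ ≤ Lam
  hb : ‖b‖ ≤ Lam
  hQ : ∀ i j, ‖Q i j‖ ≤ Lam
  Qsym : Q 0 1 = Q 1 0
  hg : ∀ i j, |gs i j| ≤ Lam
  gsym : gs 0 1 = gs 1 0
  met : ∀ v : E2, nsq v ≤ Lam * ‖v.1 • a + v.2 • b‖ ^ 2
  gpos : ∀ v : E2, nsq v ≤ Lam * ∑ i, ∑ j, co v i * co v j * gs i j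
  good : ∃ v : E2, nsq v = 1 ∧ 1 ≤ Lam * gram3 a b (Qv Q v)

/-- the result of the selection lemma (constants `g`) -/
structure SelOK (g : ℝ) (a b : V4) (Q : Fin 2 → Fin 2 → V4) (gs : T2) (om : Fin 3 → E2)
    (cof : Fin 3 → (T2 →L[ℝ] ℝ)) (fr : Fin 3 → ℝ) : Prop where
  om_le : ∀ j, ‖om j‖ ≤ g
  cof_le : ∀ j, ‖cof j‖ ≤ g
  cof_eq : ∀ h : T2, h 0 1 = h 1 0 → ∀ k l, h k l = ∑ j, cof j h * (co (om j) k * co (om j) l)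
  fr_ge : ∀ j, 1 ≤ fr j
  fr_le : ∀ j, fr j ≤ g
  stable : ∀ (a' b' : V4) (Q' : Fin 2 → Fin 2 → V4) (gs' : T2), g * ‖a' - a‖ ≤ 1 →
    g * ‖b' - b‖ ≤ 1 → (∀ i j, g * ‖Q' i j - Q i j‖ ≤ 1) → (∀ i j, g * |gs' i j - gs i j| ≤ 1) →
    (∀ j, ND0 g a' b' Q' (fr j • om j)) ∧ (∀ j j', ND0 g a' b' Q' (fr j • om j + fr j' • om j')) ∧
    (∀ j j', j ≠ j' → ND0 g a' b' Q' (fr j • om j - fr j' • om j')) ∧
    ∀ j, 1 ≤ g * cof j gs'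

/-- the two-jet of a map -/
noncomputable def jet2 (F : E2 → V4) (x : E2) : Fin 2 → Fin 2 → V4 := fun i j => pd i (pd j F) x

/-- a map and a tensor which are nondegenerate (constants `Lam`) on a set, with bounded third,
resp. first derivatives -/
structure MapOK (Lam : ℝ) (D : Set E2) (F : E2 → V4) (gs : E2 → T2) : Prop where
  jet : ∀ x ∈ D, JetOK Lam (pd 0 F x) (pd 1 F x) (jet2 F x) (gs x)
  F3 : ∀ r ≤ 3, ∀ x ∈ D, ‖iteratedFDeriv ℝ r F x‖ ≤ Lam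
  g1 : ∀ r ≤ 1, ∀ x ∈ D, ‖iteratedFDeriv ℝ r gs x‖ ≤ Lam

/-- the cell partition: a flat function `ψ` supported in `(-0.7, 0.7)²` with
`∑ ψ (x - z) ^ 2 = 1`, and a cutoff which is one near its support -/
structure CellFun where
  ψ : E2 → ℝ
  κ : E2 → ℝ
  flat : Flat1 ψ
  κ_sm : ContDiff ℝ ∞ κ
  supp : ∀ x, 7 / 10 ≤ ‖x‖ → ψ x = 0
  κ_supp : ∀ x, 9 / 10 ≤ ‖x‖ → κ x = 0
  κ_one : ∀ x, ‖x‖ ≤ 8 / 10 → κ x = 1
  part : ∀ (x : E2) (Z : Finset (ℤ × ℤ)),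
    (∀ z : ℤ × ℤ, ‖x - ((z.1 : ℝ), (z.2 : ℝ))‖ < 7 / 10 → z ∈ Z) →
      ∑ z ∈ Z, ψ (x - ((z.1 : ℝ), (z.2 : ℝ))) ^ 2 = 1

/-- center of a cell -/
noncomputable def cen (ρ : ℝ) (z : ℤ × ℤ) : E2 := (ρ * z.1, ρ * z.2)

/-- the rescaled coordinate of a cell -/
noncomputable def cellc (ρ : ℝ) (z : ℤ × ℤ) (x : E2) : E2 := ρ⁻¹ • (x - cen ρ z)

/-- the colour of a cell -/
def col (z : ℤ × ℤ) : Bool × Bool := (decide (z.1 % 2 = 0), decide (z.2 % 2 = 0))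

/-- the cells: centers in the ball of radius `28/10` -/
noncomputable def cells (ρ : ℝ) : Finset (ℤ × ℤ) :=
  (Finset.Icc (-⌈28 / (10 * ρ)⌉) ⌈28 / (10 * ρ)⌉ ×ˢ Finset.Icc (-⌈28 / (10 * ρ)⌉) ⌈28 / (10 * ρ)⌉).filter
    fun z => ‖cen ρ z‖ ≤ 28 / 10

/-- the squared partition functions of a colour -/
noncomputable def colFun (P : CellFun) (ρ : ℝ) (c : Bool × Bool) (x : E2) : ℝ :=
  ∑ z ∈ cells ρ with col z = c, P.ψ (cellc ρ z x) ^ 2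

end P205F
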