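import Vale.Agent.Lib.P205F.MD3
import Vale.Agent.Lib.P205F.GDefs

/-! # P205F module MT3: planar preparations for theorem T -/

noncomputable section

open scoped Manifold ContDiff Topology RealInnerProductSpace
open Set

namespace P205F

set_option maxSynthPendingDepth 3

/-- components of a bilinear form -/
def bc (B : Bil) : T2 := fun a b => B (bv a) (bv b)

private theorem MT3_co (v : E2) : v = co v 0 • bv 0 + co v 1 • bv 1 := by
  ext <;> simp [bv, co]

private theorem MT3_expand (B : Bil) (v w : E2) :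
    B v w = ∑ i, ∑ j, co v i * co w j * B (bv i) (bv j) := by
  conv_lhs => rw [MT3_co v, MT3_co w]
  simp only [map_add, map_smul, ContinuousLinearMap.add_apply, ContinuousLinearMap.smul_apply,
    smul_eq_mul, Fin.sum_univ_two]
  ring

theorem bc_metrU (F : E2 → V4) (x : E2) : bc (metrU F x) = met F x := rfl

theorem bc_inj {B B' : Bil} (h : bc B = bc B') : B = B' := by
  refine ContinuousLinearMap.ext fun v => ContinuousLinearMap.ext fun w => ?_
  rw [MT3_expand B, MT3_expand B']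
  refine Finset.sum_congr rfl fun i _ => Finset.sum_congr rfl fun j _ => ?_
  have h1 : bc B i j = bc B' i j := by rw [h]
  have h2 : B (bv i) (bv j) = B' (bv i) (bv j) := h1
  rw [h2]

theorem bc_add (B B' : Bil) (a b : Fin 2) : bc (B + B') a b = bc B a b + bc B' a b := rfl

theorem bc_smul (c : ℝ) (B : Bil) (a b : Fin 2) : bc (c • B) a b = c * bc B a b := rfl

theorem bc_smooth {B : E2 → Bil} {U : Set E2} (h : ContDiffOn ℝ ∞ B U) :
    ContDiffOn ℝ ∞ (fun x => bc (B x)) U := by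
  rw [contDiffOn_pi]
  intro a
  rw [contDiffOn_pi]
  intro b
  exact (h.clm_apply contDiffOn_const).clm_apply contDiffOn_const

/-- bound of a function with values in a product -/
private theorem MT3_pi {ι : Type} [Fintype ι] {W : Type} [NormedAddCommGroup W] [NormedSpace ℝ W]
    {f : E2 → ι → W} {x : E2} {n : ℕ} (hf : ContDiffAt ℝ n f x) {C : ℝ} (hC : 0 ≤ C)
    (h : ∀ i, ‖iteratedFDeriv ℝ n (fun y => f y i) x‖ ≤ C) : ‖iteratedFDeriv ℝ n f x‖ ≤ C := by
  refine ContinuousMultilinearMap.opNorm_le_bound hC fun m => ?_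
  rw [pi_norm_le_iff_of_nonneg (mul_nonneg hC (Finset.prod_nonneg fun i _ => norm_nonneg _))]
  intro i
  have h1 : iteratedFDeriv ℝ n (fun y => f y i) x =
      (ContinuousLinearMap.proj i : (ι → W) →L[ℝ] W).compContinuousMultilinearMap
        (iteratedFDeriv ℝ n f x) :=
    (ContinuousLinearMap.proj i : (ι → W) →L[ℝ] W).iteratedFDeriv_comp_left hf le_rfl
  have h2 : (iteratedFDeriv ℝ n f x m) i = iteratedFDeriv ℝ n (fun y => f y i) x m := by
    rw [h1]
    rfl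
  rw [h2]
  exact (ContinuousMultilinearMap.le_opNorm _ _).trans
    (mul_le_mul_of_nonneg_right (h i) (Finset.prod_nonneg fun i _ => norm_nonneg _))

theorem bc_bd {B : E2 → Bil} {U : Set E2} (hU : IsOpen U) (h : ContDiffOn ℝ ∞ B U) {x : E2}
    (hx : x ∈ U) (r : ℕ) :
    ‖iteratedFDeriv ℝ r (fun y => bc (B y)) x‖ ≤ ‖iteratedFDeriv ℝ r B x‖ := by
  have h0 : ContDiffAt ℝ r B x := (h.contDiffAt (hU.mem_nhds hx)).of_le (by exact_mod_cast le_top)
  have h1 : ContDiffAt ℝ r (fun y => bc (B y)) x :=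
    ((bc_smooth h).contDiffAt (hU.mem_nhds hx)).of_le (by exact_mod_cast le_top)
  refine MT3_pi h1 (norm_nonneg _) fun a => ?_
  have h2 : ContDiffAt ℝ r (fun y => bc (B y) a) x := (contDiffAt_pi.1 h1) a
  refine MT3_pi h2 (norm_nonneg _) fun b => ?_
  have h3 : ContDiffAt ℝ r (fun y => B y (bv a)) x := h0.clm_apply contDiffAt_const
  have h4 := norm_iteratedFDeriv_clm_apply_const (c := bv b) h3 le_rfl
  have h5 := norm_iteratedFDeriv_clm_apply_const (c := bv a) h0 le_rfl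
  rw [MD3_bv, one_mul] at h4 h5
  exact h4.trans h5

/-- Leibniz bound for the inner product -/
private theorem MT3_inner {u v : E2 → V4} {O : Set E2} (hO : IsOpen O) (hu : ContDiffOn ℝ ∞ u O)
    (hv : ContDiffOn ℝ ∞ v O) {x : E2} (hx : x ∈ O) (r : ℕ) {Λ : ℝ}
    (h1 : ∀ j ≤ r, ‖iteratedFDeriv ℝ j u x‖ ≤ Λ) (h2 : ∀ j ≤ r, ‖iteratedFDeriv ℝ j v x‖ ≤ Λ) :
    ‖iteratedFDeriv ℝ r (fun y => inner ℝ (u y) (v y)) x‖ ≤ 2 ^ r * Λ ^ 2 := by
  have hΛ : 0 ≤ Λ := (norm_nonneg _).trans (h1 0 (Nat.zero_le _))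
  have hB : ‖(innerSL ℝ : V4 →L[ℝ] V4 →L[ℝ] ℝ)‖ ≤ 1 := by
    refine ContinuousLinearMap.opNorm_le_bound₂ _ zero_le_one fun a b => ?_
    rw [one_mul]
    exact norm_inner_le_norm a b
  have h3 := (innerSL ℝ : V4 →L[ℝ] V4 →L[ℝ] ℝ).norm_iteratedFDerivWithin_le_of_bilinear_of_le_one
    hu hv hO.uniqueDiffOn hx (n := r) (by exact_mod_cast le_top) hB
  rw [iteratedFDerivWithin_of_isOpen r hO hx] at h3
  refine h3.trans ?_
  have h4 : ∀ i ∈ Finset.range (r + 1), (r.choose i : ℝ) * ‖iteratedFDerivWithin ℝ i u O x‖ *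
      ‖iteratedFDerivWithin ℝ (r - i) v O x‖ ≤ (r.choose i : ℝ) * Λ ^ 2 := by
    intro i hi
    rw [iteratedFDerivWithin_of_isOpen i hO hx, iteratedFDerivWithin_of_isOpen (r - i) hO hx,
      mul_assoc]
    refine mul_le_mul_of_nonneg_left ?_ (by positivity)
    rw [pow_two]
    exact mul_le_mul (h1 i (by have := Finset.mem_range.1 hi; omega)) (h2 _ (Nat.sub_le _ _))
      (norm_nonneg _) hΛ
  refine (Finset.sum_le_sum h4).trans (le_of_eq ?_)
  rw [← Finset.sum_mul]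
  congr 1
  exact_mod_cast Nat.sum_range_choose r

/-- bound of a partial derivative -/
private theorem MT3_pd {F : E2 → V4} {O : Set E2} (hO : IsOpen O) (hF : ContDiffOn ℝ ∞ F O)
    {x : E2} (hx : x ∈ O) (i : Fin 2) (j : ℕ) :
    ‖iteratedFDeriv ℝ j (pd i F) x‖ ≤ ‖iteratedFDeriv ℝ (j + 1) F x‖ := by
  have h0 : ContDiffAt ℝ j (fderiv ℝ F) x :=
    ((hF.fderiv_of_isOpen hO (m := ∞) (by simp)).contDiffAt (hO.mem_nhds hx)).of_le
      (by exact_mod_cast le_top)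
  have h1 := norm_iteratedFDeriv_clm_apply_const (c := bv i) h0 le_rfl
  rw [MD3_bv, one_mul, norm_iteratedFDeriv_fderiv] at h1
  exact h1

private theorem MT3_pd_sm {F : E2 → V4} {O : Set E2} (hO : IsOpen O) (hF : ContDiffOn ℝ ∞ F O)
    (i : Fin 2) : ContDiffOn ℝ ∞ (pd i F) O :=
  (hF.fderiv_of_isOpen hO (m := ∞) (by simp)).clm_apply contDiffOn_const

private theorem MT3_met_sm {F : E2 → V4} {O : Set E2} (hO : IsOpen O) (hF : ContDiffOn ℝ ∞ F O) :
    ContDiffOn ℝ ∞ (met F) O := by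
  rw [contDiffOn_pi]
  intro a
  rw [contDiffOn_pi]
  intro b
  exact (MT3_pd_sm hO hF a).inner ℝ (MT3_pd_sm hO hF b)

private theorem MT3_met {F : E2 → V4} {O : Set E2} (hO : IsOpen O) (hF : ContDiffOn ℝ ∞ F O)
    {x : E2} (hx : x ∈ O) (r : ℕ) {Λ : ℝ} (h : ∀ j ≤ r + 1, ‖iteratedFDeriv ℝ j F x‖ ≤ Λ) :
    ‖iteratedFDeriv ℝ r (met F) x‖ ≤ 2 ^ r * Λ ^ 2 := by
  have h1 : ContDiffAt ℝ r (met F) x :=
    ((MT3_met_sm hO hF).contDiffAt (hO.mem_nhds hx)).of_le (by exact_mod_cast le_top)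
  have hp : (0 : ℝ) ≤ 2 ^ r * Λ ^ 2 := by positivity
  refine MT3_pi h1 hp fun a => ?_
  have h2 : ContDiffAt ℝ r (fun y => met F y a) x := (contDiffAt_pi.1 h1) a
  refine MT3_pi h2 hp fun b => ?_
  exact MT3_inner hO (MT3_pd_sm hO hF a) (MT3_pd_sm hO hF b) hx r
    (fun j hj => (MT3_pd hO hF hx a j).trans (h _ (by omega)))
    (fun j hj => (MT3_pd hO hF hx b j).trans (h _ (by omega)))

/-- coordinate covectors -/
private def MT3_coL (i : Fin 2) : E2 →L[ℝ] ℝ :=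
  if i = 0 then ContinuousLinearMap.fst ℝ ℝ ℝ else ContinuousLinearMap.snd ℝ ℝ ℝ

private theorem MT3_coL_apply (i : Fin 2) (v : E2) : MT3_coL i v = co v i := by
  fin_cases i <;> simp [MT3_coL, co]

/-- reconstruction of a bilinear form -/
private def MT3_R : T2 →L[ℝ] Bil :=
  ∑ i, ∑ j, ((ContinuousLinearMap.proj (R := ℝ) (φ := fun _ : Fin 2 => ℝ) j).comp
    (ContinuousLinearMap.proj (R := ℝ) (φ := fun _ : Fin 2 => (Fin 2 → ℝ)) i)).smulRight
      ((MT3_coL i).smulRight (MT3_coL j))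

private theorem MT3_R_bc (B : Bil) : MT3_R (bc B) = B := by
  refine ContinuousLinearMap.ext fun v => ContinuousLinearMap.ext fun w => ?_
  rw [MT3_expand B v w]
  simp only [MT3_R, ContinuousLinearMap.sum_apply, ContinuousLinearMap.smulRight_apply,
    ContinuousLinearMap.smul_apply, ContinuousLinearMap.comp_apply,
    ContinuousLinearMap.proj_apply, smul_eq_mul, MT3_coL_apply, bc]
  refine Finset.sum_congr rfl fun i _ => Finset.sum_congr rfl fun j _ => ?_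
  ring

/-- bounds of the metric of a map -/
theorem met_bd (r : ℕ) : ∃ C : ℕ, ∀ (Λ : ℝ) (F : E2 → V4), 1 ≤ Λ →
    ContDiffOn ℝ ∞ F (Metric.ball 0 4) → ∀ x ∈ Metric.closedBall (0 : E2) 3,
    (∀ j ≤ r + 1, ‖iteratedFDeriv ℝ j F x‖ ≤ Λ) →
    ‖iteratedFDeriv ℝ r (met F) x‖ ≤ C * Λ ^ 2 ∧ ‖iteratedFDeriv ℝ r (metrU F) x‖ ≤ C * Λ ^ 2 := by
  obtain ⟨N, hN⟩ := exists_nat_ge (max 1 ‖MT3_R‖)
  refine ⟨N * 2 ^ r, fun Λ F hΛ hF x hx h => ?_⟩
  have hO : IsOpen (Metric.ball (0 : E2) 4) := Metric.isOpen_ball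
  have hx4 : x ∈ Metric.ball (0 : E2) 4 := Metric.closedBall_subset_ball (by norm_num) hx
  have h1 := MT3_met hO hF hx4 r h
  have hp : (0 : ℝ) ≤ 2 ^ r * Λ ^ 2 := by positivity
  have hN1 : (1 : ℝ) ≤ N := (le_max_left _ _).trans hN
  push_cast
  refine ⟨?_, ?_⟩
  · refine h1.trans ?_
    nlinarith
  · have h2 : metrU F = MT3_R ∘ met F := by
      funext y
      rw [Function.comp_apply, ← bc_metrU, MT3_R_bc]
    have h3 : ContDiffAt ℝ r (met F) x :=
      ((MT3_met_sm hO hF).contDiffAt (hO.mem_nhds hx4)).of_le (by exact_mod_cast le_top)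
    rw [h2]
    refine (MT3_R.norm_iteratedFDeriv_comp_left h3 le_rfl).trans ?_
    calc ‖MT3_R‖ * ‖iteratedFDeriv ℝ r (met F) x‖ ≤ N * (2 ^ r * Λ ^ 2) :=
          mul_le_mul ((le_max_right _ _).trans hN) h1 (norm_nonneg _) (by positivity)
      _ = N * 2 ^ r * Λ ^ 2 := by ring

private theorem MT3_pd2 {G : E2 → V4} {x : E2} (hG : ContDiffAt ℝ 2 G x) (i j : Fin 2) :
    pd i (pd j G) x = fderiv ℝ (fderiv ℝ G) x (bv i) (bv j) := by
  have h1 : DifferentiableAt ℝ (fderiv ℝ G) x :=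
    (hG.fderiv_right (m := 1) (by norm_num)).differentiableAt (by norm_num)
  have h2 := (h1.hasFDerivAt.clm_apply (hasFDerivAt_const (bv j) x)).fderiv
  unfold pd
  rw [h2]
  simp

/-- the two-jet evaluated in a direction -/
private theorem MT3_Qv {G : E2 → V4} {x : E2} (hG : ContDiffAt ℝ 2 G x) (v : E2) :
    Qv (jet2 G x) v = ddv v G x := by
  rw [MD3_ddv hG]
  unfold Qv jet2
  simp_rw [MT3_pd2 hG]
  conv_rhs => rw [MT3_co v]
  simp only [map_add, map_smul, ContinuousLinearMap.add_apply, ContinuousLinearMap.smul_apply,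
    Fin.sum_univ_two, smul_add, smul_smul]
  module

private theorem MT3_nsq_le (v : E2) : nsq v ≤ 2 * ‖v‖ ^ 2 := by
  have h1 : |v.1| ≤ ‖v‖ := norm_fst_le v
  have h2 : |v.2| ≤ ‖v‖ := norm_snd_le v
  have h3 : v.1 ^ 2 ≤ ‖v‖ ^ 2 := by rw [← sq_abs v.1]; exact pow_le_pow_left₀ (abs_nonneg _) h1 2
  have h4 : v.2 ^ 2 ≤ ‖v‖ ^ 2 := by rw [← sq_abs v.2]; exact pow_le_pow_left₀ (abs_nonneg _) h2 2
  unfold nsq
  linarith

private theorem MT3_le_nsq (v : E2) : ‖v‖ ^ 2 ≤ nsq v := by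
  unfold nsq
  rw [Prod.norm_def]
  rcases le_total ‖v.1‖ ‖v.2‖ with h | h
  · rw [max_eq_right h, Real.norm_eq_abs, sq_abs]
    nlinarith [sq_nonneg v.1]
  · rw [max_eq_left h, Real.norm_eq_abs, sq_abs]
    nlinarith [sq_nonneg v.2]

/-- the hypotheses of theorem TL for a map near a nondegenerate one -/
theorem mapOK_of : ∃ m : ℕ, 1 ≤ m ∧ ∀ (Λ η : ℝ) (F G : E2 → V4), 1 ≤ Λ → 0 ≤ η →
    m * Λ ^ m * η ≤ 1 → ContDiffOn ℝ ∞ F (Metric.ball 0 4) → ContDiffOn ℝ ∞ G (Metric.ball 0 4) →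
    (∀ r ≤ 3, ∀ x ∈ Metric.closedBall (0 : E2) 3, ‖iteratedFDeriv ℝ r F x‖ ≤ Λ) →
    (∀ x ∈ Metric.closedBall (0 : E2) 3, ∀ v : E2, ‖v‖ ^ 2 ≤ Λ * metrU F x v v) →
    (∀ x ∈ Metric.closedBall (0 : E2) 3, ∃ v : E2, ‖v‖ = 1 ∧ 1 ≤ Λ * gramV F v x) →
    (∀ r ≤ 3, ∀ x ∈ Metric.closedBall (0 : E2) 3,
      ‖iteratedFDeriv ℝ r (fun y => G y - F y) x‖ ≤ η) →
    MapOK (m * Λ ^ m) (Metric.closedBall 0 3) G (met F) := by
  obtain ⟨C0, hC0⟩ := met_bd 0
  obtain ⟨C1, hC1⟩ := met_bd 1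
  refine ⟨16000 + C0 + C1, by omega, fun Λ η F G hΛ hη hm hF hG hFb hmet hgood hdif => ?_⟩
  set m : ℕ := 16000 + C0 + C1 with hmdef
  have hm16 : (16000 : ℝ) ≤ m := by
    rw [hmdef]
    push_cast
    have := Nat.cast_nonneg (α := ℝ) C0
    have := Nat.cast_nonneg (α := ℝ) C1
    linarith
  have hmC0 : (C0 : ℝ) ≤ m := by
    rw [hmdef]
    push_cast
    have := Nat.cast_nonneg (α := ℝ) C1
    linarith
  have hmC1 : (C1 : ℝ) ≤ m := by
    rw [hmdef]
    push_cast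
    have := Nat.cast_nonneg (α := ℝ) C0
    linarith
  have hΛ0 : 0 ≤ Λ := by linarith
  -- comparison with the constant
  have hL : ∀ (c : ℝ) (k : ℕ), 0 ≤ c → c ≤ m → k ≤ m → c * Λ ^ k ≤ m * Λ ^ m := fun c k h0 h1 h2 =>
    mul_le_mul h1 (pow_le_pow_right₀ hΛ h2) (pow_nonneg hΛ0 _) (h0.trans h1)
  have hη6 : 16000 * Λ ^ 6 * η ≤ 1 :=
    (mul_le_mul_of_nonneg_right (hL 16000 6 (by norm_num) hm16 (by omega)) hη).trans hm
  have hη1 : 16000 * Λ * η ≤ 1 := by
    have h1 := hL 16000 1 (by norm_num) hm16 (by omega)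
    rw [pow_one] at h1
    exact (mul_le_mul_of_nonneg_right h1 hη).trans hm
  have hηle : η ≤ 1 := by nlinarith
  have hLΛ : 8 * Λ ≤ m * Λ ^ m := by
    have h1 := hL 8 1 (by norm_num) (by linarith) (by omega)
    rwa [pow_one] at h1
  have hLΛ2 : Λ ^ 2 ≤ m * Λ ^ m := by
    have h1 := hL 1 2 (by norm_num) (by linarith) (by omega)
    rwa [one_mul] at h1
  have hO : IsOpen (Metric.ball (0 : E2) 4) := Metric.isOpen_ball
  have h34 : Metric.closedBall (0 : E2) 3 ⊆ Metric.ball (0 : E2) 4 :=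
    Metric.closedBall_subset_ball (by norm_num)
  have hFat : ∀ x ∈ Metric.closedBall (0 : E2) 3, ContDiffAt ℝ ∞ F x := fun x hx =>
    hF.contDiffAt (hO.mem_nhds (h34 hx))
  have hGat : ∀ x ∈ Metric.closedBall (0 : E2) 3, ContDiffAt ℝ ∞ G x := fun x hx =>
    hG.contDiffAt (hO.mem_nhds (h34 hx))
  have hGb : ∀ r ≤ 3, ∀ x ∈ Metric.closedBall (0 : E2) 3, ‖iteratedFDeriv ℝ r G x‖ ≤ 2 * Λ := by
    intro r hr x hx
    have h1 : iteratedFDeriv ℝ r (G - F) x = iteratedFDeriv ℝ r G x - iteratedFDeriv ℝ r F x :=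
      iteratedFDeriv_sub_apply ((hGat x hx).of_le (by exact_mod_cast le_top))
        ((hFat x hx).of_le (by exact_mod_cast le_top))
    have h2 : ‖iteratedFDeriv ℝ r (G - F) x‖ ≤ η := hdif r hr x hx
    have h3 := hFb r hr x hx
    have h4 : iteratedFDeriv ℝ r G x = iteratedFDeriv ℝ r (G - F) x + iteratedFDeriv ℝ r F x := by
      rw [h1]
      abel
    rw [h4]
    exact (norm_add_le _ _).trans (by linarith)
  have hmetF : ∀ (x v : E2), metrU F x v v = ‖fderiv ℝ F x v‖ ^ 2 := by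
    intro x v
    change inner ℝ (fderiv ℝ F x v) (fderiv ℝ F x v) = _
    exact real_inner_self_eq_norm_sq _
  refine ⟨fun x hx => ?_, fun r hr x hx => ?_, fun r hr x hx => ?_⟩
  · have hx4 := h34 hx
    have hF2 : ContDiffAt ℝ 2 F x := (hFat x hx).of_le (WithTop.coe_le_coe.2 le_top)
    have hG2 : ContDiffAt ℝ 2 G x := (hGat x hx).of_le (WithTop.coe_le_coe.2 le_top)
    have hpdF : ∀ i, ‖pd i F x‖ ≤ Λ := fun i =>
      (MD3_pd_norm F x i).trans (hFb 1 (by norm_num) x hx)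
    have hpdG : ∀ i, ‖pd i G x‖ ≤ 2 * Λ := fun i =>
      (MD3_pd_norm G x i).trans (hGb 1 (by norm_num) x hx)
    have h2L : 2 * Λ ≤ m * Λ ^ m := by linarith
    refine ⟨(hpdG 0).trans h2L, (hpdG 1).trans h2L, fun i j => ?_, ?_, fun i j => ?_, ?_,
      fun v => ?_, fun v => ?_, ?_⟩
    · have h1 := MT3_pd hO hG hx4 j 1
      have h2 := MD3_pd_norm (pd j G) x i
      exact (h2.trans (h1.trans (hGb 2 (by norm_num) x hx))).trans h2L
    · change pd 0 (pd 1 G) x = pd 1 (pd 0 G) x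
      rw [MT3_pd2 hG2, MT3_pd2 hG2]
      have h1 : IsSymmSndFDerivAt ℝ G x := hG2.isSymmSndFDerivAt (by simp)
      exact h1 (bv 0) (bv 1)
    · change |inner ℝ (pd i F x) (pd j F x)| ≤ _
      refine (abs_real_inner_le_norm _ _).trans ?_
      refine (mul_le_mul (hpdF i) (hpdF j) (norm_nonneg _) hΛ0).trans ?_
      rw [← pow_two]
      exact hLΛ2
    · exact real_inner_comm _ _
    · have h1 : v.1 • pd 0 G x + v.2 • pd 1 G x = fderiv ℝ G x v := (MD2_app _ v).symm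
      rw [h1]
      have h2 := hmet x hx v
      rw [hmetF] at h2
      have h3 : ‖fderiv ℝ F x v‖ ≤ ‖fderiv ℝ G x v‖ + η * ‖v‖ := by
        have h4 : fderiv ℝ (G - F) x = fderiv ℝ G x - fderiv ℝ F x :=
          fderiv_sub (hG2.differentiableAt (by norm_num)) (hF2.differentiableAt (by norm_num))
        have h5 : ‖iteratedFDeriv ℝ 1 (G - F) x‖ ≤ η := hdif 1 (by norm_num) x hx
        rw [norm_iteratedFDeriv_one, h4] at h5
        have h6 : ‖(fderiv ℝ G x - fderiv ℝ F x) v‖ ≤ η * ‖v‖ :=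
          (ContinuousLinearMap.le_opNorm _ _).trans
            (mul_le_mul_of_nonneg_right h5 (norm_nonneg _))
        have h7 : fderiv ℝ F x v = fderiv ℝ G x v - (fderiv ℝ G x - fderiv ℝ F x) v := by
          rw [sub_apply]
          abel
        rw [h7]
        exact (norm_sub_le _ _).trans (by linarith)
      have h8 := MT3_nsq_le v
      set a := ‖v‖ with ha
      set g := ‖fderiv ℝ G x v‖ with hg
      set f := ‖fderiv ℝ F x v‖ with hf
      have ha0 : 0 ≤ a := norm_nonneg _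
      have hg0 : 0 ≤ g := norm_nonneg _
      have hf0 : 0 ≤ f := norm_nonneg _
      have h9 : f ^ 2 ≤ 2 * g ^ 2 + 2 * (η * a) ^ 2 := by
        have h10 : f ^ 2 ≤ (g + η * a) ^ 2 := pow_le_pow_left₀ hf0 h3 2
        nlinarith [sq_nonneg (g - η * a)]
      have h11 : 4 * (Λ * η ^ 2) ≤ 1 := by
        have h12 : Λ * η ^ 2 ≤ Λ * η := mul_le_mul_of_nonneg_left (by nlinarith) hΛ0
        nlinarith [mul_nonneg hΛ0 hη]
      have h13 : a ^ 2 ≤ 4 * Λ * g ^ 2 := by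
        have h14 : Λ * f ^ 2 ≤ Λ * (2 * g ^ 2 + 2 * (η * a) ^ 2) :=
          mul_le_mul_of_nonneg_left h9 hΛ0
        have h15 : 4 * (Λ * η ^ 2) * a ^ 2 ≤ 1 * a ^ 2 :=
          mul_le_mul_of_nonneg_right h11 (sq_nonneg a)
        nlinarith
      have h16 : 8 * Λ * g ^ 2 ≤ m * Λ ^ m * g ^ 2 :=
        mul_le_mul_of_nonneg_right hLΛ (sq_nonneg g)
      linarith
    · have h1 : ∑ i, ∑ j, co v i * co v j * met F x i j = metrU F x v v :=
        (MT3_expand (metrU F x) v v).symm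
      rw [h1, hmetF]
      have h2 := hmet x hx v
      rw [hmetF] at h2
      have h3 := MT3_nsq_le v
      have h4 : 8 * Λ * ‖fderiv ℝ F x v‖ ^ 2 ≤ m * Λ ^ m * ‖fderiv ℝ F x v‖ ^ 2 :=
        mul_le_mul_of_nonneg_right hLΛ (sq_nonneg _)
      nlinarith [mul_nonneg hΛ0 (sq_nonneg ‖fderiv ℝ F x v‖)]
    · obtain ⟨v, hv, hgv⟩ := hgood x hx
      have hn1 : 1 ≤ nsq v := by
        have := MT3_le_nsq v
        rwa [hv, one_pow] at this
      have hn2 : nsq v ≤ 2 := by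
        have := MT3_nsq_le v
        rwa [hv, one_pow, mul_one] at this
      have hn0 : 0 < nsq v := by linarith
      -- the Gram determinant of `G`
      have hsub : |gramV G v x - gramV F v x| ≤ 1000 * Λ ^ 5 * η := by
        unfold gramV
        refine gram3_sub_le _ _ _ _ _ _ Λ η (hpdF 0) (hpdF 1)
          ((MD3_ddv_norm hF2 v hv).trans (hFb 2 (by norm_num) x hx)) ?_ ?_ ?_ hηle hΛ
        · rw [← MD3_pd_sub hF2 hG2 0]
          exact (MD3_pd_norm _ x 0).trans (hdif 1 (by norm_num) x hx)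
        · rw [← MD3_pd_sub hF2 hG2 1]
          exact (MD3_pd_norm _ x 1).trans (hdif 1 (by norm_num) x hx)
        · rw [← MD3_ddv_sub hF2 hG2 v]
          exact (MD3_ddv_norm (hG2.sub hF2) v hv).trans (hdif 2 (by norm_num) x hx)
      have hGg : 1 / 2 ≤ Λ * gramV G v x := by
        have h1 := (abs_le.1 hsub).1
        have h2 : Λ * (1000 * Λ ^ 5 * η) ≤ 1 / 2 := by
          have h3 : Λ * (1000 * Λ ^ 5 * η) = (16000 * Λ ^ 6 * η) / 16 := by ring
          rw [h3]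
          linarith
        have h4 : Λ * (gramV F v x - 1000 * Λ ^ 5 * η) ≤ Λ * gramV G v x :=
          mul_le_mul_of_nonneg_left (by linarith) hΛ0
        nlinarith
      have hG0 : 0 < gramV G v x := by
        by_contra hcon
        have := not_lt.1 hcon
        nlinarith
      refine ⟨(Real.sqrt (nsq v))⁻¹ • v, ?_, ?_⟩
      · have h1 : nsq ((Real.sqrt (nsq v))⁻¹ • v) = ((Real.sqrt (nsq v))⁻¹) ^ 2 * nsq v := by
          unfold nsq
          simp only [Prod.smul_fst, Prod.smul_snd, smul_eq_mul]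
          ring
        rw [h1, inv_pow, Real.sq_sqrt hn0.le, inv_mul_cancel₀ hn0.ne']
      · rw [MT3_Qv hG2]
        change 1 ≤ m * Λ ^ m * gramV G ((Real.sqrt (nsq v))⁻¹ • v) x
        rw [gramV_smul]
        have h1 : ((Real.sqrt (nsq v))⁻¹) ^ 4 = (nsq v ^ 2)⁻¹ := by
          rw [inv_pow]
          congr 1
          have : Real.sqrt (nsq v) ^ 4 = (Real.sqrt (nsq v) ^ 2) ^ 2 := by ring
          rw [this, Real.sq_sqrt hn0.le]
        rw [h1]
        have h2 : (1 / 4 : ℝ) ≤ (nsq v ^ 2)⁻¹ := by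
          rw [one_div]
          exact inv_anti₀ (by positivity) (by nlinarith)
        have h3 : 1 / 4 * gramV G v x ≤ (nsq v ^ 2)⁻¹ * gramV G v x :=
          mul_le_mul_of_nonneg_right h2 hG0.le
        calc (1 : ℝ) ≤ 8 * Λ * (1 / 4 * gramV G v x) := by linarith
          _ ≤ m * Λ ^ m * ((nsq v ^ 2)⁻¹ * gramV G v x) :=
            mul_le_mul hLΛ h3 (by positivity) (by linarith)
  · exact (hGb r hr x hx).trans (by linarith)
  · have hb : ∀ j ≤ r + 1, ‖iteratedFDeriv ℝ j F x‖ ≤ Λ := fun j hj => hFb j (by omega) x hx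
    interval_cases r
    · exact (hC0 Λ F hΛ hF x hx hb).1.trans (hL _ 2 (Nat.cast_nonneg _) hmC0 (by omega))
    · exact (hC1 Λ F hΛ hF x hx hb).1.trans (hL _ 2 (Nat.cast_nonneg _) hmC1 (by omega))

end P205F
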