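import Vale.Agent.Lib.P205F.CS

/-! # P205F module CS4: the four colours -/

open scoped ContDiff Topology
open Set

namespace P205F

/-- the sum of the four colour functions -/
theorem sum_colFun (PF : CellFun) {ρ : ℝ} (h0 : 0 < ρ) (h1 : ρ ≤ 1 / 20) {x : E2}
    (hx : ‖x‖ ≤ 27 / 10) : ∑ c : Bool × Bool, colFun PF ρ c x = 1 := by
  have e1 : ∑ c : Bool × Bool, colFun PF ρ c x =
      ∑ z ∈ cells ρ, PF.ψ (cellc ρ z x) ^ 2 := by
    unfold colFun
    exact Finset.sum_fiberwise (cells ρ) col fun z => PF.ψ (cellc ρ z x) ^ 2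
  rw [e1]
  have e2 : ∀ z : ℤ × ℤ, cellc ρ z x = ρ⁻¹ • x - ((z.1 : ℝ), (z.2 : ℝ)) := by
    intro z
    unfold cellc cen
    rw [smul_sub]
    congr 1
    ext
    · simp [h0.ne']
    · simp [h0.ne']
  have e3 : ∀ z : ℤ × ℤ, ρ • (ρ⁻¹ • x - ((z.1 : ℝ), (z.2 : ℝ))) = x - cen ρ z := by
    intro z
    rw [smul_sub, smul_smul, mul_inv_cancel₀ h0.ne', one_smul]
    rfl
  have e4 := PF.part (ρ⁻¹ • x) (cells ρ) (fun z hz => ?_)
  · rw [← e4]
    exact Finset.sum_congr rfl fun z _ => by rw [e2 z]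
  · have h2 : ‖x - cen ρ z‖ < 7 / 10 * ρ := by
      rw [← e3 z, norm_smul, Real.norm_eq_abs, abs_of_pos h0]
      nlinarith
    have h3 : ‖cen ρ z‖ ≤ 28 / 10 := by
      have h4 : cen ρ z = x - (x - cen ρ z) := by abel
      rw [h4]
      refine (norm_sub_le _ _).trans ?_
      nlinarith
    have h5 : |ρ * z.1| ≤ 28 / 10 := (norm_fst_le (cen ρ z)).trans h3
    have h6 : |ρ * z.2| ≤ 28 / 10 := (norm_snd_le (cen ρ z)).trans h3
    have h7 : ∀ n : ℤ, |ρ * n| ≤ 28 / 10 → -⌈28 / (10 * ρ)⌉ ≤ n ∧ n ≤ ⌈28 / (10 * ρ)⌉ := by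
      intro n hn
      rw [abs_le] at hn
      have h8 : (28 : ℝ) / (10 * ρ) ≤ ⌈28 / (10 * ρ)⌉ := Int.le_ceil _
      have h9 : (n : ℝ) ≤ 28 / (10 * ρ) := by
        rw [le_div_iff₀ (by positivity)]
        nlinarith [hn.2]
      have h10 : -(28 / (10 * ρ)) ≤ (n : ℝ) := by
        rw [neg_le, le_div_iff₀ (by positivity)]
        nlinarith [hn.1]
      constructor
      · have : -((⌈28 / (10 * ρ)⌉ : ℤ) : ℝ) ≤ (n : ℝ) := by linarith
        exact_mod_cast this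
      · exact_mod_cast h9.trans h8
    unfold cells
    rw [Finset.mem_filter, Finset.mem_product, Finset.mem_Icc, Finset.mem_Icc]
    exact ⟨⟨h7 _ h5, h7 _ h6⟩, h3⟩

/-- change of the setting -/
theorem CS4_conv {ι V : Type} [NormedAddCommGroup V] [NormedSpace ℝ V] {S T : Setting ι E2}
    {W : ι → E2 → ℝ} {u : ι → E2 → V} (hG : ∀ g ∈ S.G.mem, g ∈ T.G.mem)
    (hU : ∀ i, T.U i ⊆ S.U i) (hs : ∀ i, T.s i ≤ S.s i) (h : Bd S W u) : Bd T W u := by
  refine ⟨fun i => (h.1 i).mono (hU i), fun r => ?_⟩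
  obtain ⟨g, hg, hb⟩ := h.2 r
  refine ⟨g, hG g hg, fun i x hx => (hb i x (hU i hx)).trans ?_⟩
  have hW := h.nonneg i (hU i hx)
  have hg1 := S.G.one_le g hg i
  have h2 : (S.s i)⁻¹ ≤ (T.s i)⁻¹ := inv_anti₀ (T.s_pos i) (hs i)
  exact mul_le_mul_of_nonneg_left (pow_le_pow_left₀ (inv_nonneg.mpr (S.s_pos i).le) h2 r)
    (mul_nonneg (by linarith) hW)

open Classical in
/-- extension by zero to the excluded indices -/
theorem CS4_ext {ι V : Type} [NormedAddCommGroup V] [NormedSpace ℝ V] {S : Setting ι E2}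
    {W : ι → ℝ} (hW : ∀ i, 0 ≤ W i) {P : ι → Prop} {u : ι → E2 → V}
    (h : Bd (S.restrict P) (fun i _ => W i) u) :
    Bd S (fun i _ => W i) (fun i x => if P i then u i x else 0) := by
  refine ⟨fun i => ?_, fun r => ?_⟩
  · by_cases hi : P i
    · simp only [hi, if_true]
      refine (h.1 i).mono fun x hx => ⟨hx, hi⟩
    · simp only [hi, if_false]
      exact contDiffOn_const
  · obtain ⟨g, hg, hb⟩ := h.2 r
    refine ⟨g, hg, fun i x hx => ?_⟩
    by_cases hi : P i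
    · simp only [hi, if_true]
      exact hb i x ⟨hx, hi⟩
    · simp only [hi, if_false]
      have h0 : ‖iteratedFDeriv ℝ r (fun _ : E2 => (0 : V)) x‖ = 0 := by
        rw [iteratedFDeriv_fun_zero, Pi.zero_apply, norm_zero]
      rw [h0]
      have h1 : 1 ≤ g i := S.G.one_le g hg i
      have h2 : 0 ≤ (S.s i)⁻¹ ^ r := pow_nonneg (inv_nonneg.mpr (S.s_pos i).le) r
      exact mul_nonneg (mul_nonneg (by linarith) (hW i)) h2

/-- the data after one colour -/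
noncomputable def ColH.next {C0 m0 P : ℕ} {ι : Type} (D : ColH C0 m0 P ι) (w : ι → E2 → V4)
    (h1 : ∀ i, ContDiffOn ℝ ∞ (w i) (Metric.ball 0 (29 / 10)))
    (h2 : ∀ i, Real.sqrt (D.δ i) ≤ D.q i * (D.q i * D.s i))
    (h3 : ∀ i, ∀ r ≤ 2, ∀ x ∈ Metric.ball (0 : E2) (29 / 10),
      ‖iteratedFDeriv ℝ r (fun y => (D.Fm i y + w i y) - D.F0 i y) x‖ ≤ nu C0 m0 (D.Lam i)) :
    ColH C0 m0 P ι :=
  { D with
    s := fun i => D.q i * D.s i
    Fm := fun i x => D.Fm i x + w i x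
    s_pos := D.e_pos
    s_le := D.e_le_one
    d_le := h2
    Fm_sm := fun i => (D.Fm_sm i).add (h1 i)
    close := h3 }

/-- the second derivatives of a sum -/
theorem CS4_fderiv2 {u v : E2 → V4} {U : Set E2} (hU : IsOpen U) (hu : ContDiffOn ℝ ∞ u U)
    (hv : ContDiffOn ℝ ∞ v U) {x : E2} (hx : x ∈ U) :
    fderiv ℝ (fun y => u y + v y) x = fderiv ℝ u x + fderiv ℝ v x ∧
    fderiv ℝ (fun y => fderiv ℝ (fun z => u z + v z) y) x =
      fderiv ℝ (fun y => fderiv ℝ u y) x + fderiv ℝ (fun y => fderiv ℝ v y) x := by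
  have h1 : ∀ y ∈ U, fderiv ℝ (fun z => u z + v z) y = fderiv ℝ u y + fderiv ℝ v y := by
    intro y hy
    exact fderiv_fun_add ((hu.contDiffAt (hU.mem_nhds hy)).differentiableAt (by simp))
      ((hv.contDiffAt (hU.mem_nhds hy)).differentiableAt (by simp))
  refine ⟨h1 x hx, ?_⟩
  have h2 : (fun y => fderiv ℝ (fun z => u z + v z) y) =ᶠ[𝓝 x]
      fun y => fderiv ℝ u y + fderiv ℝ v y := by
    filter_upwards [hU.mem_nhds hx] with y hy
    exact h1 y hy
  rw [h2.fderiv_eq]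
  have h3 : ContDiffOn ℝ ∞ (fun y => fderiv ℝ u y) U := hu.fderiv_of_isOpen hU (by norm_cast)
  have h4 : ContDiffOn ℝ ∞ (fun y => fderiv ℝ v y) U := hv.fderiv_of_isOpen hU (by norm_cast)
  exact fderiv_fun_add ((h3.contDiffAt (hU.mem_nhds hx)).differentiableAt (by simp))
    ((h4.contDiffAt (hU.mem_nhds hx)).differentiableAt (by simp))

/-- the properties of one colour step at a good index -/
def CS4_prop {C0 m0 P : ℕ} {ι : Type} (PF : CellFun) (D : ColH C0 m0 P ι) (c : Bool × Bool)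
    (w : ι → E2 → V4) (er : ι → E2 → T2) (i : ι) : Prop :=
  ContDiff ℝ ∞ (w i) ∧ ContDiff ℝ ∞ (er i) ∧
    (∀ x, x ∉ tsupport (D.kap i) → w i x = 0 ∧ er i x = 0) ∧
    (∀ x k m, er i x k m = er i x m k) ∧
    ∀ x ∈ Metric.ball (0 : E2) (29 / 10), ∀ k m,
      met (fun y => D.Fm i y + w i y) x k m = met (D.Fm i) x k m
        + colFun PF (D.ρ i) c x * D.psi i x ^ 2 * D.Hm i x k m + er i x k m

/-- the conclusion of the colour step -/
def CS4_concl {C0 m0 P : ℕ} {ι : Type} (PF : CellFun) (D : ColH C0 m0 P ι) (c : Bool × Bool) :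
    Prop :=
  ∃ g0 ∈ D.S.G.mem, ∃ w : ι → E2 → V4, ∃ er : ι → E2 → T2,
    Bd (D.S' g0) (fun i _ => Real.sqrt (D.δ i) * D.e i) w ∧
    Bd (D.S' g0) (fun i _ => D.δ i * Real.sqrt (D.δ i) / D.e i) er ∧
    ∀ i, g0 i * D.q i ≤ 1 → CS4_prop PF D c w er i

theorem CS4_sqrt {C0 m0 P : ℕ} (hP : 1000 ≤ P) {ι : Type} (D : ColH C0 m0 P ι)
    (hs : ∀ i, D.q i ^ 34 ≤ D.s i) (i : ι) :
    Real.sqrt (D.δ i) ≤ D.q i * (D.q i * D.s i) := by
  have q0 := D.q_pos i
  have q1 := D.q_lt i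
  have h1 : D.δ i ≤ (D.q i ^ 36) ^ 2 := by
    rw [← D.q_pow i, ← pow_mul]
    exact pow_le_pow_of_le_one q0.le q1.le (by omega)
  have h2 : Real.sqrt (D.δ i) ≤ D.q i ^ 36 := by
    rw [Real.sqrt_le_left (by positivity)]
    exact h1
  refine h2.trans ?_
  have h3 := hs i
  calc D.q i ^ 36 = D.q i ^ 2 * D.q i ^ 34 := by ring
    _ ≤ D.q i ^ 2 * D.s i := mul_le_mul_of_nonneg_left h3 (by positivity)
    _ = D.q i * (D.q i * D.s i) := by ring

open Classical in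
theorem CS4_step (PF : CellFun) {C0 m0 P : ℕ} (hC0 : 20 ≤ C0) (hP : 1000 ≤ P) {ι : Type}
    (D : ColH C0 m0 P ι) (hB : D.Bds) (c : Bool × Bool) (H : CS4_concl PF D c)
    (hs : ∀ i, D.q i ^ 34 ≤ D.s i) (η : ℝ) (hη : η + 1 / 8 ≤ 1)
    (hcl : ∀ i, ∀ r ≤ 2, ∀ x ∈ Metric.ball (0 : E2) (29 / 10),
      ‖iteratedFDeriv ℝ r (fun y => D.Fm i y - D.F0 i y) x‖ ≤ η * nu C0 m0 (D.Lam i)) :
    ∃ g ∈ D.S.G.mem, ∃ (w : ι → E2 → V4) (er : ι → E2 → T2)
      (h1 : ∀ i, ContDiffOn ℝ ∞ (w i) (Metric.ball 0 (29 / 10)))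
      (h2 : ∀ i, Real.sqrt (D.δ i) ≤ D.q i * (D.q i * D.s i))
      (h3 : ∀ i, ∀ r ≤ 2, ∀ x ∈ Metric.ball (0 : E2) (29 / 10),
        ‖iteratedFDeriv ℝ r (fun y => (D.Fm i y + w i y) - D.F0 i y) x‖ ≤ nu C0 m0 (D.Lam i)),
      (D.next w h1 h2 h3).Bds ∧
      (∀ i, ∀ r ≤ 2, ∀ x ∈ Metric.ball (0 : E2) (29 / 10),
        ‖iteratedFDeriv ℝ r (fun y => (D.Fm i y + w i y) - D.F0 i y) x‖ ≤
          (η + 1 / 8) * nu C0 m0 (D.Lam i)) ∧
      Bd (D.S' g) (fun i _ => Real.sqrt (D.δ i) * D.e i) w ∧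
      Bd (D.S' g) (fun i _ => D.δ i * Real.sqrt (D.δ i) / D.e i) er ∧
      ∀ i, g i * D.q i ≤ 1 → CS4_prop PF D c w er i := by
  obtain ⟨g0, hg0, w, er, hw, her, hp⟩ := H
  obtain ⟨k0, hk0, hb0⟩ := hw.2 0
  obtain ⟨k1, hk1, hb1⟩ := hw.2 1
  obtain ⟨k2, hk2, hb2⟩ := hw.2 2
  have hC1 : (1 : ℝ) ≤ 8 * (C0 : ℝ) := by
    have h20 : (20 : ℝ) ≤ C0 := by exact_mod_cast hC0
    linarith
  have hcst : (fun _ => 8 * (C0 : ℝ) : ι → ℝ) ∈ D.S.G.mem := D.S.G.const _ hC1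
  have hlam : (fun i => D.Lam i ^ m0) ∈ D.S.G.mem := GTmem.lam D.hL D.d_pos D.d_le1 m0
  have hk : (fun i => k0 i * k1 i * k2 i) ∈ D.S.G.mem :=
    D.S.G.mul _ (D.S.G.mul _ hk0 _ hk1) _ hk2
  let g : ι → ℝ := fun i => g0 i * ((k0 i * k1 i * k2 i) * (8 * (C0 : ℝ) * D.Lam i ^ m0))
  have hg : g ∈ D.S.G.mem := D.S.G.mul _ hg0 _ (D.S.G.mul _ hk _ (D.S.G.mul _ hcst _ hlam))
  have a0 : ∀ i, 1 ≤ g0 i := D.S.G.one_le _ hg0
  have a1 : ∀ i, 1 ≤ k0 i := D.S.G.one_le _ hk0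
  have a2 : ∀ i, 1 ≤ k1 i := D.S.G.one_le _ hk1
  have a3 : ∀ i, 1 ≤ k2 i := D.S.G.one_le _ hk2
  have a4 : ∀ i, 1 ≤ D.Lam i ^ m0 := D.S.G.one_le _ hlam
  have ak : ∀ i, 1 ≤ k0 i * k1 i * k2 i := D.S.G.one_le _ hk
  have q0 := D.q_pos
  have hν : ∀ i, 0 < nu C0 m0 (D.Lam i) := by
    intro i
    unfold nu
    have h20 : (20 : ℝ) ≤ C0 := by exact_mod_cast hC0
    have := a4 i
    positivity
  -- good indices
  have hgg : ∀ i, g i * D.q i ≤ 1 → g0 i * D.q i ≤ 1 := by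
    intro i hi
    refine le_trans ?_ hi
    refine mul_le_mul_of_nonneg_right ?_ (q0 i).le
    have h1 : 1 ≤ (k0 i * k1 i * k2 i) * (8 * (C0 : ℝ) * D.Lam i ^ m0) :=
      one_le_mul_of_one_le_of_one_le (ak i) (one_le_mul_of_one_le_of_one_le hC1 (a4 i))
    exact le_mul_of_one_le_right (by linarith [a0 i]) h1
  have hqk : ∀ i, g i * D.q i ≤ 1 → (k0 i * k1 i * k2 i) * D.q i ≤ nu C0 m0 (D.Lam i) / 8 := by
    intro i hi
    have h20 : (20 : ℝ) ≤ C0 := by exact_mod_cast hC0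
    have hpos : 0 < (C0 : ℝ) * D.Lam i ^ m0 := by
      have := a4 i
      positivity
    have h1 : (k0 i * k1 i * k2 i) * D.q i * (8 * (C0 * D.Lam i ^ m0)) ≤ 1 := by
      have h2 : (k0 i * k1 i * k2 i) * D.q i * (8 * (C0 * D.Lam i ^ m0)) ≤ g i * D.q i := by
        have h3 : g i * D.q i =
            g0 i * ((k0 i * k1 i * k2 i) * D.q i * (8 * (C0 * D.Lam i ^ m0))) := by
          show g0 i * ((k0 i * k1 i * k2 i) * (8 * (C0 : ℝ) * D.Lam i ^ m0)) * D.q i = _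
          ring
        rw [h3]
        refine le_mul_of_one_le_left ?_ (a0 i)
        have := ak i
        have := q0 i
        positivity
      exact h2.trans hi
    unfold nu
    rw [div_eq_mul_inv, ← mul_inv, ← one_div, le_div_iff₀ (by positivity)]
    calc (k0 i * k1 i * k2 i) * D.q i * (C0 * D.Lam i ^ m0 * 8)
        = (k0 i * k1 i * k2 i) * D.q i * (8 * (C0 * D.Lam i ^ m0)) := by ring
      _ ≤ 1 := h1
  -- the extended perturbation
  let w' : ι → E2 → V4 := fun i x => if g i * D.q i ≤ 1 then w i x else 0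
  have hgood : ∀ i, g i * D.q i ≤ 1 → w' i = w i := by
    intro i hi
    funext x
    simp only [w', hi, if_true]
  have hbad : ∀ i, ¬ g i * D.q i ≤ 1 → w' i = fun _ => 0 := by
    intro i hi
    funext x
    simp only [w', hi, if_false]
  have hwsm : ∀ i, ContDiff ℝ ∞ (w' i) := by
    intro i
    by_cases hi : g i * D.q i ≤ 1
    · rw [hgood i hi]
      exact (hp i (hgg i hi)).1
    · rw [hbad i hi]
      exact contDiff_const
  have h2 := CS4_sqrt hP D hs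
  have hwr : ∀ i, ∀ r ≤ 2, ∀ x ∈ Metric.ball (0 : E2) (29 / 10),
      ‖iteratedFDeriv ℝ r (w' i) x‖ ≤ nu C0 m0 (D.Lam i) / 8 := by
    intro i r hr x hx
    by_cases hi : g i * D.q i ≤ 1
    · rw [hgood i hi]
      have hx' : x ∈ (D.S' g0).U i := ⟨hx, hgg i hi⟩
      have e0 := D.e_pos i
      have e1 := D.e_le_one i
      have s0 : 0 ≤ Real.sqrt (D.δ i) := Real.sqrt_nonneg _
      have i1 : 1 ≤ (D.e i)⁻¹ := (one_le_inv₀ e0).mpr e1
      have hse : Real.sqrt (D.δ i) * (D.e i)⁻¹ ≤ D.q i := by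
        rw [← div_eq_mul_inv, div_le_iff₀ e0]
        exact h2 i
      have key : ∀ k : ι → ℝ, (∀ i, 1 ≤ k i) → (k i ≤ k0 i * k1 i * k2 i) →
          ‖iteratedFDeriv ℝ r (w i) x‖ ≤ k i * (Real.sqrt (D.δ i) * D.e i) * (D.e i)⁻¹ ^ r →
          ‖iteratedFDeriv ℝ r (w i) x‖ ≤ nu C0 m0 (D.Lam i) / 8 := by
        intro k hk1' hkk hb
        have b1 : D.e i * (D.e i)⁻¹ ^ r ≤ (D.e i)⁻¹ := by
          interval_cases r
          · rw [pow_zero, mul_one]
            exact e1.trans i1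
          · rw [pow_one, mul_inv_cancel₀ e0.ne']
            exact i1
          · rw [pow_two, ← mul_assoc, mul_inv_cancel₀ e0.ne', one_mul]
        have b2 : k i * (Real.sqrt (D.δ i) * D.e i) * (D.e i)⁻¹ ^ r ≤ k i * D.q i := by
          calc k i * (Real.sqrt (D.δ i) * D.e i) * (D.e i)⁻¹ ^ r
              = k i * (Real.sqrt (D.δ i) * (D.e i * (D.e i)⁻¹ ^ r)) := by ring
            _ ≤ k i * (Real.sqrt (D.δ i) * (D.e i)⁻¹) := by
                refine mul_le_mul_of_nonneg_left ?_ (by linarith [hk1' i])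
                exact mul_le_mul_of_nonneg_left b1 s0
            _ ≤ k i * D.q i := mul_le_mul_of_nonneg_left hse (by linarith [hk1' i])
        refine (hb.trans b2).trans (le_trans ?_ (hqk i hi))
        exact mul_le_mul_of_nonneg_right hkk (q0 i).le
      interval_cases r
      · refine key k0 a1 ?_ (hb0 i x hx')
        rw [mul_assoc]
        exact le_mul_of_one_le_right (by linarith [a1 i])
          (one_le_mul_of_one_le_of_one_le (a2 i) (a3 i))
      · refine key k1 a2 ?_ (hb1 i x hx')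
        have : k0 i * k1 i * k2 i = k1 i * (k0 i * k2 i) := by ring
        rw [this]
        exact le_mul_of_one_le_right (by linarith [a2 i])
          (one_le_mul_of_one_le_of_one_le (a1 i) (a3 i))
      · refine key k2 a3 ?_ (hb2 i x hx')
        exact le_mul_of_one_le_left (by linarith [a3 i])
          (one_le_mul_of_one_le_of_one_le (a1 i) (a2 i))
    · rw [hbad i hi]
      have h0 : ‖iteratedFDeriv ℝ r (fun _ : E2 => (0 : V4)) x‖ = 0 := by
        rw [iteratedFDeriv_fun_zero, Pi.zero_apply, norm_zero]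
      rw [h0]
      exact div_nonneg (hν i).le (by norm_num)
  have hcl' : ∀ i, ∀ r ≤ 2, ∀ x ∈ Metric.ball (0 : E2) (29 / 10),
      ‖iteratedFDeriv ℝ r (fun y => (D.Fm i y + w' i y) - D.F0 i y) x‖ ≤
        (η + 1 / 8) * nu C0 m0 (D.Lam i) := by
    intro i r hr x hx
    have hx4 : x ∈ Metric.ball (0 : E2) 4 := Metric.ball_subset_ball (by norm_num) hx
    have f1 : (fun y => (D.Fm i y + w' i y) - D.F0 i y) =
        fun y => (D.Fm i y - D.F0 i y) + w' i y := by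
      funext y
      abel
    have f2 : ContDiffAt ℝ r (fun y => D.Fm i y - D.F0 i y) x := by
      have g1 := (D.Fm_sm i).contDiffAt (Metric.isOpen_ball.mem_nhds hx)
      have g2 := (D.smF i).contDiffAt (Metric.isOpen_ball.mem_nhds hx4)
      exact (g1.sub g2).of_le (by exact_mod_cast le_top)
    have f3 : ContDiffAt ℝ r (w' i) x := (hwsm i).contDiffAt.of_le (by exact_mod_cast le_top)
    have f4 : iteratedFDeriv ℝ r (fun y => (D.Fm i y - D.F0 i y) + w' i y) x =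
        iteratedFDeriv ℝ r (fun y => D.Fm i y - D.F0 i y) x + iteratedFDeriv ℝ r (w' i) x :=
      iteratedFDeriv_add_apply f2 f3
    rw [f1, f4]
    refine (norm_add_le _ _).trans ?_
    have g1 := hcl i r hr x hx
    have g2 := hwr i r hr x hx
    linarith
  have h3 : ∀ i, ∀ r ≤ 2, ∀ x ∈ Metric.ball (0 : E2) (29 / 10),
      ‖iteratedFDeriv ℝ r (fun y => (D.Fm i y + w' i y) - D.F0 i y) x‖ ≤ nu C0 m0 (D.Lam i) := by
    intro i r hr x hx
    refine (hcl' i r hr x hx).trans ?_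
    exact mul_le_of_le_one_left (hν i).le hη
  have hwb : Bd (D.S' g) (fun i _ => Real.sqrt (D.δ i) * D.e i) w :=
    CS4_conv (S := D.S' g0) (T := D.S' g) (fun g hg => hg)
      (fun i x hx => ⟨hx.1, hgg i hx.2⟩) (fun _ => le_rfl) hw
  have hwb' : Bd (D.S' g) (fun i _ => Real.sqrt (D.δ i) * D.e i) w' :=
    hwb.congr fun i x hx => by rw [hgood i hx.2]
  refine ⟨g, hg, w', er, fun i => (hwsm i).contDiffOn, h2, h3, ?_, hcl', hwb', ?_, ?_⟩
  · -- the bounds at the next scale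
    set D' := D.next w' (fun i => (hwsm i).contDiffOn) h2 h3 with hD'
    have hsc : ∀ i, D'.S.s i ≤ D.S.s i := by
      intro i
      show D.q i * D.s i ≤ D.s i
      exact mul_le_of_le_one_left (D.s_pos i).le (D.q_lt i).le
    have cv : ∀ {V : Type} [NormedAddCommGroup V] [NormedSpace ℝ V] {W : ι → E2 → ℝ}
        {u : ι → E2 → V}, Bd D.S W u → Bd D'.S W u := fun h =>
      CS4_conv (S := D.S) (T := D'.S) (fun g hg => hg) (fun i => subset_rfl) hsc h
    -- the extended perturbation at the next scale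
    have hwe : Bd D'.S (fun i _ => Real.sqrt (D.δ i) * D.e i) w' := by
      refine ⟨fun i => (hwsm i).contDiffOn, fun r => ?_⟩
      obtain ⟨k, hk, hb⟩ := hwb'.2 r
      refine ⟨k, hk, fun i x hx => ?_⟩
      by_cases hi : g i * D.q i ≤ 1
      · exact hb i x ⟨hx, hi⟩
      · rw [hbad i hi]
        have h0 : ‖iteratedFDeriv ℝ r (fun _ : E2 => (0 : V4)) x‖ = 0 := by
          rw [iteratedFDeriv_fun_zero, Pi.zero_apply, norm_zero]
        rw [h0]
        have h1 : 1 ≤ k i := D.S.G.one_le k hk i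
        have h4 : 0 ≤ (D'.S.s i)⁻¹ ^ r := pow_nonneg (inv_nonneg.mpr (D'.S.s_pos i).le) r
        have h5 : 0 ≤ Real.sqrt (D.δ i) * D.e i := mul_nonneg (Real.sqrt_nonneg _) (D.e_pos i).le
        exact mul_nonneg (mul_nonneg (by linarith) h5) h4
    have sq1 : ∀ i, Real.sqrt (D.δ i) ≤ 1 := fun i =>
      (D.d_le i).trans (D.e_le_one i)
    have hd1 : Bd D'.S (fun _ _ => 1) (fun i x => fderiv ℝ (w' i) x) := by
      refine hwe.fderiv.mono (D.S.G.const 1 le_rfl) fun i x _ => ?_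
      show Real.sqrt (D.δ i) * D.e i * (D.q i * D.s i)⁻¹ ≤ 1 * 1
      have : Real.sqrt (D.δ i) * D.e i * (D.q i * D.s i)⁻¹ = Real.sqrt (D.δ i) := by
        rw [mul_assoc]
        have : D.e i * (D.q i * D.s i)⁻¹ = 1 := mul_inv_cancel₀ (D.e_pos i).ne'
        rw [this, mul_one]
      rw [this, mul_one]
      exact sq1 i
    have hd2 : Bd D'.S (fun _ _ => 1) (fun i x => fderiv ℝ (fun y => fderiv ℝ (w' i) y) x) := by
      refine hwe.fderiv.fderiv.mono (D.S.G.const 1 le_rfl) fun i x _ => ?_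
      show Real.sqrt (D.δ i) * D.e i * (D.q i * D.s i)⁻¹ * (D.q i * D.s i)⁻¹ ≤ 1 * 1
      have h6 : Real.sqrt (D.δ i) * D.e i * (D.q i * D.s i)⁻¹ * (D.q i * D.s i)⁻¹ =
          Real.sqrt (D.δ i) * (D.q i * D.s i)⁻¹ := by
        have : D.e i * (D.q i * D.s i)⁻¹ = 1 := mul_inv_cancel₀ (D.e_pos i).ne'
        rw [mul_assoc (Real.sqrt (D.δ i)), this, mul_one]
      rw [h6, mul_one, ← div_eq_mul_inv]
      show Real.sqrt (D.δ i) / D.e i ≤ 1
      rw [div_le_one (D.e_pos i)]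
      exact D.d_le i
    refine ⟨?_, ?_, ?_, ?_, ?_⟩
    · refine ((cv hB.F1).add hd1).congr fun i x hx => ?_
      exact (CS4_fderiv2 Metric.isOpen_ball (D.Fm_sm i) (hwsm i).contDiffOn hx).1
    · refine ((cv hB.F2).add hd2).congr fun i x hx => ?_
      exact (CS4_fderiv2 Metric.isOpen_ball (D.Fm_sm i) (hwsm i).contDiffOn hx).2
    · exact cv hB.H
    · intro n hn
      obtain ⟨θ, hθ, h⟩ := hB.flat n hn
      exact ⟨θ, cv hθ, h⟩
    · exact cv hB.kap
  · exact CS4_conv (S := D.S' g0) (T := D.S' g) (fun g hg => hg)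
      (fun i x hx => ⟨hx.1, hgg i hx.2⟩) (fun _ => le_rfl) her
  · intro i hi
    have h := hp i (hgg i hi)
    unfold CS4_prop at h ⊢
    rw [hgood i hi]
    exact h

/-- nested settings: from the setting of a step to the final one -/
theorem CS4_final {C0 m0 P : ℕ} {ι V : Type} [NormedAddCommGroup V] [NormedSpace ℝ V]
    (D D' : ColH C0 m0 P ι) (hL : D'.Lam = D.Lam) (hδ : D'.δ = D.δ) (hq : D'.q = D.q)
    (e0 : ∀ i, 0 < D.q i ^ 4 * D.s i) (e1 : ∀ i, D.q i ^ 4 * D.s i ≤ 1)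
    (he : ∀ i, D.q i ^ 4 * D.s i ≤ D'.e i) {g g0 : ι → ℝ}
    (hgg : ∀ i, g0 i * D.q i ≤ 1 → g i * D.q i ≤ 1) {W : ι → E2 → ℝ} {u : ι → E2 → V}
    (h : Bd (D'.S' g) W u) :
    Bd ((D.S.restrict (fun i => g0 i * D.q i ≤ 1)).rescale (fun i => D.q i ^ 4 * D.s i) e0 e1)
      W u := by
  refine CS4_conv (S := D'.S' g) ?_ ?_ he h
  · intro f hf
    have hf' : GTmem D'.Lam D'.δ f := hf
    rw [hL, hδ] at hf'
    exact hf'
  · intro i x hx
    refine ⟨hx.1, ?_⟩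
    show g i * D'.q i ≤ 1
    rw [hq]
    exact hgg i hx.2

theorem CS4_fd {ι : Type} {S : Setting ι E2} {W : ι → ℝ} {w : ι → E2 → V4}
    (h : Bd S (fun i _ => W i * S.s i) w) :
    Bd S (fun i _ => W i) (fun i x => fderiv ℝ (w i) x) := by
  refine h.fderiv.mono (S.G.const 1 le_rfl) fun i x _ => ?_
  show W i * S.s i * (S.s i)⁻¹ ≤ 1 * W i
  rw [mul_assoc, mul_inv_cancel₀ (S.s_pos i).ne', mul_one, one_mul]

theorem fourCol (PF : CellFun) : ∃ C0 m0 : ℕ, 20 ≤ C0 ∧ ∀ P : ℕ, 1000 ≤ P → ∀ (ι : Type)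
    (D : ColH C0 m0 P ι), D.Bds → (∀ i, D.q i ^ 30 ≤ D.s i) →
      (∀ i, ∀ r ≤ 2, ∀ x ∈ Metric.ball (0 : E2) (29 / 10),
        ‖iteratedFDeriv ℝ r (fun y => D.Fm i y - D.F0 i y) x‖ ≤ nu C0 m0 (D.Lam i) / 2) →
      ∃ g0 ∈ D.S.G.mem, ∃ w : ι → E2 → V4, ∃ er : ι → E2 → T2,
        ∃ (e0 : ∀ i, 0 < D.q i ^ 4 * D.s i) (e1 : ∀ i, D.q i ^ 4 * D.s i ≤ 1),
        Bd ((D.S.restrict (fun i => g0 i * D.q i ≤ 1)).rescale (fun i => D.q i ^ 4 * D.s i) e0 e1)
          (fun i _ => Real.sqrt (D.δ i)) w ∧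
        Bd ((D.S.restrict (fun i => g0 i * D.q i ≤ 1)).rescale (fun i => D.q i ^ 4 * D.s i) e0 e1)
          (fun i _ => Real.sqrt (D.δ i)) (fun i x => fderiv ℝ (w i) x) ∧
        Bd ((D.S.restrict (fun i => g0 i * D.q i ≤ 1)).rescale (fun i => D.q i ^ 4 * D.s i) e0 e1)
          (fun i _ => D.δ i * Real.sqrt (D.δ i) / (D.q i ^ 4 * D.s i)) er ∧
        ∀ i, g0 i * D.q i ≤ 1 → ContDiff ℝ ∞ (w i) ∧ ContDiff ℝ ∞ (er i) ∧
          (∀ x, x ∉ tsupport (D.kap i) → w i x = 0 ∧ er i x = 0) ∧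
          (∀ x k m, er i x k m = er i x m k) ∧
          ∀ x ∈ Metric.ball (0 : E2) (29 / 10), ∀ k m,
            met (fun y => D.Fm i y + w i y) x k m = met (D.Fm i) x k m
              + D.psi i x ^ 2 * D.Hm i x k m + er i x k m := by
  obtain ⟨C0, m0, hC0, hcol⟩ := colourStep PF
  refine ⟨C0, m0, hC0, fun P hP ι D hB hs hcl => ?_⟩
  have hP1 : 1 ≤ P := by omega
  have q0 := D.q_pos
  have q1 := fun i => (D.q_lt i).le
  have sp := D.s_pos
  -- step 1
  obtain ⟨g1, hg1, w1, r1, a1, b1, c1, B1, cl1, wb1, rb1, p1⟩ :=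
    CS4_step PF hC0 hP D hB (false, false) (hcol P hP1 ι D hB (false, false))
      (fun i => (pow_le_pow_of_le_one (q0 i).le (q1 i) (by norm_num)).trans (hs i)) (1 / 2)
      (by norm_num) (fun i r hr x hx => (hcl i r hr x hx).trans (le_of_eq (by ring)))
  set D1 := D.next w1 a1 b1 c1 with hD1
  have s1 : ∀ i, D1.s i = D.q i * D.s i := fun _ => rfl
  obtain ⟨g2, hg2, w2, r2, a2, b2, c2, B2, cl2, wb2, rb2, p2⟩ :=
    CS4_step PF hC0 hP D1 B1 (false, true) (hcol P hP1 ι D1 B1 (false, true))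
      (fun i => by
        show D.q i ^ 34 ≤ D.q i * D.s i
        calc D.q i ^ 34 ≤ D.q i ^ 31 := pow_le_pow_of_le_one (q0 i).le (q1 i) (by norm_num)
          _ = D.q i * D.q i ^ 30 := by ring
          _ ≤ D.q i * D.s i := mul_le_mul_of_nonneg_left (hs i) (q0 i).le) (1 / 2 + 1 / 8)
      (by norm_num) cl1
  set D2 := D1.next w2 a2 b2 c2 with hD2
  obtain ⟨g3, hg3, w3, r3, a3, b3, c3, B3, cl3, wb3, rb3, p3⟩ :=
    CS4_step PF hC0 hP D2 B2 (true, false) (hcol P hP1 ι D2 B2 (true, false))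
      (fun i => by
        show D.q i ^ 34 ≤ D.q i * (D.q i * D.s i)
        calc D.q i ^ 34 ≤ D.q i ^ 32 := pow_le_pow_of_le_one (q0 i).le (q1 i) (by norm_num)
          _ = D.q i * (D.q i * D.q i ^ 30) := by ring
          _ ≤ D.q i * (D.q i * D.s i) := mul_le_mul_of_nonneg_left
            (mul_le_mul_of_nonneg_left (hs i) (q0 i).le) (q0 i).le) (1 / 2 + 1 / 8 + 1 / 8)
      (by norm_num) cl2
  set D3 := D2.next w3 a3 b3 c3 with hD3
  obtain ⟨g4, hg4, w4, r4, a4, b4, c4, B4, cl4, wb4, rb4, p4⟩ :=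
    CS4_step PF hC0 hP D3 B3 (true, true) (hcol P hP1 ι D3 B3 (true, true))
      (fun i => by
        show D.q i ^ 34 ≤ D.q i * (D.q i * (D.q i * D.s i))
        calc D.q i ^ 34 ≤ D.q i ^ 33 := pow_le_pow_of_le_one (q0 i).le (q1 i) (by norm_num)
          _ = D.q i * (D.q i * (D.q i * D.q i ^ 30)) := by ring
          _ ≤ D.q i * (D.q i * (D.q i * D.s i)) := mul_le_mul_of_nonneg_left
            (mul_le_mul_of_nonneg_left (mul_le_mul_of_nonneg_left (hs i) (q0 i).le) (q0 i).le)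
            (q0 i).le) (1 / 2 + 1 / 8 + 1 / 8 + 1 / 8)
      (by norm_num) cl3
  -- the scales
  have E1 : ∀ i, D.e i = D.q i * D.s i := fun _ => rfl
  have E2' : ∀ i, D1.e i = D.q i * (D.q i * D.s i) := fun _ => rfl
  have E3 : ∀ i, D2.e i = D.q i * (D.q i * (D.q i * D.s i)) := fun _ => rfl
  have E4 : ∀ i, D3.e i = D.q i * (D.q i * (D.q i * (D.q i * D.s i))) := fun _ => rfl
  have e0 : ∀ i, 0 < D.q i ^ 4 * D.s i := fun i => mul_pos (pow_pos (q0 i) 4) (sp i)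
  have e1 : ∀ i, D.q i ^ 4 * D.s i ≤ 1 := fun i =>
    mul_le_one₀ (pow_le_one₀ (q0 i).le (q1 i)) (sp i).le (D.s_le i)
  have le4 : ∀ i, D.q i ^ 4 * D.s i ≤ D3.e i := fun i => by rw [E4]; exact le_of_eq (by ring)
  have le3 : ∀ i, D.q i ^ 4 * D.s i ≤ D2.e i := fun i => by
    rw [E3]
    calc D.q i ^ 4 * D.s i ≤ D.q i ^ 3 * D.s i := mul_le_mul_of_nonneg_right
          (pow_le_pow_of_le_one (q0 i).le (q1 i) (by norm_num)) (sp i).le
      _ = _ := by ring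
  have le2 : ∀ i, D.q i ^ 4 * D.s i ≤ D1.e i := fun i => by
    rw [E2']
    calc D.q i ^ 4 * D.s i ≤ D.q i ^ 2 * D.s i := mul_le_mul_of_nonneg_right
          (pow_le_pow_of_le_one (q0 i).le (q1 i) (by norm_num)) (sp i).le
      _ = _ := by ring
  have le1 : ∀ i, D.q i ^ 4 * D.s i ≤ D.e i := fun i => by
    rw [E1]
    calc D.q i ^ 4 * D.s i ≤ D.q i ^ 1 * D.s i := mul_le_mul_of_nonneg_right
          (pow_le_pow_of_le_one (q0 i).le (q1 i) (by norm_num)) (sp i).le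
      _ = _ := by ring
  -- the good indices
  let g0 : ι → ℝ := fun i => (g1 i * g2 i) * (g3 i * g4 i)
  have hg0 : g0 ∈ D.S.G.mem := D.S.G.mul _ (D.S.G.mul _ hg1 _ hg2) _ (D.S.G.mul _ hg3 _ hg4)
  have o1 : ∀ i, 1 ≤ g1 i := D.S.G.one_le _ hg1
  have o2 : ∀ i, 1 ≤ g2 i := D.S.G.one_le _ hg2
  have o3 : ∀ i, 1 ≤ g3 i := D.S.G.one_le _ hg3
  have o4 : ∀ i, 1 ≤ g4 i := D.S.G.one_le _ hg4
  have gg : ∀ f : ι → ℝ, (∀ i, f i ≤ g0 i) → ∀ i, g0 i * D.q i ≤ 1 → f i * D.q i ≤ 1 :=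
    fun f hf i hi => (mul_le_mul_of_nonneg_right (hf i) (q0 i).le).trans hi
  have gg1 : ∀ i, g0 i * D.q i ≤ 1 → g1 i * D.q i ≤ 1 := gg g1 fun i => by
    have h1 := one_le_mul_of_one_le_of_one_le (o2 i)
      (one_le_mul_of_one_le_of_one_le (o3 i) (o4 i))
    calc g1 i ≤ g1 i * (g2 i * (g3 i * g4 i)) := le_mul_of_one_le_right (by linarith [o1 i]) h1
      _ = g0 i := by simp only [g0]; ring
  have gg2 : ∀ i, g0 i * D.q i ≤ 1 → g2 i * D.q i ≤ 1 := gg g2 fun i => by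
    have h1 := one_le_mul_of_one_le_of_one_le (o1 i)
      (one_le_mul_of_one_le_of_one_le (o3 i) (o4 i))
    calc g2 i ≤ g2 i * (g1 i * (g3 i * g4 i)) := le_mul_of_one_le_right (by linarith [o2 i]) h1
      _ = g0 i := by simp only [g0]; ring
  have gg3 : ∀ i, g0 i * D.q i ≤ 1 → g3 i * D.q i ≤ 1 := gg g3 fun i => by
    have h1 := one_le_mul_of_one_le_of_one_le (o1 i)
      (one_le_mul_of_one_le_of_one_le (o2 i) (o4 i))
    calc g3 i ≤ g3 i * (g1 i * (g2 i * g4 i)) := le_mul_of_one_le_right (by linarith [o3 i]) h1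
      _ = g0 i := by simp only [g0]; ring
  have gg4 : ∀ i, g0 i * D.q i ≤ 1 → g4 i * D.q i ≤ 1 := gg g4 fun i => by
    have h1 := one_le_mul_of_one_le_of_one_le (o1 i)
      (one_le_mul_of_one_le_of_one_le (o2 i) (o3 i))
    calc g4 i ≤ g4 i * (g1 i * (g2 i * g3 i)) := le_mul_of_one_le_right (by linarith [o4 i]) h1
      _ = g0 i := by simp only [g0]; ring
  have sq0 : ∀ i, 0 ≤ Real.sqrt (D.δ i) := fun i => Real.sqrt_nonneg _
  -- weights
  have wm : ∀ (D' : ColH C0 m0 P ι), D'.δ = D.δ → ∀ i, Real.sqrt (D.δ i) * D'.e i ≤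
      1 * Real.sqrt (D.δ i) := fun D' _ i => by
    rw [one_mul]
    exact mul_le_of_le_one_right (sq0 i) (D'.e_le_one i)
  have rm : ∀ (D' : ColH C0 m0 P ι), (∀ i, D.q i ^ 4 * D.s i ≤ D'.e i) → ∀ i,
      D.δ i * Real.sqrt (D.δ i) / D'.e i ≤
        1 * (D.δ i * Real.sqrt (D.δ i) / (D.q i ^ 4 * D.s i)) := fun D' h i => by
    rw [one_mul]
    exact div_le_div_of_nonneg_left (mul_nonneg (D.d_pos i).le (sq0 i)) (e0 i) (h i)
  let T := (D.S.restrict (fun i => g0 i * D.q i ≤ 1)).rescale (fun i => D.q i ^ 4 * D.s i) e0 e1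
  have one : (fun _ => 1 : ι → ℝ) ∈ T.G.mem := T.G.const 1 le_rfl
  have W1 : Bd T (fun i _ => Real.sqrt (D.δ i)) w1 :=
    (CS4_final D D rfl rfl rfl e0 e1 le1 gg1 wb1).mono one fun i _ _ => wm D rfl i
  have W2 : Bd T (fun i _ => Real.sqrt (D.δ i)) w2 :=
    (CS4_final D D1 rfl rfl rfl e0 e1 le2 gg2 wb2).mono one fun i _ _ => wm D1 rfl i
  have W3 : Bd T (fun i _ => Real.sqrt (D.δ i)) w3 :=
    (CS4_final D D2 rfl rfl rfl e0 e1 le3 gg3 wb3).mono one fun i _ _ => wm D2 rfl i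
  have W4 : Bd T (fun i _ => Real.sqrt (D.δ i)) w4 :=
    (CS4_final D D3 rfl rfl rfl e0 e1 le4 gg4 wb4).mono one fun i _ _ => wm D3 rfl i
  have V1 : Bd T (fun i _ => Real.sqrt (D.δ i)) (fun i x => fderiv ℝ (w1 i) x) :=
    CS4_final D D rfl rfl rfl e0 e1 le1 gg1 (CS4_fd wb1)
  have V2 : Bd T (fun i _ => Real.sqrt (D.δ i)) (fun i x => fderiv ℝ (w2 i) x) :=
    CS4_final D D1 rfl rfl rfl e0 e1 le2 gg2 (CS4_fd wb2)
  have V3 : Bd T (fun i _ => Real.sqrt (D.δ i)) (fun i x => fderiv ℝ (w3 i) x) :=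
    CS4_final D D2 rfl rfl rfl e0 e1 le3 gg3 (CS4_fd wb3)
  have V4' : Bd T (fun i _ => Real.sqrt (D.δ i)) (fun i x => fderiv ℝ (w4 i) x) :=
    CS4_final D D3 rfl rfl rfl e0 e1 le4 gg4 (CS4_fd wb4)
  have R1 : Bd T (fun i _ => D.δ i * Real.sqrt (D.δ i) / (D.q i ^ 4 * D.s i)) r1 :=
    (CS4_final D D rfl rfl rfl e0 e1 le1 gg1 rb1).mono one fun i _ _ => rm D le1 i
  have R2 : Bd T (fun i _ => D.δ i * Real.sqrt (D.δ i) / (D.q i ^ 4 * D.s i)) r2 :=
    (CS4_final D D1 rfl rfl rfl e0 e1 le2 gg2 rb2).mono one fun i _ _ => rm D1 le2 i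
  have R3 : Bd T (fun i _ => D.δ i * Real.sqrt (D.δ i) / (D.q i ^ 4 * D.s i)) r3 :=
    (CS4_final D D2 rfl rfl rfl e0 e1 le3 gg3 rb3).mono one fun i _ _ => rm D2 le3 i
  have R4 : Bd T (fun i _ => D.δ i * Real.sqrt (D.δ i) / (D.q i ^ 4 * D.s i)) r4 :=
    (CS4_final D D3 rfl rfl rfl e0 e1 le4 gg4 rb4).mono one fun i _ _ => rm D3 le4 i
  refine ⟨g0, hg0, fun i x => w1 i x + (w2 i x + (w3 i x + w4 i x)),
    fun i x => r1 i x + (r2 i x + (r3 i x + r4 i x)), e0, e1,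
    W1.add (W2.add (W3.add W4)), ?_, R1.add (R2.add (R3.add R4)), fun i hi => ?_⟩
  · refine (V1.add (V2.add (V3.add V4'))).congr fun i x hx => ?_
    have hi : g0 i * D.q i ≤ 1 := hx.2
    have d1 : DifferentiableAt ℝ (w1 i) x :=
      (p1 i (gg1 i hi)).1.contDiffAt.differentiableAt (by simp)
    have d2 : DifferentiableAt ℝ (w2 i) x :=
      (p2 i (gg2 i hi)).1.contDiffAt.differentiableAt (by simp)
    have d3 : DifferentiableAt ℝ (w3 i) x :=
      (p3 i (gg3 i hi)).1.contDiffAt.differentiableAt (by simp)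
    have d4 : DifferentiableAt ℝ (w4 i) x :=
      (p4 i (gg4 i hi)).1.contDiffAt.differentiableAt (by simp)
    exact (d1.hasFDerivAt.add (d2.hasFDerivAt.add (d3.hasFDerivAt.add d4.hasFDerivAt))).fderiv
  · obtain ⟨x1, y1, z1, u1, m1⟩ := p1 i (gg1 i hi)
    obtain ⟨x2, y2, z2, u2, m2⟩ := p2 i (gg2 i hi)
    obtain ⟨x3, y3, z3, u3, m3⟩ := p3 i (gg3 i hi)
    obtain ⟨x4, y4, z4, u4, m4⟩ := p4 i (gg4 i hi)
    refine ⟨x1.add (x2.add (x3.add x4)), y1.add (y2.add (y3.add y4)), fun x hx => ?_,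
      fun x k m => ?_, fun x hx k m => ?_⟩
    · obtain ⟨k1, l1⟩ := z1 x hx
      obtain ⟨k2, l2⟩ := z2 x hx
      obtain ⟨k3, l3⟩ := z3 x hx
      obtain ⟨k4, l4⟩ := z4 x hx
      constructor
      · show w1 i x + (w2 i x + (w3 i x + w4 i x)) = 0
        rw [k1, k2, k3, k4]
        simp
      · show r1 i x + (r2 i x + (r3 i x + r4 i x)) = 0
        rw [l1, l2, l3, l4]
        simp
    · show r1 i x k m + (r2 i x k m + (r3 i x k m + r4 i x k m)) =
        r1 i x m k + (r2 i x m k + (r3 i x m k + r4 i x m k))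
      rw [u1 x k m, u2 x k m, u3 x k m, u4 x k m]
    · have n1 := m1 x hx k m
      have n2 := m2 x hx k m
      have n3 := m3 x hx k m
      have n4 := m4 x hx k m
      have f4 : (fun y => D3.Fm i y + w4 i y) =
          fun y => D.Fm i y + (w1 i y + (w2 i y + (w3 i y + w4 i y))) := by
        funext y
        show ((D.Fm i y + w1 i y) + w2 i y + w3 i y) + w4 i y = _
        abel
      rw [f4] at n4
      have f3 : D3.Fm i = fun y => D2.Fm i y + w3 i y := rfl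
      have f2 : D2.Fm i = fun y => D1.Fm i y + w2 i y := rfl
      have f1 : D1.Fm i = fun y => D.Fm i y + w1 i y := rfl
      rw [f3, n3, f2, n2, f1, n1] at n4
      rw [n4]
      have hsum : D.psi i x ^ 2 * (colFun PF (D.ρ i) (false, false) x +
          colFun PF (D.ρ i) (false, true) x + colFun PF (D.ρ i) (true, false) x +
          colFun PF (D.ρ i) (true, true) x) = D.psi i x ^ 2 := by
        by_cases hx' : x ∈ tsupport (D.psi i)
        · have hk : x ∈ tsupport (D.kap i) := by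
            have h1 := (D.kap_one i x hx').self_of_nhds
            refine subset_tsupport _ ?_
            rw [Function.mem_support, h1]
            exact one_ne_zero
          have h2 := D.kap_supp i hk
          rw [mem_closedBall_zero_iff] at h2
          have h20 : (20 : ℝ) ≤ C0 := by exact_mod_cast hC0
          have hL : 1 ≤ D.Lam i ^ m0 := one_le_pow₀ (D.hL i)
          have hCL : (20 : ℝ) ≤ C0 * D.Lam i ^ m0 := by nlinarith
          have hρ0 : 0 < D.ρ i := by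
            unfold ColH.ρ nu
            positivity
          have hρ1 : D.ρ i ≤ 1 / 20 := by
            unfold ColH.ρ nu
            rw [one_div]
            exact inv_anti₀ (by norm_num) hCL
          have h3 := sum_colFun PF hρ0 hρ1 (x := x) (by linarith)
          rw [Fintype.sum_prod_type, Fintype.sum_bool, Fintype.sum_bool, Fintype.sum_bool] at h3
          have h4 : colFun PF (D.ρ i) (false, false) x +
              colFun PF (D.ρ i) (false, true) x + colFun PF (D.ρ i) (true, false) x +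
              colFun PF (D.ρ i) (true, true) x = 1 := by linarith
          rw [h4, mul_one]
        · rw [image_eq_zero_of_notMem_tsupport hx']
          ring
      have r1' : D1.ρ i = D.ρ i := rfl
      have r2' : D2.ρ i = D.ρ i := rfl
      have r3' : D3.ρ i = D.ρ i := rfl
      have ps1 : D1.psi i x = D.psi i x := rfl
      have ps2 : D2.psi i x = D.psi i x := rfl
      have ps3 : D3.psi i x = D.psi i x := rfl
      have h1' : D1.Hm i x k m = D.Hm i x k m := rfl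
      have h2' : D2.Hm i x k m = D.Hm i x k m := rfl
      have h3' : D3.Hm i x k m = D.Hm i x k m := rfl
      rw [r1', r2', r3', ps1, ps2, ps3, h1', h2', h3']
      show _ = met (D.Fm i) x k m + D.psi i x ^ 2 * D.Hm i x k m +
        (r1 i x k m + (r2 i x k m + (r3 i x k m + r4 i x k m)))
      linear_combination D.Hm i x k m * hsum

end P205F
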