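import Vale.Agent.Lib.P205F.Mol

/-! # P205F module MolB: bounds for the mollification of order `R` -/

open scoped ContDiff Topology
open Set

namespace P205F

open MeasureTheory

/-- smooth with compact support -/
def MolB_Sc {V : Type} [NormedAddCommGroup V] [NormedSpace ℝ V] (u : E2 → V) : Prop :=
  ContDiff ℝ ∞ u ∧ HasCompactSupport u

section

variable {V : Type} [NormedAddCommGroup V] [NormedSpace ℝ V]

theorem MolB_rho_nonneg (y : E2) : 0 ≤ rhoB.normed volume y := rhoB.nonneg_normed y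

theorem MolB_rho_cont : Continuous (rhoB.normed (volume : Measure E2)) :=
  (rhoB.contDiff_normed (n := 0)).continuous

theorem MolB_rho_int : Integrable (rhoB.normed (volume : Measure E2)) :=
  MolB_rho_cont.integrable_of_hasCompactSupport rhoB.hasCompactSupport_normed

/-- the rescaled function -/
def MolB_sc (s : ℝ) (u : E2 → V) (t : E2) : V := u (s • t)

theorem MolB_sc_smooth (s : ℝ) {u : E2 → V} (hu : ContDiff ℝ ∞ u) :
    ContDiff ℝ ∞ (MolB_sc s u) := hu.comp (contDiff_const_smul s)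

omit [NormedSpace ℝ V] in
theorem MolB_sc_comp {s : ℝ} (hs : s ≠ 0) {u : E2 → V} (hu : HasCompactSupport u) :
    HasCompactSupport (MolB_sc s u) :=
  hu.comp_homeomorph (Homeomorph.smulOfNeZero s hs)

theorem MolB_cv_eq {s : ℝ} (hs : s ≠ 0) (u : E2 → V) :
    cv s u = fun x => (MeasureTheory.convolution (rhoB.normed volume) (MolB_sc s u)
      (ContinuousLinearMap.lsmul ℝ ℝ) volume) (s⁻¹ • x) := by
  funext x
  unfold cv MeasureTheory.convolution MolB_sc
  refine integral_congr_ae (Filter.Eventually.of_forall fun y => ?_)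
  simp only [ContinuousLinearMap.lsmul_apply]
  rw [smul_sub, smul_inv_smul₀ hs]

theorem MolB_cv_smooth {s : ℝ} (hs : s ≠ 0) {u : E2 → V} (hu : MolB_Sc u) :
    ContDiff ℝ ∞ (cv s u) := by
  rw [MolB_cv_eq hs]
  have h : ContDiff ℝ ∞ (MeasureTheory.convolution (rhoB.normed volume) (MolB_sc s u)
      (ContinuousLinearMap.lsmul ℝ ℝ) volume) := by
    refine HasCompactSupport.contDiff_convolution_left _ rhoB.hasCompactSupport_normed
      rhoB.contDiff_normed ?_
    exact (MolB_sc_smooth s hu.1).continuous.locallyIntegrable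
  exact h.comp (contDiff_const_smul s⁻¹)

theorem MolB_cv_comp {s : ℝ} (hs : s ≠ 0) {u : E2 → V} (hu : MolB_Sc u) :
    HasCompactSupport (cv s u) := by
  rw [MolB_cv_eq hs]
  have h : HasCompactSupport (MeasureTheory.convolution (rhoB.normed volume) (MolB_sc s u)
      (ContinuousLinearMap.lsmul ℝ ℝ) volume) :=
    HasCompactSupport.convolution _ rhoB.hasCompactSupport_normed (MolB_sc_comp hs hu.2)
  exact h.comp_homeomorph (Homeomorph.smulOfNeZero s⁻¹ (inv_ne_zero hs))

theorem MolB_Sc_cv {s : ℝ} (hs : s ≠ 0) {u : E2 → V} (hu : MolB_Sc u) : MolB_Sc (cv s u) :=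
  ⟨MolB_cv_smooth hs hu, MolB_cv_comp hs hu⟩

theorem MolB_Sc_sub {u v : E2 → V} (hu : MolB_Sc u) (hv : MolB_Sc v) :
    MolB_Sc (fun x => u x - v x) :=
  ⟨hu.1.sub hv.1, hu.2.sub hv.2⟩

theorem MolB_Sc_df {s : ℝ} (hs : s ≠ 0) {u : E2 → V} (hu : MolB_Sc u) : MolB_Sc (df s u) :=
  MolB_Sc_sub hu (MolB_Sc_cv hs hu)

theorem MolB_Sc_fderiv {u : E2 → V} (hu : MolB_Sc u) : MolB_Sc (fderiv ℝ u) :=
  ⟨hu.1.fderiv_right (m := ∞) (by simp), hu.2.fderiv ℝ⟩

theorem MolB_Sc_it {s : ℝ} (hs : s ≠ 0) (j : ℕ) {u : E2 → V} (hu : MolB_Sc u) :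
    MolB_Sc ((df s)^[j] u) := by
  induction j generalizing u with
  | zero => exact hu
  | succ j ih => rw [Function.iterate_succ_apply]; exact ih (MolB_Sc_df hs hu)

theorem MolB_cv_fderiv {s : ℝ} (hs : s ≠ 0) {u : E2 → V} (hu : MolB_Sc u) :
    fderiv ℝ (cv s u) = cv s (fderiv ℝ u) := by
  funext x
  have h1 : HasFDerivAt (MeasureTheory.convolution (rhoB.normed volume) (MolB_sc s u)
      (ContinuousLinearMap.lsmul ℝ ℝ) volume) _ (s⁻¹ • x) :=
    HasCompactSupport.hasFDerivAt_convolution_right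
      (ContinuousLinearMap.lsmul ℝ ℝ : ℝ →L[ℝ] V →L[ℝ] V) (MolB_sc_comp hs hu.2)
      MolB_rho_int.locallyIntegrable ((MolB_sc_smooth s hu.1).of_le (by exact_mod_cast le_top))
      (s⁻¹ • x)
  have h2 : HasFDerivAt (fun y : E2 => s⁻¹ • y) (s⁻¹ • ContinuousLinearMap.id ℝ E2) x :=
    (hasFDerivAt_id x).const_smul s⁻¹
  have h3 := h1.comp x h2
  have h4 : cv s u = (MeasureTheory.convolution (rhoB.normed volume) (MolB_sc s u)
      (ContinuousLinearMap.lsmul ℝ ℝ) volume) ∘ (fun y : E2 => s⁻¹ • y) := MolB_cv_eq hs u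
  rw [h4, h3.fderiv, MolB_cv_eq hs]
  have h5 : fderiv ℝ (MolB_sc s u) = fun t => s • fderiv ℝ u (s • t) := by
    funext t
    have h6 : HasFDerivAt (fun y : E2 => s • y) (s • ContinuousLinearMap.id ℝ E2) t :=
      (hasFDerivAt_id t).const_smul s
    have h7 := ((hu.1.differentiable (by simp)) (s • t)).hasFDerivAt.comp t h6
    have h8 : MolB_sc s u = u ∘ (fun y : E2 => s • y) := rfl
    rw [h8]
    refine h7.fderiv.trans (ContinuousLinearMap.ext fun v => ?_)
    simp
  simp only [MeasureTheory.convolution, h5, MolB_sc]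
  rw [ContinuousLinearMap.comp_smul, ContinuousLinearMap.comp_id, ← integral_smul]
  refine integral_congr_ae (Filter.Eventually.of_forall fun y => ?_)
  refine ContinuousLinearMap.ext fun v => ?_
  show s⁻¹ • (rhoB.normed volume y • (s • fderiv ℝ u (s • (s⁻¹ • x - y)) v)) =
    rhoB.normed volume y • fderiv ℝ u (s • (s⁻¹ • x - y)) v
  rw [smul_comm s⁻¹, smul_smul s⁻¹, inv_mul_cancel₀ hs, one_smul]

theorem MolB_cv_norm {s : ℝ} {u : E2 → V} {K : ℝ} (hK : ∀ x, ‖u x‖ ≤ K) (x : E2) :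
    ‖cv s u x‖ ≤ K := by
  have h1 : ‖cv s u x‖ ≤ ∫ y, rhoB.normed volume y * K := by
    refine norm_integral_le_of_norm_le (MolB_rho_int.mul_const K)
      (Filter.Eventually.of_forall fun y => ?_)
    rw [norm_smul, Real.norm_of_nonneg (MolB_rho_nonneg y)]
    exact mul_le_mul_of_nonneg_left (hK _) (MolB_rho_nonneg y)
  rwa [integral_mul_const, rhoB.integral_normed, one_mul] at h1

theorem MolB_df_norm {s : ℝ} {u : E2 → V} {K : ℝ} (hK : ∀ x, ‖u x‖ ≤ K) (x : E2) :
    ‖df s u x‖ ≤ 2 * K := by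
  unfold df
  refine (norm_sub_le _ _).trans ?_
  have := MolB_cv_norm (s := s) hK x
  linarith [hK x]

theorem MolB_cv_integrable {s : ℝ} {u : E2 → V} (hu : Continuous u) (x : E2) :
    Integrable (fun y => rhoB.normed volume y • u (x - s • y)) := by
  refine Continuous.integrable_of_hasCompactSupport ?_ ?_
  · exact MolB_rho_cont.smul (hu.comp (continuous_const.sub (continuous_const_smul s)))
  · exact rhoB.hasCompactSupport_normed.smul_right

variable [CompleteSpace V]

theorem MolB_df_small {s : ℝ} (hs : 0 < s) {u : E2 → V} (hu : MolB_Sc u) {K : ℝ}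
    (hK : ∀ x, ‖fderiv ℝ u x‖ ≤ K) (x : E2) : ‖df s u x‖ ≤ s * K := by
  have hK0 : 0 ≤ K := (norm_nonneg _).trans (hK 0)
  have e1 : df s u x = ∫ y, rhoB.normed volume y • (u x - u (x - s • y)) := by
    simp only [smul_sub]
    rw [integral_sub (MolB_rho_int.smul_const _) (MolB_cv_integrable hu.1.continuous x),
      integral_smul_const, rhoB.integral_normed, one_smul]
    rfl
  rw [e1]
  have h1 : ‖∫ y, rhoB.normed volume y • (u x - u (x - s • y))‖ ≤
      ∫ y, rhoB.normed volume y * (s * K) := by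
    refine norm_integral_le_of_norm_le (MolB_rho_int.mul_const (s * K))
      (Filter.Eventually.of_forall fun y => ?_)
    rw [norm_smul, Real.norm_of_nonneg (MolB_rho_nonneg y)]
    by_cases hy : y ∈ Metric.ball (0 : E2) 1
    · refine mul_le_mul_of_nonneg_left ?_ (MolB_rho_nonneg y)
      have h2 := Convex.norm_image_sub_le_of_norm_fderiv_le (𝕜 := ℝ) (f := u) (s := univ) (C := K)
        (x := x - s • y) (y := x)
        (fun z _ => hu.1.differentiable (by simp) z) (fun z _ => hK z) convex_univ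
        (mem_univ _) (mem_univ _)
      have h3 : x - (x - s • y) = s • y := by abel
      rw [h3, norm_smul, Real.norm_of_nonneg hs.le] at h2
      have h4 : ‖y‖ ≤ 1 := by simpa using (Metric.mem_ball.mp hy).le
      calc _ ≤ K * (s * ‖y‖) := h2
        _ ≤ K * (s * 1) := by gcongr
        _ = s * K := by ring
    · have h5 : rhoB.normed (volume : Measure E2) y = 0 := by
        by_contra h6
        have h7 : y ∈ Function.support (rhoB.normed (volume : Measure E2)) := h6
        rw [rhoB.support_normed_eq] at h7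
        exact hy h7
      rw [h5, zero_mul, zero_mul]
  rwa [integral_mul_const, rhoB.integral_normed, one_mul] at h1

end

/-- derivatives fall on the function -/
theorem MolB_it_fderiv {V : Type} [NormedAddCommGroup V] [NormedSpace ℝ V] {s : ℝ} (hs : s ≠ 0)
    (j : ℕ) {u : E2 → V} (hu : MolB_Sc u) :
    fderiv ℝ ((df s)^[j] u) = (df s)^[j] (fderiv ℝ u) := by
  induction j generalizing u with
  | zero => rfl
  | succ j ih =>
      rw [Function.iterate_succ_apply, Function.iterate_succ_apply, ih (MolB_Sc_df hs hu)]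
      congr 1
      funext x
      have h1 : HasFDerivAt u (fderiv ℝ u x) x :=
        ((hu.1.differentiable (by simp)) x).hasFDerivAt
      have h2 : HasFDerivAt (cv s u) (fderiv ℝ (cv s u) x) x :=
        (((MolB_cv_smooth hs hu).differentiable (by simp)) x).hasFDerivAt
      have h3 := (h1.sub h2).fderiv
      rw [MolB_cv_fderiv hs hu] at h3
      exact h3

theorem MolB_it_norm {V : Type} [NormedAddCommGroup V] [NormedSpace ℝ V] {s : ℝ} (j : ℕ)
    {u : E2 → V} {K : ℝ} (hK : ∀ x, ‖u x‖ ≤ K) (x : E2) : ‖(df s)^[j] u x‖ ≤ 2 ^ j * K := by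
  induction j generalizing u K with
  | zero => simpa using hK x
  | succ j ih =>
      rw [Function.iterate_succ_apply]
      refine (ih (MolB_df_norm hK)).trans (le_of_eq ?_)
      ring

theorem MolB_it_small (k : ℕ) : ∀ (V : Type) [NormedAddCommGroup V] [NormedSpace ℝ V]
    [CompleteSpace V] {s : ℝ} (_ : 0 < s) {u : E2 → V} (_ : MolB_Sc u) {K : ℝ}
    (_ : ∀ x, ‖iteratedFDeriv ℝ k u x‖ ≤ K) (x : E2), ‖(df s)^[k] u x‖ ≤ s ^ k * K := by
  induction k with
  | zero =>
      intro V _ _ _ s hs u hu K hK x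
      simpa using hK x
  | succ k ih =>
      intro V _ _ _ s hs u hu K hK x
      rw [Function.iterate_succ_apply']
      have h1 : ∀ y, ‖iteratedFDeriv ℝ k (fderiv ℝ u) y‖ ≤ K := fun y => by
        rw [norm_iteratedFDeriv_fderiv]; exact hK y
      have h2 := ih (E2 →L[ℝ] V) hs (MolB_Sc_fderiv hu) h1
      rw [← MolB_it_fderiv hs.ne' k hu] at h2
      refine (MolB_df_small hs (MolB_Sc_it hs.ne' k hu) h2 x).trans (le_of_eq ?_)
      ring

theorem MolB_main (m : ℕ) : ∀ (V : Type) [NormedAddCommGroup V] [NormedSpace ℝ V]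
    [CompleteSpace V] (j k : ℕ) {s : ℝ} (_ : 0 < s) {u : E2 → V} (_ : MolB_Sc u) {K : ℝ}
    (_ : ∀ x, ‖iteratedFDeriv ℝ (k + m) u x‖ ≤ K) (x : E2),
    ‖iteratedFDeriv ℝ m ((df s)^[j + k] u) x‖ ≤ 2 ^ j * (s ^ k * K) := by
  induction m with
  | zero =>
      intro V _ _ _ j k s hs u hu K hK x
      rw [norm_iteratedFDeriv_zero, Function.iterate_add_apply]
      exact MolB_it_norm j (fun y => MolB_it_small k V hs hu hK y) x
  | succ m ih =>
      intro V _ _ _ j k s hs u hu K hK x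
      rw [← norm_iteratedFDeriv_fderiv, MolB_it_fderiv hs.ne' _ hu]
      refine ih (E2 →L[ℝ] V) j k hs (MolB_Sc_fderiv hu) (fun y => ?_) x
      rw [norm_iteratedFDeriv_fderiv]
      exact hK y

/-- derivatives of a convolution, falling on the kernel -/
theorem MolB_conv (k : ℕ) : ∀ (F V W : Type) [NormedAddCommGroup F] [NormedSpace ℝ F]
    [NormedAddCommGroup V] [NormedSpace ℝ V] [NormedAddCommGroup W] [NormedSpace ℝ W]
    (L : F →L[ℝ] V →L[ℝ] W) (f : E2 → F) (_ : ContDiff ℝ ∞ f) (_ : HasCompactSupport f)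
    (g : E2 → V) (_ : Continuous g) (K : ℝ) (_ : ∀ x, ‖g x‖ ≤ K) (x : E2),
    ‖iteratedFDeriv ℝ k (MeasureTheory.convolution f g L volume) x‖ ≤
      ‖L‖ * (∫ t, ‖iteratedFDeriv ℝ k f t‖) * K := by
  induction k with
  | zero =>
      intro F V W _ _ _ _ _ _ L f hf hc g hg K hK x
      rw [norm_iteratedFDeriv_zero]
      simp only [norm_iteratedFDeriv_zero]
      have hi : Integrable (fun t => ‖f t‖) :=
        (hf.continuous.integrable_of_hasCompactSupport hc).norm
      have h1 : ‖MeasureTheory.convolution f g L volume x‖ ≤ ∫ t, ‖L‖ * ‖f t‖ * K := by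
        unfold MeasureTheory.convolution
        refine norm_integral_le_of_norm_le ((hi.const_mul _).mul_const K)
          (Filter.Eventually.of_forall fun y => ?_)
        refine (L.le_opNorm₂ _ _).trans ?_
        exact mul_le_mul_of_nonneg_left (hK _) (by positivity)
      rwa [integral_mul_const, integral_const_mul] at h1
  | succ k ih =>
      intro F V W _ _ _ _ _ _ L f hf hc g hg K hK x
      have hK0 : 0 ≤ K := (norm_nonneg _).trans (hK 0)
      have h1 : fderiv ℝ (MeasureTheory.convolution f g L volume) =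
          MeasureTheory.convolution (fderiv ℝ f) g (L.precompL E2) volume := by
        funext y
        exact (HasCompactSupport.hasFDerivAt_convolution_left L hc
          (hf.of_le (by exact_mod_cast le_top)) hg.locallyIntegrable y).fderiv
      rw [← norm_iteratedFDeriv_fderiv, h1]
      refine (ih _ _ _ (L.precompL E2) (fderiv ℝ f) (hf.fderiv_right (m := ∞) (by simp))
        (hc.fderiv ℝ) g hg K hK x).trans ?_
      simp only [norm_iteratedFDeriv_fderiv]
      refine mul_le_mul_of_nonneg_right ?_ hK0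
      exact mul_le_mul_of_nonneg_right (L.norm_precompL_le (Eₗ := E2))
        (integral_nonneg fun _ => norm_nonneg _)

/-- the constants -/
noncomputable def MolB_c (k : ℕ) : ℝ :=
  ∫ t, ‖iteratedFDeriv ℝ k (rhoB.normed (volume : Measure E2)) t‖

theorem MolB_c_nonneg (k : ℕ) : 0 ≤ MolB_c k := integral_nonneg fun _ => norm_nonneg _

theorem MolB_cv_deriv (k : ℕ) (V : Type) [NormedAddCommGroup V] [NormedSpace ℝ V] {s : ℝ}
    (hs : 0 < s) {w : E2 → V} (hw : MolB_Sc w) {K : ℝ} (hK : ∀ x, ‖w x‖ ≤ K) (x : E2) :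
    ‖iteratedFDeriv ℝ k (cv s w) x‖ ≤ MolB_c k * (s⁻¹) ^ k * K := by
  have hK0 : 0 ≤ K := (norm_nonneg _).trans (hK 0)
  have hi : 0 ≤ s⁻¹ := (inv_pos.mpr hs).le
  set H : E2 → V := MeasureTheory.convolution (rhoB.normed volume) (MolB_sc s w)
      (ContinuousLinearMap.lsmul ℝ ℝ) volume with hH
  have hsm : ContDiff ℝ ∞ H := HasCompactSupport.contDiff_convolution_left _
    rhoB.hasCompactSupport_normed rhoB.contDiff_normed
    (MolB_sc_smooth s hw.1).continuous.locallyIntegrable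
  have e1 : cv s w = H ∘ (s⁻¹ • ContinuousLinearMap.id ℝ E2) := by
    rw [MolB_cv_eq hs.ne']
    rfl
  rw [e1, ContinuousLinearMap.iteratedFDeriv_comp_right _ hsm _ (i := k)
    (by exact_mod_cast le_top)]
  refine (ContinuousMultilinearMap.norm_compContinuousLinearMap_le _ _).trans ?_
  rw [Finset.prod_const, Finset.card_univ, Fintype.card_fin]
  have h1 := MolB_conv k ℝ V V (ContinuousLinearMap.lsmul ℝ ℝ) (rhoB.normed volume)
    rhoB.contDiff_normed rhoB.hasCompactSupport_normed (MolB_sc s w)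
    (MolB_sc_smooth s hw.1).continuous K (fun t => hK _)
    ((s⁻¹ • ContinuousLinearMap.id ℝ E2) x)
  have h2 : ‖(ContinuousLinearMap.lsmul ℝ ℝ : ℝ →L[ℝ] V →L[ℝ] V)‖ ≤ 1 :=
    ContinuousLinearMap.opNorm_lsmul_le
  have h3 : ‖s⁻¹ • ContinuousLinearMap.id ℝ E2‖ ≤ s⁻¹ := by
    rw [norm_smul, Real.norm_of_nonneg hi]
    exact mul_le_of_le_one_right hi ContinuousLinearMap.norm_id_le
  calc _ ≤ (‖(ContinuousLinearMap.lsmul ℝ ℝ : ℝ →L[ℝ] V →L[ℝ] V)‖ * MolB_c k * K) *
        (s⁻¹) ^ k := by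
        refine mul_le_mul h1 (pow_le_pow_left₀ (norm_nonneg _) h3 k) (by positivity) ?_
        exact mul_nonneg (mul_nonneg (norm_nonneg _) (MolB_c_nonneg k)) hK0
    _ ≤ (1 * MolB_c k * K) * (s⁻¹) ^ k := by
        have := MolB_c_nonneg k
        gcongr
    _ = _ := by ring

theorem MolB_term (r : ℕ) : ∀ (V : Type) [NormedAddCommGroup V] [NormedSpace ℝ V]
    (k j : ℕ) {s : ℝ} (_ : 0 < s) {u : E2 → V} (_ : MolB_Sc u) {K : ℝ}
    (_ : ∀ x, ‖iteratedFDeriv ℝ r u x‖ ≤ K) (x : E2),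
    ‖iteratedFDeriv ℝ (k + r) (cv s ((df s)^[j] u)) x‖ ≤
      MolB_c k * (s⁻¹) ^ k * (2 ^ j * K) := by
  induction r with
  | zero =>
      intro V _ _ k j s hs u hu K hK x
      exact MolB_cv_deriv k V hs (MolB_Sc_it hs.ne' j hu)
        (MolB_it_norm j (fun y => by simpa using hK y)) x
  | succ r ih =>
      intro V _ _ k j s hs u hu K hK x
      rw [← add_assoc, ← norm_iteratedFDeriv_fderiv,
        MolB_cv_fderiv hs.ne' (MolB_Sc_it hs.ne' j hu), MolB_it_fderiv hs.ne' j hu]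
      refine ih (E2 →L[ℝ] V) k j hs (MolB_Sc_fderiv hu) (fun y => ?_) x
      rw [norm_iteratedFDeriv_fderiv]
      exact hK y

theorem MolB_mol_eq {V : Type} [NormedAddCommGroup V] [NormedSpace ℝ V] (R : ℕ) (s : ℝ)
    (u : E2 → V) : mol R s u = fun x => ∑ j ∈ Finset.range R, cv s ((df s)^[j] u) x := by
  funext x
  induction R with
  | zero => simp [mol]
  | succ R ih =>
      rw [Finset.sum_range_succ, ← ih]
      unfold mol
      rw [Function.iterate_succ_apply']
      simp only [df]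
      abel

/-- all the bounds -/
theorem mol_bounds (V : Type) [NormedAddCommGroup V] [NormedSpace ℝ V] [CompleteSpace V] (R : ℕ) :
    ∃ C : ℕ → ℝ, (∀ m, 1 ≤ C m) ∧ ∀ s : ℝ, 0 < s → s ≤ 1 → ∀ u : E2 → V, ContDiff ℝ ∞ u →
      HasCompactSupport u → ∀ K : ℝ,
      (∀ m, m ≤ R → (∀ x, ‖iteratedFDeriv ℝ R u x‖ ≤ K) →
        ∀ x, ‖iteratedFDeriv ℝ m (fun y => u y - mol R s u y) x‖ ≤ C m * s ^ (R - m) * K) ∧
      (∀ m, R ≤ m → (∀ x, ‖iteratedFDeriv ℝ R u x‖ ≤ K) →
        ∀ x, ‖iteratedFDeriv ℝ m (mol R s u) x‖ ≤ C m * (s⁻¹) ^ (m - R) * K) ∧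
      (∀ m, (∀ x, ‖iteratedFDeriv ℝ m u x‖ ≤ K) →
        ∀ x, ‖iteratedFDeriv ℝ m (mol R s u) x‖ ≤ C m * K ∧
          ‖iteratedFDeriv ℝ m (fun y => u y - mol R s u y) x‖ ≤ C m * K) := by
  refine ⟨fun m => (2 ^ R + 1) * (1 + MolB_c (m - R)), fun m => ?_, ?_⟩
  · have h1 : (1 : ℝ) ≤ 2 ^ R + 1 := by
      have : (0 : ℝ) < 2 ^ R := by positivity
      linarith
    have h2 : (1 : ℝ) ≤ 1 + MolB_c (m - R) := by linarith [MolB_c_nonneg (m - R)]
    nlinarith
  intro s hs hs1 u hu hc K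
  have hSc : MolB_Sc u := ⟨hu, hc⟩
  have e1 : (fun y => u y - mol R s u y) = (df s)^[R] u := by
    funext y
    simp [mol]
  have hC : ∀ m, (2 : ℝ) ^ R + 1 ≤ (2 ^ R + 1) * (1 + MolB_c (m - R)) := fun m => by
    have : (0 : ℝ) ≤ (2 ^ R + 1) * MolB_c (m - R) :=
      mul_nonneg (by positivity) (MolB_c_nonneg _)
    linarith
  refine ⟨fun m hm hK x => ?_, fun m hm hK x => ?_, fun m hK x => ?_⟩
  · have hK0 : 0 ≤ K := (norm_nonneg _).trans (hK 0)
    rw [e1]
    have h1 := MolB_main m V m (R - m) hs hSc (K := K)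
      (by rw [Nat.sub_add_cancel hm]; exact hK) x
    rw [Nat.add_sub_cancel' hm] at h1
    have h2 : (2 : ℝ) ^ m ≤ (2 ^ R + 1) * (1 + MolB_c (m - R)) :=
      ((pow_le_pow_right₀ (by norm_num) hm).trans (by linarith)).trans (hC m)
    calc _ ≤ 2 ^ m * (s ^ (R - m) * K) := h1
      _ ≤ ((2 ^ R + 1) * (1 + MolB_c (m - R))) * (s ^ (R - m) * K) := by
          gcongr
      _ = _ := by ring
  · have hK0 : 0 ≤ K := (norm_nonneg _).trans (hK 0)
    have hi : 0 ≤ s⁻¹ := (inv_pos.mpr hs).le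
    rw [MolB_mol_eq]
    have h0 : ∀ j ∈ Finset.range R, ContDiff ℝ m (cv s ((df s)^[j] u)) := fun j _ =>
      (MolB_cv_smooth hs.ne' (MolB_Sc_it hs.ne' j hSc)).of_le (by exact_mod_cast le_top)
    rw [iteratedFDeriv_fun_sum_apply (fun j hj => (h0 j hj).contDiffAt)]
    have h1 : ∀ j ∈ Finset.range R, ‖iteratedFDeriv ℝ m (cv s ((df s)^[j] u)) x‖ ≤
        MolB_c (m - R) * (s⁻¹) ^ (m - R) * (2 ^ j * K) := fun j _ => by
      have := MolB_term R V (m - R) j hs hSc hK x
      rwa [Nat.sub_add_cancel hm] at this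
    refine (norm_sum_le_of_le _ h1).trans ?_
    rw [← Finset.mul_sum, ← Finset.sum_mul]
    have h2 : ∑ j ∈ Finset.range R, (2 : ℝ) ^ j ≤ 2 ^ R + 1 := by
      have := geom_sum_eq (x := (2 : ℝ)) (by norm_num) R
      rw [this]
      norm_num
      linarith
    have h3 := MolB_c_nonneg (m - R)
    calc _ ≤ MolB_c (m - R) * (s⁻¹) ^ (m - R) * ((2 ^ R + 1) * K) := by gcongr
      _ ≤ (1 + MolB_c (m - R)) * (s⁻¹) ^ (m - R) * ((2 ^ R + 1) * K) := by
          gcongr
          linarith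
      _ = _ := by ring
  · have hK0 : 0 ≤ K := (norm_nonneg _).trans (hK 0)
    have h1 := MolB_main m V R 0 hs hSc (K := K) (by rw [zero_add]; exact hK) x
    rw [add_zero, pow_zero, one_mul] at h1
    have h2 : ‖iteratedFDeriv ℝ m (mol R s u) x‖ ≤ K + 2 ^ R * K := by
      have e2 : mol R s u = fun y => u y - (df s)^[R] u y := rfl
      rw [e2, fun_iteratedFDeriv_sub_apply (hu.of_le (by exact_mod_cast le_top)).contDiffAt
        ((MolB_Sc_it hs.ne' R hSc).1.of_le (by exact_mod_cast le_top)).contDiffAt]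
      exact (norm_sub_le _ _).trans (add_le_add (hK x) h1)
    constructor
    · calc _ ≤ K + 2 ^ R * K := h2
        _ = (2 ^ R + 1) * K := by ring
        _ ≤ _ := mul_le_mul_of_nonneg_right (hC m) hK0
    · rw [e1]
      calc _ ≤ 2 ^ R * K := h1
        _ ≤ (2 ^ R + 1) * K := by nlinarith
        _ ≤ _ := mul_le_mul_of_nonneg_right (hC m) hK0

end P205F
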