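import Vale.Agent.Lib.P205F.Cut
import Vale.Agent.Lib.P205F.MolB

/-! # P205F module St2: mollification errors -/

open scoped ContDiff Topology
open Set

namespace P205F

section St2aux

variable {V : Type} [NormedAddCommGroup V] [NormedSpace ℝ V]

theorem St2_tsupp : tsupport (cutB : E2 → ℝ) = Metric.closedBall (0 : E2) (299 / 100) := by
  rw [cutB.tsupport_eq]
  rfl

theorem St2_smooth {f : E2 → V} (hf : ContDiffOn ℝ ∞ f (Metric.ball 0 4)) :
    ContDiff ℝ ∞ (fun x => cutB x • f x) := by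
  rw [contDiff_iff_contDiffAt]
  intro x
  by_cases hx : x ∈ Metric.ball (0 : E2) 4
  · exact cutB.contDiffAt.smul (hf.contDiffAt (Metric.isOpen_ball.mem_nhds hx))
  · have h1 : x ∉ tsupport (cutB : E2 → ℝ) := by
      rw [St2_tsupp]
      intro h
      exact hx (Metric.closedBall_subset_ball (by norm_num) h)
    have h2 : (fun x => cutB x • f x) =ᶠ[𝓝 x] fun _ => 0 := by
      have h3 := (isClosed_tsupport (cutB : E2 → ℝ)).isOpen_compl.mem_nhds h1
      filter_upwards [h3] with y hy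
      rw [image_eq_zero_of_notMem_tsupport hy, zero_smul]
    exact contDiffAt_const.congr_of_eventuallyEq h2

theorem St2_comp (f : E2 → V) : HasCompactSupport (fun x => cutB x • f x) :=
  HasCompactSupport.smul_right (f' := f) cutB.hasCompactSupport

/-- the cut function is equal to `f` near the closed ball of radius `29/10` -/
theorem St2_eq (f : E2 → V) {x : E2} (hx : x ∈ Metric.closedBall (0 : E2) (29 / 10)) :
    f =ᶠ[𝓝 x] (fun y => cutB y • f y) := by
  have h1 : Metric.ball (0 : E2) (59 / 20) ∈ 𝓝 x :=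
    Metric.isOpen_ball.mem_nhds (Metric.closedBall_subset_ball (by norm_num) hx)
  filter_upwards [h1] with y hy
  have h2 : cutB y = 1 := cutB.one_of_mem_closedBall (Metric.ball_subset_closedBall hy)
  rw [h2, one_smul]

theorem St2_cutB_bd : ∃ B : ℕ → ℝ, (∀ l, 0 ≤ B l) ∧
    ∀ l x, ‖iteratedFDeriv ℝ l (cutB : E2 → ℝ) x‖ ≤ B l := by
  have h : ∀ l : ℕ, ∃ C : ℝ, ∀ x, ‖iteratedFDeriv ℝ l (cutB : E2 → ℝ) x‖ ≤ C := by
    intro l
    have h1 : ContDiff ℝ ∞ (cutB : E2 → ℝ) := cutB.contDiff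
    exact (cutB.hasCompactSupport.iteratedFDeriv (𝕜 := ℝ) l).exists_bound_of_continuous
      (h1.continuous_iteratedFDeriv (m := l) (by exact_mod_cast le_top))
  choose B hB using h
  exact ⟨B, fun l => (norm_nonneg _).trans (hB l 0), hB⟩

variable (V) in
/-- Leibniz -/
theorem St2_leib : ∃ L : ℕ → ℝ, (∀ m, 1 ≤ L m) ∧ ∀ f : E2 → V,
    ContDiffOn ℝ ∞ f (Metric.ball 0 4) → ∀ (n : ℕ) (B : ℝ), 0 ≤ B →
    (∀ m ≤ n, ∀ x ∈ Metric.closedBall (0 : E2) 3, ‖iteratedFDeriv ℝ m f x‖ ≤ B) →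
    ∀ x, ‖iteratedFDeriv ℝ n (fun y => cutB y • f y) x‖ ≤ L n * B := by
  obtain ⟨D, hD0, hD⟩ := St2_cutB_bd
  have hS : ∀ n, 0 ≤ ∑ i ∈ Finset.range (n + 1), (n.choose i : ℝ) * D i := fun n =>
    Finset.sum_nonneg fun i _ => mul_nonneg (by positivity) (hD0 i)
  refine ⟨fun n => 1 + ∑ i ∈ Finset.range (n + 1), (n.choose i : ℝ) * D i, ?_, ?_⟩
  · intro m
    linarith [hS m]
  · intro f hf n B hB hfB x
    by_cases hx : x ∈ Metric.closedBall (0 : E2) 3
    · have hx4 : x ∈ Metric.ball (0 : E2) 4 := Metric.closedBall_subset_ball (by norm_num) hx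
      have h1 := norm_iteratedFDerivWithin_smul_le (𝕜 := ℝ) (f := (cutB : E2 → ℝ)) (g := f)
        (s := Metric.ball (0 : E2) 4) (N := ∞) cutB.contDiff.contDiffOn hf
        Metric.isOpen_ball.uniqueDiffOn hx4 (n := n) (by exact_mod_cast le_top)
      rw [iteratedFDerivWithin_of_isOpen n Metric.isOpen_ball hx4] at h1
      refine h1.trans ?_
      have h2 : ∀ i ∈ Finset.range (n + 1), (n.choose i : ℝ) *
          ‖iteratedFDerivWithin ℝ i (cutB : E2 → ℝ) (Metric.ball (0 : E2) 4) x‖ *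
          ‖iteratedFDerivWithin ℝ (n - i) f (Metric.ball (0 : E2) 4) x‖ ≤
          (n.choose i : ℝ) * D i * B := by
        intro i _
        rw [iteratedFDerivWithin_of_isOpen i Metric.isOpen_ball hx4,
          iteratedFDerivWithin_of_isOpen (n - i) Metric.isOpen_ball hx4]
        have h3 := hD i x
        have h4 := hfB (n - i) (Nat.sub_le _ _) x hx
        have h5 := hD0 i
        gcongr
      refine (Finset.sum_le_sum h2).trans ?_
      rw [← Finset.sum_mul]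
      have := hS n
      nlinarith
    · have h1 : x ∉ tsupport (fun y => cutB y • f y) := by
        intro h
        apply hx
        have h2 : tsupport (fun y => cutB y • f y) ⊆ tsupport (cutB : E2 → ℝ) :=
          tsupport_smul_subset_left _ _
        have h3 := h2 h
        rw [St2_tsupp] at h3
        exact Metric.closedBall_subset_closedBall (by norm_num) h3
      have h2 : iteratedFDeriv ℝ n (fun y => cutB y • f y) x = 0 := by
        by_contra h3
        exact h1 (support_iteratedFDeriv_subset n h3)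
      rw [h2, norm_zero]
      have := hS n
      positivity

variable (V) in
theorem St2_gen [CompleteSpace V] (R : ℕ) : ∃ A : ℕ → ℝ, (∀ m, 1 ≤ A m) ∧ ∀ s : ℝ, 0 < s → s ≤ 1 →
    ∀ f : E2 → V, ContDiffOn ℝ ∞ f (Metric.ball 0 4) → ∀ n : ℕ,
    (n ≤ R → ∀ B : ℝ, 0 ≤ B →
      (∀ m ≤ R, ∀ x ∈ Metric.closedBall (0 : E2) 3, ‖iteratedFDeriv ℝ m f x‖ ≤ B) →
      ∀ x ∈ Metric.closedBall (0 : E2) (29 / 10),
        ‖iteratedFDeriv ℝ n (fun y => f y - mol R s (fun z => cutB z • f z) y) x‖ ≤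
          A n * s ^ (R - n) * B) ∧
    (∀ B : ℝ, 0 ≤ B →
      (∀ m ≤ n, ∀ x ∈ Metric.closedBall (0 : E2) 3, ‖iteratedFDeriv ℝ m f x‖ ≤ B) →
      ∀ x ∈ Metric.closedBall (0 : E2) (29 / 10),
        ‖iteratedFDeriv ℝ n (fun y => f y - mol R s (fun z => cutB z • f z) y) x‖ ≤
          A n * B) := by
  obtain ⟨L, hL1, hL⟩ := St2_leib V
  obtain ⟨C, hC1, hC⟩ := mol_bounds V R
  refine ⟨fun n => C n * (L R + L n), fun m => ?_, ?_⟩
  · have h1 := hL1 R
    have h2 := hL1 m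
    have h3 := hC1 m
    nlinarith
  intro s hs hs1 f hf n
  have hu := St2_smooth hf
  have hc := St2_comp f
  have heq : ∀ x ∈ Metric.closedBall (0 : E2) (29 / 10),
      iteratedFDeriv ℝ n (fun y => f y - mol R s (fun z => cutB z • f z) y) x =
      iteratedFDeriv ℝ n (fun y => cutB y • f y - mol R s (fun z => cutB z • f z) y) x := by
    intro x hx
    refine Filter.EventuallyEq.eq_of_nhds (Filter.EventuallyEq.iteratedFDeriv ℝ ?_ n)
    filter_upwards [St2_eq f hx] with y hy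
    rw [← hy]
  constructor
  · intro hn B hB hfB x hx
    have h1 := hL f hf R B hB hfB
    have h2 := (hC s hs hs1 _ hu hc (L R * B)).1 n hn h1 x
    rw [heq x hx]
    refine h2.trans ?_
    have h3 := hL1 n
    have h4 := hC1 n
    have h5 : 0 ≤ C n * s ^ (R - n) * B := by positivity
    nlinarith
  · intro B hB hfB x hx
    have h1 := hL f hf n B hB hfB
    have h2 := ((hC s hs hs1 _ hu hc (L n * B)).2.2 n h1 x).2
    rw [heq x hx]
    refine h2.trans ?_
    have h3 := hL1 R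
    have h4 := hC1 n
    have h5 : 0 ≤ C n * B := by positivity
    nlinarith

end St2aux

theorem St2_pow {q : ℝ} (h0 : 0 < q) (h1 : q ≤ 1) {a b c d : ℕ} (h : c + b ≤ a + d) :
    q ^ a * (q ^ b)⁻¹ ≤ q ^ c * (q ^ d)⁻¹ := by
  rw [← div_eq_mul_inv, ← div_eq_mul_inv, div_le_div_iff₀ (by positivity) (by positivity),
    ← pow_add, ← pow_add]
  exact pow_le_pow_of_le_one h0.le h1 h

theorem St2_inv (q : ℝ) (a n : ℕ) : ((q ^ a)⁻¹) ^ n = (q ^ (a * n))⁻¹ := by
  rw [inv_pow, ← pow_mul]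

section St2main

variable {C0 m0 P Ct : ℕ}

theorem St2_nu (hC0 : 20 ≤ C0) {Lam : ℝ} (hL : 1 ≤ Lam) : 0 ≤ nu C0 m0 Lam ∧ nu C0 m0 Lam ≤ 1 := by
  unfold nu
  have h1 : (1 : ℝ) ≤ Lam ^ m0 := one_le_pow₀ hL
  have h2 : (20 : ℝ) ≤ C0 := by exact_mod_cast hC0
  have h3 : (1 : ℝ) ≤ C0 * Lam ^ m0 := by nlinarith
  exact ⟨inv_nonneg.2 (by linarith), inv_le_one_of_one_le₀ h3⟩

theorem St2_d_lt (i : StIdx C0 m0 P Ct) : i.δ < 1 := by
  refine lt_of_le_of_lt i.st.d1 ?_
  exact Real.rpow_lt_one (by norm_num) (by norm_num) (by positivity)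

theorem St2_F_low (hC0 : 20 ≤ C0) (i : StIdx C0 m0 P Ct) (m : ℕ) (hm : m ≤ 2) (x : E2)
    (hx : x ∈ Metric.closedBall (0 : E2) 3) : ‖iteratedFDeriv ℝ m i.F x‖ ≤ 2 * i.Lam := by
  have hx4 : x ∈ Metric.ball (0 : E2) 4 := Metric.closedBall_subset_ball (by norm_num) hx
  have h1 := i.st.S1 m hm x hx
  have h2 := i.st.ok.F3 m (by omega) x hx
  have hF : ContDiffAt ℝ m i.F x :=
    (i.st.smF.contDiffAt (Metric.isOpen_ball.mem_nhds hx4)).of_le (by exact_mod_cast le_top)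
  have hF0 : ContDiffAt ℝ m i.F0 x :=
    (i.st.smF0.contDiffAt (Metric.isOpen_ball.mem_nhds hx4)).of_le (by exact_mod_cast le_top)
  rw [fun_iteratedFDeriv_sub_apply hF hF0] at h1
  have h3 := (St2_nu (m0 := m0) hC0 i.st.hL).2
  have h4 := i.st.hL
  have h5 : ‖iteratedFDeriv ℝ m i.F x‖ ≤
      ‖iteratedFDeriv ℝ m i.F x - iteratedFDeriv ℝ m i.F0 x‖ + ‖iteratedFDeriv ℝ m i.F0 x‖ :=
    norm_le_norm_sub_add _ _
  linarith

theorem St2_h_le (i : StIdx C0 m0 P Ct) (m : ℕ) (x : E2) {a b : ℝ}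
    (hx : x ∈ Metric.closedBall (0 : E2) 3) (h1 : ‖iteratedFDeriv ℝ m i.gst x‖ ≤ a)
    (h2 : ‖iteratedFDeriv ℝ m i.e x‖ ≤ i.δ * b) :
    ‖iteratedFDeriv ℝ m (fun y => i.δ • i.gst y - i.e y) x‖ ≤ i.δ * (a + b) := by
  have hx4 : x ∈ Metric.ball (0 : E2) 4 := Metric.closedBall_subset_ball (by norm_num) hx
  have hg : ContDiffAt ℝ m i.gst x :=
    (i.st.smg.contDiffAt (Metric.isOpen_ball.mem_nhds hx4)).of_le (by exact_mod_cast le_top)
  have he : ContDiffAt ℝ m i.e x :=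
    (i.st.sme.contDiffAt (Metric.isOpen_ball.mem_nhds hx4)).of_le (by exact_mod_cast le_top)
  have hg' : ContDiffAt ℝ m (fun y => i.δ • i.gst y) x := hg.const_smul i.δ
  rw [fun_iteratedFDeriv_sub_apply hg' he]
  have h3 : iteratedFDeriv ℝ m (fun y => i.δ • i.gst y) x = i.δ • iteratedFDeriv ℝ m i.gst x := by
    have h4 := iteratedFDeriv_const_smul_apply (a := i.δ) hg
    exact h4
  have hd := i.st.d0
  refine (norm_sub_le _ _).trans ?_
  rw [h3, norm_smul, Real.norm_of_nonneg hd.le, mul_add]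
  have h4 := mul_le_mul_of_nonneg_left h1 hd.le
  linarith

end St2main

theorem mol_err (C0 m0 P : ℕ) (hC0 : 20 ≤ C0) (hP : 10000 ≤ P) (Ct : ℕ) : ∃ A : ℕ → ℕ,
    ∀ i : StIdx C0 m0 P Ct, ∀ r K, 1 ≤ K → KBd P r K i.δ i.F i.gst i.e →
      (∀ j, j ≤ r → ∀ x ∈ Metric.closedBall (0 : E2) (29 / 10),
        ‖iteratedFDeriv ℝ (j + 1) (fun y => i.F y - Fmol i y) x‖ ≤
          A r * i.Lam * K * qd P i.δ ^ (2 * P) * ((qd P i.δ ^ 25)⁻¹) ^ j) ∧
      (∀ j, j ≤ r → ∀ x ∈ Metric.closedBall (0 : E2) (29 / 10),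
        ‖iteratedFDeriv ℝ j (fun y => (i.δ • i.gst y - i.e y) - Hmol i y) x‖ ≤
          A r * i.Lam * K * i.δ * qd P i.δ ^ (2 * P) * ((qd P i.δ ^ 25)⁻¹) ^ j) := by
  obtain ⟨A1, hA11, hA1⟩ := St2_gen V4 (2 * P + 1)
  obtain ⟨A2, hA21, hA2⟩ := St2_gen T2 (2 * P)
  refine ⟨fun r => ⌈∑ n ∈ Finset.range (r + 2), 2 * (A1 n + A2 n)⌉₊, ?_⟩
  intro i r K hK hKB
  have hsum : ∀ n, n ≤ r + 1 → 2 * A1 n ≤ (⌈∑ n ∈ Finset.range (r + 2), 2 * (A1 n + A2 n)⌉₊ : ℝ) ∧
      2 * A2 n ≤ (⌈∑ n ∈ Finset.range (r + 2), 2 * (A1 n + A2 n)⌉₊ : ℝ) := by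
    intro n hn
    have h1 : 2 * (A1 n + A2 n) ≤ ∑ n ∈ Finset.range (r + 2), 2 * (A1 n + A2 n) := by
      refine Finset.single_le_sum (f := fun n => 2 * (A1 n + A2 n)) (fun m _ => ?_)
        (Finset.mem_range.2 (by omega))
      have := hA11 m
      have := hA21 m
      positivity
    have h2 := Nat.le_ceil (∑ n ∈ Finset.range (r + 2), 2 * (A1 n + A2 n))
    have h3 := hA11 n
    have h4 := hA21 n
    constructor <;> linarith
  set Ar : ℝ := (⌈∑ n ∈ Finset.range (r + 2), 2 * (A1 n + A2 n)⌉₊ : ℝ) with hAr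
  have hd0 := i.st.d0
  have hd1 := St2_d_lt i
  have hL := i.st.hL
  have hq0 : 0 < qd P i.δ := qd_pos hd0
  have hq1 : qd P i.δ < 1 := qd_lt (by omega) hd0 hd1
  set q := qd P i.δ with hq
  have ha1 : 1 ≤ (q ^ 20)⁻¹ := (one_le_inv₀ (by positivity)).2 (pow_le_one₀ hq0.le hq1.le)
  have hs0 : 0 < q ^ 21 := by positivity
  have hs1 : q ^ 21 ≤ 1 := pow_le_one₀ hq0.le hq1.le
  have hLK : i.Lam ≤ i.Lam * K := by nlinarith
  have hLK0 : 0 < i.Lam * K := by positivity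
  constructor
  · intro j hj x hx
    have hgen := hA1 (q ^ 21) hs0 hs1 i.F i.st.smF (j + 1)
    have hA := (hsum (j + 1) (by omega)).1
    by_cases hjP : j ≤ 2 * P
    · have h1 := hgen.1 (by omega) (2 * i.Lam * ((q ^ 20)⁻¹) ^ (2 * P - 1)) (by positivity) (by
        intro m hm y hy
        have hpow : ∀ n, n ≤ 2 * P - 1 → ((q ^ 20)⁻¹) ^ n ≤ ((q ^ 20)⁻¹) ^ (2 * P - 1) :=
          fun n hn => pow_le_pow_right₀ ha1 hn
        by_cases hm2 : m ≤ 2
        · have h2 := St2_F_low hC0 i m hm2 y hy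
          have h3 := hpow 0 (by omega)
          rw [pow_zero] at h3
          nlinarith
        · have h2 := i.st.S2 m (by omega) hm y hy
          have h3 := hpow (m - 2) (by omega)
          have h4 : (0 : ℝ) < ((q ^ 20)⁻¹) ^ (2 * P - 1) := by positivity
          nlinarith) x hx
      refine h1.trans ?_
      have h2 : (q ^ 21) ^ (2 * P + 1 - (j + 1)) * ((q ^ 20)⁻¹) ^ (2 * P - 1) ≤
          q ^ (2 * P) * ((q ^ 25)⁻¹) ^ j := by
        rw [St2_inv, St2_inv, ← pow_mul]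
        exact St2_pow hq0 hq1.le (by omega)
      have h5 : 0 ≤ q ^ (2 * P) * ((q ^ 25)⁻¹) ^ j := by positivity
      have h6 : 0 ≤ (q ^ 21) ^ (2 * P + 1 - (j + 1)) * ((q ^ 20)⁻¹) ^ (2 * P - 1) := by positivity
      have h7 := hA11 (j + 1)
      calc A1 (j + 1) * (q ^ 21) ^ (2 * P + 1 - (j + 1)) *
            (2 * i.Lam * ((q ^ 20)⁻¹) ^ (2 * P - 1))
          = (2 * A1 (j + 1)) * i.Lam *
            ((q ^ 21) ^ (2 * P + 1 - (j + 1)) * ((q ^ 20)⁻¹) ^ (2 * P - 1)) := by ring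
        _ ≤ Ar * (i.Lam * K) * (q ^ (2 * P) * ((q ^ 25)⁻¹) ^ j) := by gcongr
        _ = Ar * i.Lam * K * q ^ (2 * P) * ((q ^ 25)⁻¹) ^ j := by ring
    · have h1 := hgen.2 (2 * (i.Lam * K) * ((q ^ 20)⁻¹) ^ (j - 1)) (by positivity) (by
        intro m hm y hy
        have hpow : ∀ n, n ≤ j - 1 → ((q ^ 20)⁻¹) ^ n ≤ ((q ^ 20)⁻¹) ^ (j - 1) :=
          fun n hn => pow_le_pow_right₀ ha1 hn
        by_cases hm2 : m ≤ 2
        · have h2 := St2_F_low hC0 i m hm2 y hy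
          have h3 := hpow 0 (by omega)
          rw [pow_zero] at h3
          nlinarith
        · have h2 := hKB.F m (by omega) (by omega) y hy
          have h3 := hpow (m - 2) (by omega)
          have h4 : (0 : ℝ) < ((q ^ 20)⁻¹) ^ (j - 1) := by positivity
          have h5 : K * ((q ^ 20)⁻¹) ^ (m - 2) ≤ (i.Lam * K) * ((q ^ 20)⁻¹) ^ (j - 1) :=
            mul_le_mul (by nlinarith) h3 (by positivity) hLK0.le
          have h6 : 0 < (i.Lam * K) * ((q ^ 20)⁻¹) ^ (j - 1) := by positivity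
          linarith) x hx
      refine h1.trans ?_
      have h2 : ((q ^ 20)⁻¹) ^ (j - 1) ≤ q ^ (2 * P) * ((q ^ 25)⁻¹) ^ j := by
        rw [St2_inv, St2_inv]
        have h3 := St2_pow hq0 hq1.le (a := 0) (b := 20 * (j - 1)) (c := 2 * P) (d := 25 * j)
          (by omega)
        rwa [pow_zero, one_mul] at h3
      have h7 := hA11 (j + 1)
      calc A1 (j + 1) * (2 * (i.Lam * K) * ((q ^ 20)⁻¹) ^ (j - 1))
          = (2 * A1 (j + 1)) * (i.Lam * K) * (((q ^ 20)⁻¹) ^ (j - 1)) := by ring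
        _ ≤ Ar * (i.Lam * K) * (q ^ (2 * P) * ((q ^ 25)⁻¹) ^ j) := by gcongr
        _ = Ar * i.Lam * K * q ^ (2 * P) * ((q ^ 25)⁻¹) ^ j := by ring
  · intro j hj x hx
    have hsmh : ContDiffOn ℝ ∞ (fun y => i.δ • i.gst y - i.e y) (Metric.ball 0 4) :=
      (i.st.smg.const_smul i.δ).sub i.st.sme
    have hgen := hA2 (q ^ 21) hs0 hs1 (fun y => i.δ • i.gst y - i.e y) hsmh j
    have hA := (hsum j (by omega)).2
    have hnu := St2_nu (m0 := m0) hC0 i.st.hL
    have hg0 : ∀ y ∈ Metric.closedBall (0 : E2) 3, ‖iteratedFDeriv ℝ 0 i.gst y‖ ≤ i.Lam :=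
      fun y hy => i.st.ok.g1 0 (by norm_num) y hy
    by_cases hjP : j ≤ 2 * P
    · have h1 := hgen.1 hjP (i.δ * (i.Lam * ((q ^ 20)⁻¹) ^ (2 * P) +
          i.Lam * ((q ^ 20)⁻¹) ^ (2 * P))) (by positivity) (by
        intro m hm y hy
        have hpow : ∀ n, n ≤ 2 * P → ((q ^ 20)⁻¹) ^ n ≤ ((q ^ 20)⁻¹) ^ (2 * P) :=
          fun n hn => pow_le_pow_right₀ ha1 hn
        have h4 : (0 : ℝ) < ((q ^ 20)⁻¹) ^ (2 * P) := by positivity
        apply St2_h_le i m y hy
        · by_cases hm0 : m = 0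
          · subst hm0
            have h3 := hpow 0 (by omega)
            rw [pow_zero] at h3
            have := hg0 y hy
            nlinarith
          · have h2 := i.st.S4 m (by omega) (by omega) y hy
            have h3 := hpow m hm
            nlinarith
        · have h2 := i.st.S3 m (by omega) y hy
          have h3 := hpow m hm
          have h5 : nu C0 m0 i.Lam / 4 * i.δ * ((q ^ 20)⁻¹) ^ m ≤
              i.Lam * i.δ * ((q ^ 20)⁻¹) ^ (2 * P) := by
            have h6 : nu C0 m0 i.Lam / 4 ≤ i.Lam := by linarith [hnu.2]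
            gcongr
          linarith) x hx
      refine h1.trans ?_
      have h2 : (q ^ 21) ^ (2 * P - j) * ((q ^ 20)⁻¹) ^ (2 * P) ≤
          q ^ (2 * P) * ((q ^ 25)⁻¹) ^ j := by
        rw [St2_inv, St2_inv, ← pow_mul]
        exact St2_pow hq0 hq1.le (by omega)
      have h7 := hA21 j
      calc A2 j * (q ^ 21) ^ (2 * P - j) * (i.δ * (i.Lam * ((q ^ 20)⁻¹) ^ (2 * P) +
            i.Lam * ((q ^ 20)⁻¹) ^ (2 * P)))
          = (2 * A2 j) * i.Lam * i.δ *
            ((q ^ 21) ^ (2 * P - j) * ((q ^ 20)⁻¹) ^ (2 * P)) := by ring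
        _ ≤ Ar * (i.Lam * K) * i.δ * (q ^ (2 * P) * ((q ^ 25)⁻¹) ^ j) := by gcongr
        _ = Ar * i.Lam * K * i.δ * q ^ (2 * P) * ((q ^ 25)⁻¹) ^ j := by ring
    · have h1 := hgen.2 (i.δ * (i.Lam * K * ((q ^ 20)⁻¹) ^ j +
          i.Lam * K * ((q ^ 20)⁻¹) ^ j)) (by positivity) (by
        intro m hm y hy
        have hpow : ∀ n, n ≤ j → ((q ^ 20)⁻¹) ^ n ≤ ((q ^ 20)⁻¹) ^ j :=
          fun n hn => pow_le_pow_right₀ ha1 hn
        have h4 : (0 : ℝ) < ((q ^ 20)⁻¹) ^ j := by positivity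
        have hKL : K ≤ i.Lam * K := by nlinarith
        apply St2_h_le i m y hy
        · by_cases hm0 : m = 0
          · subst hm0
            have h3 := hpow 0 (by omega)
            rw [pow_zero] at h3
            have := hg0 y hy
            nlinarith
          · have h2 := hKB.g m (by omega) (by omega) y hy
            have h3 := hpow m hm
            refine h2.trans ?_
            gcongr
        · have h2 := hKB.e m (by omega) y hy
          have h3 := hpow m hm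
          have h5 : K * i.δ * ((q ^ 20)⁻¹) ^ m ≤
              (i.Lam * K) * i.δ * ((q ^ 20)⁻¹) ^ j := by
            gcongr
          linarith) x hx
      refine h1.trans ?_
      have h2 : ((q ^ 20)⁻¹) ^ j ≤ q ^ (2 * P) * ((q ^ 25)⁻¹) ^ j := by
        rw [St2_inv, St2_inv]
        have h3 := St2_pow hq0 hq1.le (a := 0) (b := 20 * j) (c := 2 * P) (d := 25 * j)
          (by omega)
        rwa [pow_zero, one_mul] at h3
      have h7 := hA21 j
      calc A2 j * (i.δ * (i.Lam * K * ((q ^ 20)⁻¹) ^ j + i.Lam * K * ((q ^ 20)⁻¹) ^ j))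
          = (2 * A2 j) * (i.Lam * K) * i.δ * (((q ^ 20)⁻¹) ^ j) := by ring
        _ ≤ Ar * (i.Lam * K) * i.δ * (q ^ (2 * P) * ((q ^ 25)⁻¹) ^ j) := by gcongr
        _ = Ar * i.Lam * K * i.δ * q ^ (2 * P) * ((q ^ 25)⁻¹) ^ j := by ring

end P205F
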