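import Vale.Agent.Lib.P205F.St1
import Vale.Agent.Lib.P205F.St2
import Vale.Agent.Lib.P205F.CS4

/-! # P205F module Stage: the stage lemma -/

open scoped ContDiff Topology
open Set

namespace P205F

section StageAux

variable {V V' V'' : Type} [NormedAddCommGroup V] [NormedSpace ℝ V] [NormedAddCommGroup V']
  [NormedSpace ℝ V'] [NormedAddCommGroup V''] [NormedSpace ℝ V'']

/-- bounds up to the order `r` on the ball of radius `29/10` -/
private def Stage_LB (r : ℕ) (t M : ℝ) (u : E2 → V) : Prop :=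
  ContDiffOn ℝ ∞ u (Metric.ball (0 : E2) (29 / 10)) ∧
    ∀ x ∈ Metric.ball (0 : E2) (29 / 10), ∀ j ≤ r, ‖iteratedFDeriv ℝ j u x‖ ≤ M * t ^ j

private theorem Stage_at {r : ℕ} {t M : ℝ} {u : E2 → V} (hu : Stage_LB r t M u) {x : E2}
    (hx : x ∈ Metric.ball (0 : E2) (29 / 10)) (j : ℕ) : ContDiffAt ℝ j u x :=
  (hu.1.contDiffAt (Metric.isOpen_ball.mem_nhds hx)).of_le (by exact_mod_cast le_top)

private theorem Stage_nonneg {r : ℕ} {t M : ℝ} {u : E2 → V} (hu : Stage_LB r t M u) : 0 ≤ M := by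
  have h := hu.2 0 (Metric.mem_ball_self (by norm_num)) 0 (Nat.zero_le _)
  rw [pow_zero, mul_one] at h
  exact (norm_nonneg _).trans h

private theorem Stage_mono {r : ℕ} {t M M' : ℝ} (ht : 0 ≤ t) {u : E2 → V}
    (hu : Stage_LB r t M u) (h : M ≤ M') : Stage_LB r t M' u :=
  ⟨hu.1, fun x hx j hj => (hu.2 x hx j hj).trans
    (mul_le_mul_of_nonneg_right h (pow_nonneg ht j))⟩

private theorem Stage_add {r : ℕ} {t M M' : ℝ} {u v : E2 → V} (hu : Stage_LB r t M u)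
    (hv : Stage_LB r t M' v) : Stage_LB r t (M + M') (fun y => u y + v y) := by
  refine ⟨hu.1.add hv.1, fun x hx j hj => ?_⟩
  have h1 : iteratedFDeriv ℝ j (fun y => u y + v y) x =
      iteratedFDeriv ℝ j u x + iteratedFDeriv ℝ j v x :=
    iteratedFDeriv_add_apply (Stage_at hu hx j) (Stage_at hv hx j)
  rw [h1, add_mul]
  exact (norm_add_le _ _).trans (add_le_add (hu.2 x hx j hj) (hv.2 x hx j hj))

private theorem Stage_clm {r : ℕ} {t M : ℝ} (L : V →L[ℝ] V') {u : E2 → V}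
    (hu : Stage_LB r t M u) : Stage_LB r t (‖L‖ * M) (fun y => L (u y)) := by
  refine ⟨L.contDiff.comp_contDiffOn hu.1, fun x hx j hj => ?_⟩
  have h2 : ‖iteratedFDeriv ℝ j (fun y => L (u y)) x‖ ≤ ‖L‖ * ‖iteratedFDeriv ℝ j u x‖ :=
    L.norm_iteratedFDeriv_comp_left (Stage_at hu hx j) le_rfl
  rw [mul_assoc]
  exact h2.trans (mul_le_mul_of_nonneg_left (hu.2 x hx j hj) (norm_nonneg _))

private theorem Stage_neg {r : ℕ} {t M : ℝ} {u : E2 → V}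
    (hu : Stage_LB r t M u) : Stage_LB r t M (fun y => -u y) := by
  refine ⟨hu.1.neg, fun x hx j hj => ?_⟩
  have h1 : iteratedFDeriv ℝ j (fun y => -u y) x = -iteratedFDeriv ℝ j u x :=
    iteratedFDeriv_neg_apply
  rw [h1, norm_neg]
  exact hu.2 x hx j hj

private theorem Stage_bilin {r : ℕ} {t M M' : ℝ} (ht : 0 ≤ t) (B : V →L[ℝ] V' →L[ℝ] V'')
    {u : E2 → V} {v : E2 → V'} (hu : Stage_LB r t M u) (hv : Stage_LB r t M' v) :
    Stage_LB r t (‖B‖ * 2 ^ r * (M * M')) (fun y => B (u y) (v y)) := by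
  have hM := Stage_nonneg hu
  have hM' := Stage_nonneg hv
  refine ⟨B.isBoundedBilinearMap.contDiff.comp_contDiffOn (hu.1.prodMk hv.1), fun x hx j hj => ?_⟩
  have hopen : IsOpen (Metric.ball (0 : E2) (29 / 10)) := Metric.isOpen_ball
  have h1 := ContinuousLinearMap.norm_iteratedFDerivWithin_le_of_bilinear B hu.1 hv.1
    hopen.uniqueDiffOn hx (n := j) (by exact_mod_cast le_top)
  rw [iteratedFDerivWithin_of_isOpen j hopen hx] at h1
  refine h1.trans ?_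
  have h2 : ∀ k ∈ Finset.range (j + 1), (j.choose k : ℝ) *
      ‖iteratedFDerivWithin ℝ k u (Metric.ball (0 : E2) (29 / 10)) x‖ *
      ‖iteratedFDerivWithin ℝ (j - k) v (Metric.ball (0 : E2) (29 / 10)) x‖
      ≤ (j.choose k : ℝ) * (M * M' * t ^ j) := by
    intro k hk
    have hk' : k ≤ j := Nat.lt_succ_iff.mp (Finset.mem_range.mp hk)
    rw [iteratedFDerivWithin_of_isOpen k hopen hx, iteratedFDerivWithin_of_isOpen (j - k) hopen hx]
    have h3 := hu.2 x hx k (hk'.trans hj)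
    have h4 := hv.2 x hx (j - k) ((Nat.sub_le _ _).trans hj)
    have h6 : t ^ j = t ^ k * t ^ (j - k) := by
      rw [← pow_add]
      congr 1
      omega
    rw [mul_assoc]
    refine mul_le_mul_of_nonneg_left ?_ (Nat.cast_nonneg _)
    rw [h6]
    calc ‖iteratedFDeriv ℝ k u x‖ * ‖iteratedFDeriv ℝ (j - k) v x‖
        ≤ (M * t ^ k) * (M' * t ^ (j - k)) := mul_le_mul h3 h4 (norm_nonneg _) (by positivity)
      _ = M * M' * (t ^ k * t ^ (j - k)) := by ring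
  have h7 : ∑ k ∈ Finset.range (j + 1), (j.choose k : ℝ) = 2 ^ j := by
    have := Nat.sum_range_choose j
    exact_mod_cast this
  have h8 : (2 : ℝ) ^ j ≤ 2 ^ r := pow_le_pow_right₀ (by norm_num) hj
  have h9 : 0 ≤ M * M' * t ^ j := by positivity
  calc ‖B‖ * ∑ k ∈ Finset.range (j + 1), (j.choose k : ℝ) *
      ‖iteratedFDerivWithin ℝ k u (Metric.ball (0 : E2) (29 / 10)) x‖ *
      ‖iteratedFDerivWithin ℝ (j - k) v (Metric.ball (0 : E2) (29 / 10)) x‖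
      ≤ ‖B‖ * ∑ k ∈ Finset.range (j + 1), (j.choose k : ℝ) * (M * M' * t ^ j) :=
        mul_le_mul_of_nonneg_left (Finset.sum_le_sum h2) (norm_nonneg B)
    _ = ‖B‖ * (2 ^ j * (M * M' * t ^ j)) := by rw [← Finset.sum_mul, h7]
    _ ≤ ‖B‖ * (2 ^ r * (M * M' * t ^ j)) :=
        mul_le_mul_of_nonneg_left (mul_le_mul_of_nonneg_right h8 h9) (norm_nonneg B)
    _ = ‖B‖ * 2 ^ r * (M * M') * t ^ j := by ring

/-- the derivative -/
private theorem Stage_fd {r : ℕ} {t M : ℝ} {u : E2 → V}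
    (hu : ContDiffOn ℝ ∞ u (Metric.ball (0 : E2) (29 / 10)))
    (h : ∀ x ∈ Metric.ball (0 : E2) (29 / 10), ∀ j ≤ r,
      ‖iteratedFDeriv ℝ (j + 1) u x‖ ≤ M * t ^ j) : Stage_LB r t M (fun y => fderiv ℝ u y) := by
  refine ⟨hu.fderiv_of_isOpen Metric.isOpen_ball (by norm_cast), fun x hx j hj => ?_⟩
  rw [norm_iteratedFDeriv_fderiv]
  exact h x hx j hj

/-- evaluation -/
private theorem Stage_app {r : ℕ} {t M : ℝ} (ht : 0 ≤ t) {L : E2 → (E2 →L[ℝ] V)}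
    (hL : Stage_LB r t M L) (a : Fin 2) : Stage_LB r t M (fun y => L y (bv a)) := by
  have h1 := Stage_clm (ContinuousLinearMap.apply ℝ V (bv a)) hL
  refine Stage_mono ht h1 ?_
  have hM := Stage_nonneg hL
  have h2 : ‖ContinuousLinearMap.apply ℝ V (bv a)‖ ≤ 1 := by
    refine ContinuousLinearMap.opNorm_le_bound _ zero_le_one fun L => ?_
    rw [ContinuousLinearMap.apply_apply, one_mul]
    refine (L.le_opNorm (bv a)).trans ?_
    have h3 : ‖bv a‖ ≤ 1 := by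
      unfold bv
      split_ifs
      · simp [Prod.norm_def]
      · simp [Prod.norm_def]
    calc ‖L‖ * ‖bv a‖ ≤ ‖L‖ * 1 := mul_le_mul_of_nonneg_left h3 (norm_nonneg _)
      _ = ‖L‖ := mul_one _
  calc ‖ContinuousLinearMap.apply ℝ V (bv a)‖ * M ≤ 1 * M := mul_le_mul_of_nonneg_right h2 hM
    _ = M := one_mul _

/-- the embedding of the component `a b` -/
private noncomputable def Stage_sg (a b : Fin 2) : ℝ →L[ℝ] T2 :=
  (ContinuousLinearMap.single ℝ (fun _ : Fin 2 => Fin 2 → ℝ) a).comp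
    (ContinuousLinearMap.single ℝ (fun _ : Fin 2 => ℝ) b)

/-- assembling the components -/
private theorem Stage_T2 : ∃ c : ℝ, 0 ≤ c ∧ ∀ {r : ℕ} {t M : ℝ} {f : E2 → T2},
    (∀ a b, Stage_LB r t M (fun y => f y a b)) → Stage_LB r t (c * M) f := by
  refine ⟨‖Stage_sg 0 0‖ + ‖Stage_sg 0 1‖ + ‖Stage_sg 1 0‖ + ‖Stage_sg 1 1‖, by positivity, ?_⟩
  intro r t M f h
  have h1 := Stage_add (Stage_add (Stage_add (Stage_clm (Stage_sg 0 0) (h 0 0))
    (Stage_clm (Stage_sg 0 1) (h 0 1))) (Stage_clm (Stage_sg 1 0) (h 1 0)))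
    (Stage_clm (Stage_sg 1 1) (h 1 1))
  have h2 : (fun y => Stage_sg 0 0 (f y 0 0) + Stage_sg 0 1 (f y 0 1) + Stage_sg 1 0 (f y 1 0) +
      Stage_sg 1 1 (f y 1 1)) = f := by
    funext y a b
    fin_cases a <;> fin_cases b <;> simp [Stage_sg]
  rw [h2] at h1
  have h3 : (‖Stage_sg 0 0‖ + ‖Stage_sg 0 1‖ + ‖Stage_sg 1 0‖ + ‖Stage_sg 1 1‖) * M =
      ‖Stage_sg 0 0‖ * M + ‖Stage_sg 0 1‖ * M + ‖Stage_sg 1 0‖ * M + ‖Stage_sg 1 1‖ * M := by ring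
  rw [h3]
  exact h1

end StageAux

/-- uniform constants for the functions of the growth class -/
private theorem Stage_cst {ι V : Type} [NormedAddCommGroup V] [NormedSpace ℝ V]
    {S : Setting ι E2} {W : ι → E2 → ℝ} {u : ι → E2 → V} (L d : ι → ℝ) (hL : ∀ i, 1 ≤ L i)
    (hd : ∀ i, 0 < d i) (h : Bd S W u)
    (hG : ∀ g ∈ S.G.mem, ∃ C : ℕ, ∀ i, g i ≤ C * L i ^ C * d i ^ (-(1 / 100 : ℝ))) :
    ∃ N : ℕ → ℕ, ∀ r i x, x ∈ S.U i → ∀ j ≤ r,
      ‖iteratedFDeriv ℝ j (u i) x‖ ≤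
        N r * L i ^ N r * d i ^ (-(1 / 100 : ℝ)) * W i x * (S.s i)⁻¹ ^ j := by
  choose g hg hb using h.2
  choose C hC using fun j => hG (g j) (hg j)
  refine ⟨fun r => ∑ j ∈ Finset.range (r + 1), C j, fun r i x hx j hj => ?_⟩
  have h1 : C j ≤ ∑ j ∈ Finset.range (r + 1), C j :=
    Finset.single_le_sum (f := C) (fun _ _ => Nat.zero_le _) (Finset.mem_range.2 (by omega))
  have hLi := hL i
  have hdi := hd i
  have hW := h.nonneg i hx
  have hs := S.s_pos i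
  refine (hb j i x hx).trans ?_
  have h2 : (C j : ℝ) * L i ^ C j ≤ ((∑ j ∈ Finset.range (r + 1), C j : ℕ) : ℝ) *
      L i ^ (∑ j ∈ Finset.range (r + 1), C j) := by
    have h3 : (C j : ℝ) ≤ ((∑ j ∈ Finset.range (r + 1), C j : ℕ) : ℝ) := by exact_mod_cast h1
    exact mul_le_mul h3 (pow_le_pow_right₀ hLi h1) (by positivity) (by positivity)
  have h4 : g j i ≤ ((∑ j ∈ Finset.range (r + 1), C j : ℕ) : ℝ) *
      L i ^ (∑ j ∈ Finset.range (r + 1), C j) * d i ^ (-(1 / 100 : ℝ)) :=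
    (hC j i).trans (mul_le_mul_of_nonneg_right h2 (Real.rpow_nonneg hdi.le _))
  gcongr

/-- a continuous function which is zero off a closed ball is zero off the open ball -/
private theorem Stage_bdry {V : Type} [NormedAddCommGroup V] {f : E2 → V} (hf : Continuous f)
    {R : ℝ} (hR : 0 < R) (h : ∀ x, R < ‖x‖ → f x = 0) {x : E2} (hx : R ≤ ‖x‖) : f x = 0 := by
  have h1 : IsClosed {y : E2 | f y = 0} := isClosed_eq hf continuous_const
  have h2 : closure ((Metric.closedBall (0 : E2) R)ᶜ) ⊆ {y : E2 | f y = 0} := by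
    refine closure_minimal (fun y hy => h y ?_) h1
    rw [Set.mem_compl_iff, Metric.mem_closedBall, dist_zero_right, not_le] at hy
    exact hy
  rw [closure_compl, interior_closedBall _ hR.ne'] at h2
  refine h2 ?_
  rw [Set.mem_compl_iff, Metric.mem_ball, dist_zero_right, not_lt]
  exact hx

private theorem Stage_sq {δ : ℝ} (h : 0 < δ) :
    δ ^ (-(1 / 100 : ℝ)) * Real.sqrt δ = δ ^ (49 / 100 : ℝ) := by
  rw [Real.sqrt_eq_rpow, ← Real.rpow_add h]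
  norm_num

/-- the data of one index which enter the stage -/
private structure Stage_Dat (cs : CutSeq) {C0 m0 P Ct : ℕ} (N0 N1 N2 N3 : ℕ → ℕ)
    (i : StIdx C0 m0 P Ct) (w : E2 → V4) (er : E2 → T2) : Prop where
  d1 : i.δ ≤ 1
  q0 : 0 < qd P i.δ
  ws : ContDiff ℝ ∞ w
  es : ContDiff ℝ ∞ er
  zero : ∀ x, x ∉ tsupport (cs.kap i.k) → w x = 0 ∧ er x = 0
  sym : ∀ x k m, er x k m = er x m k
  eq : ∀ x ∈ Metric.ball (0 : E2) (29 / 10), ∀ k m,
    met (fun y => Fmol i y + w y) x k m = met (Fmol i) x k m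
      + cs.psi i.k x ^ 2 * Hmol i x k m + er x k m
  smF : ContDiffOn ℝ ∞ (Fmol i) (Metric.ball (0 : E2) (29 / 10))
  smH : ContDiffOn ℝ ∞ (Hmol i) (Metric.ball (0 : E2) (29 / 10))
  Hsym : ∀ x, Hmol i x 0 1 = Hmol i x 1 0
  bw0 : ∀ r, ∀ x ∈ Metric.ball (0 : E2) (29 / 10), ∀ j ≤ r, ‖iteratedFDeriv ℝ j w x‖ ≤
    N0 r * i.Lam ^ N0 r * i.δ ^ (49 / 100 : ℝ) * ((qd P i.δ ^ 25)⁻¹) ^ j
  bw1 : ∀ r, Stage_LB r (qd P i.δ ^ 25)⁻¹ (N1 r * i.Lam ^ N1 r * i.δ ^ (49 / 100 : ℝ))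
    (fun y => fderiv ℝ w y)
  ber : ∀ r, Stage_LB r (qd P i.δ ^ 25)⁻¹ (N2 r * i.Lam ^ N2 r * i.δ ^ (11 / 8 : ℝ)) er
  bpsi : ∀ r, Stage_LB r (qd P i.δ ^ 25)⁻¹ (N3 r * i.Lam ^ N3 r * i.δ ^ (-(1 / 100 : ℝ)))
    (cs.psi i.k)

private theorem Stage_dat (PF : CellFun) : ∃ C0 m0 : ℕ, 20 ≤ C0 ∧ ∀ (cs : CutSeq) (P : ℕ),
    10000 ≤ P → ∃ (Ct Cb : ℕ) (N0 N1 N2 N3 : ℕ → ℕ), ∀ i : StIdx C0 m0 P Ct,
      Cb * i.Lam ^ Cb * i.δ ≤ 1 → ∃ (w : E2 → V4) (er : E2 → T2),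
        Stage_Dat cs N0 N1 N2 N3 i w er := by
  obtain ⟨C0, m0, hC0, hfour⟩ := fourCol PF
  refine ⟨C0, m0, hC0, fun cs P hP => ?_⟩
  obtain ⟨Ct, D, hB, hD⟩ := st_col cs C0 m0 P hC0 hP
  have hDL : ∀ i, D.Lam i = i.Lam := fun i => (hD i).1
  have hDd : ∀ i, D.δ i = i.δ := fun i => (hD i).2.1
  have hDq : ∀ i, D.q i = qd P i.δ := fun i => (hD i).2.2.1
  have hDs : ∀ i, D.s i = qd P i.δ ^ 21 := fun i => (hD i).2.2.2.1
  have hDF : ∀ i, D.Fm i = Fmol i := fun i => (hD i).2.2.2.2.2.1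
  have hDH : ∀ i, D.Hm i = Hmol i := fun i => (hD i).2.2.2.2.2.2.2.1
  have hDp : ∀ i, D.psi i = cs.psi i.k := fun i => (hD i).2.2.2.2.2.2.2.2.1
  have hDk : ∀ i, D.kap i = cs.kap i.k := fun i => (hD i).2.2.2.2.2.2.2.2.2.1
  have hq30 : ∀ i, D.q i ^ 30 ≤ D.s i := fun i => by
    rw [hDs, ← hDq]
    exact pow_le_pow_of_le_one (D.q_pos i).le (D.q_lt i).le (by norm_num)
  obtain ⟨g0, hg0, w, er, e0, e1, hw, hfw, her, hgood⟩ := hfour P (by omega) _ D hB hq30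
    (fun i => (hD i).2.2.2.2.2.2.2.2.2.2)
  have hG : ∀ g ∈ D.S.G.mem, ∃ C : ℕ, ∀ i, g i ≤ C * D.Lam i ^ C * D.δ i ^ (-(1 / 100 : ℝ)) :=
    fun g hg => (show GTmem D.Lam D.δ g from hg).2 (1 / 100) (by norm_num)
  have hpsi : Bd (D.S.rescale (fun i => D.q i ^ 4 * D.s i) e0 e1) (fun _ _ => 1) D.psi := by
    obtain ⟨θ, hθ, hθ2⟩ := hB.flat 1 le_rfl
    have h1 : Bd D.S (fun _ _ => 1) D.psi := hθ.congr fun i x hx => by
      have h2 := (hθ2 i x hx).2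
      rw [pow_one] at h2
      exact h2.symm
    refine Bd.rescale _ _ _ (fun i => ?_) h1
    have h3 : D.q i ^ 4 ≤ 1 := pow_le_one₀ (D.q_pos i).le (D.q_lt i).le
    calc D.q i ^ 4 * D.s i ≤ 1 * D.s i := mul_le_mul_of_nonneg_right h3 (D.s_pos i).le
      _ = D.s i := one_mul _
  obtain ⟨N0, hN0⟩ := Stage_cst D.Lam D.δ D.hL D.d_pos hw hG
  obtain ⟨N1, hN1⟩ := Stage_cst D.Lam D.δ D.hL D.d_pos hfw hG
  obtain ⟨N2, hN2⟩ := Stage_cst D.Lam D.δ D.hL D.d_pos her hG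
  obtain ⟨N3, hN3⟩ := Stage_cst D.Lam D.δ D.hL D.d_pos hpsi hG
  have hP0 : (0 : ℝ) < P := by
    have : 0 < P := by omega
    exact_mod_cast this
  obtain ⟨Cb, hCb⟩ := GTmem.beats D.hL D.d_pos D.d_le1 (show GTmem D.Lam D.δ g0 from hg0)
    (a := 1 / (P : ℝ)) (by positivity)
  refine ⟨Ct, Cb, N0, N1, N2, N3, fun i hthr => ⟨w i, er i, ?_⟩⟩
  have hqi : g0 i * D.q i ≤ 1 := by
    have h1 := hCb i (by rw [hDL, hDd]; exact hthr)
    rw [hDq]
    rw [hDd] at h1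
    exact h1
  obtain ⟨hws, hes, hzero, hsym, heq⟩ := hgood i hqi
  have hδ : 0 < i.δ := i.st.d0
  have hL := i.st.hL
  have hδ1 : i.δ ≤ 1 := by
    have h1 := D.d_le1 i
    rw [hDd] at h1
    exact h1
  have hq0 : 0 < qd P i.δ := by
    have h1 := D.q_pos i
    rw [hDq] at h1
    exact h1
  have hsc : D.q i ^ 4 * D.s i = qd P i.δ ^ 25 := by
    rw [hDq, hDs, ← pow_add]
  have ht0 : 0 ≤ (qd P i.δ ^ 25)⁻¹ := by positivity
  have hUi : ∀ x ∈ Metric.ball (0 : E2) (29 / 10),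
      x ∈ ((D.S.restrict (fun i => g0 i * D.q i ≤ 1)).rescale (fun i => D.q i ^ 4 * D.s i) e0 e1).U
        i := fun x hx => ⟨hx, hqi⟩
  have h2 : (((D.S.restrict (fun i => g0 i * D.q i ≤ 1)).rescale
      (fun i => D.q i ^ 4 * D.s i) e0 e1).s i) = qd P i.δ ^ 25 := hsc
  refine ⟨hδ1, hq0, hws, hes, ?_, hsym, ?_, ?_, ?_, ?_, ?_, ?_, ?_, ?_⟩
  · rw [hDk] at hzero
    exact hzero
  · rw [hDF, hDp, hDH] at heq
    exact heq
  · have h1 := D.Fm_sm i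
    rw [hDF] at h1
    exact h1
  · have h1 := hB.H.1 i
    rw [hDH] at h1
    exact h1
  · have h1 := D.Hm_sym i
    rw [hDH] at h1
    exact h1
  · intro r x hx j hj
    have h1 := hN0 r i x (hUi x hx) j hj
    rw [hDL, hDd, h2] at h1
    refine h1.trans (le_of_eq ?_)
    rw [← Stage_sq hδ]
    ring
  · intro r
    refine ⟨(hfw.1 i).mono fun x hx => hUi x hx, fun x hx j hj => ?_⟩
    have h1 := hN1 r i x (hUi x hx) j hj
    rw [hDL, hDd, h2] at h1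
    refine h1.trans (le_of_eq ?_)
    rw [← Stage_sq hδ]
    ring
  · intro r
    have h0 : Stage_LB r (qd P i.δ ^ 25)⁻¹ (N2 r * i.Lam ^ N2 r * (i.δ ^ (-(1 / 100 : ℝ)) *
        (i.δ * Real.sqrt i.δ / qd P i.δ ^ 25))) (er i) := by
      refine ⟨(her.1 i).mono fun x hx => hUi x hx, fun x hx j hj => ?_⟩
      have h1 := hN2 r i x (hUi x hx) j hj
      rw [hDL, hDd, hsc, h2] at h1
      refine h1.trans (le_of_eq ?_)
      ring
    refine Stage_mono ht0 h0 ?_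
    have h2 : i.δ ^ (-(1 / 100 : ℝ)) * (i.δ * Real.sqrt i.δ / qd P i.δ ^ 25) ≤
        i.δ ^ (11 / 8 : ℝ) := by
      have h3 : qd P i.δ ^ 25 = i.δ ^ ((25 : ℝ) / P) := by
        rw [qd_rpow hδ 25]
        norm_num
      have h4 : i.δ ^ (-(1 / 100 : ℝ)) * (i.δ * Real.sqrt i.δ / qd P i.δ ^ 25) =
          i.δ ^ (-(1 / 100 : ℝ) + 1 + 1 / 2 - (25 : ℝ) / P) := by
        rw [h3, Real.rpow_sub hδ, Real.rpow_add hδ, Real.rpow_add hδ, Real.rpow_one,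
          Real.sqrt_eq_rpow]
        ring
      rw [h4]
      refine Real.rpow_le_rpow_of_exponent_ge hδ hδ1 ?_
      have h5 : (25 : ℝ) / P ≤ 25 / 10000 := by
        have : (10000 : ℝ) ≤ P := by exact_mod_cast hP
        exact div_le_div_of_nonneg_left (by norm_num) (by norm_num) this
      linarith
    gcongr
  · intro r
    have h5 : D.psi i = cs.psi i.k := hDp i
    refine ⟨?_, fun x hx j hj => ?_⟩
    · have h6 := hpsi.1 i
      rw [h5] at h6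
      exact h6
    · have h1 := hN3 r i x (show x ∈ Metric.ball (0 : E2) (29 / 10) from hx) j hj
      have h2 : ((D.S.rescale (fun i => D.q i ^ 4 * D.s i) e0 e1).s i) = qd P i.δ ^ 25 := hsc
      rw [hDL, hDd, h5, h2, mul_one] at h1
      exact h1

/-- cross terms -/
private noncomputable def Stage_X (G w : E2 → V4) : E2 → T2 := fun y a b =>
  inner ℝ (fderiv ℝ G y (bv a)) (fderiv ℝ w y (bv b)) +
    inner ℝ (fderiv ℝ w y (bv a)) (fderiv ℝ G y (bv b))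

/-- the new error -/
private noncomputable def Stage_E (G w : E2 → V4) (er Q : E2 → T2) (psi : E2 → ℝ) : E2 → T2 :=
  fun y => (er y + Stage_X G w y) + -(psi y * psi y) • Q y

/-- the bound for the new error -/
private theorem Stage_bd : ∃ Cf : ℕ → ℕ → ℕ → ℕ → ℕ → ℕ, ∀ (r A N1 N2 N3 : ℕ)
    (t δ Lam K : ℝ) (G w : E2 → V4) (er Q : E2 → T2) (psi : E2 → ℝ), 0 ≤ t → 0 < δ → δ ≤ 1 →
      1 ≤ Lam → 1 ≤ K → Stage_LB r t (A * Lam * K * δ ^ 2) (fun y => fderiv ℝ G y) →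
      Stage_LB r t (N1 * Lam ^ N1 * δ ^ (49 / 100 : ℝ)) (fun y => fderiv ℝ w y) →
      Stage_LB r t (N2 * Lam ^ N2 * δ ^ (11 / 8 : ℝ)) er →
      Stage_LB r t (N3 * Lam ^ N3 * δ ^ (-(1 / 100 : ℝ))) psi →
      Stage_LB r t (A * Lam * K * δ * δ ^ 2) Q →
      Stage_LB r t (Cf r A N1 N2 N3 * Lam ^ Cf r A N1 N2 N3 * K * δ ^ (11 / 8 : ℝ))
        (Stage_E G w er Q psi) := by
  obtain ⟨c4, hc4, hT2⟩ := Stage_T2
  set c1 : ℝ := ‖ContinuousLinearMap.mul ℝ ℝ‖ with hc1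
  set c2 : ℝ := ‖(ContinuousLinearMap.lsmul ℝ ℝ : ℝ →L[ℝ] T2 →L[ℝ] T2)‖ with hc2
  set c3 : ℝ := ‖(innerSL ℝ : V4 →L[ℝ] V4 →L[ℝ] ℝ)‖ with hc3
  have hc10 : 0 ≤ c1 := norm_nonneg (ContinuousLinearMap.mul ℝ ℝ)
  have hc20 : 0 ≤ c2 := norm_nonneg (ContinuousLinearMap.lsmul ℝ ℝ : ℝ →L[ℝ] T2 →L[ℝ] T2)
  have hc30 : 0 ≤ c3 := norm_nonneg (innerSL ℝ : V4 →L[ℝ] V4 →L[ℝ] ℝ)
  refine ⟨fun r A N1 N2 N3 => N1 + N2 + 2 * N3 + 1 + ⌈2 * c4 * c3 * 2 ^ r * A * N1⌉₊ +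
    ⌈c2 * c1 * (2 ^ r * 2 ^ r) * N3 ^ 2 * A⌉₊, ?_⟩
  intro r A N1 N2 N3 t δ Lam K G w er Q psi ht0 hδ hδ1 hL hK bG bw ber bpsi bQ
  have bX : Stage_LB r t (c4 * (c3 * 2 ^ r * ((A * Lam * K * δ ^ 2) *
      (N1 * Lam ^ N1 * δ ^ (49 / 100 : ℝ))) + c3 * 2 ^ r *
      ((N1 * Lam ^ N1 * δ ^ (49 / 100 : ℝ)) * (A * Lam * K * δ ^ 2)))) (Stage_X G w) := by
    refine hT2 fun a b => ?_
    exact Stage_add (Stage_bilin ht0 (innerSL ℝ : V4 →L[ℝ] V4 →L[ℝ] ℝ)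
      (Stage_app ht0 bG a) (Stage_app ht0 bw b))
      (Stage_bilin ht0 (innerSL ℝ : V4 →L[ℝ] V4 →L[ℝ] ℝ)
      (Stage_app ht0 bw a) (Stage_app ht0 bG b))
  have bP : Stage_LB r t (c2 * 2 ^ r * ((c1 * 2 ^ r * ((N3 * Lam ^ N3 *
      δ ^ (-(1 / 100 : ℝ))) * (N3 * Lam ^ N3 * δ ^ (-(1 / 100 : ℝ))))) *
      (A * Lam * K * δ * δ ^ 2))) (fun y => -(psi y * psi y) • Q y) :=
    Stage_bilin ht0 (ContinuousLinearMap.lsmul ℝ ℝ : ℝ →L[ℝ] T2 →L[ℝ] T2)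
      (Stage_neg (Stage_bilin ht0 (ContinuousLinearMap.mul ℝ ℝ) bpsi bpsi)) bQ
  refine Stage_mono ht0 (Stage_add (Stage_add ber bX) bP) ?_
  set c : ℕ := ⌈2 * c4 * c3 * 2 ^ r * A * N1⌉₊ with hc
  set c' : ℕ := ⌈c2 * c1 * (2 ^ r * 2 ^ r) * N3 ^ 2 * A⌉₊ with hc'
  set C : ℕ := N1 + N2 + 2 * N3 + 1 + c + c' with hC
  have hL0 : 0 < Lam := by linarith
  have hK0 : 0 < K := by linarith
  have g1 : δ ^ 2 * δ ^ (49 / 100 : ℝ) ≤ δ ^ (11 / 8 : ℝ) := by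
    have h1 : δ ^ 2 * δ ^ (49 / 100 : ℝ) = δ ^ (2 + 49 / 100 : ℝ) := by
      rw [Real.rpow_add hδ, Real.rpow_two]
    rw [h1]
    exact Real.rpow_le_rpow_of_exponent_ge hδ hδ1 (by norm_num)
  have g2 : δ ^ (-(1 / 100 : ℝ)) * δ ^ (-(1 / 100 : ℝ)) * (δ * δ ^ 2) ≤ δ ^ (11 / 8 : ℝ) := by
    have h1 : δ ^ (-(1 / 100 : ℝ)) * δ ^ (-(1 / 100 : ℝ)) * (δ * δ ^ 2) =
        δ ^ (-(1 / 100 : ℝ) + -(1 / 100 : ℝ) + (1 + 2)) := by
      rw [Real.rpow_add hδ, Real.rpow_add hδ, Real.rpow_add hδ, Real.rpow_two, Real.rpow_one]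
    rw [h1]
    exact Real.rpow_le_rpow_of_exponent_ge hδ hδ1 (by norm_num)
  set D8 : ℝ := δ ^ (11 / 8 : ℝ) with hD8
  have hD0 : 0 ≤ D8 := Real.rpow_nonneg hδ.le _
  have k1 : 2 * c4 * c3 * 2 ^ r * A * N1 ≤ (c : ℝ) := Nat.le_ceil _
  have k2 : c2 * c1 * (2 ^ r * 2 ^ r) * N3 ^ 2 * A ≤ (c' : ℝ) := Nat.le_ceil _
  have p1 : Lam ^ N2 ≤ Lam ^ C := pow_le_pow_right₀ hL (by omega)
  have p2 : Lam ^ (N1 + 1) ≤ Lam ^ C := pow_le_pow_right₀ hL (by omega)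
  have p3 : Lam ^ (2 * N3 + 1) ≤ Lam ^ C := pow_le_pow_right₀ hL (by omega)
  have t1 : N2 * Lam ^ N2 * D8 ≤ N2 * (Lam ^ C * K * D8) := by
    have h1 : Lam ^ N2 * D8 ≤ Lam ^ C * K * D8 := by
      calc Lam ^ N2 * D8 ≤ Lam ^ C * D8 := mul_le_mul_of_nonneg_right p1 hD0
        _ = Lam ^ C * 1 * D8 := by ring
        _ ≤ Lam ^ C * K * D8 := by gcongr
    rw [mul_assoc]
    exact mul_le_mul_of_nonneg_left h1 (Nat.cast_nonneg _)
  have t2 : c4 * (c3 * 2 ^ r * ((A * Lam * K * δ ^ 2) * (N1 * Lam ^ N1 * δ ^ (49 / 100 : ℝ))) +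
      c3 * 2 ^ r * ((N1 * Lam ^ N1 * δ ^ (49 / 100 : ℝ)) * (A * Lam * K * δ ^ 2))) ≤
      c * (Lam ^ C * K * D8) := by
    calc c4 * (c3 * 2 ^ r * ((A * Lam * K * δ ^ 2) * (N1 * Lam ^ N1 * δ ^ (49 / 100 : ℝ))) +
        c3 * 2 ^ r * ((N1 * Lam ^ N1 * δ ^ (49 / 100 : ℝ)) * (A * Lam * K * δ ^ 2)))
        = (2 * c4 * c3 * 2 ^ r * A * N1) * (Lam ^ (N1 + 1) * K * (δ ^ 2 * δ ^ (49 / 100 : ℝ))) := by
          rw [pow_succ]
          ring
      _ ≤ (c : ℝ) * (Lam ^ C * K * D8) := by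
          gcongr
  have t3 : c2 * 2 ^ r * ((c1 * 2 ^ r * ((N3 * Lam ^ N3 * δ ^ (-(1 / 100 : ℝ))) *
      (N3 * Lam ^ N3 * δ ^ (-(1 / 100 : ℝ))))) * (A * Lam * K * δ * δ ^ 2)) ≤
      c' * (Lam ^ C * K * D8) := by
    calc c2 * 2 ^ r * ((c1 * 2 ^ r * ((N3 * Lam ^ N3 * δ ^ (-(1 / 100 : ℝ))) *
        (N3 * Lam ^ N3 * δ ^ (-(1 / 100 : ℝ))))) * (A * Lam * K * δ * δ ^ 2))
        = (c2 * c1 * (2 ^ r * 2 ^ r) * N3 ^ 2 * A) * (Lam ^ (2 * N3 + 1) * K *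
          (δ ^ (-(1 / 100 : ℝ)) * δ ^ (-(1 / 100 : ℝ)) * (δ * δ ^ 2))) := by
          rw [pow_succ, two_mul, pow_add]
          ring
      _ ≤ (c' : ℝ) * (Lam ^ C * K * D8) := by
          gcongr
  have hCR : (N2 : ℝ) + c + c' ≤ (C : ℝ) := by
    have h1 : N2 + c + c' ≤ C := by omega
    exact_mod_cast h1
  have hX : 0 ≤ Lam ^ C * K * D8 := by positivity
  calc _ ≤ N2 * (Lam ^ C * K * D8) + c * (Lam ^ C * K * D8) + c' * (Lam ^ C * K * D8) :=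
        add_le_add (add_le_add t1 t2) t3
    _ = ((N2 : ℝ) + c + c') * (Lam ^ C * K * D8) := by ring
    _ ≤ (C : ℝ) * (Lam ^ C * K * D8) := mul_le_mul_of_nonneg_right hCR hX
    _ = C * Lam ^ C * K * D8 := by ring

/-- the equation at a point -/
private theorem Stage_pt {F Fm w : E2 → V4} {er H g e : E2 → T2} {psi : E2 → ℝ} {δ : ℝ} {x : E2}
    (dF : DifferentiableAt ℝ F x) (dM : DifferentiableAt ℝ Fm x) (dw : DifferentiableAt ℝ w x)
    (a b : Fin 2) (h1 : met (fun y => Fm y + w y) x a b = met Fm x a b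
      + psi x ^ 2 * H x a b + er x a b) :
    met (fun y => F y + w y) x a b = met F x a b + psi x ^ 2 * (δ * g x a b - e x a b) +
      Stage_E (fun y => F y - Fm y) w er (fun y => (δ • g y - e y) - H y) psi x a b := by
  have e1 : fderiv ℝ (fun y => F y + w y) x = fderiv ℝ F x + fderiv ℝ w x := fderiv_fun_add dF dw
  have e2 : fderiv ℝ (fun y => Fm y + w y) x = fderiv ℝ Fm x + fderiv ℝ w x :=
    fderiv_fun_add dM dw
  have e3 : fderiv ℝ (fun y => F y - Fm y) x = fderiv ℝ F x - fderiv ℝ Fm x :=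
    fderiv_fun_sub dF dM
  simp only [met, pd] at h1 ⊢
  rw [e2] at h1
  rw [e1]
  simp only [Stage_E, Stage_X, Pi.add_apply, Pi.sub_apply, Pi.smul_apply, smul_eq_mul]
  rw [e3]
  simp only [add_apply, sub_apply, inner_add_left, inner_add_right, inner_sub_left,
    inner_sub_right] at h1 ⊢
  linear_combination h1

/-- the new error vanishes where `w`, `er`, `psi` vanish -/
private theorem Stage_E_zero {G w : E2 → V4} {er Q : E2 → T2} {psi : E2 → ℝ} {x : E2}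
    (h1 : w =ᶠ[𝓝 x] fun _ => 0) (h2 : er x = 0) (h3 : psi x = 0) :
    Stage_E G w er Q psi x = 0 := by
  have h4 : fderiv ℝ w x = 0 := by
    rw [h1.fderiv_eq]
    simp
  have h5 : Stage_X G w x = 0 := by
    funext a b
    simp only [Stage_X, h4, zero_apply, inner_zero_left, inner_zero_right, add_zero, Pi.zero_apply]
  simp only [Stage_E, h5, h2, h3, mul_zero, neg_zero, zero_smul, add_zero]

private theorem Stage_E_smooth {G w : E2 → V4} {er Q : E2 → T2} {psi : E2 → ℝ} {U : Set E2}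
    (hU : IsOpen U) (smG : ContDiffOn ℝ ∞ G U) (smw : ContDiff ℝ ∞ w) (sme : ContDiff ℝ ∞ er)
    (smQ : ContDiffOn ℝ ∞ Q U) (smp : ContDiff ℝ ∞ psi) :
    ContDiffOn ℝ ∞ (Stage_E G w er Q psi) U := by
  have h1 : ContDiffOn ℝ ∞ (fun y => fderiv ℝ G y) U := smG.fderiv_of_isOpen hU (by norm_cast)
  have h2 : ContDiffOn ℝ ∞ (fun y => fderiv ℝ w y) U :=
    smw.contDiffOn.fderiv_of_isOpen hU (by norm_cast)
  have h3 : ContDiffOn ℝ ∞ (Stage_X G w) U := by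
    rw [contDiffOn_pi]
    intro a
    rw [contDiffOn_pi]
    intro b
    exact ((h1.clm_apply contDiffOn_const).inner ℝ (h2.clm_apply contDiffOn_const)).add
      ((h2.clm_apply contDiffOn_const).inner ℝ (h1.clm_apply contDiffOn_const))
  exact (sme.contDiffOn.add h3).add (((smp.contDiffOn.mul smp.contDiffOn).neg).smul smQ)

private theorem Stage_E_sym {G w : E2 → V4} {er Q : E2 → T2} {psi : E2 → ℝ} {x : E2}
    (he : ∀ k m, er x k m = er x m k) (hQ : Q x 0 1 = Q x 1 0) (a b : Fin 2) :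
    Stage_E G w er Q psi x a b = Stage_E G w er Q psi x b a := by
  have hQs' : Q x a b = Q x b a := by
    fin_cases a <;> fin_cases b
    · rfl
    · exact hQ
    · exact hQ.symm
    · rfl
  simp only [Stage_E, Pi.add_apply, Pi.smul_apply]
  rw [he a b, hQs']
  congr 2
  simp only [Stage_X]
  rw [real_inner_comm, add_comm, real_inner_comm]

private theorem Stage_fin (cs : CutSeq) {C0 m0 P Ct : ℕ} {N0 N1 N2 N3 A : ℕ → ℕ}
    {Cf : ℕ → ℕ → ℕ → ℕ → ℕ → ℕ}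
    (hCf : ∀ (r A N1 N2 N3 : ℕ) (t δ Lam K : ℝ) (G w : E2 → V4) (er Q : E2 → T2) (psi : E2 → ℝ),
      0 ≤ t → 0 < δ → δ ≤ 1 →
      1 ≤ Lam → 1 ≤ K → Stage_LB r t (A * Lam * K * δ ^ 2) (fun y => fderiv ℝ G y) →
      Stage_LB r t (N1 * Lam ^ N1 * δ ^ (49 / 100 : ℝ)) (fun y => fderiv ℝ w y) →
      Stage_LB r t (N2 * Lam ^ N2 * δ ^ (11 / 8 : ℝ)) er →
      Stage_LB r t (N3 * Lam ^ N3 * δ ^ (-(1 / 100 : ℝ))) psi →
      Stage_LB r t (A * Lam * K * δ * δ ^ 2) Q →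
      Stage_LB r t (Cf r A N1 N2 N3 * Lam ^ Cf r A N1 N2 N3 * K * δ ^ (11 / 8 : ℝ))
        (Stage_E G w er Q psi))
    (hP : 10000 ≤ P) (i : StIdx C0 m0 P Ct) {w : E2 → V4} {er : E2 → T2}
    (hD : Stage_Dat cs N0 N1 N2 N3 i w er)
    (hA : ∀ r K, 1 ≤ K → KBd P r K i.δ i.F i.gst i.e →
      (∀ j, j ≤ r → ∀ x ∈ Metric.closedBall (0 : E2) (29 / 10),
        ‖iteratedFDeriv ℝ (j + 1) (fun y => i.F y - Fmol i y) x‖ ≤
          A r * i.Lam * K * qd P i.δ ^ (2 * P) * ((qd P i.δ ^ 25)⁻¹) ^ j) ∧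
      (∀ j, j ≤ r → ∀ x ∈ Metric.closedBall (0 : E2) (29 / 10),
        ‖iteratedFDeriv ℝ j (fun y => (i.δ • i.gst y - i.e y) - Hmol i y) x‖ ≤
          A r * i.Lam * K * i.δ * qd P i.δ ^ (2 * P) * ((qd P i.δ ^ 25)⁻¹) ^ j))
    (Cr : ℕ → ℕ) (hCr : ∀ r, N0 0 ≤ Cr r ∧ N1 r ≤ Cr r ∧
      Cf r (A r) (N1 r) (N2 r) (N3 r) ≤ Cr r) :
    StOut cs Cr P i.k i.Lam i.δ i.F i.gst i.e w (Stage_E (fun y => i.F y - Fmol i y) w er
      (fun y => (i.δ • i.gst y - i.e y) - Hmol i y) (cs.psi i.k)) := by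
  have hst := i.st
  have hL := hst.hL
  have hδ := hst.d0
  have hδ1 := hD.d1
  have hL0 : 0 < i.Lam := by linarith
  have hq0 := hD.q0
  have ht0 : 0 ≤ (qd P i.δ ^ 25)⁻¹ := by positivity
  obtain ⟨R, hR⟩ : ∃ R : ℝ, R = rad i.k + (1 / 2) ^ i.k / 8 := ⟨_, rfl⟩
  have hpk : (0 : ℝ) < (1 / 2) ^ i.k := by positivity
  have hpk1 : ((1 : ℝ) / 2) ^ i.k ≤ 1 := pow_le_one₀ (by norm_num) (by norm_num)
  have hR0 : 0 < R := by
    rw [hR, rad, pow_succ]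
    linarith
  have hR1 : R < 29 / 10 := by
    rw [hR, rad, pow_succ]
    linarith
  have hout : ∀ x : E2, R < ‖x‖ → (w =ᶠ[𝓝 x] fun _ => 0) ∧ (er =ᶠ[𝓝 x] fun _ => 0) ∧
      cs.psi i.k x = 0 := by
    intro x hx
    have hop : IsOpen {y : E2 | R < ‖y‖} := isOpen_lt continuous_const continuous_norm
    have h1 : ∀ y : E2, R < ‖y‖ → y ∉ tsupport (cs.kap i.k) := by
      intro y hy
      rw [notMem_tsupport_iff_eventuallyEq]
      filter_upwards [hop.mem_nhds hy] with z hz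
      refine cs.kap_supp i.k z ?_
      rw [← hR]
      exact le_of_lt hz
    refine ⟨?_, ?_, ?_⟩
    · filter_upwards [hop.mem_nhds hx] with y hy
      exact (hD.zero y (h1 y hy)).1
    · filter_upwards [hop.mem_nhds hx] with y hy
      exact (hD.zero y (h1 y hy)).2
    · refine cs.psi_supp i.k x (le_trans ?_ hx.le)
      rw [hR]
      linarith
  have hb4 : Metric.ball (0 : E2) (29 / 10) ⊆ Metric.ball (0 : E2) 4 :=
    Metric.ball_subset_ball (by norm_num)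
  have smpsi : ContDiff ℝ ∞ (cs.psi i.k) := by
    have h1 : cs.psi i.k = cs.root i.k 1 := by
      funext x
      have h2 := (cs.root_pow i.k 1 le_rfl x).2
      rw [pow_one] at h2
      exact h2.symm
    rw [h1]
    exact cs.root_sm i.k 1 le_rfl
  have smG : ContDiffOn ℝ ∞ (fun y => i.F y - Fmol i y) (Metric.ball (0 : E2) (29 / 10)) :=
    (hst.smF.mono hb4).sub hD.smF
  have smQ : ContDiffOn ℝ ∞ (fun y => (i.δ • i.gst y - i.e y) - Hmol i y)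
      (Metric.ball (0 : E2) (29 / 10)) :=
    (((hst.smg.mono hb4).const_smul i.δ).sub (hst.sme.mono hb4)).sub hD.smH
  obtain ⟨Ef, hEf⟩ : ∃ Ef, Ef = Stage_E (fun y => i.F y - Fmol i y) w er
    (fun y => (i.δ • i.gst y - i.e y) - Hmol i y) (cs.psi i.k) := ⟨_, rfl⟩
  have hE0 : ∀ x : E2, R < ‖x‖ → Ef x = 0 := by
    intro x hx
    obtain ⟨h1, h2, h3⟩ := hout x hx
    rw [hEf]
    exact Stage_E_zero h1 h2.eq_of_nhds h3
  have hE0' : ∀ x, x ∉ Metric.closedBall (0 : E2) R → Ef x = 0 := by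
    intro x hx
    rw [Metric.mem_closedBall, dist_zero_right, not_le] at hx
    exact hE0 x hx
  have hw0' : ∀ x, x ∉ Metric.closedBall (0 : E2) R → w x = 0 := by
    intro x hx
    rw [Metric.mem_closedBall, dist_zero_right, not_le] at hx
    exact (hout x hx).1.eq_of_nhds
  have smE : ContDiffOn ℝ ∞ Ef (Metric.ball (0 : E2) (29 / 10)) := by
    rw [hEf]
    exact Stage_E_smooth Metric.isOpen_ball smG hD.ws hD.es smQ smpsi
  have smE' : ContDiff ℝ ∞ Ef := contDiff_of_zero_off Metric.isOpen_ball Metric.isClosed_closedBall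
    (Metric.closedBall_subset_ball hR1) smE hE0'
  have hball : ∀ x : E2, x ∉ Metric.ball (0 : E2) (29 / 10) → x ∉ Metric.closedBall (0 : E2) R :=
    fun x hx h => hx (Metric.closedBall_subset_ball hR1 h)
  rw [← hEf]
  refine ⟨hD.ws, smE', ?_, ?_, ?_, ?_, ?_⟩
  · -- support
    intro x hx
    rw [← hR] at hx
    exact ⟨Stage_bdry hD.ws.continuous hR0 (fun y hy => (hout y hy).1.eq_of_nhds) hx,
      Stage_bdry smE'.continuous hR0 hE0 hx⟩
  · -- symmetry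
    intro x a b
    by_cases hx : R < ‖x‖
    · rw [hE0 x hx]
      rfl
    · have hx4 : x ∈ Metric.ball (0 : E2) 4 := by
        rw [Metric.mem_ball, dist_zero_right]
        linarith
      rw [hEf]
      refine Stage_E_sym (hD.sym x) ?_ a b
      have h1 := hst.gsym x hx4
      have h2 := hst.esym x hx4
      have h3 := hD.Hsym x
      simp only [Pi.sub_apply, Pi.smul_apply]
      rw [h1, h2, h3]
  · -- the equation
    intro x hx4 a b
    by_cases hx : R < ‖x‖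
    · obtain ⟨h1, h2, h3⟩ := hout x hx
      have h4 : (fun y => i.F y + w y) =ᶠ[𝓝 x] i.F := by
        filter_upwards [h1] with y hy
        rw [hy, add_zero]
      have h5 : met (fun y => i.F y + w y) x a b = met i.F x a b := by
        simp only [met, pd]
        rw [h4.fderiv_eq]
      rw [h5, hE0 x hx, h3]
      simp
    · have hxb : x ∈ Metric.ball (0 : E2) (29 / 10) := by
        rw [Metric.mem_ball, dist_zero_right]
        linarith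
      have dF : DifferentiableAt ℝ i.F x :=
        (hst.smF.contDiffAt (Metric.isOpen_ball.mem_nhds hx4)).differentiableAt (by simp)
      have dM : DifferentiableAt ℝ (Fmol i) x :=
        (hD.smF.contDiffAt (Metric.isOpen_ball.mem_nhds hxb)).differentiableAt (by simp)
      have dw : DifferentiableAt ℝ w x := hD.ws.contDiffAt.differentiableAt (by simp)
      rw [hEf]
      exact Stage_pt dF dM dw a b (hD.eq x hxb a b)
  · -- the bounds for `w`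
    intro r x
    by_cases hx : x ∈ Metric.ball (0 : E2) (29 / 10)
    · rcases Nat.eq_zero_or_pos r with hr | hr
      · subst hr
        have h1 := hD.bw0 0 x hx 0 le_rfl
        have h2 : N0 0 ≤ Cr 0 := (hCr 0).1
        have h3 : (N0 0 : ℝ) ≤ (Cr 0 : ℝ) := by exact_mod_cast h2
        have h4 : i.Lam ^ N0 0 ≤ i.Lam ^ Cr 0 := pow_le_pow_right₀ hL h2
        refine h1.trans ?_
        simp only [Nat.zero_sub, pow_zero]
        gcongr
      · have h1 := (hD.bw1 r).2 x hx (r - 1) (Nat.sub_le _ _)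
        rw [norm_iteratedFDeriv_fderiv, Nat.sub_add_cancel hr] at h1
        have h2 : N1 r ≤ Cr r := (hCr r).2.1
        have h3 : (N1 r : ℝ) ≤ (Cr r : ℝ) := by exact_mod_cast h2
        have h4 : i.Lam ^ N1 r ≤ i.Lam ^ Cr r := pow_le_pow_right₀ hL h2
        refine h1.trans ?_
        gcongr
    · rw [iteratedFDeriv_zero_off Metric.isClosed_closedBall hw0' r (hball x hx), norm_zero]
      positivity
  · -- the bounds for `e'`
    intro r K hK hKB x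
    have hK0 : 0 < K := by linarith
    by_cases hx : x ∈ Metric.ball (0 : E2) (29 / 10)
    · obtain ⟨a1, a2⟩ := hA r K hK hKB
      have hq2 : qd P i.δ ^ (2 * P) = i.δ ^ 2 := by
        rw [mul_comm, pow_mul, qd_pow (by omega) hδ]
      have hcb : Metric.ball (0 : E2) (29 / 10) ⊆ Metric.closedBall (0 : E2) (29 / 10) :=
        Metric.ball_subset_closedBall
      have bG : Stage_LB r (qd P i.δ ^ 25)⁻¹ (A r * i.Lam * K * i.δ ^ 2)
          (fun y => fderiv ℝ (fun y => i.F y - Fmol i y) y) := by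
        refine Stage_fd smG fun y hy j hj => ?_
        have h1 := a1 j hj y (hcb hy)
        rw [hq2] at h1
        exact h1
      have bQ : Stage_LB r (qd P i.δ ^ 25)⁻¹ (A r * i.Lam * K * i.δ * i.δ ^ 2)
          (fun y => (i.δ • i.gst y - i.e y) - Hmol i y) := by
        refine ⟨smQ, fun y hy j hj => ?_⟩
        have h1 := a2 j hj y (hcb hy)
        rw [hq2] at h1
        exact h1
      have bE := (hCf r (A r) (N1 r) (N2 r) (N3 r) _ i.δ i.Lam K _ w er _ (cs.psi i.k) ht0 hδ hδ1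
        hL hK bG (hD.bw1 r) (hD.ber r) (hD.bpsi r) bQ).2 x hx r le_rfl
      rw [← hEf] at bE
      refine bE.trans (mul_le_mul_of_nonneg_right ?_ (pow_nonneg ht0 r))
      have h2 := (hCr r).2.2
      have h3 : (Cf r (A r) (N1 r) (N2 r) (N3 r) : ℝ) ≤ (Cr r : ℝ) := by exact_mod_cast h2
      have h4 : i.Lam ^ Cf r (A r) (N1 r) (N2 r) (N3 r) ≤ i.Lam ^ Cr r :=
        pow_le_pow_right₀ hL h2
      gcongr
    · rw [iteratedFDeriv_zero_off Metric.isClosed_closedBall hE0' r (hball x hx), norm_zero]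
      positivity

theorem stage (PF : CellFun) : ∃ C0 m0 : ℕ, 20 ≤ C0 ∧ ∀ (cs : CutSeq) (P : ℕ), 10000 ≤ P →
    ∃ Cr : ℕ → ℕ, ∀ (k : ℕ) (Lam δ : ℝ) (F0 F : E2 → V4) (gst e : E2 → T2),
      St C0 m0 P k Lam δ F0 F gst e → Cr 0 * Lam ^ Cr 0 * δ ≤ 1 →
      ∃ (w : E2 → V4) (e' : E2 → T2), StOut cs Cr P k Lam δ F gst e w e' := by
  obtain ⟨C0, m0, hC0, hdat⟩ := Stage_dat PF
  refine ⟨C0, m0, hC0, fun cs P hP => ?_⟩
  obtain ⟨Ct, Cb, N0, N1, N2, N3, hdat⟩ := hdat cs P hP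
  obtain ⟨A, hA⟩ := mol_err C0 m0 P hC0 hP Ct
  obtain ⟨Cf, hCf⟩ := Stage_bd
  obtain ⟨Cr, hCr⟩ : ∃ Cr : ℕ → ℕ, ∀ r, Ct ≤ Cr r ∧ Cb ≤ Cr r ∧ N0 0 ≤ Cr r ∧ N1 r ≤ Cr r ∧
      Cf r (A r) (N1 r) (N2 r) (N3 r) ≤ Cr r :=
    ⟨fun r => Ct + Cb + N0 0 + N1 r + Cf r (A r) (N1 r) (N2 r) (N3 r), fun r => by
      refine ⟨?_, ?_, ?_, ?_, ?_⟩ <;> simp only <;> omega⟩
  refine ⟨Cr, fun k Lam δ F0 F gst e hst hthr => ?_⟩
  have hL := hst.hL
  have hδ := hst.d0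
  have hL0 : 0 < Lam := by linarith
  have hthr' : ∀ C : ℕ, C ≤ Cr 0 → C * Lam ^ C * δ ≤ 1 := by
    intro C hC
    refine le_trans ?_ hthr
    have h1 : (C : ℝ) ≤ (Cr 0 : ℝ) := by exact_mod_cast hC
    have h2 : Lam ^ C ≤ Lam ^ Cr 0 := pow_le_pow_right₀ hL hC
    gcongr
  obtain ⟨w, er, hD⟩ := hdat ⟨k, Lam, δ, F0, F, gst, e, hst, hthr' Ct (hCr 0).1⟩
    (hthr' Cb (hCr 0).2.1)
  exact ⟨w, _, Stage_fin cs hCf hP ⟨k, Lam, δ, F0, F, gst, e, hst, hthr' Ct (hCr 0).1⟩ hD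
    (hA ⟨k, Lam, δ, F0, F, gst, e, hst, hthr' Ct (hCr 0).1⟩) Cr
    fun r => ⟨(hCr r).2.2.1, (hCr r).2.2.2.1, (hCr r).2.2.2.2⟩⟩

end P205F
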