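import Vale.Agent.Lib.P205F.TLE
import Vale.Agent.Lib.P205F.Stage

/-! # P205F module TL: the one-chart theorem -/

open scoped ContDiff Topology
open Set Filter

namespace P205F

theorem stage_ok (PF : CellFun) : ∃ C0 m0 : ℕ, 20 ≤ C0 ∧ ∀ cs : CutSeq,
    ∃ Cr : ℕ → ℕ → ℕ, StageOK C0 m0 cs Cr := by
  obtain ⟨C0, m0, hC0, h⟩ := stage PF
  refine ⟨C0, m0, hC0, fun cs => ?_⟩
  have h1 : ∀ P : ℕ, ∃ Cr : ℕ → ℕ, 10000 ≤ P →
      ∀ (k : ℕ) (Lam δ : ℝ) (F0 F : E2 → V4) (gst e : E2 → T2),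
      St C0 m0 P k Lam δ F0 F gst e → Cr 0 * Lam ^ Cr 0 * δ ≤ 1 →
      ∃ (w : E2 → V4) (e' : E2 → T2), StOut cs Cr P k Lam δ F gst e w e' := by
    intro P
    by_cases hP : 10000 ≤ P
    · obtain ⟨Cr, hCr⟩ := h cs P hP
      exact ⟨Cr, fun _ => hCr⟩
    · exact ⟨fun _ => 0, fun hP' => absurd hP' hP⟩
  choose Cr hCr using h1
  exact ⟨Cr, fun P hP k Lam δ F0 F gst e hst hthr => hCr P hP k Lam δ F0 F gst e hst hthr⟩

private theorem TL_sub_self (F : E2 → V4) (r : ℕ) (x : E2) :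
    ‖iteratedFDeriv ℝ r (fun y => F y - F y) x‖ = 0 := by
  have h1 : (fun y => F y - F y) = fun _ => (0 : V4) := by
    funext y
    exact sub_self _
  rw [h1, iteratedFDeriv_fun_zero]
  exact norm_zero

private theorem TL_inv (I : ItData) (H : E2 → T2)
    (hF : ContDiffOn ℝ ∞ I.F0 (Metric.ball 0 4)) (hg : ContDiffOn ℝ ∞ I.gst (Metric.ball 0 4))
    (hH : ContDiffOn ℝ ∞ H (Metric.ball 0 4))
    (hsym : ∀ x ∈ Metric.ball (0 : E2) 4, I.gst x 0 1 = I.gst x 1 0 ∧ H x 0 1 = H x 1 0)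
    (hok : MapOK I.Lam (Metric.closedBall 0 3) I.F0 I.gst)
    (hbd : ∀ r ≤ 2 * I.P0 + 1, ∀ x ∈ Metric.closedBall (0 : E2) 3,
      ‖iteratedFDeriv ℝ r I.F0 x‖ ≤ I.Lam ∧ ‖iteratedFDeriv ℝ r I.gst x‖ ≤ I.Lam ∧
        ‖iteratedFDeriv ℝ r (fun y => H y - I.t • I.gst y) x‖ ≤ I.t ^ (11 / 10 : ℝ))
    (T : Thr I.C0 I.m0 I.Cr I.P0 I.Lam I.t)
    (h10 : I.t ^ (1 / 10 : ℝ) ≤ nu I.C0 I.m0 I.Lam / 4) (hq : I.Lam * qd I.P0 I.t ^ 20 ≤ 1) :
    I.Inv 0 I.P0 I.F0 (fun x => I.t • I.gst x - H x) := by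
  have hL := I.hLam
  have ht := I.t_pos
  have hP := I.hP0
  have hq0 : 0 < qd I.P0 I.t := qd_pos ht
  have hq1 : qd I.P0 I.t < 1 := qd_lt (by omega) ht (by linarith [I.t_le])
  have hLX : I.Lam ≤ (qd I.P0 I.t ^ 20)⁻¹ := by
    rw [← one_div, le_div_iff₀ (by positivity)]
    exact hq
  have hX : 1 ≤ (qd I.P0 I.t ^ 20)⁻¹ := hL.trans hLX
  have hν : 0 ≤ nu I.C0 I.m0 I.Lam / 4 := by
    unfold nu
    have : (0 : ℝ) ≤ I.Lam := by linarith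
    positivity
  have he : ∀ r ≤ 2 * I.P0 + 1, ∀ x ∈ Metric.closedBall (0 : E2) 3,
      ‖iteratedFDeriv ℝ r (fun x => I.t • I.gst x - H x) x‖ ≤ nu I.C0 I.m0 I.Lam / 4 * I.t := by
    intro r hr x hx
    have h1 : (fun x => I.t • I.gst x - H x) = -(fun y => H y - I.t • I.gst y) := by
      funext y
      rw [Pi.neg_apply, neg_sub]
    rw [h1, iteratedFDeriv_neg_apply, norm_neg]
    refine (hbd r hr x hx).2.2.trans ?_
    have h2 : I.t ^ (11 / 10 : ℝ) = I.t ^ (1 / 10 : ℝ) * I.t := by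
      have h3 : (11 / 10 : ℝ) = 1 / 10 + 1 := by norm_num
      rw [h3, Real.rpow_add ht, Real.rpow_one]
    rw [h2]
    exact mul_le_mul_of_nonneg_right h10 ht.le
  refine ⟨le_rfl, ?_, ?_, ?_, ?_⟩
  · rw [dlt_zero]
    refine ⟨hL, ht, ?_, hF, hF, hg, (hg.const_smul I.t).sub hH, fun x hx => (hsym x hx).1,
      fun x hx => ?_, hok, ?_, ?_, ?_, ?_⟩
    · have h1 := dlt_le ht I.t_le 0
      rwa [dlt_zero] at h1
    · change I.t * I.gst x 0 1 - H x 0 1 = I.t * I.gst x 1 0 - H x 1 0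
      rw [(hsym x hx).1, (hsym x hx).2]
    · intro r _ x _
      rw [TL_sub_self]
      exact hν
    · intro r hr3 hr x hx
      refine ((hbd r (by omega) x hx).1.trans hLX).trans ?_
      exact le_self_pow₀ hX (by omega)
    · intro r hr x hx
      refine (he r (by omega) x hx).trans ?_
      exact le_mul_of_one_le_right (mul_nonneg hν ht.le) (one_le_pow₀ hX)
    · intro r hr1 hr x hx
      refine ((hbd r (by omega) x hx).2.1.trans hLX).trans ?_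
      exact le_self_pow₀ hX (by omega)
  · rw [dlt_zero]
    exact T
  · have h1 : (fun y => I.F0 y - I.F0 y) = fun _ => (0 : V4) := by
      funext y
      exact sub_self _
    rw [h1]
    exact contDiff_const
  · intro r _ x
    rw [TL_sub_self]
    unfold ds
    simp

/-- the one-chart theorem -/
theorem TL (PF : CellFun) (φ : E2 → ℝ) (hφ : Flat1 φ) (hφ1 : ∀ x, φ x ≤ 1)
    (hφs : ∀ x, 2 ≤ ‖x‖ → φ x = 0)
    : ∃ cs : CutSeq, ∀ r0 : ℕ, ∃ m s : ℕ, ∀ (Lam t : ℝ) (F : E2 → V4) (gst H : E2 → T2),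
      1 ≤ Lam → 0 < t → m * Lam ^ m * t ≤ 1 →
      ContDiffOn ℝ ∞ F (Metric.ball 0 4) → ContDiffOn ℝ ∞ gst (Metric.ball 0 4) →
      ContDiffOn ℝ ∞ H (Metric.ball 0 4) →
      (∀ x ∈ Metric.ball (0 : E2) 4, gst x 0 1 = gst x 1 0 ∧ H x 0 1 = H x 1 0) →
      MapOK Lam (Metric.closedBall 0 3) F gst →
      (∀ r ≤ s, ∀ x ∈ Metric.closedBall (0 : E2) 3, ‖iteratedFDeriv ℝ r F x‖ ≤ Lam ∧
        ‖iteratedFDeriv ℝ r gst x‖ ≤ Lam ∧
        ‖iteratedFDeriv ℝ r (fun y => H y - t • gst y) x‖ ≤ t ^ (11 / 10 : ℝ)) →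
      ∃ W : E2 → V4, ContDiff ℝ ∞ W ∧ (∀ x, 5 / 2 ≤ ‖x‖ → W x = 0) ∧
        (∀ x ∈ Metric.ball (0 : E2) 4, ∀ a b, met (fun y => F y + W y) x a b =
          met F x a b + φ x ^ 2 * H x a b + sg cs t x * gst x a b) ∧
        ∀ r ≤ r0, ∀ x, ‖iteratedFDeriv ℝ r W x‖ ≤ t ^ (7 / 20 : ℝ) := by
  obtain ⟨C0, m0, hC0, hst⟩ := stage_ok PF
  obtain ⟨cs, hcs⟩ := exists_cutSeq φ hφ hφ1 hφs
  obtain ⟨Cr, hCr⟩ := hst cs
  refine ⟨cs, fun r0 => ?_⟩
  obtain ⟨P0, hP0⟩ : ∃ P0 : ℕ, P0 = max 10000 (1000 * (r0 + 1)) := ⟨_, rfl⟩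
  have hP1 : 10000 ≤ P0 := hP0 ▸ le_max_left _ _
  have hP2 : 1000 * (r0 + 1) ≤ P0 := hP0 ▸ le_max_right _ _
  obtain ⟨m, hm⟩ := thr_start m0 hC0 Cr (P := P0) (by omega)
  refine ⟨m, 2 * P0 + 1, ?_⟩
  intro Lam t F gst H hLam ht hmt hF hg hH hsym hok hbd
  obtain ⟨T, t20, tq, t10, hLq⟩ := hm Lam t hLam ht hmt
  have t2 : t ≤ 1 / 2 := t20.trans (by norm_num)
  let I : ItData :=
    { C0 := C0
      m0 := m0
      cs := cs
      Cr := Cr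
      P0 := P0
      Lam := Lam
      t := t
      F0 := F
      gst := gst
      hC0 := hC0
      stage := hCr
      hP0 := hP1
      hLam := hLam
      t_pos := ht
      t_le := t2
      ds_le := fun k => (ds_le_start ht t20 k).trans tq }
  have hinv : I.Inv 0 I.P0 I.F0 (fun x => I.t • I.gst x - H x) :=
    TL_inv I H hF hg hH hsym hok hbd T t10 hLq
  obtain ⟨P, Fs, e, R⟩ := I.run_exists _ hinv
  obtain ⟨W, hW, hWs, hWm, hWb⟩ := I.run_limit R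
  refine ⟨W, hW, hWs, ?_, ?_⟩
  · intro x hx a b
    have h1 := hWm x hx a b
    have h2 : I.t * I.gst x a b - (I.t • I.gst x - H x) a b = H x a b := by
      change I.t * I.gst x a b - (I.t * I.gst x a b - H x a b) = H x a b
      ring
    rw [h2] at h1
    have h3 : I.cs.psi 0 x = φ x := congrFun hcs x
    rw [h3] at h1
    exact h1
  · intro r hr x
    exact hWb r (t ^ (7 / 20 : ℝ)) (by change 1000 * r ≤ P0; omega)
      (fun k => ds_le_start ht t20 k) x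

end P205F
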