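import Vale.Agent.Lib.P205F.MT1
import Vale.Agent.Lib.P205F.MT3
import Vale.Agent.Lib.P205F.TL

/-! # P205F module MT4: theorem T, the step in one chart -/

noncomputable section

open scoped Manifold ContDiff Topology RealInnerProductSpace
open Set

namespace P205F

set_option maxSynthPendingDepth 3

variable {M : Type} [TopologicalSpace M] [ChartedSpace E2 M]

/-- nondegeneracy of a map in the charts of a finite atlas -/
structure NdF (𝒜 : FinAtlas M) (s : ℕ) (Λ : ℝ) (F : M → V4) : Prop where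
  sm : Sm F
  N1 : ∀ p, ClAt 𝒜 s F Λ p
  N2 : ∀ k, ∀ x ∈ Metric.closedBall (0 : E2) 3, ∀ v : E2,
    ‖v‖ ^ 2 ≤ Λ * locT (𝒜.φ k) (metr F) x v v
  N3 : ∀ k, ∀ x ∈ Metric.closedBall (0 : E2) 3, ∃ v : E2, ‖v‖ = 1 ∧
    1 ≤ Λ * gramV (F ∘ (𝒜.φ k).symm) v x

/-- the data of the chart steps: `H` is nearly `t • metr F` -/
structure HOK (𝒜 : FinAtlas M) (s : ℕ) (t : ℝ) (F : M → V4) (H : M → Bil) : Prop where
  sm : SmT H
  sym : ∀ p v w, H p v w = H p w v
  near : ∀ k, ∀ x ∈ Metric.closedBall (0 : E2) 3, ∀ j ≤ s,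
    ‖iteratedFDeriv ℝ j (fun y => locT (𝒜.φ k) H y - t • locT (𝒜.φ k) (metr F) y) x‖ ≤
      t ^ (11 / 10 : ℝ)

theorem MT4_jet_mono {L L' : ℝ} (h : L ≤ L') {a b : V4} {Q : Fin 2 → Fin 2 → V4} {gs : T2}
    (J : JetOK L a b Q gs) : JetOK L' a b Q gs := by
  obtain ⟨v0, hv0, hv1⟩ := J.good
  refine ⟨J.ha.trans h, J.hb.trans h, fun i j => (J.hQ i j).trans h, J.Qsym,
    fun i j => (J.hg i j).trans h, J.gsym, fun v => ?_, fun v => ?_, v0, hv0, ?_⟩
  · exact (J.met v).trans (mul_le_mul_of_nonneg_right h (by positivity))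
  · by_cases hv : v = 0
    · have h1 := J.gpos v
      have h2 : nsq v = 0 := by rw [hv]; simp [nsq]
      have h3 : ∑ i, ∑ j, co v i * co v j * gs i j = 0 := by
        rw [hv]; simp [co]
      rw [h2, h3, mul_zero]
    · have h0 : 0 < nsq v := by
        unfold nsq
        have h4 : v.1 ≠ 0 ∨ v.2 ≠ 0 := by
          by_contra hcon
          push Not at hcon
          exact hv (Prod.ext hcon.1 hcon.2)
        rcases h4 with h4 | h4 <;> positivity
      have h1 := J.gpos v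
      have hL : 0 < L := by
        have h5 := J.ha
        have h6 := norm_nonneg a
        rcases (h6.trans h5).lt_or_eq with h7 | h7
        · exact h7
        · rw [← h7, zero_mul] at h1
          linarith
      have h3 : 0 ≤ ∑ i, ∑ j, co v i * co v j * gs i j := by
        by_contra hneg
        push Not at hneg
        nlinarith
      exact h1.trans (mul_le_mul_of_nonneg_right h h3)
  · have hL : 0 ≤ L := (norm_nonneg a).trans J.ha
    have h3 : 0 ≤ gram3 a b (Qv Q v0) := by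
      by_contra hneg
      push Not at hneg
      nlinarith
    exact hv1.trans (mul_le_mul_of_nonneg_right h h3)

theorem MT4_map_mono {L L' : ℝ} (h : L ≤ L') {D : Set E2} {F : E2 → V4} {gs : E2 → T2}
    (J : MapOK L D F gs) : MapOK L' D F gs :=
  ⟨fun x hx => MT4_jet_mono h (J.jet x hx), fun r hr x hx => (J.F3 r hr x hx).trans h,
    fun r hr x hx => (J.g1 r hr x hx).trans h⟩

theorem MT4_thr {m a b : ℕ} {Λ t : ℝ} (hΛ : 1 ≤ Λ) (ht : 0 < t) (h : m * Λ ^ m * t ≤ 1)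
    (ha : a ≤ m) (hb : b ≤ m) : a * Λ ^ b * t ≤ 1 := by
  refine le_trans ?_ h
  have h0 : 0 < Λ := by linarith
  have h1 : (a : ℝ) ≤ m := by exact_mod_cast ha
  have h2 : Λ ^ b ≤ Λ ^ m := pow_le_pow_right₀ hΛ hb
  have h3 : (a : ℝ) * Λ ^ b ≤ m * Λ ^ m :=
    mul_le_mul h1 h2 (by positivity) (by positivity)
  exact mul_le_mul_of_nonneg_right h3 ht.le

theorem MT4_metr_congr {F G : M → V4} {p : M} (h : ∀ᶠ q in 𝓝 p, F q = G q) :
    metr F p = metr G p := by
  have h1 : F ∘ (chartAt E2 p).symm =ᶠ[𝓝 (chartAt E2 p p)] G ∘ (chartAt E2 p).symm := by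
    have hp : p ∈ (chartAt E2 p).source := mem_chart_source E2 p
    have hc : Filter.Tendsto (chartAt E2 p).symm (𝓝 (chartAt E2 p p)) (𝓝 p) := by
      have := (chartAt E2 p).continuousAt_symm ((chartAt E2 p).map_source hp)
      unfold ContinuousAt at this
      rwa [(chartAt E2 p).left_inv hp] at this
    exact hc.eventually h
  unfold metr dP
  rw [h1.fderiv_eq]

variable [IsManifold 𝓘(ℝ, E2) ∞ M]

theorem chart_step [T2Space M] (PF : CellFun) (𝒜 : FinAtlas M) (k : Fin 𝒜.n) (χ : E2 → ℝ)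
    (h1 : Flat1 χ) (h2 : ∀ x, χ x ≤ 1) (h3 : ∀ x, 2 ≤ ‖x‖ → χ x = 0) :
    ∃ cs : CutSeq, ∀ r0 : ℕ, ∃ m s : ℕ, ∀ (Λ t : ℝ) (F G : M → V4) (H : M → Bil),
      1 ≤ Λ → 0 < t → m * Λ ^ m * t ≤ 1 → NdF 𝒜 s Λ F → HOK 𝒜 s t F H → Sm G →
      (∀ p, ClAt 𝒜 s (G - F) (t ^ (1 / 3 : ℝ)) p) →
      ∃ G' : M → V4, Sm G' ∧
        (∀ p, metr G' p = metr G p + (pushM (𝒜.φ k) χ p ^ 2 • H p +
          pushM (𝒜.φ k) (sg cs t) p • metr F p)) ∧
        ∀ p, ClAt 𝒜 r0 (G' - G) (m * t ^ (7 / 20 : ℝ)) p := by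
  obtain ⟨cs, hTL⟩ := TL PF χ h1 h2 h3
  refine ⟨cs, fun r0 => ?_⟩
  obtain ⟨mT, sT, hT⟩ := hTL r0
  obtain ⟨m0, hm0, hmap⟩ := mapOK_of
  choose Cm hCm using met_bd
  obtain ⟨C5, hC5, hpush⟩ := push_bd 𝒜 V4 r0
  obtain ⟨Cs, hsg⟩ := sg_bd cs
  -- constants
  obtain ⟨K, hK2, hKm, hKC⟩ : ∃ K : ℕ, 2 ≤ K ∧ m0 ≤ K ∧ ∀ r ≤ sT, Cm r ≤ K := by
    refine ⟨2 + m0 + ∑ r ∈ Finset.range (sT + 1), Cm r, by omega, by omega, fun r hr => ?_⟩
    have := Finset.single_le_sum (f := Cm) (s := Finset.range (sT + 1)) (fun _ _ => Nat.zero_le _)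
      (Finset.mem_range.2 (Nat.lt_succ_iff.2 hr))
    omega
  refine ⟨mT * K ^ mT + K * mT + m0 ^ 3 + m0 * 3 + 2 + ⌈C5⌉₊, sT + 4, ?_⟩
  obtain ⟨m, hm⟩ : ∃ m : ℕ, m = mT * K ^ mT + K * mT + m0 ^ 3 + m0 * 3 + 2 + ⌈C5⌉₊ := ⟨_, rfl⟩
  rw [← hm]
  intro Λ t F G H hΛ ht hmt hF hH hG hGF
  set φ := 𝒜.φ k with hφdef
  have hφ : φ ∈ ATL M := 𝒜.mem k
  have h4 : Metric.closedBall (0 : E2) 4 ⊆ φ.target := 𝒜.target k
  have hb4 : Metric.ball (0 : E2) 4 ⊆ φ.target := Metric.ball_subset_closedBall.trans h4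
  have h34 : Metric.closedBall (0 : E2) 3 ⊆ Metric.ball (0 : E2) 4 :=
    Metric.closedBall_subset_ball (by norm_num)
  have hΛ0 : 0 < Λ := by linarith
  -- smallness
  have ht2 : t ≤ 1 / 2 := by
    have := MT4_thr hΛ ht hmt (a := 2) (b := 0) (by omega) (by omega)
    rw [pow_zero, mul_one] at this
    push_cast at this
    linarith
  have ht1 : t ≤ 1 := by linarith
  have hη0 : 0 ≤ t ^ (1 / 3 : ℝ) := Real.rpow_nonneg ht.le _
  have hη1 : t ^ (1 / 3 : ℝ) ≤ 1 := Real.rpow_le_one ht.le ht1 (by norm_num)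
  have hηm : m0 * Λ ^ m0 * t ^ (1 / 3 : ℝ) ≤ 1 := by
    have h5 := MT4_thr hΛ ht hmt (a := m0 ^ 3) (b := m0 * 3) (by omega) (by omega)
    have h6 : (m0 * Λ ^ m0 * t ^ (1 / 3 : ℝ)) ^ 3 ≤ 1 := by
      have h7 : (t ^ (1 / 3 : ℝ)) ^ 3 = t := by
        rw [← Real.rpow_natCast, ← Real.rpow_mul ht.le]
        norm_num
      rw [mul_pow, mul_pow, h7, ← pow_mul]
      push_cast at h5
      exact h5
    by_contra hcon
    push Not at hcon
    have h8 := one_lt_pow₀ hcon (n := 3) (by norm_num)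
    linarith
  obtain ⟨Lam, hLam⟩ : ∃ Lam : ℝ, Lam = K * Λ ^ K := ⟨_, rfl⟩
  have hKr : (2 : ℝ) ≤ K := by exact_mod_cast hK2
  have hL1 : 2 * Λ ≤ Lam := by
    rw [hLam]
    have h5 : Λ ^ 1 ≤ Λ ^ K := pow_le_pow_right₀ hΛ (by omega)
    rw [pow_one] at h5
    exact mul_le_mul hKr h5 hΛ0.le (by positivity)
  have hL2 : ∀ r ≤ sT, Cm r * Λ ^ 2 ≤ Lam := by
    intro r hr
    rw [hLam]
    have h5 : Λ ^ 2 ≤ Λ ^ K := pow_le_pow_right₀ hΛ hK2
    have h6 : (Cm r : ℝ) ≤ K := by exact_mod_cast hKC r hr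
    exact mul_le_mul h6 h5 (by positivity) (by positivity)
  have hL3 : m0 * Λ ^ m0 ≤ Lam := by
    rw [hLam]
    have h5 : Λ ^ m0 ≤ Λ ^ K := pow_le_pow_right₀ hΛ hKm
    have h6 : (m0 : ℝ) ≤ K := by exact_mod_cast hKm
    exact mul_le_mul h6 h5 (by positivity) (by positivity)
  have hL : 1 ≤ Lam := by linarith
  have hLt : mT * Lam ^ mT * t ≤ 1 := by
    have h5 := MT4_thr hΛ ht hmt (a := mT * K ^ mT) (b := K * mT) (by omega) (by omega)
    rw [hLam, mul_pow, ← pow_mul, ← mul_assoc]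
    push_cast at h5
    exact h5
  -- the maps in the chart
  have hFs : ContDiffOn ℝ ∞ (F ∘ φ.symm) (Metric.ball 0 4) := (hF.sm.loc hφ).mono hb4
  have hGs : ContDiffOn ℝ ∞ (G ∘ φ.symm) (Metric.ball 0 4) := (hG.loc hφ).mono hb4
  have hat : ∀ {x : E2}, x ∈ Metric.closedBall (0 : E2) 3 → x ∈ Metric.ball (0 : E2) 4 :=
    fun hx => h34 hx
  have hFb : ∀ r ≤ sT + 4, ∀ x ∈ Metric.closedBall (0 : E2) 3,
      ‖iteratedFDeriv ℝ r (F ∘ φ.symm) x‖ ≤ Λ := by
    intro r hr x hx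
    have hxt : x ∈ φ.target := hb4 (hat hx)
    have h5 := hF.N1 (φ.symm x) k (φ.map_target hxt) (by
      change φ (φ.symm x) ∈ _
      rw [φ.right_inv hxt]; exact hx) r hr
    have h6 : (𝒜.φ k) (φ.symm x) = x := φ.right_inv hxt
    rw [h6] at h5
    exact h5
  have hGFb : ∀ r ≤ sT + 4, ∀ x ∈ Metric.closedBall (0 : E2) 3,
      ‖iteratedFDeriv ℝ r (fun y => (G ∘ φ.symm) y - (F ∘ φ.symm) y) x‖ ≤ t ^ (1 / 3 : ℝ) := by
    intro r hr x hx
    have hxt : x ∈ φ.target := hb4 (hat hx)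
    have h5 := hGF (φ.symm x) k (φ.map_target hxt) (by
      change φ (φ.symm x) ∈ _
      rw [φ.right_inv hxt]; exact hx) r hr
    have h6 : (𝒜.φ k) (φ.symm x) = x := φ.right_inv hxt
    rw [h6] at h5
    exact h5
  have hGb : ∀ r ≤ sT + 4, ∀ x ∈ Metric.closedBall (0 : E2) 3,
      ‖iteratedFDeriv ℝ r (G ∘ φ.symm) x‖ ≤ Lam := by
    intro r hr x hx
    have hn := Metric.isOpen_ball.mem_nhds (hat hx)
    have cF : ContDiffAt ℝ (r : ℕ∞ω) (F ∘ φ.symm) x :=
      (hFs.contDiffAt hn).of_le (by exact_mod_cast le_top)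
    have cG : ContDiffAt ℝ (r : ℕ∞ω) (G ∘ φ.symm) x :=
      (hGs.contDiffAt hn).of_le (by exact_mod_cast le_top)
    have h5 : G ∘ φ.symm = (fun y => (G ∘ φ.symm) y - (F ∘ φ.symm) y) + (F ∘ φ.symm) := by
      funext y
      simp
    have h6 : iteratedFDeriv ℝ r (G ∘ φ.symm) x =
        iteratedFDeriv ℝ r (fun y => (G ∘ φ.symm) y - (F ∘ φ.symm) y) x +
          iteratedFDeriv ℝ r (F ∘ φ.symm) x := by
      conv_lhs => rw [h5]
      exact iteratedFDeriv_add_apply (cG.sub cF) cF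
    rw [h6]
    refine (norm_add_le _ _).trans ?_
    have h7 := hGFb r hr x hx
    have h8 := hFb r hr x hx
    linarith
  -- the tensors in the chart
  have hHs : ContDiffOn ℝ ∞ (locT φ H) (Metric.ball 0 4) := (hH.sm φ hφ).mono hb4
  have hMs : ContDiffOn ℝ ∞ (locT φ (metr F)) (Metric.ball 0 4) :=
    (smT_metr hF.sm φ hφ).mono hb4
  have hbcF : ∀ y ∈ Metric.ball (0 : E2) 4, met (F ∘ φ.symm) y = bc (locT φ (metr F) y) := by
    intro y hy
    rw [locT_metr hF.sm hφ (hb4 hy), bc_metrU]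
  have hgs : ContDiffOn ℝ ∞ (met (F ∘ φ.symm)) (Metric.ball 0 4) :=
    (bc_smooth hMs).congr hbcF
  have hHb : ContDiffOn ℝ ∞ (fun x => bc (locT φ H x)) (Metric.ball 0 4) := bc_smooth hHs
  obtain ⟨W, hW, hWs, hWm, hWb⟩ := hT Lam t (G ∘ φ.symm) (met (F ∘ φ.symm))
    (fun x => bc (locT φ H x)) hL ht hLt hGs hgs hHb
    (by
      intro x _
      refine ⟨?_, ?_⟩
      · exact real_inner_comm _ _
      · exact hH.sym _ _ _)
    (by
      refine MT4_map_mono hL3 (hmap Λ (t ^ (1 / 3 : ℝ)) (F ∘ φ.symm) (G ∘ φ.symm) hΛ hη0 hηm hFs hGs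
        (fun r hr => hFb r (by omega)) ?_ (hF.N3 k) (fun r hr => hGFb r (by omega)))
      intro x hx v
      have h5 := hF.N2 k x hx v
      have h6 : locT (𝒜.φ k) (metr F) x = metrU (F ∘ φ.symm) x :=
        locT_metr hF.sm hφ (hb4 (hat hx))
      rw [h6] at h5
      exact h5)
    (by
      intro r hr x hx
      refine ⟨hGb r (by omega) x hx, ?_, ?_⟩
      · refine le_trans ?_ (hL2 r hr)
        exact (hCm r Λ (F ∘ φ.symm) hΛ hFs x hx (fun j hj => hFb j (by omega) x hx)).1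
      · have h5 : (fun y => bc (locT φ H y) - t • met (F ∘ φ.symm) y) =ᶠ[𝓝 x]
            fun y => bc (locT φ H y - t • locT φ (metr F) y) := by
          filter_upwards [Metric.isOpen_ball.mem_nhds (hat hx)] with y hy
          rw [hbcF y hy]
          funext a b
          rfl
        rw [(h5.iteratedFDeriv ℝ r).eq_of_nhds]
        refine (bc_bd Metric.isOpen_ball (hHs.sub (hMs.const_smul t)) (hat hx) r).trans ?_
        exact hH.near k x hx r (by omega))
  -- the new map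
  have hWp : Sm (pushM φ W) := pushM_sm hφ h4 hW hWs
  have hG' : Sm (fun p => G p + pushM φ W p) := ContMDiff.add hG hWp
  have hχs : ∀ x : E2, 5 / 2 ≤ ‖x‖ → χ x = 0 := fun x hx => h3 x (by linarith)
  have hsgs : ∀ x : E2, 5 / 2 ≤ ‖x‖ → sg cs t x = 0 := (hsg t ht ht2).2.2.1
  refine ⟨fun p => G p + pushM φ W p, hG', ?_, ?_⟩
  · intro p
    by_cases hp : p ∈ φ.source ∧ φ p ∈ Metric.closedBall (0 : E2) (5 / 2)
    · obtain ⟨hps, hpb⟩ := hp
      have hx4 : φ p ∈ Metric.ball (0 : E2) 4 :=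
        Metric.closedBall_subset_ball (by norm_num) hpb
      have hxt : φ p ∈ φ.target := hb4 hx4
      refine tens_ext (H := metr fun p => G p + pushM φ W p)
        (H' := fun p => metr G p + (pushM φ χ p ^ 2 • H p + pushM φ (sg cs t) p • metr F p))
        hφ hps ?_
      have e1 : locT φ (fun p => metr G p + (pushM φ χ p ^ 2 • H p +
          pushM φ (sg cs t) p • metr F p)) (φ p) =
          locT φ (metr G) (φ p) + (χ (φ p) ^ 2 • locT φ H (φ p) +
            sg cs t (φ p) • locT φ (metr F) (φ p)) := by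
        unfold locT
        beta_reduce
        rw [pushM_symm χ hxt, pushM_symm (sg cs t) hxt]
        rfl
      rw [e1, locT_metr hG' hφ hxt]
      apply bc_inj
      funext a b
      have e2 : (fun p => G p + pushM φ W p) ∘ φ.symm =ᶠ[𝓝 (φ p)]
          fun y => (G ∘ φ.symm) y + W y := by
        filter_upwards [φ.open_target.mem_nhds hxt] with y hy
        change G (φ.symm y) + pushM φ W (φ.symm y) = _
        rw [pushM_symm W hy]
        rfl
      have e3 : metrU ((fun p => G p + pushM φ W p) ∘ φ.symm) (φ p) =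
          metrU (fun y => (G ∘ φ.symm) y + W y) (φ p) := by
        unfold metrU
        rw [e2.fderiv_eq]
      rw [e3, bc_metrU, hWm (φ p) hx4 a b, bc_add, bc_add, bc_smul, bc_smul,
        locT_metr hG hφ hxt, bc_metrU, hbcF (φ p) hx4]
      ring
    · have e1 : metr (fun p => G p + pushM φ W p) p = metr G p := by
        refine MT4_metr_congr ?_
        filter_upwards [pushM_zero_nhds h4 hWs hp] with q hq
        rw [hq, add_zero]
      have hp' : ¬ (p ∈ φ.source ∧ φ p ∈ Metric.ball (0 : E2) (5 / 2)) := fun h =>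
        hp ⟨h.1, Metric.ball_subset_closedBall h.2⟩
      rw [e1, pushM_zero hχs hp', pushM_zero hsgs hp']
      simp
  · intro p l hpl hpb j hj
    have e1 : (fun p => G p + pushM φ W p) - G = pushM φ W := by
      funext q
      simp
    rw [e1]
    have hη : 0 ≤ t ^ (7 / 20 : ℝ) := Real.rpow_nonneg ht.le _
    refine (hpush k l W (t ^ (7 / 20 : ℝ)) hW hWs hη (fun j hj x => hWb j hj x) _ hpb j hj).trans ?_
    refine mul_le_mul_of_nonneg_right ?_ hη
    have h5 := Nat.le_ceil C5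
    have h6 : (⌈C5⌉₊ : ℝ) ≤ m := by
      have : ⌈C5⌉₊ ≤ m := by omega
      exact_mod_cast this
    linarith

end P205F
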