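import Vale.Agent.Lib.P205F.MT2
import Vale.Agent.Lib.P205F.MT4
import Vale.Agent.Lib.P205F.MStmt

/-! # P205F module MT5: theorem T -/

noncomputable section

open scoped Manifold ContDiff Topology RealInnerProductSpace
open Set

namespace P205F

set_option maxSynthPendingDepth 3

section

variable {M : Type} [TopologicalSpace M] [ChartedSpace E2 M]
variable {V : Type} [NormedAddCommGroup V] [NormedSpace ℝ V]

theorem MT5_mono {𝒜 : FinAtlas M} {r r' : ℕ} {u : M → V} {η η' : ℝ} {p : M}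
    (h : ClAt 𝒜 r u η p) (hr : r' ≤ r) (hη : η ≤ η') : ClAt 𝒜 r' u η' p :=
  fun k h1 h2 j hj => (h k h1 h2 j (hj.trans hr)).trans hη

variable [IsManifold 𝓘(ℝ, E2) ∞ M]

theorem MT5_at {F : M → V} (hF : Sm F) {φ : OpenPartialHomeomorph M E2} (hφ : φ ∈ ATL M)
    {x : E2} (hx : x ∈ φ.target) : ContDiffAt ℝ ∞ (F ∘ φ.symm) x :=
  (hF.loc hφ).contDiffAt (φ.open_target.mem_nhds hx)

theorem MT5_at' {F : M → V} (hF : Sm F) {φ : OpenPartialHomeomorph M E2} (hφ : φ ∈ ATL M)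
    {x : E2} (hx : x ∈ φ.target) (n : ℕ) : ContDiffAt ℝ n (F ∘ φ.symm) x :=
  (MT5_at hF hφ hx).of_le (by exact_mod_cast le_top)

theorem MT5_sm {F : M → V} (h : ∀ p : M, ContDiffAt ℝ ∞ (F ∘ (chartAt E2 p).symm)
    (chartAt E2 p p)) : Sm F :=
  sm_of_loc fun p => ⟨chartAt E2 p, chart_mem_ATL p, mem_chart_source E2 p, h p⟩

theorem MT5_sub {F G : M → V} (hF : Sm F) (hG : Sm G) : Sm (F - G) :=
  MT5_sm fun p => (MT5_at hF (chart_mem_ATL p) (mem_chart_target E2 p)).sub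
    (MT5_at hG (chart_mem_ATL p) (mem_chart_target E2 p))

theorem MT5_smul {F : M → V} (hF : Sm F) (c : ℝ) : Sm (c • F) :=
  MT5_sm fun p => (MT5_at hF (chart_mem_ATL p) (mem_chart_target E2 p)).const_smul c

theorem MT5_add {𝒜 : FinAtlas M} {r : ℕ} {u v : M → V} {η η' : ℝ} {p : M} (hu : Sm u) (hv : Sm v)
    (h : ClAt 𝒜 r u η p) (h' : ClAt 𝒜 r v η' p) : ClAt 𝒜 r (u + v) (η + η') p := by
  intro k h1 h2 j hj
  have e1 : (u + v) ∘ (𝒜.φ k).symm = u ∘ (𝒜.φ k).symm + v ∘ (𝒜.φ k).symm := rfl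
  have hx : 𝒜.φ k p ∈ (𝒜.φ k).target := (𝒜.φ k).map_source h1
  rw [e1, iteratedFDeriv_add_apply (MT5_at' hu (𝒜.mem k) hx j) (MT5_at' hv (𝒜.mem k) hx j)]
  exact (norm_add_le _ _).trans (add_le_add (h k h1 h2 j hj) (h' k h1 h2 j hj))

omit [IsManifold 𝓘(ℝ, E2) ∞ M] in
theorem MT5_zero {𝒜 : FinAtlas M} {r : ℕ} {η : ℝ} {p : M} (hη : 0 ≤ η) :
    ClAt 𝒜 r (0 : M → V) η p := by
  intro k h1 h2 j hj
  have e1 : (0 : M → V) ∘ (𝒜.φ k).symm = 0 := rfl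
  rw [e1]
  have : iteratedFDeriv ℝ j (0 : E2 → V) = 0 := iteratedFDeriv_fun_zero
  rw [this]
  simpa using hη

/-- powers: `X ^ n * t ≤ 1` implies `X * t ^ q ≤ 1` for `1 / n ≤ q` -/
theorem MT5_pow {X t q : ℝ} {n : ℕ} (hn : 1 ≤ n) (hX : 0 ≤ X) (ht : 0 < t) (ht1 : t ≤ 1)
    (h : X ^ n * t ≤ 1) (hq : 1 / n ≤ q) : X * t ^ q ≤ 1 := by
  have h0 : t ^ q ≤ t ^ (1 / n : ℝ) := Real.rpow_le_rpow_of_exponent_ge ht ht1 hq
  have h1 : (X * t ^ (1 / n : ℝ)) ^ n ≤ 1 := by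
    rw [mul_pow, ← Real.rpow_natCast (t ^ (1 / n : ℝ)), ← Real.rpow_mul ht.le,
      one_div_mul_cancel (by positivity), Real.rpow_one]
    exact h
  have h2 : X * t ^ (1 / n : ℝ) ≤ 1 := by
    by_contra hc
    exact absurd h1 (not_le.2 (one_lt_pow₀ (not_le.1 hc) (by omega)))
  exact (mul_le_mul_of_nonneg_left h0 hX).trans h2

end

variable {M : Type} [TopologicalSpace M] [ChartedSpace E2 M] [IsManifold 𝓘(ℝ, E2) ∞ M]

/-- a list of chart steps -/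
theorem chain [T2Space M] (𝒜 : FinAtlas M) (χ : Fin 𝒜.n → E2 → ℝ) (cs : Fin 𝒜.n → CutSeq)
    (h : ∀ k, ∀ r0 : ℕ, ∃ m s : ℕ, ∀ (Λ t : ℝ) (F G : M → V4) (H : M → Bil),
      1 ≤ Λ → 0 < t → m * Λ ^ m * t ≤ 1 → NdF 𝒜 s Λ F → HOK 𝒜 s t F H → Sm G →
      (∀ p, ClAt 𝒜 s (G - F) (t ^ (1 / 3 : ℝ)) p) →
      ∃ G' : M → V4, Sm G' ∧
        (∀ p, metr G' p = metr G p + (pushM (𝒜.φ k) (χ k) p ^ 2 • H p +
          pushM (𝒜.φ k) (sg (cs k) t) p • metr F p)) ∧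
        ∀ p, ClAt 𝒜 r0 (G' - G) (m * t ^ (7 / 20 : ℝ)) p) (L : List (Fin 𝒜.n)) :
    ∀ r0 : ℕ, ∃ s : ℕ, ∀ A : ℕ, ∃ m : ℕ, ∀ (Λ t : ℝ) (F G : M → V4) (H : M → Bil),
      1 ≤ Λ → 0 < t → m * Λ ^ m * t ≤ 1 → NdF 𝒜 s Λ F → HOK 𝒜 s t F H → Sm G →
      (∀ p, ClAt 𝒜 s (G - F) (A * t ^ (7 / 20 : ℝ)) p) →
      ∃ G' : M → V4, Sm G' ∧
        (∀ p, metr G' p = metr G p + (L.map fun k => pushM (𝒜.φ k) (χ k) p ^ 2 • H p +
          pushM (𝒜.φ k) (sg (cs k) t) p • metr F p).sum) ∧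
        ∀ p, ClAt 𝒜 r0 (G' - G) (m * t ^ (7 / 20 : ℝ)) p := by
  induction L with
  | nil =>
    intro r0
    refine ⟨0, fun A => ⟨0, fun Λ t F G H hΛ ht hm hF hH hG hGF => ⟨G, hG, fun p => ?_,
      fun p => ?_⟩⟩⟩
    · rw [List.map_nil, List.sum_nil, add_zero]
    · rw [sub_self]
      exact MT5_zero (by simp)
  | cons k L ih =>
    intro r0
    obtain ⟨s', hs'⟩ := ih r0
    obtain ⟨m1, s1, h1⟩ := h k (max r0 s')
    refine ⟨max s1 s', fun A => ?_⟩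
    obtain ⟨m', hm'⟩ := hs' (A + m1)
    refine ⟨m1 + m' + A ^ 60 + 1, fun Λ t F G H hΛ ht hm hF hH hG hGF => ?_⟩
    have hΛ0 : 0 ≤ Λ := by linarith
    have hle : ∀ n : ℕ, ∀ a : ℕ, n ≤ m1 + m' + A ^ 60 + 1 → a ≤ m1 + m' + A ^ 60 + 1 →
        (n : ℝ) * Λ ^ a * t ≤ 1 := fun n a hn ha => by
      refine le_trans (mul_le_mul_of_nonneg_right (mul_le_mul (Nat.cast_le.2 hn)
        (pow_le_pow_right₀ hΛ ha) (by positivity) (Nat.cast_nonneg _)) ht.le) hm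
    have ht1 : t ≤ 1 := by
      have := hle 1 0 (by omega) (by omega)
      simpa using this
    have hA : ((A : ℝ) ^ 60) * t ≤ 1 := by
      have := hle (A ^ 60) 0 (by omega) (by omega)
      simpa using this
    have hA2 : (A : ℝ) * t ^ (7 / 20 : ℝ) ≤ t ^ (1 / 3 : ℝ) := by
      have h2 := MT5_pow (n := 60) (q := 1 / 60) (by norm_num) (Nat.cast_nonneg A) ht ht1 hA
        (by norm_num)
      have h3 : t ^ (7 / 20 : ℝ) = t ^ (1 / 60 : ℝ) * t ^ (1 / 3 : ℝ) := by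
        rw [← Real.rpow_add ht]
        norm_num
      rw [h3, ← mul_assoc]
      exact mul_le_of_le_one_left (Real.rpow_nonneg ht.le _) h2
    have hF1 : ∀ s2, s2 ≤ max s1 s' → NdF 𝒜 s2 Λ F := fun s2 hs2 =>
      ⟨hF.sm, fun p => MT5_mono (hF.N1 p) hs2 le_rfl, hF.N2, hF.N3⟩
    have hH1 : ∀ s2, s2 ≤ max s1 s' → HOK 𝒜 s2 t F H := fun s2 hs2 =>
      ⟨hH.sm, hH.sym, fun k x hx j hj => hH.near k x hx j (hj.trans hs2)⟩
    obtain ⟨G1, hG1, hG1m, hG1c⟩ := h1 Λ t F G H hΛ ht (hle m1 m1 (by omega) (by omega))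
      (hF1 s1 (le_max_left _ _)) (hH1 s1 (le_max_left _ _)) hG
      (fun p => MT5_mono (hGF p) (le_max_left _ _) hA2)
    obtain ⟨G2, hG2, hG2m, hG2c⟩ := hm' Λ t F G1 H hΛ ht (hle m' m' (by omega) (by omega))
      (hF1 s' (le_max_right _ _)) (hH1 s' (le_max_right _ _)) hG1 (fun p => by
        have h2 := MT5_add (MT5_sub hG hF.sm) (MT5_sub hG1 hG)
          (MT5_mono (hGF p) (le_max_right s1 s') le_rfl)
          (MT5_mono (hG1c p) (le_max_right r0 s') le_rfl)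
        have h3 : G - F + (G1 - G) = G1 - F := by abel
        rw [h3] at h2
        refine MT5_mono h2 le_rfl (le_of_eq ?_)
        push_cast
        ring)
    refine ⟨G2, hG2, fun p => ?_, fun p => ?_⟩
    · rw [hG2m, hG1m, List.map_cons, List.sum_cons]
      abel
    · have h2 := MT5_add (MT5_sub hG1 hG) (MT5_sub hG2 hG1)
        (MT5_mono (hG1c p) (le_max_left r0 s') le_rfl) (hG2c p)
      have h3 : G1 - G + (G2 - G1) = G2 - G := by abel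
      rw [h3] at h2
      refine MT5_mono h2 le_rfl ?_
      have h4 : (0 : ℝ) ≤ t ^ (7 / 20 : ℝ) := Real.rpow_nonneg ht.le _
      push_cast
      nlinarith [pow_nonneg (Nat.cast_nonneg A : (0 : ℝ) ≤ A) 60,
        mul_nonneg (pow_nonneg (Nat.cast_nonneg A : (0 : ℝ) ≤ A) 60) h4]

theorem MT5_dP_smul {F : M → V4} (hF : Sm F) (c : ℝ) (p : M) : dP (c • F) p = c • dP F p := by
  have h1 : ContDiffAt ℝ ∞ (F ∘ (chartAt E2 p).symm) (chartAt E2 p p) :=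
    MT5_at hF (chart_mem_ATL p) (mem_chart_target E2 p)
  have h2 : DifferentiableAt ℝ (F ∘ (chartAt E2 p).symm) (chartAt E2 p p) :=
    h1.differentiableAt (by simp)
  unfold dP
  exact fderiv_const_smul h2 c

theorem MT5_metr_smul {F : M → V4} (hF : Sm F) (c : ℝ) (p : M) :
    metr (c • F) p = (c ^ 2) • metr F p := by
  refine ContinuousLinearMap.ext fun v => ContinuousLinearMap.ext fun w => ?_
  show ⟪dP (c • F) p v, dP (c • F) p w⟫ = c ^ 2 * ⟪dP F p v, dP F p w⟫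
  rw [MT5_dP_smul hF]
  show ⟪c • dP F p v, c • dP F p w⟫ = c ^ 2 * ⟪dP F p v, dP F p w⟫
  rw [real_inner_smul_left, real_inner_smul_right]
  ring

omit [IsManifold 𝓘(ℝ, E2) ∞ M] in
theorem MT5_metr_symm (F : M → V4) (p : M) (v w : E2) : metr F p v w = metr F p w v := by
  show ⟪dP F p v, dP F p w⟫ = ⟪dP F p w, dP F p v⟫
  exact real_inner_comm _ _

theorem MT5_sm_sum {ι : Type} (S : Finset ι) {f : ι → M → ℝ} (h : ∀ i ∈ S, Sm (f i)) (c : ℝ) :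
    Sm (fun p => c - ∑ i ∈ S, f i p) :=
  MT5_sm fun p => contDiffAt_const.sub (ContDiffAt.sum fun i hi =>
    MT5_at (h i hi) (chart_mem_ATL p) (mem_chart_target E2 p))

/-- derivatives of a product -/
theorem MT5_prod {U : Set E2} (hU : IsOpen U) {f : E2 → ℝ} {g : E2 → Bil} {s : ℕ} {a b : ℝ}
    (hf : ContDiffOn ℝ ∞ f U) (hg : ContDiffOn ℝ ∞ g U) {x : E2} (hx : x ∈ U) (ha : 0 ≤ a)
    (hfa : ∀ j ≤ s, ‖iteratedFDeriv ℝ j f x‖ ≤ a) (hgb : ∀ j ≤ s, ‖iteratedFDeriv ℝ j g x‖ ≤ b)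
    {j : ℕ} (hj : j ≤ s) : ‖iteratedFDeriv ℝ j (fun y => f y • g y) x‖ ≤ 2 ^ s * (a * b) := by
  have h1 := norm_iteratedFDerivWithin_smul_le hf hg hU.uniqueDiffOn hx (n := j)
    (by exact_mod_cast le_top)
  have e1 : ∀ {W : Type} [NormedAddCommGroup W] [NormedSpace ℝ W] (n : ℕ) (u : E2 → W),
      iteratedFDerivWithin ℝ n u U x = iteratedFDeriv ℝ n u x := fun n u =>
    iteratedFDerivWithin_of_isOpen n hU hx
  rw [e1] at h1
  refine h1.trans ?_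
  have hb : 0 ≤ b := (norm_nonneg _).trans (hgb 0 (Nat.zero_le _))
  have h2 : ∀ i ∈ Finset.range (j + 1), (j.choose i : ℝ) * ‖iteratedFDerivWithin ℝ i f U x‖ *
      ‖iteratedFDerivWithin ℝ (j - i) g U x‖ ≤ (j.choose i : ℝ) * (a * b) := fun i hi => by
    rw [e1, e1, mul_assoc]
    have hi' : i ≤ j := Nat.lt_succ_iff.1 (Finset.mem_range.1 hi)
    exact mul_le_mul_of_nonneg_left (mul_le_mul (hfa i (hi'.trans hj))
      (hgb (j - i) ((Nat.sub_le _ _).trans hj)) (norm_nonneg _) ha) (Nat.cast_nonneg _)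
  refine (Finset.sum_le_sum h2).trans ?_
  rw [← Finset.sum_mul]
  have h3 : ∑ i ∈ Finset.range (j + 1), (j.choose i : ℝ) = 2 ^ j := by
    exact_mod_cast Nat.sum_range_choose j
  rw [h3]
  exact mul_le_mul_of_nonneg_right (pow_le_pow_right₀ (by norm_num) hj) (mul_nonneg ha hb)

/-- closeness of the rescaled map -/
theorem MT5_scale {𝒜 : FinAtlas M} {F : M → V4} (hF : Sm F) {s : ℕ} {Λ t : ℝ} (hΛ : 1 ≤ Λ)
    (ht : 0 < t) (ht1 : t ≤ 1) (hN1 : ∀ p, ClAt 𝒜 s F Λ p) (hsm : Λ ^ 2 * t ≤ 1) (p : M) :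
    ClAt 𝒜 s (Real.sqrt (1 - t) • F - F) (1 * t ^ (7 / 20 : ℝ)) p := by
  have hΛ0 : 0 < Λ := by linarith
  have hs1 : 0 ≤ 1 - t := by linarith
  have hsq : |Real.sqrt (1 - t) - 1| ≤ t := by
    have h1 : Real.sqrt (1 - t) ≤ 1 := Real.sqrt_le_one.2 (by linarith)
    have h2 : 1 - t ≤ Real.sqrt (1 - t) := by
      have := Real.sq_sqrt hs1
      nlinarith [Real.sqrt_nonneg (1 - t)]
    rw [abs_sub_comm, abs_of_nonneg (by linarith)]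
    linarith
  intro k h1 h2 j hj
  have e1 : (Real.sqrt (1 - t) • F - F) ∘ (𝒜.φ k).symm =
      (Real.sqrt (1 - t) - 1) • (F ∘ (𝒜.φ k).symm) := by
    funext x
    simp [sub_smul]
  have hx : 𝒜.φ k p ∈ (𝒜.φ k).target := (𝒜.φ k).map_source h1
  rw [e1, iteratedFDeriv_const_smul_apply (MT5_at' hF (𝒜.mem k) hx j), norm_smul,
    Real.norm_eq_abs]
  have h3 := hN1 p k h1 h2 j hj
  have h4 : Λ * t ^ (13 / 20 : ℝ) ≤ 1 :=
    MT5_pow (n := 2) (by norm_num) hΛ0.le ht ht1 hsm (by norm_num)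
  have h5 : t = t ^ (13 / 20 : ℝ) * t ^ (7 / 20 : ℝ) := by
    rw [← Real.rpow_add ht]
    norm_num
  calc |Real.sqrt (1 - t) - 1| * ‖iteratedFDeriv ℝ j (F ∘ (𝒜.φ k).symm) (𝒜.φ k p)‖
      ≤ t * Λ := mul_le_mul hsq h3 (norm_nonneg _) ht.le
    _ = (Λ * t ^ (13 / 20 : ℝ)) * t ^ (7 / 20 : ℝ) := by
        nth_rewrite 1 [h5]
        ring
    _ ≤ 1 * t ^ (7 / 20 : ℝ) := mul_le_mul_of_nonneg_right h4 (Real.rpow_nonneg ht.le _)

/-- the tensor of the chart steps -/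
def MT5_H (𝒜 : FinAtlas M) (cs : Fin 𝒜.n → CutSeq) (t : ℝ) (F : M → V4) (tgt : M → Bil)
    (p : M) : Bil :=
  (t - ∑ k, pushM (𝒜.φ k) (sg (cs k) t) p) • metr F p + (tgt p - metr F p)

/-- bounds for the tails -/
theorem MT5_tail [T2Space M] (𝒜 : FinAtlas M) (cs : Fin 𝒜.n → CutSeq) (s : ℕ) :
    ∃ C : ℝ, 0 ≤ C ∧ ∀ t : ℝ, 0 < t → t ≤ 1 / 2 →
      (∀ k, Sm (pushM (𝒜.φ k) (sg (cs k) t))) ∧
      ∀ l, ∀ x ∈ Metric.closedBall (0 : E2) 3, ∀ j ≤ s, ‖iteratedFDeriv ℝ j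
        (fun y => 0 - ∑ k, pushM (𝒜.φ k) (sg (cs k) t) ((𝒜.φ l).symm y)) x‖ ≤
        C * t ^ (5 / 4 : ℝ) := by
  choose Cs hCs using fun k => sg_bd (cs k)
  obtain ⟨Cp, hCp1, hCp⟩ := push_bd 𝒜 ℝ s
  obtain ⟨S, hS0, hS⟩ : ∃ S : ℝ, 0 ≤ S ∧ ∀ k, ∀ r ≤ s, Cs k r ≤ S := by
    refine ⟨∑ k, ∑ r ∈ Finset.range (s + 1), |Cs k r|, by positivity, fun k r hr => ?_⟩
    have h1 : |Cs k r| ≤ ∑ r ∈ Finset.range (s + 1), |Cs k r| :=
      Finset.single_le_sum (f := fun r => |Cs k r|) (fun _ _ => abs_nonneg _)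
        (Finset.mem_range.2 (by omega))
    have h2 : ∑ r ∈ Finset.range (s + 1), |Cs k r| ≤
        ∑ k, ∑ r ∈ Finset.range (s + 1), |Cs k r| :=
      Finset.single_le_sum (f := fun k => ∑ r ∈ Finset.range (s + 1), |Cs k r|)
        (fun _ _ => by positivity) (Finset.mem_univ k)
    exact (le_abs_self _).trans (h1.trans h2)
  refine ⟨𝒜.n * (Cp * S), by positivity, fun t ht ht2 => ?_⟩
  have hσ : ∀ k, Sm (pushM (𝒜.φ k) (sg (cs k) t)) := fun k =>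
    pushM_sm (𝒜.mem k) (𝒜.target k) (hCs k t ht ht2).1 (hCs k t ht ht2).2.2.1
  refine ⟨hσ, fun l x hx j hj => ?_⟩
  have hq0 : 0 ≤ t ^ (5 / 4 : ℝ) := Real.rpow_nonneg ht.le _
  have hxt : x ∈ (𝒜.φ l).target :=
    𝒜.target l (Metric.closedBall_subset_closedBall (by norm_num) hx)
  have e2 : (fun y => 0 - ∑ k, pushM (𝒜.φ k) (sg (cs k) t) ((𝒜.φ l).symm y)) =
      -(fun y => ∑ k, (pushM (𝒜.φ k) (sg (cs k) t) ∘ (𝒜.φ l).symm) y) := by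
    funext y
    simp
  rw [e2, iteratedFDeriv_neg_apply, norm_neg, iteratedFDeriv_fun_sum_apply
    (fun k _ => MT5_at' (hσ k) (𝒜.mem l) hxt j)]
  have h1 : ∀ k ∈ Finset.univ, ‖iteratedFDeriv ℝ j
      (pushM (𝒜.φ k) (sg (cs k) t) ∘ (𝒜.φ l).symm) x‖ ≤ Cp * (S * t ^ (5 / 4 : ℝ)) :=
    fun k _ => hCp k l (sg (cs k) t) (S * t ^ (5 / 4 : ℝ))
      (hCs k t ht ht2).1 (hCs k t ht ht2).2.2.1 (mul_nonneg hS0 hq0)
      (fun i hi y => ((hCs k t ht ht2).2.2.2.2 i y).trans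
        (mul_le_mul_of_nonneg_right (hS k i hi) hq0)) x hx j hj
  refine (norm_sum_le_of_le _ h1).trans (le_of_eq ?_)
  rw [Finset.sum_const, Finset.card_univ, Fintype.card_fin, nsmul_eq_mul]
  ring

/-- bound of the metric in the charts -/
theorem MT5_met (𝒜 : FinAtlas M) (s : ℕ) : ∃ B : ℕ, ∀ (Λ : ℝ) (F : M → V4), 1 ≤ Λ → Sm F →
    (∀ p, ClAt 𝒜 (s + 1) F Λ p) → ∀ l, ∀ x ∈ Metric.closedBall (0 : E2) 3, ∀ j ≤ s,
      ‖iteratedFDeriv ℝ j (locT (𝒜.φ l) (metr F)) x‖ ≤ B * Λ ^ 2 := by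
  choose Cm hCm using met_bd
  refine ⟨∑ r ∈ Finset.range (s + 1), Cm r, fun Λ F hΛ hF hN1 l x hx j hj => ?_⟩
  have hB : Cm j ≤ ∑ r ∈ Finset.range (s + 1), Cm r :=
    Finset.single_le_sum (f := Cm) (fun _ _ => Nat.zero_le _)
      (Finset.mem_range.2 (by omega))
  have hxt : x ∈ (𝒜.φ l).target :=
    𝒜.target l (Metric.closedBall_subset_closedBall (by norm_num) hx)
  have hnh : (𝒜.φ l).target ∈ 𝓝 x := (𝒜.φ l).open_target.mem_nhds hxt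
  have e3 : locT (𝒜.φ l) (metr F) =ᶠ[𝓝 x] metrU (F ∘ (𝒜.φ l).symm) := by
    filter_upwards [hnh] with y hy
    exact locT_metr hF (𝒜.mem l) hy
  rw [Filter.EventuallyEq.eq_of_nhds (e3.iteratedFDeriv ℝ j)]
  refine ((hCm j Λ (F ∘ (𝒜.φ l).symm) hΛ ((hF.loc (𝒜.mem l)).mono
    ((Metric.ball_subset_closedBall).trans (𝒜.target l))) x hx (fun i hi => ?_)).2).trans
    (mul_le_mul_of_nonneg_right (Nat.cast_le.2 hB) (by positivity))
  have h1 := hN1 ((𝒜.φ l).symm x) l ((𝒜.φ l).map_target hxt)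
    (by rw [(𝒜.φ l).right_inv hxt]; exact hx) i (by omega)
  rwa [(𝒜.φ l).right_inv hxt] at h1

theorem MT5_ineq {Λ t δ c : ℝ} {Q : ℕ} (ht : 0 < t) (ht1 : t ≤ 1)
    (hδt : δ = t ^ (4 / 3 : ℝ)) (ht32 : 32 * t ≤ 1) (hQt : (2 * Q * Λ ^ 2 : ℝ) ^ 7 * t ≤ 1)
    (hc : c ≤ Q * (Λ ^ 2 * t ^ (5 / 4 : ℝ))) : c + δ ≤ t ^ (11 / 10 : ℝ) := by
  have h4 : (2 * Q * Λ ^ 2) * t ^ (3 / 20 : ℝ) ≤ 1 :=
    MT5_pow (n := 7) (by norm_num) (by positivity) ht ht1 hQt (by norm_num)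
  have h5 : 2 * t ^ (7 / 30 : ℝ) ≤ 1 := by
    refine MT5_pow (n := 5) (by norm_num) (by norm_num) ht ht1 ?_ (by norm_num)
    linarith
  have h6 : t ^ (5 / 4 : ℝ) = t ^ (3 / 20 : ℝ) * t ^ (11 / 10 : ℝ) := by
    rw [← Real.rpow_add ht]
    norm_num
  have h7 : δ = t ^ (7 / 30 : ℝ) * t ^ (11 / 10 : ℝ) := by
    rw [← Real.rpow_add ht, hδt]
    norm_num
  have hq : 0 ≤ t ^ (11 / 10 : ℝ) := Real.rpow_nonneg ht.le _
  have h8 := mul_le_mul_of_nonneg_right h4 hq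
  have h9 := mul_le_mul_of_nonneg_right h5 hq
  rw [h6] at hc
  rw [h7]
  have h10 : (Q : ℝ) * (Λ ^ 2 * (t ^ (3 / 20 : ℝ) * t ^ (11 / 10 : ℝ))) =
      (2 * Q * Λ ^ 2) * t ^ (3 / 20 : ℝ) * t ^ (11 / 10 : ℝ) / 2 := by ring
  have h11 : t ^ (7 / 30 : ℝ) * t ^ (11 / 10 : ℝ) =
      2 * t ^ (7 / 30 : ℝ) * t ^ (11 / 10 : ℝ) / 2 := by ring
  rw [h10] at hc
  rw [h11]
  linarith

omit [IsManifold 𝓘(ℝ, E2) ∞ M] in
theorem MT5_locT (𝒜 : FinAtlas M) (cs : Fin 𝒜.n → CutSeq) (t : ℝ) (F : M → V4) (tgt : M → Bil)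
    (l : Fin 𝒜.n) :
    (fun y => locT (𝒜.φ l) (MT5_H 𝒜 cs t F tgt) y - t • locT (𝒜.φ l) (metr F) y) = fun y =>
      (0 - ∑ k, pushM (𝒜.φ k) (sg (cs k) t) ((𝒜.φ l).symm y)) • locT (𝒜.φ l) (metr F) y +
        (locT (𝒜.φ l) tgt y - locT (𝒜.φ l) (metr F) y) := by
  funext y
  refine ContinuousLinearMap.ext fun v => ContinuousLinearMap.ext fun w => ?_
  simp only [locT, MT5_H, ContinuousLinearMap.bilinearComp_apply,
    add_apply, sub_apply, smul_apply, smul_eq_mul]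
  ring

/-- the hypothesis of the chart steps -/
theorem MT5_HOK [T2Space M] (𝒜 : FinAtlas M) (cs : Fin 𝒜.n → CutSeq) (s : ℕ) :
    ∃ Q : ℕ, ∀ (Λ δ t : ℝ) (F : M → V4) (tgt : M → Bil), 1 ≤ Λ → 0 < t → δ = t ^ (4 / 3 : ℝ) →
      32 * t ≤ 1 → (2 * Q * Λ ^ 2 : ℝ) ^ 7 * t ≤ 1 → Sm F → SmT tgt →
      (∀ p v w, tgt p v w = tgt p w v) → (∀ p, ClAt 𝒜 (s + 1) F Λ p) →
      (∀ k, ∀ x ∈ Metric.closedBall (0 : E2) 3, ∀ j ≤ s,
        ‖iteratedFDeriv ℝ j (fun y => locT (𝒜.φ k) tgt y - locT (𝒜.φ k) (metr F) y) x‖ ≤ δ) →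
      HOK 𝒜 s t F (MT5_H 𝒜 cs t F tgt) := by
  obtain ⟨C, hC0, hC⟩ := MT5_tail 𝒜 cs s
  obtain ⟨B, hB⟩ := MT5_met 𝒜 s
  obtain ⟨Q, hQ⟩ := exists_nat_ge (2 ^ s * (C * B) : ℝ)
  refine ⟨Q, fun Λ δ t F tgt hΛ ht hδt ht32 hQt hF htgt hsym hN1 hnear => ?_⟩
  have ht1 : t ≤ 1 := by linarith
  obtain ⟨hσ, hσb⟩ := hC t ht (by linarith)
  have hmF : SmT (metr F) := smT_metr hF
  refine ⟨SmT.add (SmT.smul (MT5_sm_sum Finset.univ (fun k _ => hσ k) t) hmF)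
    (SmT.sub htgt hmF), fun p v w => ?_, fun l x hx j hj => ?_⟩
  · show (t - _) * metr F p v w + (tgt p v w - metr F p v w) =
      (t - _) * metr F p w v + (tgt p w v - metr F p w v)
    rw [MT5_metr_symm F p v w, hsym p v w]
  have hxt : x ∈ (𝒜.φ l).target :=
    𝒜.target l (Metric.closedBall_subset_closedBall (by norm_num) hx)
  have hf1 : ContDiffOn ℝ ∞ (fun y => 0 - ∑ k, pushM (𝒜.φ k) (sg (cs k) t) ((𝒜.φ l).symm y))
      (𝒜.φ l).target := (MT5_sm_sum Finset.univ (fun k _ => hσ k) 0).loc (𝒜.mem l)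
  have hg1 : ContDiffOn ℝ ∞ (locT (𝒜.φ l) (metr F)) (𝒜.φ l).target := hmF _ (𝒜.mem l)
  have hg2 : ContDiffOn ℝ ∞ (fun y => locT (𝒜.φ l) tgt y - locT (𝒜.φ l) (metr F) y)
      (𝒜.φ l).target := (htgt _ (𝒜.mem l)).sub hg1
  have hnh : (𝒜.φ l).target ∈ 𝓝 x := (𝒜.φ l).open_target.mem_nhds hxt
  have hfg : ContDiffOn ℝ ∞ (fun y => (0 - ∑ k, pushM (𝒜.φ k) (sg (cs k) t) ((𝒜.φ l).symm y)) •
      locT (𝒜.φ l) (metr F) y) (𝒜.φ l).target := hf1.smul hg1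
  rw [MT5_locT, fun_iteratedFDeriv_add_apply
    ((hfg.contDiffAt hnh).of_le (by exact_mod_cast le_top))
    ((hg2.contDiffAt hnh).of_le (by exact_mod_cast le_top))]
  have hq0 : 0 ≤ t ^ (5 / 4 : ℝ) := Real.rpow_nonneg ht.le _
  have h1 := MT5_prod (𝒜.φ l).open_target hf1 hg1 hxt (mul_nonneg hC0 hq0)
    (fun j hj => hσb l x hx j hj) (fun j hj => hB Λ F hΛ hF hN1 l x hx j hj) hj
  have h2 := hnear l x hx j hj
  refine (norm_add_le _ _).trans ((add_le_add h1 h2).trans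
    (MT5_ineq ht ht1 hδt ht32 hQt ?_))
  have h4 := mul_le_mul_of_nonneg_right hQ
    (mul_nonneg (by positivity : (0 : ℝ) ≤ Λ ^ 2) hq0)
  refine le_trans (le_of_eq ?_) h4
  ring

/-- theorem T on a compact surface -/
theorem thmT [T2Space M] [CompactSpace M] : ThmT M := by
  intro 𝒜 r0
  obtain ⟨χ, hχ1, hχ2, hχ3, hχ4⟩ := exists_part 𝒜
  obtain ⟨PF⟩ := exists_cellFun
  choose cs hcs using fun k => chart_step PF 𝒜 k (χ k) (hχ1 k) (hχ2 k) (hχ3 k)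
  obtain ⟨s0, hs0⟩ := chain 𝒜 χ cs hcs (List.finRange 𝒜.n) r0
  obtain ⟨m0, hm0⟩ := hs0 1
  obtain ⟨Q, hQ⟩ := MT5_HOK 𝒜 cs s0
  obtain ⟨K, hK1, hK2, hK3⟩ : ∃ K : ℕ, m0 + 32 ≤ K ∧ (2 * Q) ^ 7 ≤ K ∧ (m0 + 1) ^ 60 ≤ K :=
    ⟨(m0 + 32) + (2 * Q) ^ 7 + (m0 + 1) ^ 60, by rw [add_assoc]; exact Nat.le_add_right _ _,
      (Nat.le_add_left _ _).trans (Nat.le_add_right _ _), Nat.le_add_left _ _⟩
  have hKp : (1 : ℝ) ≤ K := by
    have : 1 ≤ K := by omega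
    exact_mod_cast this
  refine ⟨2 * (m0 + 14), s0 + r0 + 1, (K : ℝ) ^ 2, by positivity, ?_⟩
  intro Λ δ F tgt hΛ hδ hsmall hF htgt hsym hN1 hN2 hN3 hnear
  have hΛ0 : 0 < Λ := by linarith
  obtain ⟨t, ht_def⟩ : ∃ t : ℝ, t = δ ^ (3 / 4 : ℝ) := ⟨_, rfl⟩
  have ht : 0 < t := by
    rw [ht_def]
    exact Real.rpow_pos_of_pos hδ _
  have hδt : δ = t ^ (4 / 3 : ℝ) := by
    rw [ht_def, ← Real.rpow_mul hδ.le]
    norm_num
  have hmaster : (K : ℝ) * Λ ^ (m0 + 14) * t ≤ 1 := by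
    have h1 : (1 : ℝ) ≤ K * Λ ^ (m0 + 14) := one_le_mul_of_one_le_of_one_le hKp (one_le_pow₀ hΛ)
    have h2 : (K * Λ ^ (m0 + 14)) ^ 2 * δ ≤ 1 := by
      rw [mul_pow, ← pow_mul, mul_comm (m0 + 14) 2]
      exact hsmall
    have h3 : δ ≤ 1 := by
      nlinarith [one_le_pow₀ h1 (n := 2)]
    rw [ht_def]
    exact MT5_pow (n := 2) (q := 3 / 4) (by norm_num) (by linarith) hδ h3 h2 (by norm_num)
  have hle : ∀ n : ℕ, ∀ a : ℕ, n ≤ K → a ≤ m0 + 14 → (n : ℝ) * Λ ^ a * t ≤ 1 := fun n a hn ha => by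
    refine le_trans (mul_le_mul_of_nonneg_right (mul_le_mul (Nat.cast_le.2 hn)
      (pow_le_pow_right₀ hΛ ha) (by positivity) (Nat.cast_nonneg _)) ht.le) hmaster
  have ht32 : (32 : ℝ) * t ≤ 1 := by
    have := hle 32 0 (by omega) (by omega)
    simpa using this
  have ht1 : t ≤ 1 := by linarith
  have hs1 : 0 ≤ 1 - t := by linarith
  have hG : Sm (Real.sqrt (1 - t) • F) := MT5_smul hF _
  have hGF := MT5_scale hF hΛ ht ht1 hN1 (by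
    have := hle 1 2 (by omega) (by omega)
    simpa using this)
  have hHOK := hQ Λ δ t F tgt hΛ ht hδt ht32 (by
    have := hle ((2 * Q) ^ 7) 14 hK2 (by omega)
    push_cast at this
    refine le_trans (le_of_eq ?_) this
    ring) hF htgt hsym (fun p => MT5_mono (hN1 p) (by omega) le_rfl)
    (fun k x hx j hj => hnear k x hx j (by omega))
  obtain ⟨G', hG', hGm, hGc⟩ := hm0 Λ t F (Real.sqrt (1 - t) • F) _ hΛ ht
    (hle m0 m0 (by omega) (by omega))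
    ⟨hF, fun p => MT5_mono (hN1 p) (by omega) le_rfl, hN2, hN3⟩ hHOK hG (fun p => by
      have := MT5_mono (hGF p) (r' := s0) (by omega) le_rfl
      rwa [Nat.cast_one])
  refine ⟨G', hG', fun p => ?_, fun p => ?_⟩
  · rw [hGm, ← Fin.sum_univ_def, Finset.sum_add_distrib, ← Finset.sum_smul, ← Finset.sum_smul,
      hχ4 p, one_smul, MT5_metr_smul hF, Real.sq_sqrt hs1]
    unfold MT5_H
    module
  · have h1 := MT5_add (MT5_sub hG hF) (MT5_sub hG' hG)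
      (MT5_mono (hGF p) (r' := r0) (by omega) le_rfl) (hGc p)
    have h3 : Real.sqrt (1 - t) • F - F + (G' - Real.sqrt (1 - t) • F) = G' - F := by abel
    rw [h3] at h1
    refine MT5_mono h1 le_rfl ?_
    have h4 : ((m0 + 1 : ℕ) : ℝ) * t ^ (1 / 60 : ℝ) ≤ 1 := by
      refine MT5_pow (n := 60) (by norm_num) (Nat.cast_nonneg _) ht ht1 ?_ (by norm_num)
      have h7 := hle ((m0 + 1) ^ 60) 0 hK3 (by omega)
      rw [pow_zero, mul_one, Nat.cast_pow] at h7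
      exact h7
    have h5 : δ ^ ((1 : ℝ) / 4) = t ^ (1 / 3 : ℝ) := by
      rw [hδt, ← Real.rpow_mul ht.le]
      norm_num
    have h6 : t ^ (7 / 20 : ℝ) = t ^ (1 / 60 : ℝ) * t ^ (1 / 3 : ℝ) := by
      rw [← Real.rpow_add ht]
      norm_num
    rw [h5]
    calc 1 * t ^ (7 / 20 : ℝ) + m0 * t ^ (7 / 20 : ℝ)
        = (((m0 + 1 : ℕ) : ℝ) * t ^ (1 / 60 : ℝ)) * t ^ (1 / 3 : ℝ) := by
          rw [h6]
          push_cast
          ring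
      _ ≤ 1 * t ^ (1 / 3 : ℝ) := mul_le_mul_of_nonneg_right h4 (Real.rpow_nonneg ht.le _)
      _ = _ := one_mul _

end P205F
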