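import Vale.Agent.Lib.P205F.KA2

/-! # P205F module KB: products -/

open scoped ContDiff
open Set

namespace P205F

variable {ι E V V' V'' : Type} [NormedAddCommGroup E] [NormedSpace ℝ E] [NormedAddCommGroup V]
  [NormedSpace ℝ V] [NormedAddCommGroup V'] [NormedSpace ℝ V'] [NormedAddCommGroup V'']
  [NormedSpace ℝ V''] {S : Setting ι E} {W W' : ι → E → ℝ}

private theorem KB_prod_mem (G : Growth ι) (t : Finset ℕ) (g : ℕ → ι → ℝ)
    (hg : ∀ k, g k ∈ G.mem) : (fun i => ∏ k ∈ t, g k i) ∈ G.mem := by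
  induction t using Finset.induction_on with
  | empty =>
    simp only [Finset.prod_empty]
    exact G.const 1 le_rfl
  | insert a t ha ih =>
    have h1 := G.mul _ (hg a) _ ih
    have h2 : (fun i => ∏ k ∈ insert a t, g k i) = fun i => g a i * ∏ k ∈ t, g k i := by
      funext i
      rw [Finset.prod_insert ha]
    rw [h2]
    exact h1

private theorem KB_le_prod (G : Growth ι) (t : Finset ℕ) (g : ℕ → ι → ℝ)
    (hg : ∀ k, g k ∈ G.mem) (i : ι) (a : ℕ) (ha : a ∈ t) : g a i ≤ ∏ k ∈ t, g k i := by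
  rw [← Finset.mul_prod_erase t (fun k => g k i) ha]
  have h1 : (1 : ℝ) ≤ ∏ k ∈ t.erase a, g k i := by
    have := Finset.prod_le_prod (s := t.erase a) (f := fun _ => (1 : ℝ)) (g := fun k => g k i)
      (fun _ _ => zero_le_one) (fun k _ => G.one_le _ (hg k) i)
    simpa using this
  have h2 : 1 ≤ g a i := G.one_le _ (hg a) i
  nlinarith

/-- continuous bilinear maps -/
theorem Bd.bilin (B : V →L[ℝ] V' →L[ℝ] V'') {u : ι → E → V} {v : ι → E → V'} (hu : Bd S W u)
    (hv : Bd S W' v) : Bd S (fun i x => W i x * W' i x) (fun i x => B (u i x) (v i x)) := by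
  refine ⟨fun i => ?_, fun r => ?_⟩
  · exact B.isBoundedBilinearMap.contDiff.comp_contDiffOn ((hu.1 i).prodMk (hv.1 i))
  · choose g hg hgb using hu.2
    choose g' hg' hgb' using hv.2
    refine ⟨fun i => ((1 + ‖B‖) * 2 ^ r) * ((∏ k ∈ Finset.range (r + 1), g k i) *
      ∏ k ∈ Finset.range (r + 1), g' k i), ?_, ?_⟩
    · refine S.G.mul _ (S.G.const _ ?_) _ (S.G.mul _ (KB_prod_mem S.G _ g hg) _
        (KB_prod_mem S.G _ g' hg'))
      have h1 : (1 : ℝ) ≤ 2 ^ r := one_le_pow₀ (by norm_num)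
      have h2 := norm_nonneg B
      nlinarith
    · intro i x hx
      have hopen := S.isOpen i
      have hB0 : 0 ≤ ‖B‖ := norm_nonneg B
      have hW : 0 ≤ W i x := hu.nonneg i hx
      have hW' : 0 ≤ W' i x := hv.nonneg i hx
      have hs : 0 < (S.s i)⁻¹ := inv_pos.mpr (S.s_pos i)
      have h1 := ContinuousLinearMap.norm_iteratedFDerivWithin_le_of_bilinear B (hu.1 i) (hv.1 i)
        hopen.uniqueDiffOn hx (n := r) (by exact_mod_cast le_top)
      rw [iteratedFDerivWithin_of_isOpen r hopen hx] at h1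
      refine h1.trans ?_
      set P := ∏ k ∈ Finset.range (r + 1), g k i with hP
      set P' := ∏ k ∈ Finset.range (r + 1), g' k i with hP'
      have hP0 : 0 ≤ P := Finset.prod_nonneg fun k _ => zero_le_one.trans (S.G.one_le _ (hg k) i)
      have hP0' : 0 ≤ P' :=
        Finset.prod_nonneg fun k _ => zero_le_one.trans (S.G.one_le _ (hg' k) i)
      have h2 : ∀ k ∈ Finset.range (r + 1),
          (r.choose k : ℝ) * ‖iteratedFDerivWithin ℝ k (u i) (S.U i) x‖ *
            ‖iteratedFDerivWithin ℝ (r - k) (v i) (S.U i) x‖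
          ≤ (r.choose k : ℝ) * (P * P' * (W i x * W' i x) * (S.s i)⁻¹ ^ r) := by
        intro k hk
        have hk' : k ≤ r := Nat.lt_succ_iff.mp (Finset.mem_range.mp hk)
        rw [iteratedFDerivWithin_of_isOpen k hopen hx,
          iteratedFDerivWithin_of_isOpen (r - k) hopen hx]
        have h3 : ‖iteratedFDeriv ℝ k (u i) x‖ ≤ P * W i x * (S.s i)⁻¹ ^ k := by
          refine (hgb k i x hx).trans ?_
          have h4 : g k i ≤ P := KB_le_prod S.G _ g hg i k hk
          gcongr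
        have h5 : ‖iteratedFDeriv ℝ (r - k) (v i) x‖ ≤ P' * W' i x * (S.s i)⁻¹ ^ (r - k) := by
          refine (hgb' (r - k) i x hx).trans ?_
          have h4 : g' (r - k) i ≤ P' :=
            KB_le_prod S.G _ g' hg' i (r - k) (Finset.mem_range.mpr (by omega))
          gcongr
        have h6 : (S.s i)⁻¹ ^ r = (S.s i)⁻¹ ^ k * (S.s i)⁻¹ ^ (r - k) := by
          rw [← pow_add]
          congr 1
          omega
        rw [mul_assoc]
        refine mul_le_mul_of_nonneg_left ?_ (Nat.cast_nonneg _)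
        rw [h6]
        calc ‖iteratedFDeriv ℝ k (u i) x‖ * ‖iteratedFDeriv ℝ (r - k) (v i) x‖
            ≤ (P * W i x * (S.s i)⁻¹ ^ k) * (P' * W' i x * (S.s i)⁻¹ ^ (r - k)) :=
              mul_le_mul h3 h5 (norm_nonneg _) (by positivity)
          _ = P * P' * (W i x * W' i x) * ((S.s i)⁻¹ ^ k * (S.s i)⁻¹ ^ (r - k)) := by ring
      have h7 : ∑ k ∈ Finset.range (r + 1), (r.choose k : ℝ) = 2 ^ r := by
        have := Nat.sum_range_choose r
        exact_mod_cast this
      have h8 : ∑ k ∈ Finset.range (r + 1),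
          (r.choose k : ℝ) * ‖iteratedFDerivWithin ℝ k (u i) (S.U i) x‖ *
            ‖iteratedFDerivWithin ℝ (r - k) (v i) (S.U i) x‖
          ≤ 2 ^ r * (P * P' * (W i x * W' i x) * (S.s i)⁻¹ ^ r) := by
        refine (Finset.sum_le_sum h2).trans ?_
        rw [← Finset.sum_mul, h7]
      have h9 : 0 ≤ P * P' * (W i x * W' i x) * (S.s i)⁻¹ ^ r := by positivity
      calc ‖B‖ * ∑ k ∈ Finset.range (r + 1),
          (r.choose k : ℝ) * ‖iteratedFDerivWithin ℝ k (u i) (S.U i) x‖ *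
            ‖iteratedFDerivWithin ℝ (r - k) (v i) (S.U i) x‖
          ≤ ‖B‖ * (2 ^ r * (P * P' * (W i x * W' i x) * (S.s i)⁻¹ ^ r)) :=
            mul_le_mul_of_nonneg_left h8 hB0
        _ ≤ (1 + ‖B‖) * (2 ^ r * (P * P' * (W i x * W' i x) * (S.s i)⁻¹ ^ r)) :=
            mul_le_mul_of_nonneg_right (by linarith) (by positivity)
        _ = (1 + ‖B‖) * 2 ^ r * (P * P') * (W i x * W' i x) * (S.s i)⁻¹ ^ r := by ring

theorem Bd.mul {u v : ι → E → ℝ} (hu : Bd S W u) (hv : Bd S W' v) :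
    Bd S (fun i x => W i x * W' i x) (fun i x => u i x * v i x) :=
  Bd.bilin (ContinuousLinearMap.mul ℝ ℝ) hu hv

theorem Bd.mulC {u v : ι → E → ℂ} (hu : Bd S W u) (hv : Bd S W' v) :
    Bd S (fun i x => W i x * W' i x) (fun i x => u i x * v i x) :=
  Bd.bilin (ContinuousLinearMap.mul ℝ ℂ) hu hv

theorem Bd.smul {u : ι → E → ℝ} {v : ι → E → V} (hu : Bd S W u) (hv : Bd S W' v) :
    Bd S (fun i x => W i x * W' i x) (fun i x => u i x • v i x) :=
  Bd.bilin (ContinuousLinearMap.lsmul ℝ ℝ) hu hv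

/-- complex scalars acting on vectors with complex entries -/
theorem Bd.smulC {n : Type} [Fintype n] {u : ι → E → ℂ} {v : ι → E → (n → ℂ)} (hu : Bd S W u)
    (hv : Bd S W' v) :
    Bd S (fun i x => W i x * W' i x) (fun i x => u i x • v i x) :=
  Bd.bilin (ContinuousLinearMap.lsmul ℝ ℂ) hu hv

theorem Bd.inner {H : Type} [NormedAddCommGroup H] [InnerProductSpace ℝ H] {u v : ι → E → H}
    (hu : Bd S W u) (hv : Bd S W' v) :
    Bd S (fun i x => W i x * W' i x) (fun i x => inner ℝ (u i x) (v i x)) :=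
  Bd.bilin (isBoundedBilinearMap_inner (𝕜 := ℝ) (E := H)).toContinuousLinearMap hu hv

theorem Bd.pow {u : ι → E → ℝ} (hu : Bd S W u) (n : ℕ) :
    Bd S (fun i x => W i x ^ n) (fun i x => u i x ^ n) := by
  induction n with
  | zero =>
    simp only [pow_zero]
    exact Bd.const (S.G.const 1 le_rfl) (fun _ => (1 : ℝ)) (fun _ => by simp)
  | succ n ih =>
    simp only [pow_succ]
    exact ih.mul hu

/-- directional derivatives -/
theorem Bd.dir {g : ι → ℝ} (hg : g ∈ S.G.mem) (a : ι → E) (ha : ∀ i, ‖a i‖ ≤ g i)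
    {u : ι → E → V} (hu : Bd S W u) :
    Bd S (fun i x => W i x * (S.s i)⁻¹) (fun i x => _root_.fderiv ℝ (u i) x (a i)) := by
  refine Bd.clmFam (V := E →L[ℝ] V) (V' := V) hg
    (fun i => ContinuousLinearMap.apply ℝ V (a i)) (fun i => ?_) hu.fderiv
  refine le_trans ?_ (ha i)
  refine ContinuousLinearMap.opNorm_le_bound _ (norm_nonneg _) fun L => ?_
  rw [ContinuousLinearMap.apply_apply, mul_comm]
  exact L.le_opNorm (a i)

/-- evaluation of a family of linear maps -/
theorem Bd.eval {L : ι → E → (V →L[ℝ] V')} {v : ι → E → V} (hL : Bd S W L) (hv : Bd S W' v) :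
    Bd S (fun i x => W i x * W' i x) (fun i x => L i x (v i x)) :=
  Bd.bilin (ContinuousLinearMap.id ℝ (V →L[ℝ] V')) hL hv

end P205F
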