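import Vale.Agent.Lib.P205F.KDefs

/-! # P205F module KA: basic rules of the calculus of families -/

open scoped ContDiff
open Set

namespace P205F

variable {ι E V V' V'' : Type} [NormedAddCommGroup E] [NormedSpace ℝ E] [NormedAddCommGroup V]
  [NormedSpace ℝ V] [NormedAddCommGroup V'] [NormedSpace ℝ V'] [NormedAddCommGroup V'']
  [NormedSpace ℝ V''] {S : Setting ι E} {W W' : ι → E → ℝ} {u v : ι → E → V}

theorem Growth.add {G : Growth ι} {f g : ι → ℝ} (hf : f ∈ G.mem) (hg : g ∈ G.mem) :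
    (fun i => f i + g i) ∈ G.mem := by
  have h2 := G.mul _ (G.const 2 (by norm_num)) _ (G.mul f hf g hg)
  refine G.down _ h2 _ (fun i => ?_) (fun i => ?_)
  · have := G.one_le f hf i
    have := G.one_le g hg i
    linarith
  · have h3 := G.one_le f hf i
    have h4 := G.one_le g hg i
    have h5 : f i * 1 ≤ f i * g i := mul_le_mul_of_nonneg_left h4 (by linarith)
    have h6 : 1 * g i ≤ f i * g i := mul_le_mul_of_nonneg_right h3 (by linarith)
    linarith

theorem Growth.pow {G : Growth ι} {f : ι → ℝ} (hf : f ∈ G.mem) (n : ℕ) :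
    (fun i => f i ^ n) ∈ G.mem := by
  induction n with
  | zero =>
    have h := G.const 1 le_rfl
    simpa using h
  | succ n ih =>
    have h := G.mul _ ih _ hf
    simpa only [pow_succ] using h

private theorem KA_nhds (S : Setting ι E) (i : ι) {x : E} (hx : x ∈ S.U i) : S.U i ∈ nhds x :=
  (S.isOpen i).mem_nhds hx

private theorem KA_s_pos (S : Setting ι E) (i : ι) (r : ℕ) : 0 < (S.s i)⁻¹ ^ r :=
  pow_pos (inv_pos.mpr (S.s_pos i)) r

private theorem KA_at (h : Bd S W u) (i : ι) {x : E} (hx : x ∈ S.U i) (r : ℕ) :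
    ContDiffAt ℝ r (u i) x :=
  ((h.1 i).contDiffAt (KA_nhds S i hx)).of_le (by exact_mod_cast le_top)

/-- the weights are nonnegative where something is bounded -/
theorem Bd.nonneg (h : Bd S W u) (i : ι) {x : E} (hx : x ∈ S.U i) : 0 ≤ W i x := by
  obtain ⟨g, hg, h1⟩ := h.2 0
  have h2 := h1 i x hx
  rw [pow_zero, mul_one] at h2
  have h3 : 0 ≤ g i * W i x := (norm_nonneg _).trans h2
  have h4 := S.G.one_le g hg i
  exact nonneg_of_mul_nonneg_right h3 (by linarith)

theorem Bd.bound (h : Bd S W u) : ∃ g ∈ S.G.mem, ∀ i, ∀ x ∈ S.U i, ‖u i x‖ ≤ g i * W i x := by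
  obtain ⟨g, hg, h1⟩ := h.2 0
  refine ⟨g, hg, fun i x hx => ?_⟩
  have h2 := h1 i x hx
  rwa [pow_zero, mul_one, norm_iteratedFDeriv_zero] at h2

theorem Bd.congr (h : Bd S W u) (huv : ∀ i, ∀ x ∈ S.U i, v i x = u i x) : Bd S W v := by
  refine ⟨fun i => (h.1 i).congr (huv i), fun r => ?_⟩
  obtain ⟨g, hg, h1⟩ := h.2 r
  refine ⟨g, hg, fun i x hx => ?_⟩
  have h2 : v i =ᶠ[nhds x] u i := by
    filter_upwards [KA_nhds S i hx] with y hy
    exact huv i y hy
  rw [(h2.iteratedFDeriv ℝ r).eq_of_nhds]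
  exact h1 i x hx

theorem Bd.mono {g : ι → ℝ} (hg : g ∈ S.G.mem) (h : Bd S W u)
    (hW : ∀ i, ∀ x ∈ S.U i, W i x ≤ g i * W' i x) : Bd S W' u := by
  refine ⟨h.1, fun r => ?_⟩
  obtain ⟨g', hg', h1⟩ := h.2 r
  refine ⟨_, S.G.mul g' hg' g hg, fun i x hx => (h1 i x hx).trans ?_⟩
  have h2 := S.G.one_le g' hg' i
  have h3 : g' i * W i x ≤ g' i * (g i * W' i x) :=
    mul_le_mul_of_nonneg_left (hW i x hx) (by linarith)
  have h4 : g' i * W i x ≤ g' i * g i * W' i x := by rw [mul_assoc]; exact h3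
  exact mul_le_mul_of_nonneg_right h4 (KA_s_pos S i r).le

/-- constants with an arbitrary weight depending on `i` only -/
private theorem KA_const {g : ι → ℝ} (hg : g ∈ S.G.mem) (c : ι → V) (w : ι → ℝ)
    (hc : ∀ i, ‖c i‖ ≤ g i * w i) : Bd S (fun i _ => w i) (fun i _ => c i) := by
  refine ⟨fun i => contDiffOn_const, fun r => ⟨g, hg, fun i x hx => ?_⟩⟩
  have h0 : 0 ≤ g i * w i := (norm_nonneg _).trans (hc i)
  rcases Nat.eq_zero_or_pos r with hr | hr
  · subst hr
    rw [norm_iteratedFDeriv_zero, pow_zero, mul_one]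
    exact hc i
  · rw [iteratedFDeriv_const_of_ne (Nat.pos_iff_ne_zero.mp hr), Pi.zero_apply, norm_zero]
    exact mul_nonneg h0 (KA_s_pos S i r).le

theorem Bd.const {g : ι → ℝ} (hg : g ∈ S.G.mem) (c : ι → V) (hc : ∀ i, ‖c i‖ ≤ g i) :
    Bd S (fun _ _ => 1) (fun i _ => c i) :=
  KA_const hg c (fun _ => 1) (fun i => by rw [mul_one]; exact hc i)

/-- constants with an arbitrary weight depending on `i` only -/
theorem Bd.const' {g : ι → ℝ} (hg : g ∈ S.G.mem) (c : ι → V) (w : ι → ℝ)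
    (hc : ∀ i, ‖c i‖ ≤ g i * w i) : Bd S (fun i _ => w i) (fun i _ => c i) :=
  KA_const hg c w hc

theorem Bd.zero (hW : ∀ i, ∀ x ∈ S.U i, 0 ≤ W i x) : Bd S W (fun _ _ => (0 : V)) := by
  refine ⟨fun i => contDiffOn_const, fun r => ⟨_, S.G.const 1 le_rfl, fun i x hx => ?_⟩⟩
  have h0 : ‖iteratedFDeriv ℝ r (fun _ : E => (0 : V)) x‖ = 0 := by
    rcases Nat.eq_zero_or_pos r with hr | hr
    · subst hr
      rw [norm_iteratedFDeriv_zero, norm_zero]
    · rw [iteratedFDeriv_const_of_ne (Nat.pos_iff_ne_zero.mp hr), Pi.zero_apply, norm_zero]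
  rw [h0, one_mul]
  exact mul_nonneg (hW i x hx) (KA_s_pos S i r).le

theorem Bd.add (hu : Bd S W u) (hv : Bd S W v) : Bd S W (fun i x => u i x + v i x) := by
  refine ⟨fun i => (hu.1 i).add (hv.1 i), fun r => ?_⟩
  obtain ⟨g, hg, h1⟩ := hu.2 r
  obtain ⟨g', hg', h2⟩ := hv.2 r
  refine ⟨_, Growth.add hg hg', fun i x hx => ?_⟩
  have h3 : iteratedFDeriv ℝ r (fun y => u i y + v i y) x =
      iteratedFDeriv ℝ r (u i) x + iteratedFDeriv ℝ r (v i) x :=
    iteratedFDeriv_add_apply (KA_at hu i hx r) (KA_at hv i hx r)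
  rw [h3]
  refine (norm_add_le _ _).trans ((add_le_add (h1 i x hx) (h2 i x hx)).trans (le_of_eq ?_))
  ring

/-- post-composition with a bounded family of continuous linear maps -/
private theorem KA_clmFam {g : ι → ℝ} (hg : g ∈ S.G.mem) (L : ι → (V →L[ℝ] V'))
    (hL : ∀ i, ‖L i‖ ≤ g i) (hu : Bd S W u) : Bd S W (fun i x => L i (u i x)) := by
  refine ⟨fun i => (L i).contDiff.comp_contDiffOn (hu.1 i), fun r => ?_⟩
  obtain ⟨g', hg', h1⟩ := hu.2 r
  refine ⟨_, S.G.mul g hg g' hg', fun i x hx => ?_⟩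
  have h2 : ‖iteratedFDeriv ℝ r (fun y => L i (u i y)) x‖ ≤
      ‖L i‖ * ‖iteratedFDeriv ℝ r (u i) x‖ :=
    (L i).norm_iteratedFDeriv_comp_left (KA_at hu i hx r) le_rfl
  have h3 := S.G.one_le g hg i
  refine h2.trans ((mul_le_mul (hL i) (h1 i x hx) (norm_nonneg _) (by linarith)).trans
    (le_of_eq ?_))
  ring

theorem Bd.neg (hu : Bd S W u) : Bd S W (fun i x => -u i x) := by
  refine (KA_clmFam (S.G.const 1 le_rfl) (fun _ => -ContinuousLinearMap.id ℝ V) (fun i => ?_)
    hu).congr (fun i x _ => by simp)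
  rw [norm_neg]
  exact ContinuousLinearMap.norm_id_le

theorem Bd.sub (hu : Bd S W u) (hv : Bd S W v) : Bd S W (fun i x => u i x - v i x) :=
  (hu.add hv.neg).congr (fun i x _ => sub_eq_add_neg _ _)

theorem Bd.sum {κ : Type} (t : Finset κ) {f : κ → ι → E → V} (hW : ∀ i, ∀ x ∈ S.U i, 0 ≤ W i x)
    (h : ∀ k ∈ t, Bd S W (f k)) : Bd S W (fun i x => ∑ k ∈ t, f k i x) := by
  classical
  induction t using Finset.induction_on with
  | empty => exact (Bd.zero hW).congr (fun i x _ => by simp)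
  | insert a t ha ih =>
    have h1 := h a (Finset.mem_insert_self a t)
    have h2 := ih (fun k hk => h k (Finset.mem_insert_of_mem hk))
    exact (h1.add h2).congr (fun i x _ => Finset.sum_insert ha)

/-- post-composition with a continuous linear map -/
theorem Bd.clm (L : V →L[ℝ] V') (hu : Bd S W u) : Bd S W (fun i x => L (u i x)) :=
  KA_clmFam (S.G.const (max 1 ‖L‖) (le_max_left _ _)) (fun _ => L) (fun _ => le_max_right _ _) hu

/-- post-composition with a bounded family of continuous linear maps -/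
theorem Bd.clmFam {g : ι → ℝ} (hg : g ∈ S.G.mem) (L : ι → (V →L[ℝ] V')) (hL : ∀ i, ‖L i‖ ≤ g i)
    (hu : Bd S W u) : Bd S W (fun i x => L i (u i x)) :=
  KA_clmFam hg L hL hu

/-- multiplication by a bounded family of numbers -/
theorem Bd.constSmul {g : ι → ℝ} (hg : g ∈ S.G.mem) (c : ι → ℝ) (hc : ∀ i, |c i| ≤ g i)
    (hu : Bd S W u) : Bd S W (fun i x => c i • u i x) := by
  refine (KA_clmFam hg (fun i => c i • ContinuousLinearMap.id ℝ V) (fun i => ?_)
    hu).congr (fun i x _ => by simp)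
  rw [norm_smul, Real.norm_eq_abs]
  refine (mul_le_mul_of_nonneg_left ContinuousLinearMap.norm_id_le (abs_nonneg _)).trans ?_
  rw [mul_one]
  exact hc i

/-- multiplication by a family of numbers, kept in the weight -/
theorem Bd.weightSmul (c : ι → ℝ) (hu : Bd S W u) :
    Bd S (fun i x => |c i| * W i x) (fun i x => c i • u i x) := by
  refine ⟨fun i => contDiffOn_const.smul (hu.1 i), fun r => ?_⟩
  obtain ⟨g, hg, h1⟩ := hu.2 r
  refine ⟨g, hg, fun i x hx => ?_⟩
  have h2 : iteratedFDeriv ℝ r (fun y => c i • u i y) x = c i • iteratedFDeriv ℝ r (u i) x :=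
    iteratedFDeriv_const_smul_apply (KA_at hu i hx r)
  rw [h2, norm_smul, Real.norm_eq_abs]
  refine (mul_le_mul_of_nonneg_left (h1 i x hx) (abs_nonneg (c i))).trans (le_of_eq ?_)
  ring

end P205F
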