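import Mathlib
import Vale.Agent.Lib.P205F.KA

/-! # P205F module KC: inverses and square roots -/

open scoped ContDiff
open Set

namespace P205F

variable {ι E : Type} [NormedAddCommGroup E] [NormedSpace ℝ E] {S : Setting ι E}
  {W : ι → E → ℝ}

/-- the chain rule estimate at a point, after normalisation by the value `w` of the weight -/
private lemma KC_point {φ : ℝ → ℝ} {t : Set ℝ} (ht : IsOpen t) (hφ : ContDiffOn ℝ ∞ φ t)
    {U : Set E} (hU : IsOpen U) {u : E → ℝ} (hu : ContDiffOn ℝ ∞ u U) {w : ℝ} (hw : 0 < w)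
    (hst : ∀ y ∈ U, w⁻¹ • u y ∈ t) {x : E} (hx : x ∈ U) (n : ℕ) {C D : ℝ}
    (hC : ∀ j, j ≤ n → ‖iteratedFDeriv ℝ j φ (w⁻¹ • u x)‖ ≤ C)
    (hD : ∀ j, 1 ≤ j → j ≤ n → w⁻¹ * ‖iteratedFDeriv ℝ j u x‖ ≤ D ^ j) (c : ℝ) :
    ‖iteratedFDeriv ℝ n (fun y => c • φ (w⁻¹ • u y)) x‖ ≤ |c| * (n.factorial * C * D ^ n) := by
  have hf : ContDiffOn ℝ ∞ (fun y => w⁻¹ • u y) U := hu.const_smul w⁻¹
  have hcomp : ContDiffOn ℝ ∞ (φ ∘ fun y => w⁻¹ • u y) U := hφ.comp hf hst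
  have hmem : U ∈ nhds x := hU.mem_nhds hx
  have hat : ContDiffAt ℝ n (φ ∘ fun y => w⁻¹ • u y) x :=
    (hcomp.contDiffAt hmem).of_le (by exact_mod_cast le_top)
  have hat' : ∀ j : ℕ, ContDiffAt ℝ j u x := fun j =>
    (hu.contDiffAt hmem).of_le (by exact_mod_cast le_top)
  have h1 : iteratedFDeriv ℝ n (fun y => c • φ (w⁻¹ • u y)) x
      = c • iteratedFDeriv ℝ n (φ ∘ fun y => w⁻¹ • u y) x :=
    iteratedFDeriv_const_smul_apply' hat
  rw [h1, norm_smul, Real.norm_eq_abs]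
  refine mul_le_mul_of_nonneg_left ?_ (abs_nonneg c)
  have h2 := norm_iteratedFDerivWithin_comp_le (𝕜 := ℝ) (g := φ) (f := fun y => w⁻¹ • u y)
    (n := n) (s := U) (t := t) (x := x) (N := ∞) hφ hf (by exact_mod_cast le_top)
    ht.uniqueDiffOn hU.uniqueDiffOn hst hx (C := C) (D := D) ?_ ?_
  · rwa [iteratedFDerivWithin_of_isOpen n hU hx] at h2
  · intro j hj
    rw [iteratedFDerivWithin_of_isOpen j ht (hst x hx)]
    exact hC j hj
  · intro j hj1 hj
    rw [iteratedFDerivWithin_of_isOpen j hU hx]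
    have h3 : iteratedFDeriv ℝ j (fun y => w⁻¹ • u y) x = w⁻¹ • iteratedFDeriv ℝ j u x :=
      iteratedFDeriv_const_smul_apply' (hat' j)
    rw [h3, norm_smul, Real.norm_eq_abs, abs_of_pos (inv_pos.mpr hw)]
    exact hD j hj1 hj

/-- one growth function for all orders up to `n` -/
private lemma KC_upto {u : ι → E → ℝ} (hu : Bd S W u) (hW : ∀ i, ∀ x ∈ S.U i, 0 < W i x) (n : ℕ) :
    ∃ G ∈ S.G.mem, ∀ j, j ≤ n → ∀ i, ∀ x ∈ S.U i,
      ‖iteratedFDeriv ℝ j (u i) x‖ ≤ G i * W i x * (S.s i)⁻¹ ^ j := by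
  induction n with
  | zero =>
    obtain ⟨g, hg, h⟩ := hu.2 0
    refine ⟨g, hg, fun j hj => ?_⟩
    obtain rfl : j = 0 := by omega
    exact h
  | succ n ih =>
    obtain ⟨G, hG, hGb⟩ := ih
    obtain ⟨g, hg, h⟩ := hu.2 (n + 1)
    refine ⟨fun i => G i * g i, S.G.mul G hG g hg, fun j hj i x hx => ?_⟩
    have hG1 := S.G.one_le G hG i
    have hg1 := S.G.one_le g hg i
    have hw := hW i x hx
    have hs : 0 < (S.s i)⁻¹ ^ j := pow_pos (inv_pos.mpr (S.s_pos i)) j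
    rcases Nat.lt_or_ge n j with hj' | hj'
    · obtain rfl : j = n + 1 := by omega
      refine (h i x hx).trans ?_
      refine mul_le_mul_of_nonneg_right (mul_le_mul_of_nonneg_right ?_ hw.le) hs.le
      nlinarith
    · refine (hGb j hj' i x hx).trans ?_
      refine mul_le_mul_of_nonneg_right (mul_le_mul_of_nonneg_right ?_ hw.le) hs.le
      nlinarith

/-- the hypothesis on the inner function -/
private lemma KC_inner {G w s a : ℝ} (hG : 1 ≤ G) (hw : 0 < w) (hs : 0 < s) {j : ℕ} (hj : 1 ≤ j)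
    (h : a ≤ G * w * s⁻¹ ^ j) : w⁻¹ * a ≤ (G * s⁻¹) ^ j := by
  have h1 : w⁻¹ * a ≤ w⁻¹ * (G * w * s⁻¹ ^ j) := mul_le_mul_of_nonneg_left h (inv_pos.mpr hw).le
  have h2 : w⁻¹ * (G * w * s⁻¹ ^ j) = G * s⁻¹ ^ j := by
    field_simp
  rw [h2] at h1
  refine h1.trans ?_
  rw [mul_pow]
  exact mul_le_mul_of_nonneg_right (le_self_pow₀ hG (by omega)) (pow_pos (inv_pos.mpr hs) j).le

private lemma KC_inv_deriv {g y : ℝ} (hg : 1 ≤ g) (hy : 1 ≤ g * |y|) {j n : ℕ} (hj : j ≤ n) :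
    ‖iteratedFDeriv ℝ j (fun z : ℝ => z⁻¹) y‖ ≤ n.factorial * g ^ (n + 1) := by
  have hypos : 0 < |y| := by
    by_contra hcon
    have h0 : |y| = 0 := le_antisymm (not_lt.mp hcon) (abs_nonneg y)
    rw [h0] at hy; norm_num at hy
  have hinv : |y|⁻¹ ≤ g := by
    rw [inv_le_iff_one_le_mul₀ hypos]
    exact hy
  rw [norm_iteratedFDeriv_eq_norm_iteratedDeriv, iteratedDeriv_eq_iterate]
  have h1 : deriv^[j] (fun z : ℝ => z⁻¹) y = (-1) ^ j * j.factorial * y ^ (-1 - j : ℤ) :=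
    iter_deriv_inv j y
  rw [h1, norm_mul, norm_mul, norm_pow, norm_neg, norm_one, one_pow, one_mul, norm_zpow,
    Real.norm_eq_abs, Real.norm_eq_abs, Nat.abs_cast]
  have h2 : |y| ^ (-1 - j : ℤ) = |y|⁻¹ ^ (j + 1) := by
    have : (-1 - j : ℤ) = -((j + 1 : ℕ) : ℤ) := by push_cast; ring
    rw [this, zpow_neg, zpow_natCast, inv_pow]
  rw [h2]
  have h3 : |y|⁻¹ ^ (j + 1) ≤ g ^ (n + 1) :=
    (pow_le_pow_left₀ (inv_nonneg.mpr (abs_nonneg y)) hinv _).trans
      (pow_le_pow_right₀ hg (by omega))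
  have h4 : (j.factorial : ℝ) ≤ n.factorial := by exact_mod_cast Nat.factorial_le hj
  exact mul_le_mul h4 h3 (pow_nonneg (inv_nonneg.mpr (abs_nonneg y)) _) (Nat.cast_nonneg _)

theorem Bd.inv {u : ι → E → ℝ} {g : ι → ℝ} (hg : g ∈ S.G.mem) (hu : Bd S W u)
    (hW : ∀ i, ∀ x ∈ S.U i, 0 < W i x) (h : ∀ i, ∀ x ∈ S.U i, W i x ≤ g i * |u i x|) :
    Bd S (fun i x => (W i x)⁻¹) (fun i x => (u i x)⁻¹) := by
  have hne : ∀ i, ∀ x ∈ S.U i, u i x ≠ 0 := by
    intro i x hx h0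
    have h1 := h i x hx
    rw [h0, abs_zero, mul_zero] at h1
    exact absurd (hW i x hx) (not_lt.mpr h1)
  refine ⟨fun i => (hu.1 i).inv (hne i), fun n => ?_⟩
  obtain ⟨G, hG, hGb⟩ := KC_upto hu hW n
  refine ⟨fun i => ((n.factorial : ℝ) * n.factorial) * (g i ^ (n + 1) * G i ^ n), ?_, ?_⟩
  · refine S.G.mul (fun _ => (n.factorial : ℝ) * n.factorial) (S.G.const _ ?_) _
      (S.G.mul _ (Growth.pow hg (n + 1)) _ (Growth.pow hG n))
    have : (1 : ℝ) ≤ n.factorial := by exact_mod_cast Nat.one_le_iff_ne_zero.mpr (Nat.factorial_ne_zero n)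
    nlinarith
  · intro i x hx
    have hw := hW i x hx
    have hs := S.s_pos i
    have hG1 := S.G.one_le G hG i
    have hg1 := S.G.one_le g hg i
    set w := W i x with hwdef
    have hopen : IsOpen ({0}ᶜ : Set ℝ) := isOpen_compl_singleton
    have hφ : ContDiffOn ℝ ∞ (fun z : ℝ => z⁻¹) ({0}ᶜ : Set ℝ) :=
      contDiffOn_id.inv (fun z hz => hz)
    have key := KC_point (φ := fun z : ℝ => z⁻¹) hopen hφ (S.isOpen i) (hu.1 i) hw
      (fun y hy => by
        simp only [mem_compl_iff, mem_singleton_iff, smul_eq_mul, mul_eq_zero, not_or]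
        exact ⟨inv_ne_zero hw.ne', hne i y hy⟩) hx n
      (C := n.factorial * g i ^ (n + 1)) (D := G i * (S.s i)⁻¹) ?_ ?_ w⁻¹
    · have heq : (fun y => (u i y)⁻¹) = fun y => w⁻¹ • (w⁻¹ • u i y)⁻¹ := by
        funext y
        simp only [smul_eq_mul, mul_inv, inv_inv]
        rw [← mul_assoc, inv_mul_cancel₀ hw.ne', one_mul]
      show ‖iteratedFDeriv ℝ n (fun y => (u i y)⁻¹) x‖
        ≤ ((n.factorial : ℝ) * n.factorial) * (g i ^ (n + 1) * G i ^ n) * w⁻¹ * (S.s i)⁻¹ ^ n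
      rw [heq]
      refine key.trans (le_of_eq ?_)
      rw [abs_of_pos (inv_pos.mpr hw), mul_pow]
      ring
    · intro j hj
      refine KC_inv_deriv hg1 ?_ hj
      rw [smul_eq_mul, abs_mul, abs_of_pos (inv_pos.mpr hw)]
      have h1 := h i x hx
      rw [← hwdef] at h1
      calc (1 : ℝ) = w⁻¹ * w := (inv_mul_cancel₀ hw.ne').symm
        _ ≤ w⁻¹ * (g i * |u i x|) := mul_le_mul_of_nonneg_left h1 (inv_pos.mpr hw).le
        _ = g i * (w⁻¹ * |u i x|) := by ring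
    · intro j hj1 hj
      exact KC_inner hG1 hw hs hj1 (hGb j hj i x hx)

private lemma KC_sqrt_deriv {M y : ℝ} (hM : 1 ≤ M) (hy0 : 0 < y) (hy1 : y⁻¹ ≤ M) (hy2 : y ≤ M)
    {j n : ℕ} (hj : j ≤ n) :
    ‖iteratedFDeriv ℝ j Real.sqrt y‖
      ≤ (1 + ∑ l ∈ Finset.range (n + 1), |(descPochhammer ℝ l).eval (1 / 2 : ℝ)|)
        * M ^ (n + 1) := by
  have hs : Real.sqrt = fun z : ℝ => z ^ (1 / 2 : ℝ) := by
    funext z; exact Real.sqrt_eq_rpow z
  rw [norm_iteratedFDeriv_eq_norm_iteratedDeriv, iteratedDeriv_eq_iterate, hs,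
    Real.iter_deriv_rpow_const, norm_mul, Real.norm_eq_abs, Real.norm_eq_abs,
    abs_of_pos (Real.rpow_pos_of_pos hy0 _)]
  have h1 : |(descPochhammer ℝ j).eval (1 / 2 : ℝ)|
      ≤ 1 + ∑ l ∈ Finset.range (n + 1), |(descPochhammer ℝ l).eval (1 / 2 : ℝ)| := by
    have := Finset.single_le_sum (f := fun l => |(descPochhammer ℝ l).eval (1 / 2 : ℝ)|)
      (s := Finset.range (n + 1)) (fun l _ => abs_nonneg _)
      (Finset.mem_range.mpr (by omega : j < n + 1))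
    linarith
  have h2 : y ^ ((1 / 2 : ℝ) - j) ≤ M ^ (n + 1) := by
    rcases le_or_gt 1 y with hy | hy
    · have h3 : y ^ ((1 / 2 : ℝ) - j) ≤ y ^ (1 : ℝ) := by
        refine Real.rpow_le_rpow_of_exponent_le hy ?_
        have : (0 : ℝ) ≤ j := Nat.cast_nonneg j
        linarith
      rw [Real.rpow_one] at h3
      exact (h3.trans hy2).trans (le_self_pow₀ hM (by omega))
    · have h3 : y ^ ((1 / 2 : ℝ) - j) ≤ y ^ (-(j : ℝ)) := by
        refine Real.rpow_le_rpow_of_exponent_ge hy0 hy.le ?_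
        linarith
      rw [Real.rpow_neg hy0.le, Real.rpow_natCast, ← inv_pow] at h3
      refine h3.trans ((pow_le_pow_left₀ (inv_nonneg.mpr hy0.le) hy1 j).trans ?_)
      exact pow_le_pow_right₀ hM (by omega)
  refine mul_le_mul h1 h2 (Real.rpow_nonneg hy0.le _) ?_
  have : 0 ≤ ∑ l ∈ Finset.range (n + 1), |(descPochhammer ℝ l).eval (1 / 2 : ℝ)| :=
    Finset.sum_nonneg fun l _ => abs_nonneg _
  linarith

theorem Bd.sqrt {u : ι → E → ℝ} {g : ι → ℝ} (hg : g ∈ S.G.mem) (hu : Bd S W u)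
    (hW : ∀ i, ∀ x ∈ S.U i, 0 < W i x) (h : ∀ i, ∀ x ∈ S.U i, W i x ≤ g i * u i x) :
    Bd S (fun i x => Real.sqrt (W i x)) (fun i x => Real.sqrt (u i x)) := by
  have hpos : ∀ i, ∀ x ∈ S.U i, 0 < u i x := by
    intro i x hx
    have h1 := h i x hx
    have h2 := hW i x hx
    have h3 := S.G.one_le g hg i
    by_contra hcon
    have h4 : u i x ≤ 0 := not_lt.mp hcon
    nlinarith
  refine ⟨fun i => (hu.1 i).sqrt (fun x hx => (hpos i x hx).ne'), fun n => ?_⟩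
  obtain ⟨G, hG, hGb⟩ := KC_upto hu hW n
  set c : ℝ := 1 + ∑ l ∈ Finset.range (n + 1), |(descPochhammer ℝ l).eval (1 / 2 : ℝ)| with hc
  have hc1 : 1 ≤ c := by
    have : 0 ≤ ∑ l ∈ Finset.range (n + 1), |(descPochhammer ℝ l).eval (1 / 2 : ℝ)| :=
      Finset.sum_nonneg fun l _ => abs_nonneg _
    linarith
  have hGg : (fun i => G i * g i) ∈ S.G.mem := S.G.mul G hG g hg
  refine ⟨fun i => ((n.factorial : ℝ) * c) * ((G i * g i) ^ (n + 1) * G i ^ n), ?_, ?_⟩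
  · refine S.G.mul (fun _ => (n.factorial : ℝ) * c) (S.G.const _ ?_) _
      (S.G.mul _ (Growth.pow hGg (n + 1)) _ (Growth.pow hG n))
    have : (1 : ℝ) ≤ n.factorial := by exact_mod_cast Nat.one_le_iff_ne_zero.mpr (Nat.factorial_ne_zero n)
    nlinarith
  · intro i x hx
    have hw := hW i x hx
    have hs := S.s_pos i
    have hG1 := S.G.one_le G hG i
    have hg1 := S.G.one_le g hg i
    have hM1 : 1 ≤ G i * g i := by nlinarith
    set w := W i x with hwdef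
    have hφ : ContDiffOn ℝ ∞ Real.sqrt (Ioi (0 : ℝ)) :=
      contDiffOn_id.sqrt (fun z hz => (ne_of_gt hz))
    have key := KC_point (φ := Real.sqrt) isOpen_Ioi hφ (S.isOpen i) (hu.1 i) hw
      (fun y hy => by
        simp only [mem_Ioi, smul_eq_mul]
        exact mul_pos (inv_pos.mpr hw) (hpos i y hy)) hx n
      (C := c * (G i * g i) ^ (n + 1)) (D := G i * (S.s i)⁻¹) ?_ ?_ (Real.sqrt w)
    · have heq : (fun y => Real.sqrt (u i y)) = fun y => Real.sqrt w • Real.sqrt (w⁻¹ • u i y) := by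
        funext y
        rw [smul_eq_mul, smul_eq_mul, ← Real.sqrt_mul hw.le, ← mul_assoc,
          mul_inv_cancel₀ hw.ne', one_mul]
      show ‖iteratedFDeriv ℝ n (fun y => Real.sqrt (u i y)) x‖
        ≤ ((n.factorial : ℝ) * c) * ((G i * g i) ^ (n + 1) * G i ^ n) * Real.sqrt w
          * (S.s i)⁻¹ ^ n
      rw [heq]
      refine key.trans (le_of_eq ?_)
      rw [abs_of_nonneg (Real.sqrt_nonneg w), mul_pow]
      ring
    · intro j hj
      have hu0 := hpos i x hx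
      refine KC_sqrt_deriv hM1 (mul_pos (inv_pos.mpr hw) hu0) ?_ ?_ hj
      · rw [mul_inv, inv_inv]
        have h1 := h i x hx
        rw [← hwdef] at h1
        have h2 : w * (u i x)⁻¹ ≤ g i := by
          rw [← div_eq_mul_inv, div_le_iff₀ hu0]; exact h1
        refine h2.trans ?_
        nlinarith
      · have h1 := hGb 0 (Nat.zero_le n) i x hx
        rw [norm_iteratedFDeriv_zero, pow_zero, mul_one, Real.norm_eq_abs, abs_of_pos hu0,
          ← hwdef] at h1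
        have h2 : w⁻¹ * u i x ≤ G i := by
          rw [inv_mul_le_iff₀ hw]; linarith
        refine h2.trans ?_
        nlinarith
    · intro j hj1 hj
      exact KC_inner hG1 hw hs hj1 (hGb j hj i x hx)

end P205F
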