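import Mathlib

/-!
# P205F: the calculus of families (definitions)

Families `u i : E → V` (`i : ι`) of smooth functions on open sets `U i`, whose derivatives of order
`r` are bounded by `g i * W i x * (s i)⁻¹ ^ r`, where `g` belongs to a growth class, `W` is a
pointwise weight and `s` is a scale.
-/

open scoped ContDiff
open Set

namespace P205F

/-- growth classes: sets of functions `ι → [1, ∞)` -/
structure Growth (ι : Type) where
  mem : Set (ι → ℝ)
  one_le : ∀ g ∈ mem, ∀ i, 1 ≤ g i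
  const : ∀ c : ℝ, 1 ≤ c → (fun _ => c) ∈ mem
  mul : ∀ f ∈ mem, ∀ g ∈ mem, (fun i => f i * g i) ∈ mem
  down : ∀ g ∈ mem, ∀ f : ι → ℝ, (∀ i, 1 ≤ f i) → (∀ i, f i ≤ g i) → f ∈ mem

/-- the setting of the calculus: growth class, domains, scale -/
structure Setting (ι E : Type) [NormedAddCommGroup E] [NormedSpace ℝ E] where
  G : Growth ι
  U : ι → Set E
  s : ι → ℝ
  isOpen : ∀ i, IsOpen (U i)
  s_pos : ∀ i, 0 < s i
  s_le : ∀ i, s i ≤ 1

/-- change of the scale -/
def Setting.rescale {ι E : Type} [NormedAddCommGroup E] [NormedSpace ℝ E] (S : Setting ι E)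
    (e : ι → ℝ) (h0 : ∀ i, 0 < e i) (h1 : ∀ i, e i ≤ 1) : Setting ι E :=
  { S with s := e, s_pos := h0, s_le := h1 }

/-- `Bd S W u`: the derivative of order `r` of `u i` is `≤ g i * W i x * (s i)⁻¹ ^ r` on `U i`, with
`g` in the growth class -/
def Bd {ι E V : Type} [NormedAddCommGroup E] [NormedSpace ℝ E] [NormedAddCommGroup V]
    [NormedSpace ℝ V] (S : Setting ι E) (W : ι → E → ℝ) (u : ι → E → V) : Prop :=
  (∀ i, ContDiffOn ℝ ∞ (u i) (S.U i)) ∧
    ∀ r : ℕ, ∃ g ∈ S.G.mem, ∀ i, ∀ x ∈ S.U i,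
      ‖iteratedFDeriv ℝ r (u i) x‖ ≤ g i * W i x * (S.s i)⁻¹ ^ r

end P205F
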