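import Mathlib
import Vale.Agent.Lib.P205F.KDefs

/-! # P205F module KD: composition with a fixed smooth function -/

open scoped ContDiff
open Set

namespace P205F

variable {ι E V V' : Type} [NormedAddCommGroup E] [NormedSpace ℝ E] [NormedAddCommGroup V]
  [NormedSpace ℝ V] [NormedAddCommGroup V'] [NormedSpace ℝ V'] {S : Setting ι E}

/-- one growth function for all orders up to `r` -/
theorem KD_bounds {u : ι → E → V} (hu : Bd S (fun _ _ => 1) u) (r : ℕ) :
    ∃ g ∈ S.G.mem, ∀ k ≤ r, ∀ i, ∀ x ∈ S.U i,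
      ‖iteratedFDeriv ℝ k (u i) x‖ ≤ g i * (S.s i)⁻¹ ^ k := by
  induction r with
  | zero =>
    obtain ⟨g, hg, h⟩ := hu.2 0
    refine ⟨g, hg, fun k hk i x hx => ?_⟩
    obtain rfl : k = 0 := by omega
    simpa using h i x hx
  | succ r ih =>
    obtain ⟨g, hg, h⟩ := ih
    obtain ⟨g', hg', h'⟩ := hu.2 (r + 1)
    refine ⟨fun i => g i * g' i, S.G.mul g hg g' hg', fun k hk i x hx => ?_⟩
    have hs : 0 ≤ (S.s i)⁻¹ ^ k := pow_nonneg (inv_nonneg.2 (S.s_pos i).le) k
    have h1 := S.G.one_le g hg i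
    have h1' := S.G.one_le g' hg' i
    rcases Nat.lt_or_ge r k with hlt | hle
    · obtain rfl : k = r + 1 := by omega
      refine (h' i x hx).trans ?_
      simp only [mul_one]
      exact mul_le_mul_of_nonneg_right (by nlinarith) hs
    · refine (h k hle i x hx).trans ?_
      exact mul_le_mul_of_nonneg_right (by nlinarith) hs

/-- derivatives of a fixed smooth function on a compact set are bounded -/
theorem KD_phi {φ : V → V'} {O K : Set V} (hO : IsOpen O) (hφ : ContDiffOn ℝ ∞ φ O)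
    (hK : IsCompact K) (hKO : K ⊆ O) (r : ℕ) :
    ∃ C : ℝ, 1 ≤ C ∧ ∀ k ≤ r, ∀ y ∈ K, ‖iteratedFDerivWithin ℝ k φ O y‖ ≤ C := by
  induction r with
  | zero =>
    have hc : ContinuousOn (iteratedFDerivWithin ℝ 0 φ O) K :=
      (hφ.continuousOn_iteratedFDerivWithin (m := 0) (by exact_mod_cast le_top)
        hO.uniqueDiffOn).mono hKO
    obtain ⟨C, hC⟩ := hK.exists_bound_of_continuousOn hc
    refine ⟨max C 1, le_max_right _ _, fun k hk y hy => ?_⟩
    obtain rfl : k = 0 := by omega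
    exact (hC y hy).trans (le_max_left _ _)
  | succ r ih =>
    obtain ⟨C', h1, hC'⟩ := ih
    have hc : ContinuousOn (iteratedFDerivWithin ℝ (r + 1) φ O) K :=
      (hφ.continuousOn_iteratedFDerivWithin (m := r + 1) (by exact_mod_cast le_top)
        hO.uniqueDiffOn).mono hKO
    obtain ⟨C, hC⟩ := hK.exists_bound_of_continuousOn hc
    refine ⟨max C C', h1.trans (le_max_right _ _), fun k hk y hy => ?_⟩
    rcases Nat.lt_or_ge r k with hlt | hle
    · obtain rfl : k = r + 1 := by omega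
      exact (hC y hy).trans (le_max_left _ _)
    · exact (hC' k hle y hy).trans (le_max_right _ _)

/-- composition with a fixed function, smooth near a compact set containing all the values -/
theorem Bd.comp {φ : V → V'} {O K : Set V} (hO : IsOpen O) (hφ : ContDiffOn ℝ ∞ φ O)
    (hK : IsCompact K) (hKO : K ⊆ O) {u : ι → E → V} (hu : Bd S (fun _ _ => 1) u)
    (hm : ∀ i, ∀ x ∈ S.U i, u i x ∈ K) : Bd S (fun _ _ => 1) (fun i x => φ (u i x)) := by
  have hmaps : ∀ i, MapsTo (u i) (S.U i) O := fun i x hx => hKO (hm i x hx)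
  refine ⟨fun i => hφ.comp (hu.1 i) (hmaps i), fun r => ?_⟩
  obtain ⟨g, hg, hgb⟩ := KD_bounds hu r
  obtain ⟨C, hC1, hC⟩ := KD_phi hO hφ hK hKO r
  have hfac : (1 : ℝ) ≤ (r.factorial : ℝ) := by
    exact_mod_cast Nat.succ_le_of_lt (Nat.factorial_pos r)
  have hpow : ∀ n : ℕ, (fun i => g i ^ n) ∈ S.G.mem := by
    intro n
    induction n with
    | zero => simpa using S.G.const 1 le_rfl
    | succ n ih => simpa [pow_succ] using S.G.mul _ ih g hg
  refine ⟨fun i => (r.factorial * C) * g i ^ r,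
    S.G.mul _ (S.G.const _ (by nlinarith)) _ (hpow r), fun i x hx => ?_⟩
  have hUo := S.isOpen i
  have hsi : 0 ≤ (S.s i)⁻¹ := inv_nonneg.2 (S.s_pos i).le
  have h1 := S.G.one_le g hg i
  have key := norm_iteratedFDerivWithin_comp_le (𝕜 := ℝ) (n := r) (N := ∞) hφ (hu.1 i)
    (by exact_mod_cast le_top) hO.uniqueDiffOn hUo.uniqueDiffOn (hmaps i) hx
    (C := C) (D := g i * (S.s i)⁻¹) (fun k hk => hC k hk _ (hm i x hx)) (by
      intro k hk1 hk
      rw [iteratedFDerivWithin_of_isOpen k hUo hx]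
      refine (hgb k hk i x hx).trans ?_
      rw [mul_pow]
      exact mul_le_mul_of_nonneg_right (le_self_pow₀ h1 (by omega)) (pow_nonneg hsi k))
  rw [iteratedFDerivWithin_of_isOpen r hUo hx] at key
  refine key.trans (le_of_eq ?_)
  rw [mul_pow]
  ring

end P205F
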