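import Mathlib
import Vale.Agent.Lib.P205F.KA

/-! # P205F module KE: phases, extension by zero -/

open scoped ContDiff
open Set

namespace P205F

variable {ι E V : Type} [NormedAddCommGroup E] [NormedSpace ℝ E] [NormedAddCommGroup V]
  [NormedSpace ℝ V] {S : Setting ι E}

private theorem KE_iteratedDeriv (n : ℕ) :
    iteratedDeriv n (fun t : ℝ => Complex.exp ((t : ℂ) * Complex.I)) =
      fun t : ℝ => Complex.I ^ n * Complex.exp ((t : ℂ) * Complex.I) := by
  induction n with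
  | zero => simp
  | succ n ih =>
    rw [iteratedDeriv_succ, ih]
    funext t
    have h1 : HasDerivAt (fun y : ℝ => ((y : ℂ) * Complex.I)) (1 * Complex.I) t :=
      (Complex.ofRealCLM.hasDerivAt (x := t)).mul_const Complex.I
    have h2 := (h1.cexp).const_mul (Complex.I ^ n)
    rw [h2.deriv, pow_succ]
    ring

private theorem KE_contDiff : ContDiff ℝ ∞ (fun t : ℝ => Complex.exp ((t : ℂ) * Complex.I)) :=
  (Complex.ofRealCLM.contDiff.mul contDiff_const).cexp

private theorem KE_norm (n : ℕ) (t : ℝ) :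
    ‖iteratedFDeriv ℝ n (fun t : ℝ => Complex.exp ((t : ℂ) * Complex.I)) t‖ ≤ 1 := by
  rw [norm_iteratedFDeriv_eq_norm_iteratedDeriv, KE_iteratedDeriv, norm_mul, norm_pow,
    Complex.norm_I, one_pow, one_mul, Complex.norm_exp_ofReal_mul_I]

/-- phases, at the scale of their wave length -/
theorem Bd.phase {g : ι → ℝ} (hg : g ∈ S.G.mem) (ζ : ι → (E →L[ℝ] ℝ)) (hζ : ∀ i, ‖ζ i‖ ≤ g i) :
    Bd S (fun _ _ => 1) (fun i x => Complex.exp (((ζ i x / S.s i : ℝ) : ℂ) * Complex.I)) := by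
  have hform : ∀ i, (fun x => Complex.exp (((ζ i x / S.s i : ℝ) : ℂ) * Complex.I)) =
      (fun t : ℝ => Complex.exp ((t : ℂ) * Complex.I)) ∘ ((S.s i)⁻¹ • ζ i) := by
    intro i
    funext x
    simp only [Function.comp_apply, FunLike.coe_smul, Pi.smul_apply, smul_eq_mul]
    rw [div_eq_inv_mul]
  refine ⟨fun i => ?_, fun r => ⟨fun i => g i ^ r, Growth.pow hg r, fun i x _ => ?_⟩⟩
  · beta_reduce
    rw [hform i]
    exact (KE_contDiff.comp ((S.s i)⁻¹ • ζ i).contDiff).contDiffOn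
  · beta_reduce
    rw [hform i, ContinuousLinearMap.iteratedFDeriv_comp_right _ KE_contDiff x
      (i := r) (by exact_mod_cast le_top)]
    refine (ContinuousMultilinearMap.norm_compContinuousLinearMap_le _ _).trans ?_
    rw [Finset.prod_const, Finset.card_univ, Fintype.card_fin, mul_one, ← mul_pow]
    have hs : 0 < (S.s i)⁻¹ := inv_pos.mpr (S.s_pos i)
    have h1 : ‖(S.s i)⁻¹ • ζ i‖ ≤ g i * (S.s i)⁻¹ := by
      rw [norm_smul, Real.norm_eq_abs, abs_of_pos hs, mul_comm]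
      exact mul_le_mul_of_nonneg_right (hζ i) hs.le
    calc ‖iteratedFDeriv ℝ r (fun t : ℝ => Complex.exp ((t : ℂ) * Complex.I))
          (((S.s i)⁻¹ • ζ i) x)‖ * ‖(S.s i)⁻¹ • ζ i‖ ^ r
        ≤ 1 * (g i * (S.s i)⁻¹) ^ r :=
          mul_le_mul (KE_norm r _) (pow_le_pow_left₀ (norm_nonneg _) h1 r) (by positivity)
            zero_le_one
      _ = (g i * (S.s i)⁻¹) ^ r := one_mul _

theorem Bd.cosPhase {g : ι → ℝ} (hg : g ∈ S.G.mem) (ζ : ι → (E →L[ℝ] ℝ)) (hζ : ∀ i, ‖ζ i‖ ≤ g i) :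
    Bd S (fun _ _ => 1) (fun i x => Real.cos (ζ i x / S.s i)) := by
  refine ((Bd.phase hg ζ hζ).clm Complex.reCLM).congr fun i x _ => ?_
  rw [Complex.reCLM_apply, Complex.exp_ofReal_mul_I_re]

theorem Bd.sinPhase {g : ι → ℝ} (hg : g ∈ S.G.mem) (ζ : ι → (E →L[ℝ] ℝ)) (hζ : ∀ i, ‖ζ i‖ ≤ g i) :
    Bd S (fun _ _ => 1) (fun i x => Real.sin (ζ i x / S.s i)) := by
  refine ((Bd.phase hg ζ hζ).clm Complex.imCLM).congr fun i x _ => ?_
  rw [Complex.imCLM_apply, Complex.exp_ofReal_mul_I_im]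

/-- a function smooth on an open set and zero off a closed subset of it is smooth -/
theorem contDiff_of_zero_off {U C : Set E} (hU : IsOpen U) (hC : IsClosed C) (hCU : C ⊆ U)
    {w : E → V} (hw : ContDiffOn ℝ ∞ w U) (h0 : ∀ x, x ∉ C → w x = 0) : ContDiff ℝ ∞ w := by
  rw [contDiff_iff_contDiffAt]
  intro x
  by_cases hx : x ∈ U
  · exact hw.contDiffAt (hU.mem_nhds hx)
  · have h1 : w =ᶠ[nhds x] fun _ => (0 : V) := by
      filter_upwards [hC.isOpen_compl.mem_nhds (fun h => hx (hCU h))] with y hy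
      exact h0 y hy
    exact contDiffAt_const.congr_of_eventuallyEq h1

/-- the derivatives of a function which is zero off a closed set are zero off that set -/
theorem iteratedFDeriv_zero_off {C : Set E} (hC : IsClosed C) {w : E → V}
    (h0 : ∀ x, x ∉ C → w x = 0) (r : ℕ) {x : E} (hx : x ∉ C) : iteratedFDeriv ℝ r w x = 0 := by
  have h1 : w =ᶠ[nhds x] fun _ => (0 : V) := by
    filter_upwards [hC.isOpen_compl.mem_nhds hx] with y hy
    exact h0 y hy
  rw [(h1.iteratedFDeriv ℝ r).eq_of_nhds, iteratedFDeriv_fun_zero, Pi.zero_apply]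

end P205F
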