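import Vale.Agent.Lib.P205F.C2Defs
import Vale.Agent.Lib.P205F.KC

/-! # P205F module C2A: flat families and the regularised cutoff -/

open scoped ContDiff Topology
open Set

namespace P205F

variable {ι E V : Type} [NormedAddCommGroup E] [NormedSpace ℝ E] [NormedAddCommGroup V]
  [NormedSpace ℝ V] {S : Setting ι E}

/-- all orders of derivatives, with truncated subtraction in the exponent -/
private theorem C2A_pow {θ : ι → E → ℝ} (hθ : Bd S (fun _ _ => 1) θ) (m : ℕ) :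
    ∀ r : ℕ, ∃ g ∈ S.G.mem, ∀ i, ∀ x ∈ S.U i,
      ‖iteratedFDeriv ℝ r (fun y => θ i y ^ m) x‖ ≤ g i * |θ i x| ^ (m - r) * (S.s i)⁻¹ ^ r := by
  induction m with
  | zero =>
    intro r
    refine ⟨_, S.G.const 1 le_rfl, fun i x hx => ?_⟩
    have hs : 0 < (S.s i)⁻¹ ^ r := pow_pos (inv_pos.mpr (S.s_pos i)) r
    have h1 : (fun y => θ i y ^ 0) = fun _ => (1 : ℝ) := by
      funext y
      exact pow_zero _
    rw [h1, Nat.zero_sub, pow_zero]
    rcases Nat.eq_zero_or_pos r with hr | hr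
    · subst hr
      rw [norm_iteratedFDeriv_zero, norm_one, pow_zero]
      norm_num
    · rw [iteratedFDeriv_const_of_ne (Nat.pos_iff_ne_zero.mp hr), Pi.zero_apply, norm_zero]
      positivity
  | succ m ih =>
    intro r
    choose g hg hgb using ih
    choose g' hg' hgb' using hθ.2
    obtain ⟨b, hb, hbb⟩ := hθ.bound
    -- the growth function of the summand `j`
    let G : ℕ → ι → ℝ := fun j i => (2 ^ r : ℝ) * (g j i * (g' (r - j) i * b i ^ (m + 1)))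
    have hG : ∀ j, G j ∈ S.G.mem := fun j => S.G.mul _ (S.G.const _ (one_le_pow₀ (by norm_num))) _
      (S.G.mul _ (hg j) _ (S.G.mul _ (hg' (r - j)) _ (Growth.pow hb (m + 1))))
    have hsum : ∀ N : ℕ, (fun i => ∑ j ∈ Finset.range (N + 1), G j i) ∈ S.G.mem := by
      intro N
      induction N with
      | zero =>
        simp only [zero_add, Finset.sum_range_one]
        exact hG 0
      | succ N ihN =>
        have h := Growth.add ihN (hG (N + 1))
        simpa only [Finset.sum_range_succ] using h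
    refine ⟨_, hsum r, fun i x hx => ?_⟩
    have hs : 0 < (S.s i)⁻¹ := inv_pos.mpr (S.s_pos i)
    have hopen := S.isOpen i
    have h1 := norm_iteratedFDerivWithin_mul_le (𝕜 := ℝ) (N := ∞) (n := r)
      (f := fun y => θ i y ^ m) (g := θ i) (s := S.U i) ((hθ.1 i).pow m) (hθ.1 i)
      hopen.uniqueDiffOn hx (by exact_mod_cast le_top)
    rw [iteratedFDerivWithin_of_isOpen r hopen hx] at h1
    have h2 : (fun y => θ i y ^ (m + 1)) = fun y => θ i y ^ m * θ i y := by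
      funext y
      exact pow_succ _ _
    rw [h2]
    refine h1.trans ?_
    rw [Finset.sum_mul, Finset.sum_mul]
    refine Finset.sum_le_sum fun j hj => ?_
    rw [iteratedFDerivWithin_of_isOpen j hopen hx, iteratedFDerivWithin_of_isOpen (r - j) hopen hx]
    have hjr : j ≤ r := Nat.lt_succ_iff.1 (Finset.mem_range.1 hj)
    have hb1 := S.G.one_le b hb i
    have hgj := S.G.one_le _ (hg j) i
    have hgj' := S.G.one_le _ (hg' (r - j)) i
    have ha0 : 0 ≤ |θ i x| := abs_nonneg _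
    have hab : |θ i x| ≤ b i := by
      have := hbb i x hx
      rwa [mul_one, Real.norm_eq_abs] at this
    have hch : (r.choose j : ℝ) ≤ 2 ^ r := by
      have h3 : r.choose j ≤ 2 ^ r := by
        rw [← Nat.sum_range_choose]
        exact Finset.single_le_sum (fun _ _ => Nat.zero_le _) hj
      exact_mod_cast h3
    have hA := hgb j i x hx
    have hB := hgb' (r - j) i x hx
    rw [mul_one] at hB
    -- the product of the two estimates
    have hprod : ‖iteratedFDeriv ℝ j (fun y => θ i y ^ m) x‖ *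
        ‖iteratedFDeriv ℝ (r - j) (θ i) x‖ ≤
        (g j i * (g' (r - j) i * b i ^ (m + 1))) * |θ i x| ^ (m + 1 - r) * (S.s i)⁻¹ ^ r := by
      rcases Nat.lt_or_ge j r with hlt | hge
      · have h3 : |θ i x| ^ (m - j) ≤ |θ i x| ^ (m + 1 - r) * b i ^ (m + 1) := by
          have h4 : m - j = (m + 1 - r) + ((m - j) - (m + 1 - r)) := by omega
          rw [h4, pow_add]
          refine mul_le_mul_of_nonneg_left ?_ (pow_nonneg ha0 _)
          refine (pow_le_pow_left₀ ha0 hab _).trans (pow_le_pow_right₀ hb1 ?_)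
          omega
        calc ‖iteratedFDeriv ℝ j (fun y => θ i y ^ m) x‖ * ‖iteratedFDeriv ℝ (r - j) (θ i) x‖
            ≤ (g j i * |θ i x| ^ (m - j) * (S.s i)⁻¹ ^ j) * (g' (r - j) i * (S.s i)⁻¹ ^ (r - j)) :=
              mul_le_mul hA hB (norm_nonneg _) (by positivity)
          _ = (g j i * g' (r - j) i) * |θ i x| ^ (m - j) * ((S.s i)⁻¹ ^ j * (S.s i)⁻¹ ^ (r - j)) := by
              ring
          _ = (g j i * g' (r - j) i) * |θ i x| ^ (m - j) * (S.s i)⁻¹ ^ r := by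
              rw [← pow_add, Nat.add_sub_cancel' hjr]
          _ ≤ (g j i * g' (r - j) i) * (|θ i x| ^ (m + 1 - r) * b i ^ (m + 1)) *
              (S.s i)⁻¹ ^ r := by
              refine mul_le_mul_of_nonneg_right (mul_le_mul_of_nonneg_left h3 ?_) ?_
              · nlinarith
              · positivity
          _ = _ := by ring
      · have hjr' : j = r := le_antisymm hjr hge
        subst hjr'
        rw [Nat.sub_self, norm_iteratedFDeriv_zero, Real.norm_eq_abs]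
        have h3 : |θ i x| ^ (m - j) * |θ i x| ≤ |θ i x| ^ (m + 1 - j) * b i ^ (m + 1) := by
          rcases Nat.lt_or_ge m j with hmj | hmj
          · have e1 : m - j = 0 := by omega
            have e2 : m + 1 - j = 0 := by omega
            rw [e1, e2, pow_zero, one_mul, one_mul]
            exact hab.trans (le_self_pow₀ hb1 (by omega))
          · have e1 : m + 1 - j = (m - j) + 1 := by omega
            rw [e1, pow_succ]
            have h4 : (1 : ℝ) ≤ b i ^ (m + 1) := one_le_pow₀ hb1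
            exact le_mul_of_one_le_right (by positivity) h4
        have hg0 := S.G.one_le _ (hg' 0) i
        calc ‖iteratedFDeriv ℝ j (fun y => θ i y ^ m) x‖ * |θ i x|
            ≤ (g j i * |θ i x| ^ (m - j) * (S.s i)⁻¹ ^ j) * |θ i x| :=
              mul_le_mul_of_nonneg_right hA ha0
          _ = g j i * (|θ i x| ^ (m - j) * |θ i x|) * (S.s i)⁻¹ ^ j := by ring
          _ ≤ g j i * (|θ i x| ^ (m + 1 - j) * b i ^ (m + 1)) * (S.s i)⁻¹ ^ j := by
              refine mul_le_mul_of_nonneg_right (mul_le_mul_of_nonneg_left h3 ?_) ?_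
              · linarith
              · positivity
          _ ≤ g' 0 i * (g j i * (|θ i x| ^ (m + 1 - j) * b i ^ (m + 1)) * (S.s i)⁻¹ ^ j) :=
              le_mul_of_one_le_left (by positivity) hg0
          _ = _ := by ring
    calc (r.choose j : ℝ) * ‖iteratedFDeriv ℝ j (fun y => θ i y ^ m) x‖ *
          ‖iteratedFDeriv ℝ (r - j) (θ i) x‖
        = (r.choose j : ℝ) * (‖iteratedFDeriv ℝ j (fun y => θ i y ^ m) x‖ *
          ‖iteratedFDeriv ℝ (r - j) (θ i) x‖) := by ring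
      _ ≤ 2 ^ r * ((g j i * (g' (r - j) i * b i ^ (m + 1))) * |θ i x| ^ (m + 1 - r) *
          (S.s i)⁻¹ ^ r) :=
          mul_le_mul hch hprod (by positivity) (by positivity)
      _ = _ := by
          simp only [G]
          ring

/-- powers of a bounded function: the derivatives of order `r ≤ m` of `θ ^ m` are bounded by
`|θ| ^ (m - r) * s ^ (-r)` -/
theorem pow_bound {θ : ι → E → ℝ} (hθ : Bd S (fun _ _ => 1) θ) (m r : ℕ) (hr : r ≤ m) :
    ∃ g ∈ S.G.mem, ∀ i, ∀ x ∈ S.U i,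
      ‖iteratedFDeriv ℝ r (fun y => θ i y ^ m) x‖ ≤ g i * |θ i x| ^ (m - r) * (S.s i)⁻¹ ^ r :=
  C2A_pow hθ m r

theorem FlatFam.bd {χ : ι → E → ℝ} (h : FlatFam S χ) : Bd S (fun _ _ => 1) χ := by
  obtain ⟨θ, h1, h2⟩ := h 1 le_rfl
  refine h1.congr fun i x hx => ?_
  have h3 := (h2 i x hx).2
  rw [pow_one] at h3
  exact h3.symm

theorem FlatFam.nonneg {χ : ι → E → ℝ} (h : FlatFam S χ) (i : ι) {x : E} (hx : x ∈ S.U i) :
    0 ≤ χ i x := by
  obtain ⟨θ, h1, h2⟩ := h 1 le_rfl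
  have h3 := h2 i x hx
  rw [← h3.2]
  exact pow_nonneg h3.1 1

theorem chibar_pos (δ : ι → ℝ) (hδ : ∀ i, 0 < δ i) (M : ℕ) (χ : ι → E → ℝ) (i : ι) (x : E) :
    0 < chibar δ M χ i x ∧ δ i ^ M ≤ chibar δ M χ i x := by
  have h1 : 0 < δ i ^ M := pow_pos (hδ i) M
  have h2 : δ i ^ M ≤ chibar δ M χ i x := by
    unfold chibar
    refine Real.le_sqrt_of_sq_le ?_
    have h3 : (δ i ^ M) ^ 2 = δ i ^ (2 * M) := by
      rw [← pow_mul, mul_comm]
    rw [h3]
    exact le_add_of_nonneg_left (sq_nonneg _)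
  exact ⟨lt_of_lt_of_le h1 h2, h2⟩

/-- pointwise interpolation -/
private theorem C2A_pt {θ δ K c : ℝ} {k L r : ℕ} (hθ : 0 ≤ θ) (hδ : 0 < δ) (hδ1 : δ ≤ 1)
    (hK : 0 < K) (h1 : θ ^ k ≤ K) (h2 : δ ^ L ≤ K) (hr : r ≤ k) (hk : 1 ≤ k)
    (hc : (L : ℝ) * r / k ≤ c) : θ ^ (k - r) ≤ K * δ ^ (-c) := by
  have hk0 : (0 : ℝ) < k := by exact_mod_cast hk
  have hrk : (r : ℝ) / k ≤ 1 := (div_le_one hk0).2 (by exact_mod_cast hr)
  have hr0 : 0 ≤ (r : ℝ) / k := by positivity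
  have e1 : θ ^ (k - r) = (θ ^ k) ^ (1 - (r : ℝ) / k) := by
    rw [← Real.rpow_natCast θ k, ← Real.rpow_mul hθ, ← Real.rpow_natCast θ (k - r),
      Nat.cast_sub hr]
    congr 1
    field_simp
  rw [e1]
  calc (θ ^ k) ^ (1 - (r : ℝ) / k) ≤ K ^ (1 - (r : ℝ) / k) :=
        Real.rpow_le_rpow (pow_nonneg hθ k) h1 (by linarith)
    _ = K * K ^ (-((r : ℝ) / k)) := by rw [sub_eq_add_neg, Real.rpow_add hK, Real.rpow_one]
    _ ≤ K * (δ ^ L) ^ (-((r : ℝ) / k)) :=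
        mul_le_mul_of_nonneg_left (Real.rpow_le_rpow_of_nonpos (pow_pos hδ L) h2 (by linarith))
          hK.le
    _ = K * δ ^ (-((L : ℝ) * r / k)) := by
        rw [← Real.rpow_natCast δ L, ← Real.rpow_mul hδ.le]
        congr 2
        ring
    _ ≤ K * δ ^ (-c) :=
        mul_le_mul_of_nonneg_left (Real.rpow_le_rpow_of_exponent_ge hδ hδ1 (by linarith)) hK.le

/-- bounds with an arbitrarily small loss in `δ` are bounds -/
private theorem C2A_loss {W : ι → E → ℝ} {u : ι → E → V} (δ : ι → ℝ) (hδ : ∀ i, 0 < δ i)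
    (hδ1 : ∀ i, δ i ≤ 1) (hg : ∀ f : ι → ℝ, (∀ i, 1 ≤ f i) →
      (∀ c : ℝ, 0 < c → ∃ g' ∈ S.G.mem, ∀ i, f i ≤ g' i * (δ i) ^ (-c)) → f ∈ S.G.mem)
    (hW : ∀ i, ∀ x ∈ S.U i, 0 < W i x) (hs : ∀ i, ContDiffOn ℝ ∞ (u i) (S.U i))
    (h : ∀ r : ℕ, ∀ c : ℝ, 0 < c → ∃ g ∈ S.G.mem, ∀ i, ∀ x ∈ S.U i,
      ‖iteratedFDeriv ℝ r (u i) x‖ ≤ g i * (δ i) ^ (-c) * W i x * (S.s i)⁻¹ ^ r) :
    Bd S W u := by
  refine ⟨hs, fun r => ?_⟩
  have hp : ∀ i, 0 < (S.s i)⁻¹ ^ r := fun i => pow_pos (inv_pos.mpr (S.s_pos i)) r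
  have hF : ∀ c : ℝ, 0 < c → ∃ g ∈ S.G.mem, ∀ i, ∀ x ∈ S.U i,
      ‖iteratedFDeriv ℝ r (u i) x‖ / (W i x * (S.s i)⁻¹ ^ r) ≤ g i * (δ i) ^ (-c) := by
    intro c hc
    obtain ⟨g, hg', hb⟩ := h r c hc
    refine ⟨g, hg', fun i x hx => ?_⟩
    rw [div_le_iff₀ (mul_pos (hW i x hx) (hp i)), ← mul_assoc]
    exact hb i x hx
  refine ⟨fun i => max 1 (sSup ((fun x => ‖iteratedFDeriv ℝ r (u i) x‖ /
    (W i x * (S.s i)⁻¹ ^ r)) '' S.U i)), hg _ (fun i => le_max_left _ _) ?_, ?_⟩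
  · intro c hc
    obtain ⟨g, hg', hb⟩ := hF c hc
    refine ⟨g, hg', fun i => ?_⟩
    have h1 : 1 ≤ (δ i) ^ (-c) :=
      Real.one_le_rpow_of_pos_of_le_one_of_nonpos (hδ i) (hδ1 i) (by linarith)
    have h2 := S.G.one_le g hg' i
    have h3 : 1 ≤ g i * (δ i) ^ (-c) := by nlinarith
    refine max_le h3 (Real.sSup_le ?_ (by linarith))
    rintro _ ⟨x, hx, rfl⟩
    exact hb i x hx
  · intro i x hx
    have hbd : BddAbove ((fun x => ‖iteratedFDeriv ℝ r (u i) x‖ /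
        (W i x * (S.s i)⁻¹ ^ r)) '' S.U i) := by
      obtain ⟨g, hg', hb⟩ := hF 1 one_pos
      refine ⟨g i * (δ i) ^ (-1 : ℝ), ?_⟩
      rintro _ ⟨y, hy, rfl⟩
      exact hb i y hy
    have h1 := (le_csSup hbd ⟨x, hx, rfl⟩).trans (le_max_right 1 _)
    rw [div_le_iff₀ (mul_pos (hW i x hx) (hp i)), ← mul_assoc] at h1
    exact h1

/-- the two applications -/
private theorem C2A_flat {χ : ι → E → ℝ} (h : FlatFam S χ) (δ : ι → ℝ) (hδ : ∀ i, 0 < δ i)
    (hδ1 : ∀ i, δ i ≤ 1) (hg : ∀ f : ι → ℝ, (∀ i, 1 ≤ f i) →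
      (∀ c : ℝ, 0 < c → ∃ g' ∈ S.G.mem, ∀ i, f i ≤ g' i * (δ i) ^ (-c)) → f ∈ S.G.mem) (M a : ℕ)
    (ha : 1 ≤ a) {W : ι → E → ℝ} (hW : ∀ i, ∀ x ∈ S.U i, 0 < W i x)
    (h1 : ∀ i, ∀ x ∈ S.U i, χ i x ^ a ≤ W i x) (h2 : ∀ i, ∀ x ∈ S.U i, δ i ^ (a * M) ≤ W i x) :
    Bd S W (fun i x => χ i x ^ a) := by
  refine C2A_loss δ hδ hδ1 hg hW (fun i => (h.bd.1 i).pow a) fun r c hc => ?_
  obtain ⟨N, hN⟩ := exists_nat_ge ((M : ℝ) * r / c)
  obtain ⟨θ, hθ, hθχ⟩ := h (N + r + 1) (by omega)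
  have hk : 1 ≤ a * (N + r + 1) := Nat.one_le_iff_ne_zero.2 (by positivity)
  have hrk : r ≤ a * (N + r + 1) := by nlinarith
  obtain ⟨g, hgm, hgb⟩ := pow_bound hθ (a * (N + r + 1)) r hrk
  refine ⟨g, hgm, fun i x hx => ?_⟩
  have hx' : S.U i ∈ 𝓝 x := (S.isOpen i).mem_nhds hx
  have h3 : (fun y => χ i y ^ a) =ᶠ[𝓝 x] fun y => θ i y ^ (a * (N + r + 1)) := by
    filter_upwards [hx'] with y hy
    rw [← (hθχ i y hy).2, ← pow_mul, mul_comm a]
  rw [(h3.iteratedFDeriv ℝ r).eq_of_nhds]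
  refine (hgb i x hx).trans ?_
  have hθ0 := (hθχ i x hx).1
  have h4 : θ i x ^ (a * (N + r + 1)) ≤ W i x := by
    have h5 := h1 i x hx
    rwa [← (hθχ i x hx).2, ← pow_mul, mul_comm _ a] at h5
  have hc' : ((a * M : ℕ) : ℝ) * r / ((a * (N + r + 1) : ℕ) : ℝ) ≤ c := by
    have ha0 : (0 : ℝ) < a := by exact_mod_cast ha
    have hN0 : (0 : ℝ) ≤ N := Nat.cast_nonneg _
    have hr0 : (0 : ℝ) ≤ r := Nat.cast_nonneg _
    have h6 : (M : ℝ) * r ≤ c * N := by
      rw [div_le_iff₀ hc] at hN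
      linarith
    push_cast
    rw [div_le_iff₀ (by positivity)]
    have h7 : 0 ≤ c * (a * ((r : ℝ) + 1)) := by positivity
    have h8 : (a : ℝ) * (M * r) ≤ a * (c * N) := mul_le_mul_of_nonneg_left h6 ha0.le
    nlinarith
  have h9 := C2A_pt hθ0 (hδ i) (hδ1 i) (hW i x hx) h4 (h2 i x hx) hrk hk hc'
  have hs0 : 0 < (S.s i)⁻¹ ^ r := pow_pos (inv_pos.mpr (S.s_pos i)) r
  have hg1 := S.G.one_le g hgm i
  rw [abs_of_nonneg hθ0]
  refine mul_le_mul_of_nonneg_right ?_ hs0.le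
  calc g i * θ i x ^ (a * (N + r + 1) - r) ≤ g i * (W i x * δ i ^ (-c)) :=
        mul_le_mul_of_nonneg_left h9 (by linarith)
    _ = _ := by ring

/-- the regularised cutoff -/
theorem chibar_bd {χ : ι → E → ℝ} (h : FlatFam S χ) (δ : ι → ℝ) (hδ : ∀ i, 0 < δ i)
    (hδ1 : ∀ i, δ i ≤ 1) (hg : ∀ f : ι → ℝ, (∀ i, 1 ≤ f i) →
      (∀ c : ℝ, 0 < c → ∃ g' ∈ S.G.mem, ∀ i, f i ≤ g' i * (δ i) ^ (-c)) → f ∈ S.G.mem) (M : ℕ) :
    Bd S (chibar δ M χ) (chibar δ M χ) ∧ Bd S (chibar δ M χ) χ := by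
  have hκ0 : ∀ i x, 0 < χ i x ^ 2 + (δ i) ^ (2 * M) := fun i x =>
    add_pos_of_nonneg_of_pos (sq_nonneg _) (pow_pos (hδ i) _)
  constructor
  · have h1 : Bd S (fun i x => χ i x ^ 2 + (δ i) ^ (2 * M)) (fun i x => χ i x ^ 2) :=
      C2A_flat h δ hδ hδ1 hg M 2 (by norm_num) (fun i x _ => hκ0 i x)
        (fun i x _ => le_add_of_nonneg_right (pow_pos (hδ i) _).le)
        (fun i x _ => le_add_of_nonneg_left (sq_nonneg _))
    have h2 : Bd S (fun i x => χ i x ^ 2 + (δ i) ^ (2 * M)) (fun i _ => (δ i) ^ (2 * M)) := by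
      have h3 : Bd S (fun i _ => (δ i) ^ (2 * M)) (fun i _ => (δ i) ^ (2 * M)) := by
        refine Bd.const' (S.G.const 1 le_rfl) _ _ fun i => ?_
        rw [one_mul, Real.norm_eq_abs, abs_of_nonneg (pow_pos (hδ i) _).le]
      refine h3.mono (S.G.const 1 le_rfl) fun i x _ => ?_
      rw [one_mul]
      exact le_add_of_nonneg_left (sq_nonneg _)
    have h4 := Bd.sqrt (S.G.const 1 le_rfl) (h1.add h2) (fun i x _ => hκ0 i x)
      (fun i x _ => le_of_eq (one_mul _).symm)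
    exact h4
  · have h1 := C2A_flat h δ hδ hδ1 hg M 1 le_rfl (W := chibar δ M χ)
      (fun i x _ => (chibar_pos δ hδ M χ i x).1)
      (fun i x _ => by
        rw [pow_one]
        unfold chibar
        refine Real.le_sqrt_of_sq_le ?_
        exact le_add_of_nonneg_right (pow_pos (hδ i) _).le)
      (fun i x _ => by
        rw [one_mul]
        exact (chibar_pos δ hδ M χ i x).2)
    exact h1.congr fun i x _ => (pow_one _).symm

/-- change of weights away from the set where the function vanishes -/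
theorem Bd.mono_off {W W' : ι → E → ℝ} {u : ι → E → V} {g : ι → ℝ} (hg : g ∈ S.G.mem)
    (h : Bd S W u) (hW : ∀ i, ∀ x ∈ S.U i, 0 ≤ W' i x)
    (h0 : ∀ i, ∀ x ∈ S.U i, (u i =ᶠ[𝓝 x] fun _ => 0) ∨ W i x ≤ g i * W' i x) : Bd S W' u := by
  refine ⟨h.1, fun r => ?_⟩
  obtain ⟨g', hg', h1⟩ := h.2 r
  refine ⟨_, S.G.mul g' hg' g hg, fun i x hx => ?_⟩
  have h2 := S.G.one_le g' hg' i
  have h2' := S.G.one_le g hg i
  have hs : 0 < (S.s i)⁻¹ ^ r := pow_pos (inv_pos.mpr (S.s_pos i)) r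
  rcases h0 i x hx with h3 | h3
  · have h4 : ‖iteratedFDeriv ℝ r (u i) x‖ = 0 := by
      rw [(h3.iteratedFDeriv ℝ r).eq_of_nhds]
      rcases Nat.eq_zero_or_pos r with hr | hr
      · subst hr
        rw [norm_iteratedFDeriv_zero, norm_zero]
      · rw [iteratedFDeriv_const_of_ne (Nat.pos_iff_ne_zero.mp hr), Pi.zero_apply, norm_zero]
    rw [h4]
    have := hW i x hx
    positivity
  · refine (h1 i x hx).trans (mul_le_mul_of_nonneg_right ?_ hs.le)
    rw [mul_assoc]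
    exact mul_le_mul_of_nonneg_left h3 (by linarith)

end P205F
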