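import Vale.Agent.Lib.P205F.CA

/-! # P205F module C2P: polarisation of the slow error -/

open scoped ContDiff Topology
open Set

namespace P205F

/-! ### linearity of the recursion -/

private theorem C2P_pd_lin {V : Type} [NormedAddCommGroup V] [NormedSpace ℝ V] {U : Set E2}
    (hU : IsOpen U) {u v w : E2 → V} (hu : ContDiffOn ℝ ∞ u U) (hv : ContDiffOn ℝ ∞ v U) (c : ℝ)
    (hw : ∀ x ∈ U, w x = u x + c • v x) (i : Fin 2) {x : E2} (hx : x ∈ U) :
    pd i w x = pd i u x + c • pd i v x := by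
  rw [pd_congr (u := fun y => u y + c • v y) hU hw i hx]
  have h1 := (TC_diffAt hU hu hx).hasFDerivAt
  have h2 := (TC_diffAt hU hv hx).hasFDerivAt
  have h3 : HasFDerivAt (fun y => u y + c • v y) (fderiv ℝ u x + c • fderiv ℝ v x) x :=
    h1.add (h2.const_smul c)
  rw [TC_pd_hasFDerivAt h3 i]
  rfl

private theorem C2P_smul (c : ℝ) (A : C4) : c • A = ((c : ℝ) : ℂ) • A := by
  ext k
  simp

private theorem C2P_ev2 (Y Z : T2C) (c : ℝ) (u v : E2) :
    ev2 (Y + c • Z) u v = ev2 Y u v + (c : ℂ) * ev2 Z u v := by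
  simp only [ev2, Fin.sum_univ_two, Pi.add_apply, Pi.smul_apply, Complex.real_smul]
  ring

private theorem C2P_wY {U : Set E2} (hU : IsOpen U) (F : E2 → V4) {p q r : E2 → Fin 2 → ℂ}
    (hp : ContDiffOn ℝ ∞ p U) (hq : ContDiffOn ℝ ∞ q U) {A B C : E2 → C4} (c : ℝ)
    (hr : ∀ x ∈ U, r x = p x + c • q x) (hC : ∀ x ∈ U, C x = A x + c • B x) :
    ∀ x ∈ U, wY F (fun _ _ _ => 0) r C x =
      wY F (fun _ _ _ => 0) p A x + c • wY F (fun _ _ _ => 0) q B x := by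
  intro x hx
  have h1 : ∀ k l, pd l (fun y => r y k) x =
      pd l (fun y => p y k) x + c • pd l (fun y => q y k) x := fun k l =>
    C2P_pd_lin hU (contDiffOn_pi.1 hp k) (contDiffOn_pi.1 hq k) c
      (fun y hy => by rw [hr y hy]; rfl) l hx
  funext i j
  simp only [wY, h1, hC x hx, Pi.add_apply, Pi.smul_apply, C2P_smul, cdot_add, cdot_smul,
    Complex.real_smul]
  ring

private theorem C2P_wP (ζ : E2) {Y Z X : E2 → T2C} (c : ℝ) {x : E2}
    (h : X x = Y x + c • Z x) : wP ζ X x = wP ζ Y x + c • wP ζ Z x := by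
  funext i
  simp only [wP, h, C2P_ev2, Pi.add_apply, Pi.smul_apply, Complex.real_smul]
  ring

private theorem C2P_wA {U : Set E2} (hU : IsOpen U) (F : E2 → V4) (ζ : E2)
    {p q r : E2 → Fin 2 → ℂ} (hp : ContDiffOn ℝ ∞ p U) (hq : ContDiffOn ℝ ∞ q U) (c : ℝ)
    (hr : ∀ x ∈ U, r x = p x + c • q x) :
    ∀ x ∈ U, wA F ζ r x = wA F ζ p x + c • wA F ζ q x := by
  intro x hx
  have h1 : ∀ k l, pd l (fun y => r y k) x =
      pd l (fun y => p y k) x + c • pd l (fun y => q y k) x := fun k l =>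
    C2P_pd_lin hU (contDiffOn_pi.1 hp k) (contDiffOn_pi.1 hq k) c
      (fun y hy => by rw [hr y hy]; rfl) l hx
  funext i
  simp only [wA, h1, hr x hx, Pi.add_apply, Pi.smul_apply, Complex.real_smul, smul_eq_mul,
    Fin.sum_univ_two]
  ring

private theorem C2P_wkbY0 (F : E2 → V4) (ζ : E2) (A0 : E2 → C4) (j : ℕ) :
    wkbY F ζ (fun _ _ _ => 0) A0 j = wY F (fun _ _ _ => 0) (wkb F ζ (fun _ _ _ => 0) A0 j).1
      (wkb F ζ (fun _ _ _ => 0) A0 j).2 := by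
  unfold wkbY
  rw [ite_self]

private theorem C2P_wkb {U : Set E2} (hU : IsOpen U) {F : E2 → V4} (hF : ContDiffOn ℝ ∞ F U)
    {ζ : E2} (hgr : ∀ x ∈ U, 0 < gram3 (pd 0 F x) (pd 1 F x) (ddv (perp ζ) F x))
    {A B C : E2 → C4} (hA : ContDiffOn ℝ ∞ A U) (hB : ContDiffOn ℝ ∞ B U) (c : ℝ)
    (hC : ∀ x ∈ U, C x = A x + c • B x) (j : ℕ) :
    (∀ x ∈ U, (wkb F ζ (fun _ _ _ => 0) C j).1 x =
      (wkb F ζ (fun _ _ _ => 0) A j).1 x + c • (wkb F ζ (fun _ _ _ => 0) B j).1 x) ∧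
    (∀ x ∈ U, (wkb F ζ (fun _ _ _ => 0) C j).2 x =
      (wkb F ζ (fun _ _ _ => 0) A j).2 x + c • (wkb F ζ (fun _ _ _ => 0) B j).2 x) := by
  have sA := fun m => wkb_smooth hU hF hgr (R := fun _ _ _ => 0) contDiffOn_const hA m (ζ := ζ)
  have sB := fun m => wkb_smooth hU hF hgr (R := fun _ _ _ => 0) contDiffOn_const hB m (ζ := ζ)
  induction j with
  | zero =>
    refine ⟨fun x _ => ?_, fun x hx => hC x hx⟩
    change (0 : Fin 2 → ℂ) = (0 : Fin 2 → ℂ) + c • (0 : Fin 2 → ℂ)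
    simp
  | succ j ih =>
    have hY : ∀ x ∈ U, wkbY F ζ (fun _ _ _ => 0) C j x = wkbY F ζ (fun _ _ _ => 0) A j x
        + c • wkbY F ζ (fun _ _ _ => 0) B j x := by
      intro x hx
      rw [C2P_wkbY0, C2P_wkbY0, C2P_wkbY0]
      exact C2P_wY hU F (sA j).1 (sB j).1 c ih.1 ih.2 x hx
    have hp : ∀ x ∈ U, (wkb F ζ (fun _ _ _ => 0) C (j + 1)).1 x =
      (wkb F ζ (fun _ _ _ => 0) A (j + 1)).1 x
        + c • (wkb F ζ (fun _ _ _ => 0) B (j + 1)).1 x := by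
      intro x hx
      exact C2P_wP ζ (Y := wkbY F ζ (fun _ _ _ => 0) A j) (Z := wkbY F ζ (fun _ _ _ => 0) B j)
        (X := wkbY F ζ (fun _ _ _ => 0) C j) c (hY x hx)
    exact ⟨hp, fun x hx => C2P_wA hU F ζ (sA (j + 1)).1 (sB (j + 1)).1 c hp x hx⟩

private theorem C2P_wsum_smooth {U : Set E2} (hU : IsOpen U) {F : E2 → V4}
    (hF : ContDiffOn ℝ ∞ F U)
    {ζ : E2} (hgr : ∀ x ∈ U, 0 < gram3 (pd 0 F x) (pd 1 F x) (ddv (perp ζ) F x))
    {A : E2 → C4} (hA : ContDiffOn ℝ ∞ A U) (J : ℕ) (e : ℝ) :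
    ContDiffOn ℝ ∞ (wsum F ζ (fun _ _ _ => 0) A J e) U := by
  unfold wsum
  refine ContDiffOn.sum fun m _ => ?_
  have h3 : ContDiffOn ℝ ∞ (fun _ : E2 => (e ^ m : ℝ)) U := contDiffOn_const
  exact h3.smul
    (wkb_smooth hU hF hgr (R := fun _ _ _ => 0) contDiffOn_const hA m (ζ := ζ)).2.1

private theorem C2P_wsum {U : Set E2} (hU : IsOpen U) {F : E2 → V4} (hF : ContDiffOn ℝ ∞ F U)
    {ζ : E2} (hgr : ∀ x ∈ U, 0 < gram3 (pd 0 F x) (pd 1 F x) (ddv (perp ζ) F x))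
    {A B C : E2 → C4} (hA : ContDiffOn ℝ ∞ A U) (hB : ContDiffOn ℝ ∞ B U) (c : ℝ)
    (hC : ∀ x ∈ U, C x = A x + c • B x) (J : ℕ) (e : ℝ) :
    ∀ x ∈ U, wsum F ζ (fun _ _ _ => 0) C J e x =
      wsum F ζ (fun _ _ _ => 0) A J e x + c • wsum F ζ (fun _ _ _ => 0) B J e x := by
  intro x hx
  unfold wsum
  rw [Finset.smul_sum, ← Finset.sum_add_distrib]
  refine Finset.sum_congr rfl fun m _ => ?_
  rw [(C2P_wkb hU hF hgr hA hB c hC m).2 x hx, smul_add, smul_comm c]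

private theorem C2P_keA (F : E2 → V4) (ζ : E2) {α β γ : E2 → ℝ} (c : ℝ) {x : E2}
    (h : γ x = α x + c * β x) : keA F ζ γ x = keA F ζ α x + c • keA F ζ β x := by
  unfold keA
  rw [C2P_smul, smul_smul, ← add_smul, h]
  push_cast
  rfl

private theorem C2P_Bf {U : Set E2} (hU : IsOpen U) {F : E2 → V4} (hF : ContDiffOn ℝ ∞ F U)
    {ζ : E2} (hgr : ∀ x ∈ U, 0 < gram3 (pd 0 F x) (pd 1 F x) (ddv (perp ζ) F x))
    {α β γ : E2 → ℝ} (hA : ContDiffOn ℝ ∞ (keA F ζ α) U) (hB : ContDiffOn ℝ ∞ (keA F ζ β) U)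
    (c : ℝ) (hC : ∀ x ∈ U, γ x = α x + c * β x) (J : ℕ) (e : ℝ) (k : Fin 2) :
    ∀ x ∈ U, Bf F ζ γ J e k x = Bf F ζ α J e k x + c • Bf F ζ β J e k x := by
  intro x hx
  have h1 := C2P_wsum hU hF hgr hA hB c (fun y hy => C2P_keA F ζ c (hC y hy)) J e
  have h2 := C2P_pd_lin hU (C2P_wsum_smooth hU hF hgr hA J e)
    (C2P_wsum_smooth hU hF hgr hB J e) c h1 k hx
  unfold Bf
  rw [h1 x hx, h2, smul_add, smul_add, smul_add, smul_comm c, smul_comm c]
  abel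

/-! ### the polarised estimate -/

section

variable {ι : Type} {S : Setting ι E2} {W : ι → E2 → ℝ} {g : ι → ℝ} (hg : g ∈ S.G.mem)
  {F : ι → E2 → V4} (hF : ∀ i, ContDiffOn ℝ ∞ (F i) (S.U i))
  (F1 : Bd S (fun _ _ => 1) (fun i x => fderiv ℝ (F i) x))
  (F2 : Bd S (fun _ _ => 1) (fun i x => fderiv ℝ (fun y => fderiv ℝ (F i) y) x))
  {ζ : ι → E2} (hζ : ∀ i, NonDeg S g F i (ζ i)) {α : ι → E2 → ℝ} (hα : Bd S W α)
  (J : ℕ) (e : ι → ℝ) (he0 : ∀ i, 0 < e i) (he : ∀ i, e i ≤ S.s i)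

private theorem C2P_co_le {g : ℝ} {ζ : E2} (h : ‖ζ‖ ≤ g) (i : Fin 2) : |co ζ i| ≤ g := by
  have h1 : ‖ζ.1‖ ≤ g := (norm_fst_le ζ).trans h
  have h2 : ‖ζ.2‖ ≤ g := (norm_snd_le ζ).trans h
  rw [Real.norm_eq_abs] at h1 h2
  unfold co
  split_ifs
  · exact h1
  · exact h2

private theorem C2P_star {W : ι → E2 → ℝ} {A : ι → E2 → C4} (hA : Bd S W A) :
    Bd S W (fun i x => star (A i x)) :=
  Bd.pi.2 fun k => (Bd.pi.1 hA k).clm (Complex.conjCLE : ℂ →L[ℝ] ℂ)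

private theorem C2P_zeta {W : ι → E2 → ℝ} {g : ι → ℝ} (hg : g ∈ S.G.mem) {ζ : ι → E2}
    (hζ1 : ∀ i, ‖ζ i‖ ≤ g i) (k : Fin 2) {A : ι → E2 → C4} (hA : Bd S W A) :
    Bd S W (fun i x => (((co (ζ i) k : ℝ) : ℂ) * Complex.I) • A i x) := by
  have h1 : Bd S (fun _ _ => 1)
      (fun (i : ι) (_ : E2) => (((co (ζ i) k : ℝ) : ℂ) * Complex.I)) :=
    Bd.const hg (fun i => (((co (ζ i) k : ℝ) : ℂ) * Complex.I)) fun i => by
      rw [norm_mul, Complex.norm_I, mul_one, Complex.norm_real, Real.norm_eq_abs]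
      exact C2P_co_le (hζ1 i) k
  exact (Bd.smulC h1 hA).mono (S.G.const 1 le_rfl) (fun i x _ => le_rfl)

private theorem C2P_epd {W : ι → E2 → ℝ} (e : ι → ℝ) (he0 : ∀ i, 0 < e i) (k : Fin 2)
    {A : ι → E2 → C4} (hA : Bd S W A) :
    Bd S (fun i x => W i x * (e i / S.s i)) (fun i x => ((e i : ℝ) : ℂ) • pd k (A i) x) := by
  refine (((Bd.pd hA k).weightSmul e).mono (S.G.const 1 le_rfl) fun i x hx => ?_).congr
    fun i x _ => ?_
  · rw [abs_of_pos (he0 i), one_mul, div_eq_mul_inv]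
    exact le_of_eq (by ring)
  · exact (RCLike.real_smul_eq_coe_smul (K := ℂ) (e i) (pd k (A i) x)).symm

include hg hF F1 F2 hζ hα in
private theorem C2P_keA_bd : Bd S W (fun i => keA (F i) (ζ i) (α i)) :=
  keA_bd hg hF F1 F2 (fun i => (hζ i).1) (fun i => (hζ i).2.1) (fun i => (hζ i).2.2) hα

include hg hF F1 F2 hζ hα he0 he in
private theorem C2P_wsum_bd :
    Bd S W (fun i => wsum (F i) (ζ i) (fun _ _ _ => 0) (keA (F i) (ζ i) (α i)) J (e i)) := by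
  have hW : ∀ i, ∀ x ∈ S.U i, 0 ≤ W i x := fun i x hx => hα.nonneg i hx
  exact wsum_bd hg hF F1 F2 (fun i => (hζ i).1) (fun i => (hζ i).2.1) (fun i => (hζ i).2.2)
    (R := fun _ _ _ _ => 0) (Bd.zero hW) (C2P_keA_bd hg hF F1 F2 hζ hα) J e he0 he

include hg hF F1 F2 hζ hα he0 he in
private theorem C2P_diff : Bd S (fun i x => W i x * (e i / S.s i)) (fun i x =>
    wsum (F i) (ζ i) (fun _ _ _ => 0) (keA (F i) (ζ i) (α i)) J (e i) x
      - keA (F i) (ζ i) (α i) x) := by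
  have hW : ∀ i, ∀ x ∈ S.U i, 0 ≤ W i x := fun i x hx => hα.nonneg i hx
  exact wsum_sub_bd hg hF F1 F2 (fun i => (hζ i).1) (fun i => (hζ i).2.1) (fun i => (hζ i).2.2)
    (R := fun _ _ _ _ => 0) (Bd.zero hW) (C2P_keA_bd hg hF F1 F2 hζ hα) J e he0 he

include hg hF F1 F2 hζ hα he0 he in
private theorem C2P_D (k : Fin 2) : Bd S (fun i x => W i x * (e i / S.s i)) (fun i x =>
    Bf (F i) (ζ i) (α i) J (e i) k x
      - (((co (ζ i) k : ℝ) : ℂ) * Complex.I) • keA (F i) (ζ i) (α i) x) := by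
  have hA := C2P_wsum_bd hg hF F1 F2 hζ hα J e he0 he
  have hD := C2P_diff hg hF F1 F2 hζ hα J e he0 he
  refine ((C2P_zeta hg (fun i => (hζ i).1) k hD).add (C2P_epd e he0 k hA)).congr
    fun i x _ => ?_
  unfold Bf
  rw [smul_sub]
  abel

private theorem C2P_cdot2_add_left (A B D : C4) :
    cdot2 (A + B) D = cdot2 A D + cdot2 B D := by
  unfold cdot2
  rw [← Finset.sum_add_distrib]
  refine Finset.sum_congr rfl fun k _ => ?_
  rw [Pi.add_apply, add_mul]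

private theorem C2P_cdot2_add_right (A B D : C4) :
    cdot2 A (B + D) = cdot2 A B + cdot2 A D := by
  unfold cdot2
  rw [← Finset.sum_add_distrib]
  refine Finset.sum_congr rfl fun k _ => ?_
  rw [Pi.add_apply, mul_add]

private theorem C2P_toC_self (n : V4) :
    cdot2 (toC n) (star (toC n)) = ((inner ℝ n n : ℝ) : ℂ) := by
  unfold cdot2 toC
  rw [TA_inner, Fin.sum_univ_four]
  simp only [Pi.star_apply, RCLike.star_def, Complex.conj_ofReal]
  push_cast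
  ring

private theorem C2P_lead (n : V4) (hn : inner ℝ n n = (1 : ℝ)) (a b x y : ℝ) :
    cdot2 (((x : ℂ) * Complex.I) • ((a : ℂ) • toC n))
      (star (((y : ℂ) * Complex.I) • ((b : ℂ) • toC n))) = ((a * b * (x * y) : ℝ) : ℂ) := by
  have h1 := C2P_toC_self n
  rw [hn, Complex.ofReal_one] at h1
  have h2 : cdot2 (((x : ℂ) * Complex.I) • ((a : ℂ) • toC n))
      (star (((y : ℂ) * Complex.I) • ((b : ℂ) • toC n)))
      = ((x : ℂ) * Complex.I * a) * ((y : ℂ) * (-Complex.I) * b) * cdot2 (toC n) (star (toC n)) := by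
    unfold cdot2
    rw [Finset.mul_sum]
    refine Finset.sum_congr rfl fun k _ => ?_
    simp only [Pi.star_apply, Pi.smul_apply, smul_eq_mul, star_mul', RCLike.star_def,
      Complex.conj_ofReal, Complex.conj_I]
    ring
  rw [h2, h1]
  push_cast
  have h3 := Complex.I_mul_I
  linear_combination (-(x : ℂ) * y * a * b) * h3

include hg hF F1 F2 hζ hα he0 he in
/-- the product of two fields without its leading term -/
private theorem C2P_pair {W' : ι → E2 → ℝ} {β : ι → E2 → ℝ} (hβ : Bd S W' β) (k l : Fin 2) :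
    Bd S (fun i x => W i x * W' i x * (e i / S.s i)) (fun i x =>
      (cdot2 (Bf (F i) (ζ i) (α i) J (e i) k x) (star (Bf (F i) (ζ i) (β i) J (e i) l x))).re
        - α i x * β i x * (co (ζ i) k * co (ζ i) l)) := by
  have hK := C2P_keA_bd hg hF F1 F2 hζ hα
  have hDk := C2P_D hg hF F1 F2 hζ hα J e he0 he k
  have hDl := C2P_D hg hF F1 F2 hζ hβ J e he0 he l
  have hBl := Bf_bd hg hF F1 F2 hζ hβ J e he0 he l
  have hZk := C2P_zeta hg (fun i => (hζ i).1) k hK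
  have t1 := Bd.cdot2 hZk (C2P_star hDl)
  have t2 := Bd.cdot2 hDk (C2P_star hBl)
  have t1' : Bd S (fun i x => W i x * W' i x * (e i / S.s i)) _ :=
    t1.mono (S.G.const 1 le_rfl) fun i x _ => le_of_eq (by ring)
  have t2' : Bd S (fun i x => W i x * W' i x * (e i / S.s i)) _ :=
    t2.mono (S.G.const 1 le_rfl) fun i x _ => le_of_eq (by ring)
  have t3 := (t1'.add t2').clm Complex.reCLM
  refine t3.congr fun i x hx => ?_
  have hgr : 0 < gram3 (pd 0 (F i) x) (pd 1 (F i) x) (ddv (perp (ζ i)) (F i) x) := by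
    have h1 := (hζ i).2.2 x hx
    have h2 := gram3_nonneg (pd 0 (F i) x) (pd 1 (F i) x) (ddv (perp (ζ i)) (F i) x)
    rcases h2.eq_or_lt with h3 | h3
    · rw [← h3, mul_zero] at h1
      linarith
    · exact h3
  have hL := C2P_lead _ (inner_nor_self _ _ _ hgr) (α i x) (β i x) (co (ζ i) k) (co (ζ i) l)
  have hL' : cdot2 ((((co (ζ i) k : ℝ) : ℂ) * Complex.I) • keA (F i) (ζ i) (α i) x)
      (star ((((co (ζ i) l : ℝ) : ℂ) * Complex.I) • keA (F i) (ζ i) (β i) x))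
      = ((α i x * β i x * (co (ζ i) k * co (ζ i) l) : ℝ) : ℂ) := hL
  set K := keA (F i) (ζ i) (α i) x with hKdef
  set L := keA (F i) (ζ i) (β i) x with hLdef
  set Bk := Bf (F i) (ζ i) (α i) J (e i) k x with hBk
  set Bl := Bf (F i) (ζ i) (β i) J (e i) l x with hBl'
  set zk : ℂ := ((co (ζ i) k : ℝ) : ℂ) * Complex.I with hzk
  set zl : ℂ := ((co (ζ i) l : ℝ) : ℂ) * Complex.I with hzl
  have hsplit : cdot2 Bk (star Bl) = cdot2 (zk • K) (star (zl • L))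
      + (cdot2 (zk • K) (star (Bl - zl • L)) + cdot2 (Bk - zk • K) (star Bl)) := by
    have e1 : Bk = zk • K + (Bk - zk • K) := by abel
    have e2 : star Bl = star (zl • L) + star (Bl - zl • L) := by
      rw [← star_add]
      congr 1
      abel
    calc cdot2 Bk (star Bl) = cdot2 (zk • K + (Bk - zk • K)) (star Bl) := by rw [← e1]
      _ = cdot2 (zk • K) (star Bl) + cdot2 (Bk - zk • K) (star Bl) := C2P_cdot2_add_left _ _ _
      _ = (cdot2 (zk • K) (star (zl • L)) + cdot2 (zk • K) (star (Bl - zl • L)))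
          + cdot2 (Bk - zk • K) (star Bl) := by
        rw [← C2P_cdot2_add_right, ← e2]
      _ = _ := by rw [add_assoc]
  show (cdot2 Bk (star Bl)).re - α i x * β i x * (co (ζ i) k * co (ζ i) l) = Complex.reCLM
    (cdot2 (zk • K) (star (Bl - zl • L)) + cdot2 (Bk - zk • K) (star Bl))
  rw [hsplit, hL', Complex.add_re, Complex.ofReal_re, Complex.reCLM_apply]
  ring

end

variable {ι : Type} {S : Setting ι E2} {W W' : ι → E2 → ℝ} {g : ι → ℝ} (hg : g ∈ S.G.mem)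
  {F : ι → E2 → V4} (hF : ∀ i, ContDiffOn ℝ ∞ (F i) (S.U i))
  (F1 : Bd S (fun _ _ => 1) (fun i x => fderiv ℝ (F i) x))
  (F2 : Bd S (fun _ _ => 1) (fun i x => fderiv ℝ (fun y => fderiv ℝ (F i) y) x))
  {ζ : ι → E2} (hζ : ∀ i, NonDeg S g F i (ζ i)) {α β : ι → E2 → ℝ}
  (hα : Bd S W' α) (hβ : Bd S W' β) (hd : Bd S W (fun i x => α i x - β i x))
  (J : ℕ) (e : ι → ℝ) (he0 : ∀ i, 0 < e i) (he : ∀ i, e i ≤ S.s i)

private theorem C2P_cdot2_smul_left (c : ℝ) (A D : C4) :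
    cdot2 (c • A) D = (c : ℂ) * cdot2 A D := by
  unfold cdot2
  rw [Finset.mul_sum]
  refine Finset.sum_congr rfl fun k _ => ?_
  rw [Pi.smul_apply, Complex.real_smul]
  ring

private theorem C2P_cdot2_smul_right (c : ℝ) (A D : C4) :
    cdot2 A (c • D) = (c : ℂ) * cdot2 A D := by
  unfold cdot2
  rw [Finset.mul_sum]
  refine Finset.sum_congr rfl fun k _ => ?_
  rw [Pi.smul_apply, Complex.real_smul]
  ring

private theorem C2P_polar (A B D E : C4) :
    cdot2 (A + (-1 : ℝ) • B) (star (D + (1 : ℝ) • E))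
      + cdot2 (A + (1 : ℝ) • B) (star (D + (-1 : ℝ) • E))
      = 2 * (cdot2 A (star D) - cdot2 B (star E)) := by
  have h : ∀ c : ℝ, star (D + c • E) = star D + c • star E := by
    intro c
    ext k
    simp
  rw [h, h]
  simp only [C2P_cdot2_add_left, C2P_cdot2_add_right, C2P_cdot2_smul_left,
    C2P_cdot2_smul_right]
  push_cast
  ring

include hg hF F1 F2 hζ hα hβ hd he0 he in
/-- the slow error is quadratic: its variation -/
theorem slowErr_sub_bd : Bd S (fun i x => W i x * W' i x * (e i / S.s i))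
    (fun i x => slowErr (F i) (ζ i) (α i) J (e i) x - slowErr (F i) (ζ i) (β i) J (e i) x) := by
  have hs : Bd S W' (fun i x => α i x + β i x) := hα.add hβ
  refine Bd.pi.2 fun k => Bd.pi.2 fun l => ?_
  have p1 := C2P_pair hg hF F1 F2 hζ hd J e he0 he hs k l
  have p2 := C2P_pair hg hF F1 F2 hζ hs J e he0 he hd k l
  have p2' : Bd S (fun i x => W i x * W' i x * (e i / S.s i)) _ :=
    p2.mono (S.G.const 1 le_rfl) fun i x _ => le_of_eq (by ring)
  have t3 := (p1.add p2').constSmul (S.G.const 1 le_rfl)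
    (fun _ => (1 / 4 : ℝ)) (fun _ => by rw [abs_of_pos (by norm_num)]; norm_num)
  refine t3.congr fun i x hx => ?_
  have hgr : ∀ y ∈ S.U i, 0 < gram3 (pd 0 (F i) y) (pd 1 (F i) y)
      (ddv (perp (ζ i)) (F i) y) := by
    intro y hy
    have h1 := (hζ i).2.2 y hy
    have h2 := gram3_nonneg (pd 0 (F i) y) (pd 1 (F i) y) (ddv (perp (ζ i)) (F i) y)
    rcases h2.eq_or_lt with h3 | h3
    · rw [← h3, mul_zero] at h1
      linarith
    · exact h3
  have hKα := (C2P_keA_bd hg hF F1 F2 hζ hα).1 i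
  have hKβ := (C2P_keA_bd hg hF F1 F2 hζ hβ).1 i
  have hm : ∀ m : Fin 2, Bf (F i) (ζ i) (fun y => α i y - β i y) J (e i) m x =
      Bf (F i) (ζ i) (α i) J (e i) m x + (-1 : ℝ) • Bf (F i) (ζ i) (β i) J (e i) m x := fun m =>
    C2P_Bf (S.isOpen i) (hF i) hgr hKα hKβ (-1) (fun y _ => by ring) J (e i) m x hx
  have hp : ∀ m : Fin 2, Bf (F i) (ζ i) (fun y => α i y + β i y) J (e i) m x =
      Bf (F i) (ζ i) (α i) J (e i) m x + (1 : ℝ) • Bf (F i) (ζ i) (β i) J (e i) m x := fun m =>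
    C2P_Bf (S.isOpen i) (hF i) hgr hKα hKβ 1 (fun y _ => by ring) J (e i) m x hx
  have hpol := congrArg Complex.re (C2P_polar (Bf (F i) (ζ i) (α i) J (e i) k x)
    (Bf (F i) (ζ i) (β i) J (e i) k x) (Bf (F i) (ζ i) (α i) J (e i) l x)
    (Bf (F i) (ζ i) (β i) J (e i) l x))
  rw [← hm k, ← hp k, ← hm l, ← hp l, Complex.add_re] at hpol
  have h2re : ∀ z : ℂ, (2 * z).re = 2 * z.re := fun z => by simp
  rw [h2re, Complex.sub_re] at hpol
  show slowErr (F i) (ζ i) (α i) J (e i) x k l - slowErr (F i) (ζ i) (β i) J (e i) x k l = _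
  simp only [slowErr, Sf, smul_eq_mul]
  linear_combination (-1 / 4 : ℝ) * hpol

end P205F
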