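import Vale.Agent.Lib.P205F.C2A
import Vale.Agent.Lib.P205F.C2P

/-! # P205F module C2B: the amplitudes of the cell theorem (version 2) -/

open scoped ContDiff Topology
open Set

namespace P205F

/-- change of the weight -/
private theorem C2B_congrW {ι E V : Type} [NormedAddCommGroup E] [NormedSpace ℝ E]
    [NormedAddCommGroup V] [NormedSpace ℝ V] {S : Setting ι E} {W W' : ι → E → ℝ} {u : ι → E → V}
    (h : Bd S W u) (hW : ∀ i, ∀ x ∈ S.U i, W i x = W' i x) : Bd S W' u :=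
  h.mono (S.G.const 1 le_rfl) fun i x hx => by rw [one_mul, hW i x hx]

/-- smaller index sets -/
private theorem C2B_restrict_mono {ι E V : Type} [NormedAddCommGroup E] [NormedSpace ℝ E]
    [NormedAddCommGroup V] [NormedSpace ℝ V] {S : Setting ι E} {W : ι → E → ℝ} {u : ι → E → V}
    {P Q : ι → Prop} (hQP : ∀ i, Q i → P i) (h : Bd (S.restrict P) W u) :
    Bd (S.restrict Q) W u := by
  refine ⟨fun i => (h.1 i).mono (fun x hx => ⟨hx.1, hQP i hx.2⟩), fun r => ?_⟩
  obtain ⟨g, hg, h1⟩ := h.2 r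
  exact ⟨g, hg, fun i x hx => h1 i x ⟨hx.1, hQP i hx.2⟩⟩

private theorem C2B_co_smul (c : ℝ) (v : E2) (k : Fin 2) : co (c • v) k = c * co v k := by
  unfold co
  split_ifs <;> rfl

namespace Cell2

variable {ι : Type} {S : Setting ι E2} (C : Cell2 ι S)

theorem errOf_sym (J : ℕ) (i : ι) (a : Fin 3 → E2 → ℝ) (x : E2) (k l : Fin 2) :
    C.errOf J i a x k l = C.errOf J i a x l k := by
  change ∑ j, slowErr (C.F i) (C.z i j) (fun y => a j y / C.fr i j) J (C.e i) x k l
    = ∑ j, slowErr (C.F i) (C.z i j) (fun y => a j y / C.fr i j) J (C.e i) x l k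
  exact Finset.sum_congr rfl fun j _ => slowErr_sym _ _ _ _ _ _ _ _

private theorem C2B_d_le_one (i : ι) : C.δ i ≤ 1 := by
  have h1 := C.d_le i
  have h2 : C.q i * S.s i ≤ 1 := by
    calc C.q i * S.s i ≤ 1 * 1 :=
          mul_le_mul (C.q_lt i).le (S.s_le i) (S.s_pos i).le (by norm_num)
      _ = 1 := one_mul 1
  have h3 : Real.sqrt (C.δ i) ≤ 1 := h1.trans h2
  rw [Real.sqrt_le_one] at h3
  exact h3

private theorem C2B_cb_pos (M : ℕ) (i : ι) (x : E2) : 0 < C.cb M i x :=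
  (chibar_pos C.δ C.d_pos M C.chi i x).1

private theorem C2B_cb (M : ℕ) : Bd S (C.cb M) (C.cb M) :=
  (chibar_bd C.chi_flat C.δ C.d_pos C.C2B_d_le_one C.d_growth M).1

private theorem C2B_inv2 (M : ℕ) :
    Bd S (fun i x => (C.cb M i x)⁻¹ ^ 2) (fun i x => (C.cb M i x)⁻¹ ^ 2) :=
  (Bd.inv (S.G.const 1 le_rfl) (C.C2B_cb M) (fun i x _ => C.C2B_cb_pos M i x) fun i x _ => by
    rw [one_mul]
    exact le_abs_self _).pow 2

/-- the radicands (as tensors) -/
private noncomputable def C2B_h (M J n : ℕ) (i : ι) (x : E2) : T2 :=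
  match n with
  | 0 => C.H i x
  | n + 1 => fun k l => C.H i x k l - C.errOf J i (C.amp M J i n) x k l / C.cb M i x ^ 2

private theorem C2B_amp (M J n : ℕ) (i : ι) (j : Fin 3) (x : E2) :
    C.amp M J i n j x = C.cb M i x * Real.sqrt (2 * C.cof i j (C.C2B_h M J n i x)) := by
  cases n <;> rfl

private theorem C2B_h_succ (M J n : ℕ) (i : ι) (x : E2) :
    C.C2B_h M J (n + 1) i x
      = C.H i x - ((C.cb M i x)⁻¹ ^ 2) • C.errOf J i (C.amp M J i n) x := by
  funext k l
  change C.H i x k l - C.errOf J i (C.amp M J i n) x k l / C.cb M i x ^ 2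
    = C.H i x k l - (C.cb M i x)⁻¹ ^ 2 * C.errOf J i (C.amp M J i n) x k l
  rw [div_eq_mul_inv, inv_pow, mul_comm ((C.cb M i x ^ 2)⁻¹)]

private theorem C2B_good_mono {g0 g1 : ι → ℝ} (h : ∀ i, g0 i ≤ g1 i) (i : ι) (hi : C.good g1 i) :
    C.good g0 i :=
  (mul_le_mul_of_nonneg_right (h i) (C.q_pos i).le).trans hi

/-- the radicands of generation `n` -/
private def C2B_A (M J : ℕ) (g0 : ι → ℝ) (n : ℕ) : Prop :=
  (∀ j, Bd (S.restrict (C.good g0)) (fun i _ => C.δ i)
    (fun i x => 2 * C.cof i j (C.C2B_h M J n i x))) ∧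
  ∀ i, C.good g0 i → ∀ j, ∀ x ∈ S.U i, C.δ i ≤ C.g i * (2 * C.cof i j (C.C2B_h M J n i x))

private theorem C2B_A_mono (M J : ℕ) {g0 g1 : ι → ℝ} (h : ∀ i, g0 i ≤ g1 i) {n : ℕ}
    (ha : C.C2B_A M J g0 n) : C.C2B_A M J g1 n :=
  ⟨fun j => C2B_restrict_mono (C.C2B_good_mono h) (ha.1 j), fun i hi =>
    ha.2 i (C.C2B_good_mono h i hi)⟩

private theorem C2B_A_zero (M J : ℕ) (g0 : ι → ℝ) : C.C2B_A M J g0 0 := by
  refine ⟨fun j => ?_, fun i _ j x hx => ?_⟩
  · have h1 : Bd S (fun i _ => C.δ i) (fun i x => C.cof i j (C.H i x)) :=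
      Bd.clmFam C.hg (fun i => C.cof i j) (fun i => C.cof_le i j) C.H_bd
    have h2 : Bd S (fun i _ => C.δ i) (fun i x => 2 * C.cof i j (C.H i x)) :=
      Bd.constSmul (S.G.const 2 (by norm_num)) (fun _ => (2 : ℝ)) (fun _ => by norm_num) h1
    exact h2.restrict _
  · have h4 := C.H_pos i j x hx
    have h5 := C.d_pos i
    change C.δ i ≤ C.g i * (2 * C.cof i j (C.H i x))
    linarith

private theorem C2B_sqrt (M J : ℕ) {g0 : ι → ℝ} {n : ℕ} (ha : C.C2B_A M J g0 n) (j : Fin 3) :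
    Bd (S.restrict (C.good g0)) (fun i _ => Real.sqrt (C.δ i))
      (fun i x => Real.sqrt (2 * C.cof i j (C.C2B_h M J n i x))) :=
  Bd.sqrt (S := S.restrict (C.good g0)) C.hg (ha.1 j) (fun i _ _ => C.d_pos i) fun i x hx =>
    ha.2 i hx.2 j x hx.1

private theorem C2B_ampOK (M J : ℕ) {g0 : ι → ℝ} {n : ℕ} (ha : C.C2B_A M J g0 n) :
    C.AmpOK M J g0 n := by
  intro j
  have h1 := ((C.C2B_cb M).restrict (C.good g0)).mul (C.C2B_sqrt M J ha j)
  exact (C2B_congrW h1 fun i x _ => mul_comm _ _).congr fun i x _ => C.C2B_amp M J n i j x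

private theorem C2B_nd (g0 : ι → ℝ) (j : Fin 3) (i : ι) :
    NonDeg (S.restrict (C.good g0)) C.g C.F i (C.z i j) :=
  ⟨(C.nd1 i j).1, (C.nd1 i j).2.1, fun x hx => (C.nd1 i j).2.2 x hx.1⟩

private theorem C2B_div {g0 : ι → ℝ} {W : ι → E2 → ℝ} (j : Fin 3) {a : ι → E2 → ℝ}
    (ha : Bd (S.restrict (C.good g0)) W a) :
    Bd (S.restrict (C.good g0)) W (fun i y => a i y / C.fr i j) := by
  refine (Bd.constSmul ((S.restrict (C.good g0)).G.const 1 le_rfl)
    (fun i => (C.fr i j)⁻¹) (fun i => ?_) ha).congr fun i x _ => ?_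
  · have h3 := C.fr_ge i j
    rw [abs_of_pos (inv_pos.mpr (by linarith))]
    exact inv_le_one_of_one_le₀ h3
  · rw [smul_eq_mul, div_eq_inv_mul]

private theorem C2B_e_s (i : ι) : C.e i / S.s i = C.q i := by
  have hs0 := S.s_pos i
  unfold Cell2.e
  field_simp

/-- the slow error of generation `n` -/
private theorem C2B_err (M J : ℕ) {g0 : ι → ℝ} {n : ℕ} (ha : C.AmpOK M J g0 n) :
    Bd (S.restrict (C.good g0)) (fun i x => C.δ i * C.cb M i x ^ 2 * C.q i)
      (fun i => C.errOf J i (C.amp M J i n)) := by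
  have h1 : ∀ j : Fin 3, Bd (S.restrict (C.good g0)) (fun i x => C.δ i * C.cb M i x ^ 2 * C.q i)
      (fun i => slowErr (C.F i) (C.z i j) (fun y => C.amp M J i n j y / C.fr i j) J
        (C.e i)) := by
    intro j
    have h4 := slowErr_bd (S := S.restrict (C.good g0)) C.hg
      (fun i => (C.smF i).mono fun x hx => hx.1)
      (C.F1.restrict _) (C.F2.restrict _) (C.C2B_nd g0 j) (C.C2B_div j (ha j)) J C.e C.e_pos
      C.e_le_s
    refine C2B_congrW h4 fun i x _ => ?_
    have hs : (S.restrict (C.good g0)).s i = S.s i := rfl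
    rw [hs, C.C2B_e_s i, mul_pow, Real.sq_sqrt (C.d_pos i).le]
  have h2 := Bd.sum (S := S.restrict (C.good g0)) (Finset.univ : Finset (Fin 3))
    (W := fun i x => C.δ i * C.cb M i x ^ 2 * C.q i)
    (fun i x _ => mul_nonneg (mul_nonneg (C.d_pos i).le (sq_nonneg _)) (C.q_pos i).le)
    (fun j _ => h1 j)
  refine h2.congr fun i x _ => ?_
  funext k l
  rw [Finset.sum_apply, Finset.sum_apply]
  rfl

/-- the variation of the slow error -/
private theorem C2B_err_sub (M J : ℕ) {g0 : ι → ℝ} {n : ℕ} (ha : C.AmpOK M J g0 n)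
    (ha' : C.AmpOK M J g0 (n + 1))
    (hd : ∀ j, Bd (S.restrict (C.good g0))
      (fun i x => Real.sqrt (C.δ i) * C.cb M i x * C.q i ^ (n + 1))
      (fun i x => C.amp M J i (n + 1) j x - C.amp M J i n j x)) :
    Bd (S.restrict (C.good g0)) (fun i x => C.δ i * C.cb M i x ^ 2 * C.q i ^ (n + 2))
      (fun i x => C.errOf J i (C.amp M J i (n + 1)) x - C.errOf J i (C.amp M J i n) x) := by
  have h1 : ∀ j : Fin 3, Bd (S.restrict (C.good g0))
      (fun i x => C.δ i * C.cb M i x ^ 2 * C.q i ^ (n + 2))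
      (fun i x => slowErr (C.F i) (C.z i j) (fun y => C.amp M J i (n + 1) j y / C.fr i j) J
        (C.e i) x - slowErr (C.F i) (C.z i j) (fun y => C.amp M J i n j y / C.fr i j) J
        (C.e i) x) := by
    intro j
    have h3 : Bd (S.restrict (C.good g0))
        (fun i x => Real.sqrt (C.δ i) * C.cb M i x * C.q i ^ (n + 1))
        (fun i x => (fun i y => C.amp M J i (n + 1) j y / C.fr i j) i x
          - (fun i y => C.amp M J i n j y / C.fr i j) i x) :=
      (C.C2B_div j (hd j)).congr fun i x _ => by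
        simp only
        rw [sub_div]
    have h4 := slowErr_sub_bd (S := S.restrict (C.good g0)) C.hg
      (fun i => (C.smF i).mono fun x hx => hx.1)
      (C.F1.restrict _) (C.F2.restrict _) (C.C2B_nd g0 j) (C.C2B_div j (ha' j))
      (C.C2B_div j (ha j)) h3 J C.e C.e_pos C.e_le_s
    refine C2B_congrW h4 fun i x _ => ?_
    have hs : (S.restrict (C.good g0)).s i = S.s i := rfl
    rw [hs, C.C2B_e_s i]
    have h5 := Real.mul_self_sqrt (C.d_pos i).le
    linear_combination (C.cb M i x ^ 2 * C.q i ^ (n + 2)) * h5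
  have h2 := Bd.sum (S := S.restrict (C.good g0)) (Finset.univ : Finset (Fin 3))
    (W := fun i x => C.δ i * C.cb M i x ^ 2 * C.q i ^ (n + 2))
    (fun i x _ => mul_nonneg (mul_nonneg (C.d_pos i).le (sq_nonneg _))
      (pow_pos (C.q_pos i) _).le)
    (fun j _ => h1 j)
  refine h2.congr fun i x _ => ?_
  funext k l
  rw [Finset.sum_apply, Finset.sum_apply]
  change (∑ j, slowErr (C.F i) (C.z i j) (fun y => C.amp M J i (n + 1) j y / C.fr i j) J
      (C.e i) x k l) - (∑ j, slowErr (C.F i) (C.z i j) (fun y => C.amp M J i n j y / C.fr i j) J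
      (C.e i) x k l) = ∑ j, (slowErr (C.F i) (C.z i j)
        (fun y => C.amp M J i (n + 1) j y / C.fr i j) J (C.e i) x k l
        - slowErr (C.F i) (C.z i j) (fun y => C.amp M J i n j y / C.fr i j) J (C.e i) x k l)
  rw [Finset.sum_sub_distrib]

/-- division of the slow error by the square of the cutoff -/
private theorem C2B_quot (M : ℕ) {g0 : ι → ℝ} {w : ι → ℝ} {u : ι → E2 → T2}
    (hu : Bd (S.restrict (C.good g0)) (fun i x => C.δ i * C.cb M i x ^ 2 * w i) u) :
    Bd (S.restrict (C.good g0)) (fun i _ => C.δ i * w i)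
      (fun i x => ((C.cb M i x)⁻¹ ^ 2) • u i x) := by
  refine C2B_congrW (((C.C2B_inv2 M).restrict (C.good g0)).smul hu) fun i x _ => ?_
  have h1 := (C.C2B_cb_pos M i x).ne'
  field_simp

/-- the next radicands -/
private theorem C2B_A_succ (M J : ℕ) {g0 : ι → ℝ} (hg0 : g0 ∈ S.G.mem) {n : ℕ}
    (ha : C.C2B_A M J g0 n) :
    ∃ g1 ∈ S.G.mem, (∀ i, g0 i ≤ g1 i) ∧ C.C2B_A M J g1 (n + 1) := by
  have he := C.C2B_quot M (C.C2B_err M J (C.C2B_ampOK M J ha))
  obtain ⟨g', hg', hb⟩ := he.bound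
  have hg'' : g' ∈ S.G.mem := hg'
  have hm : (fun i => g0 i * (2 * (C.g i * C.g i * g' i))) ∈ S.G.mem :=
    S.G.mul _ hg0 _ (S.G.mul _ (S.G.const 2 (by norm_num)) _
      (S.G.mul _ (S.G.mul _ C.hg _ C.hg) _ hg''))
  have hle : ∀ i, g0 i ≤ g0 i * (2 * (C.g i * C.g i * g' i)) := by
    intro i
    have h1 := S.G.one_le _ hg0 i
    have h2 := S.G.one_le _ C.hg i
    have h3 := S.G.one_le _ hg'' i
    have h4 : 1 ≤ C.g i * C.g i := by nlinarith
    have h5 : 1 ≤ C.g i * C.g i * g' i := by nlinarith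
    nlinarith
  refine ⟨_, hm, hle, fun j => ?_, fun i hi j x hx => ?_⟩
  · refine C2B_restrict_mono (C.C2B_good_mono hle) ?_
    have h2 : Bd (S.restrict (C.good g0)) (fun i _ => C.δ i)
        (fun i x => ((C.cb M i x)⁻¹ ^ 2) • C.errOf J i (C.amp M J i n) x) := by
      refine he.mono ((S.restrict (C.good g0)).G.const 1 le_rfl) fun i x _ => ?_
      rw [one_mul]
      exact mul_le_of_le_one_right (C.d_pos i).le (C.q_lt i).le
    have h3 := (C.H_bd.restrict (C.good g0)).sub h2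
    have h4 : Bd (S.restrict (C.good g0)) (fun i _ => C.δ i)
        (fun i x => C.cof i j (C.H i x
          - ((C.cb M i x)⁻¹ ^ 2) • C.errOf J i (C.amp M J i n) x)) :=
      Bd.clmFam (S := S.restrict (C.good g0)) C.hg (fun i => C.cof i j) (fun i => C.cof_le i j) h3
    have h5 := Bd.constSmul ((S.restrict (C.good g0)).G.const 2 (by norm_num)) (fun _ => (2 : ℝ))
      (fun _ => by norm_num) h4
    refine h5.congr fun i x _ => ?_
    rw [C.C2B_h_succ, smul_eq_mul]
  · have h1 := S.G.one_le _ hg0 i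
    have h2 := S.G.one_le _ C.hg i
    have h3 := S.G.one_le _ hg'' i
    have hq := C.q_pos i
    have hδ := C.d_pos i
    have hgood : C.good g0 i := C.C2B_good_mono hle i hi
    have he' := hb i x ⟨hx, hgood⟩
    rw [C.C2B_h_succ, map_sub]
    set D := C.δ i with hD
    set r := C.cof i j (((C.cb M i x)⁻¹ ^ 2) • C.errOf J i (C.amp M J i n) x) with hr
    have hcof : |r| ≤ C.g i * (g' i * (D * C.q i)) :=
      ((C.cof i j).le_opNorm _).trans
        (mul_le_mul (C.cof_le i j) he' (norm_nonneg _) (by linarith))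
    have hp := C.H_pos i j x hx
    have hi' : g0 i * (2 * (C.g i * C.g i * g' i)) * C.q i ≤ 1 := hi
    have hprod : 0 ≤ C.g i * C.g i * g' i * C.q i :=
      mul_nonneg (mul_nonneg (mul_nonneg (by linarith) (by linarith)) (by linarith)) hq.le
    have h5 : 2 * (C.g i * C.g i * g' i * C.q i) ≤ 1 := by
      have h6 : 2 * (C.g i * C.g i * g' i * C.q i) ≤
          g0 i * (2 * (C.g i * C.g i * g' i * C.q i)) :=
        le_mul_of_one_le_left (by linarith) h1
      linarith [hi', h6]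
    have h6 : r ≤ C.g i * (g' i * (D * C.q i)) := (le_abs_self _).trans hcof
    have h7 : C.g i * r ≤ C.g i * (C.g i * (g' i * (D * C.q i))) :=
      mul_le_mul_of_nonneg_left h6 (by linarith)
    have h8 : C.g i * (C.g i * (g' i * (D * C.q i))) * 2 ≤ D := by
      have h9 := mul_le_mul_of_nonneg_left h5 hδ.le
      linarith
    linarith

private theorem C2B_all (M J m : ℕ) : ∃ g0 ∈ S.G.mem, ∀ n, n ≤ m → C.C2B_A M J g0 n := by
  induction m with
  | zero =>
    refine ⟨fun _ => 1, S.G.const 1 le_rfl, fun n hn => ?_⟩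
    obtain rfl : n = 0 := by omega
    exact C.C2B_A_zero M J _
  | succ m ih =>
    obtain ⟨g0, hg0, h⟩ := ih
    obtain ⟨g1, hg1, hle, h1⟩ := C.C2B_A_succ M J hg0 (h m le_rfl)
    refine ⟨g1, hg1, fun n hn => ?_⟩
    rcases Nat.lt_or_ge n (m + 1) with h2 | h2
    · exact C.C2B_A_mono M J hle (h n (by omega))
    · obtain rfl : n = m + 1 := by omega
      exact h1

/-- variation of the radicands -/
private def C2B_D (M J : ℕ) (g0 : ι → ℝ) (n : ℕ) : Prop :=
  Bd (S.restrict (C.good g0)) (fun i _ => C.δ i * C.q i ^ (n + 1))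
    (fun i x => C.C2B_h M J (n + 1) i x - C.C2B_h M J n i x)

private theorem C2B_diff (M J : ℕ) {g0 : ι → ℝ} {n : ℕ} (ha : C.C2B_A M J g0 n)
    (ha' : C.C2B_A M J g0 (n + 1)) (hd : C.C2B_D M J g0 n) (j : Fin 3) :
    Bd (S.restrict (C.good g0)) (fun i x => Real.sqrt (C.δ i) * C.cb M i x * C.q i ^ (n + 1))
      (fun i x => C.amp M J i (n + 1) j x - C.amp M J i n j x) := by
  have hs := C.C2B_sqrt M J ha j
  have hs' := C.C2B_sqrt M J ha' j
  have hsum := hs'.add hs
  have hlow : ∀ i, ∀ x ∈ (S.restrict (C.good g0)).U i, Real.sqrt (C.δ i) ≤ C.g i *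
      |Real.sqrt (2 * C.cof i j (C.C2B_h M J (n + 1) i x))
        + Real.sqrt (2 * C.cof i j (C.C2B_h M J n i x))| := by
    intro i x hx
    have h1 := ha'.2 i hx.2 j x hx.1
    have h2 := S.G.one_le _ C.hg i
    have h3 : Real.sqrt (C.δ i) ≤ C.g i * Real.sqrt (2 * C.cof i j (C.C2B_h M J (n + 1) i x)) := by
      have h4 : C.δ i ≤ C.g i ^ 2 * (2 * C.cof i j (C.C2B_h M J (n + 1) i x)) := by
        have h5 : 0 < 2 * C.cof i j (C.C2B_h M J (n + 1) i x) :=
          (mul_pos_iff_of_pos_left (by linarith : (0 : ℝ) < C.g i)).mp ((C.d_pos i).trans_le h1)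
        have h6 : C.g i ≤ C.g i ^ 2 := by nlinarith
        exact h1.trans (mul_le_mul_of_nonneg_right h6 h5.le)
      have h7 := Real.sqrt_le_sqrt h4
      rwa [Real.sqrt_mul (sq_nonneg _), Real.sqrt_sq (by linarith)] at h7
    have h4 : 0 ≤ Real.sqrt (2 * C.cof i j (C.C2B_h M J n i x)) := Real.sqrt_nonneg _
    have h5 : 0 ≤ Real.sqrt (2 * C.cof i j (C.C2B_h M J (n + 1) i x)) := Real.sqrt_nonneg _
    rw [abs_of_nonneg (add_nonneg h5 h4)]
    exact h3.trans (mul_le_mul_of_nonneg_left (by linarith) (by linarith))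
  have hinv := Bd.inv (S := S.restrict (C.good g0)) C.hg hsum
    (fun i _ _ => Real.sqrt_pos.mpr (C.d_pos i)) hlow
  have hc : Bd (S.restrict (C.good g0)) (fun i _ => C.δ i * C.q i ^ (n + 1))
      (fun i x => C.cof i j (C.C2B_h M J (n + 1) i x - C.C2B_h M J n i x)) :=
    Bd.clmFam (S := S.restrict (C.good g0)) C.hg (fun i => C.cof i j) (fun i => C.cof_le i j) hd
  have hc2 := Bd.constSmul ((S.restrict (C.good g0)).G.const 2 (by norm_num)) (fun _ => (2 : ℝ))
    (fun _ => by norm_num) hc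
  have hfin := ((C.C2B_cb M).restrict (C.good g0)).mul (hc2.mul hinv)
  refine (C2B_congrW hfin fun i x _ => ?_).congr fun i x hx => ?_
  · have h1 := Real.mul_self_sqrt (C.d_pos i).le
    have h2 : Real.sqrt (C.δ i) ≠ 0 := (Real.sqrt_pos.mpr (C.d_pos i)).ne'
    have h3 : C.δ i * (Real.sqrt (C.δ i))⁻¹ = Real.sqrt (C.δ i) := by
      nth_rewrite 1 [← h1]
      rw [mul_assoc, mul_inv_cancel₀ h2, mul_one]
    linear_combination (C.cb M i x * C.q i ^ (n + 1)) * h3
  · rw [C.C2B_amp, C.C2B_amp, smul_eq_mul, map_sub]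
    have h2 := S.G.one_le _ C.hg i
    have hp : 0 < 2 * C.cof i j (C.C2B_h M J (n + 1) i x) :=
      (mul_pos_iff_of_pos_left (by linarith : (0 : ℝ) < C.g i)).mp
        ((C.d_pos i).trans_le (ha'.2 i hx.2 j x hx.1))
    have hp' : 0 < 2 * C.cof i j (C.C2B_h M J n i x) :=
      (mul_pos_iff_of_pos_left (by linarith : (0 : ℝ) < C.g i)).mp
        ((C.d_pos i).trans_le (ha.2 i hx.2 j x hx.1))
    have e1 := Real.mul_self_sqrt hp.le
    have e2 := Real.mul_self_sqrt hp'.le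
    have hne : Real.sqrt (2 * C.cof i j (C.C2B_h M J (n + 1) i x))
        + Real.sqrt (2 * C.cof i j (C.C2B_h M J n i x)) ≠ 0 :=
      (add_pos (Real.sqrt_pos.mpr hp) (Real.sqrt_pos.mpr hp')).ne'
    set A := Real.sqrt (2 * C.cof i j (C.C2B_h M J (n + 1) i x))
    set B := Real.sqrt (2 * C.cof i j (C.C2B_h M J n i x))
    have h3 : A - B = 2 * (C.cof i j (C.C2B_h M J (n + 1) i x)
        - C.cof i j (C.C2B_h M J n i x)) * (A + B)⁻¹ := by
      rw [eq_mul_inv_iff_mul_eq₀ hne]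
      linear_combination e1 - e2
    rw [← mul_sub, h3]

private theorem C2B_D_zero (M J : ℕ) {g0 : ι → ℝ} (ha : C.C2B_A M J g0 0) :
    C.C2B_D M J g0 0 := by
  have he := (C.C2B_quot M (C.C2B_err M J (C.C2B_ampOK M J ha))).neg
  refine (C2B_congrW he fun i x _ => ?_).congr fun i x _ => ?_
  · rw [zero_add, pow_one]
  · rw [C.C2B_h_succ]
    change C.H i x - _ - C.H i x = _
    abel

private theorem C2B_D_succ (M J : ℕ) {g0 : ι → ℝ} {n : ℕ} (ha : C.C2B_A M J g0 n)
    (ha' : C.C2B_A M J g0 (n + 1)) (hd : C.C2B_D M J g0 n) : C.C2B_D M J g0 (n + 1) := by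
  have h1 := C.C2B_err_sub M J (C.C2B_ampOK M J ha) (C.C2B_ampOK M J ha')
    (C.C2B_diff M J ha ha' hd)
  have he := (C.C2B_quot M h1).neg
  refine he.congr fun i x _ => ?_
  rw [C.C2B_h_succ, C.C2B_h_succ, smul_sub]
  abel

/-- the amplitudes: bounds, positivity, convergence -/
theorem amp_bd (M J N : ℕ) : ∃ g0 ∈ S.G.mem, ∀ n, n ≤ N →
    C.AmpOK M J g0 n ∧
    (∀ j, Bd (S.restrict (C.good g0)) (fun i x => Real.sqrt (C.δ i) * C.cb M i x * C.q i ^ (n + 1))
      (fun i x => C.amp M J i (n + 1) j x - C.amp M J i n j x)) ∧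
    Bd (S.restrict (C.good g0)) (fun i x => C.δ i * C.cb M i x ^ 2 * C.q i ^ (n + 2))
      (fun i x => C.errOf J i (C.amp M J i (n + 1)) x - C.errOf J i (C.amp M J i n) x) ∧
    ∀ i, C.good g0 i → ∀ j, ∀ x ∈ S.U i, 0 ≤ C.cof i j
      (fun k l => C.H i x k l - C.errOf J i (C.amp M J i n) x k l / C.cb M i x ^ 2) := by
  obtain ⟨g0, hg0, h⟩ := C.C2B_all M J (N + 1)
  have hD : ∀ n, n ≤ N → C.C2B_D M J g0 n := by
    intro n
    induction n with
    | zero => exact fun _ => C.C2B_D_zero M J (h 0 (by omega))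
    | succ n ih =>
      intro hn
      exact C.C2B_D_succ M J (h n (by omega)) (h (n + 1) (by omega)) (ih (by omega))
  refine ⟨g0, hg0, fun n hn => ?_⟩
  have ha := h n (by omega)
  have ha' := h (n + 1) (by omega)
  have hd := C.C2B_diff M J ha ha' (hD n hn)
  refine ⟨C.C2B_ampOK M J ha, hd,
    C.C2B_err_sub M J (C.C2B_ampOK M J ha) (C.C2B_ampOK M J ha') hd, fun i hi j x hx => ?_⟩
  have h1 : C.δ i ≤ C.g i * (2 * C.cof i j
      (fun k l => C.H i x k l - C.errOf J i (C.amp M J i n) x k l / C.cb M i x ^ 2)) :=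
    ha'.2 i hi j x hx
  have h3 := S.G.one_le _ C.hg i
  have h4 := (mul_pos_iff_of_pos_left (by linarith : (0 : ℝ) < C.g i)).mp
    ((C.d_pos i).trans_le h1)
  linarith

/-- the sum of the slow parts, generation `n + 1` -/
theorem sum_Sf (M J n : ℕ) {i : ι} (hi : ∀ j, ∀ x ∈ S.U i, 0 ≤ C.cof i j
      (fun k l => C.H i x k l - C.errOf J i (C.amp M J i n) x k l / C.cb M i x ^ 2)) :
    ∀ x ∈ S.U i, ∀ k m, ∑ l, Sf (C.F i) (C.z i l) (C.al M J i (n + 1) l) J (C.e i) x k m =
      C.cb M i x ^ 2 * C.H i x k m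
      + (C.errOf J i (C.amp M J i (n + 1)) x k m - C.errOf J i (C.amp M J i n) x k m) := by
  intro x hx k m
  set h : T2 := fun k l => C.H i x k l - C.errOf J i (C.amp M J i n) x k l / C.cb M i x ^ 2
    with hh
  have hs : h 0 1 = h 1 0 := by
    rw [hh]
    simp only
    rw [C.H_sym i x hx, C.errOf_sym J i (C.amp M J i n) x 0 1]
  have h1 : ∀ j : Fin 3, Sf (C.F i) (C.z i j) (C.al M J i (n + 1) j) J (C.e i) x k m
      = slowErr (C.F i) (C.z i j) (fun y => C.amp M J i (n + 1) j y / C.fr i j) J (C.e i) x k m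
        + C.cb M i x ^ 2 * (C.cof i j h * (co (C.om i j) k * co (C.om i j) m)) := by
    intro j
    have hfr : C.fr i j ≠ 0 := by
      have := C.fr_ge i j
      linarith
    have h2 : slowErr (C.F i) (C.z i j) (fun y => C.amp M J i (n + 1) j y / C.fr i j) J (C.e i)
          x k m
        = Sf (C.F i) (C.z i j) (C.al M J i (n + 1) j) J (C.e i) x k m
          - (C.amp M J i (n + 1) j x / C.fr i j) ^ 2
            * (co (C.z i j) k * co (C.z i j) m) / 2 := rfl
    have h3 : C.z i j = C.fr i j • C.om i j := rfl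
    have h4 : (C.amp M J i (n + 1) j x / C.fr i j) ^ 2
            * (co (C.z i j) k * co (C.z i j) m) / 2
        = C.amp M J i (n + 1) j x ^ 2 / 2 * (co (C.om i j) k * co (C.om i j) m) := by
      rw [h3, C2B_co_smul, C2B_co_smul]
      field_simp
    have h5 : C.amp M J i (n + 1) j x ^ 2 / 2 = C.cb M i x ^ 2 * C.cof i j h := by
      have h6 : C.amp M J i (n + 1) j x = C.cb M i x * Real.sqrt (2 * C.cof i j h) := rfl
      rw [h6, mul_pow, Real.sq_sqrt (by linarith [hi j x hx])]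
      ring
    rw [h2, h4, h5]
    ring
  have h7 := C.cof_eq i h hs k m
  have h8 : C.cb M i x ^ 2 * h k m
      = C.cb M i x ^ 2 * C.H i x k m - C.errOf J i (C.amp M J i n) x k m := by
    rw [hh]
    have := (C.C2B_cb_pos M i x).ne'
    field_simp
  rw [Finset.sum_congr rfl fun j _ => h1 j, Finset.sum_add_distrib, ← Finset.mul_sum, ← h7, h8]
  change C.errOf J i (C.amp M J i (n + 1)) x k m + _ = _
  ring

end Cell2

end P205F
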