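import Vale.Agent.Lib.P205F.CDefs

/-!
# P205F: definitions for the cell theorem (version 2: three labels, flat cutoff)
-/

open scoped ContDiff Topology
open Set

namespace P205F

/-- families of flat functions: all the `n`-th roots are bounded in the calculus -/
def FlatFam {ι E : Type} [NormedAddCommGroup E] [NormedSpace ℝ E] (S : Setting ι E)
    (χ : ι → E → ℝ) : Prop :=
  ∀ n : ℕ, 1 ≤ n → ∃ θ : ι → E → ℝ, Bd S (fun _ _ => 1) θ ∧
    ∀ i, ∀ x ∈ S.U i, 0 ≤ θ i x ∧ θ i x ^ n = χ i x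

/-- the regularised cutoff -/
noncomputable def chibar {ι E : Type} (δ : ι → ℝ) (M : ℕ) (χ : ι → E → ℝ) (i : ι) (x : E) : ℝ :=
  Real.sqrt (χ i x ^ 2 + (δ i) ^ (2 * M))

/-- the data and the hypotheses of the cell theorem -/
structure Cell2 (ι : Type) (S : Setting ι E2) where
  q : ι → ℝ
  δ : ι → ℝ
  g : ι → ℝ
  F : ι → E2 → V4
  om : ι → Fin 3 → E2
  cof : ι → Fin 3 → (T2 →L[ℝ] ℝ)
  fr : ι → Fin 3 → ℝ
  H : ι → E2 → T2
  chi : ι → E2 → ℝ
  kap : ι → E2 → ℝ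
  hg : g ∈ S.G.mem
  q_pos : ∀ i, 0 < q i
  q_lt : ∀ i, q i < 1
  d_pos : ∀ i, 0 < δ i
  d_growth : ∀ f : ι → ℝ, (∀ i, 1 ≤ f i) →
    (∀ c : ℝ, 0 < c → ∃ g' ∈ S.G.mem, ∀ i, f i ≤ g' i * (δ i) ^ (-c)) → f ∈ S.G.mem
  d_le : ∀ i, Real.sqrt (δ i) ≤ q i * S.s i
  smF : ∀ i, ContDiffOn ℝ ∞ (F i) (S.U i)
  F1 : Bd S (fun _ _ => 1) (fun i x => fderiv ℝ (F i) x)
  F2 : Bd S (fun _ _ => 1) (fun i x => fderiv ℝ (fun y => fderiv ℝ (F i) y) x)
  om_le : ∀ i j, ‖om i j‖ ≤ g i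
  cof_le : ∀ i j, ‖cof i j‖ ≤ g i
  cof_eq : ∀ i (h : T2), h 0 1 = h 1 0 → ∀ k l, h k l =
    ∑ j, cof i j h * (co (om i j) k * co (om i j) l)
  fr_ge : ∀ i j, 1 ≤ fr i j
  fr_le : ∀ i j, fr i j ≤ g i
  nd1 : ∀ i j, NonDeg S g F i (fr i j • om i j)
  ndp : ∀ i j j', NonDeg S g F i (fr i j • om i j + fr i j' • om i j')
  ndm : ∀ i j j', j ≠ j' → NonDeg S g F i (fr i j • om i j - fr i j' • om i j')
  H_sym : ∀ i, ∀ x ∈ S.U i, H i x 0 1 = H i x 1 0
  H_bd : Bd S (fun i _ => δ i) H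
  H_pos : ∀ i j, ∀ x ∈ S.U i, δ i ≤ g i * cof i j (H i x)
  chi_flat : FlatFam S chi
  kap_sm : ∀ i, ContDiff ℝ ∞ (kap i)
  kap_bd : Bd S (fun _ _ => 1) kap
  kap_supp : ∀ i, tsupport (kap i) ⊆ S.U i
  kap_one : ∀ i, ∀ x ∈ tsupport (chi i), kap i =ᶠ[𝓝 x] fun _ => 1

namespace Cell2

variable {ι : Type} {S : Setting ι E2} (C : Cell2 ι S)

/-- the wave length -/
noncomputable def e (i : ι) : ℝ := C.q i * S.s i

theorem e_pos (i : ι) : 0 < C.e i := mul_pos (C.q_pos i) (S.s_pos i)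

theorem e_le_s (i : ι) : C.e i ≤ S.s i := by
  calc C.e i = C.q i * S.s i := rfl
    _ ≤ 1 * S.s i := mul_le_mul_of_nonneg_right (C.q_lt i).le (S.s_pos i).le
    _ = S.s i := one_mul _

theorem e_le_one (i : ι) : C.e i ≤ 1 := (C.e_le_s i).trans (S.s_le i)

/-- the covector of a label -/
noncomputable def z (i : ι) (j : Fin 3) : E2 := C.fr i j • C.om i j

/-- the slow error of three amplitudes -/
noncomputable def errOf (J : ℕ) (i : ι) (a : Fin 3 → E2 → ℝ) : E2 → T2 :=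
  fun x k l => ∑ j, slowErr (C.F i) (C.z i j) (fun y => a j y / C.fr i j) J (C.e i) x k l

/-- the regularised cutoff -/
noncomputable def cb (M : ℕ) (i : ι) (x : E2) : ℝ := chibar C.δ M C.chi i x

/-- the amplitudes -/
noncomputable def amp (M J : ℕ) (i : ι) : ℕ → Fin 3 → E2 → ℝ
  | 0, j => fun x => C.cb M i x * Real.sqrt (2 * C.cof i j (C.H i x))
  | n + 1, j => fun x => C.cb M i x * Real.sqrt (2 * C.cof i j
      (fun k l => C.H i x k l - C.errOf J i (amp M J i n) x k l / C.cb M i x ^ 2))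

/-- normalised amplitude of a label -/
noncomputable def al (M J : ℕ) (i : ι) (n : ℕ) (j : Fin 3) : E2 → ℝ :=
  fun x => C.amp M J i n j x / C.fr i j

/-- the fields `B` of a label -/
noncomputable def B (M J : ℕ) (i : ι) (n : ℕ) (j : Fin 3) (k : Fin 2) : E2 → C4 :=
  Bf (C.F i) (C.z i j) (C.al M J i n j) J (C.e i) k

/-- first part of the perturbation -/
noncomputable def w1 (M J : ℕ) (i : ι) (n : ℕ) : E2 → V4 := fun x => ∑ j, C.e i •
  osc (wsum (C.F i) (C.z i j) (fun _ _ _ => 0) (keA (C.F i) (C.z i j) (C.al M J i n j)) J (C.e i))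
    (C.z i j) (C.e i) x

/-- solution of the inhomogeneous equation with right hand side `R e^{iζ.x/e}` -/
noncomputable def sol (J : ℕ) (i : ι) (ζ : E2) (R : E2 → T2C) : E2 → V4 :=
  osc (wsum (C.F i) ζ R (lsA (C.F i) ζ R) J (C.e i)) ζ (C.e i)

/-- second part of the perturbation -/
noncomputable def w2 (M J : ℕ) (i : ι) (n : ℕ) : E2 → V4 := fun x =>
  -(∑ l, ∑ m, C.sol J i (C.z i l + C.z i m) (Rp (C.B M J i n l) (C.B M J i n m)) x
    + ∑ l, ∑ m with m ≠ l,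
      C.sol J i (C.z i l - C.z i m) (Rm (C.B M J i n l) (C.B M J i n m)) x)

/-- the indices for which the theorem gives something -/
def good (g0 : ι → ℝ) (i : ι) : Prop := g0 i * C.q i ≤ 1

/-- the restricted setting at the scale of the wave length -/
noncomputable def S' (g0 : ι → ℝ) : Setting ι E2 :=
  (S.restrict (C.good g0)).rescale C.e C.e_pos C.e_le_one

/-- the properties of the amplitudes of generation `n` -/
def AmpOK (M J : ℕ) (g0 : ι → ℝ) (n : ℕ) : Prop :=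
  ∀ j, Bd (S.restrict (C.good g0)) (fun i x => Real.sqrt (C.δ i) * C.cb M i x)
    (fun i => C.amp M J i n j)

end Cell2

end P205F
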