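import Vale.Agent.Lib.P205F.TDefs

/-!
# P205F: definitions for the cell theorem
-/

open scoped ContDiff Topology
open Set

namespace P205F

/-- `∂ₖ (e • osc A) = osc (Bf k)` for the kernel element `A` with amplitude `α` -/
noncomputable def Bf (F : E2 → V4) (ζ : E2) (α : E2 → ℝ) (J : ℕ) (e : ℝ) (k : Fin 2) : E2 → C4 :=
  fun x => (((co ζ k : ℝ) : ℂ) * Complex.I) • wsum F ζ (fun _ _ _ => 0) (keA F ζ α) J e x
    + ((e : ℝ) : ℂ) • pd k (wsum F ζ (fun _ _ _ => 0) (keA F ζ α) J e) x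

/-- the slow part of the square of a kernel element -/
noncomputable def Sf (F : E2 → V4) (ζ : E2) (α : E2 → ℝ) (J : ℕ) (e : ℝ) : E2 → T2 :=
  fun x k l => (cdot2 (Bf F ζ α J e k x) (star (Bf F ζ α J e l x))).re / 2

/-- its difference with the leading term -/
noncomputable def slowErr (F : E2 → V4) (ζ : E2) (α : E2 → ℝ) (J : ℕ) (e : ℝ) : E2 → T2 :=
  fun x k l => Sf F ζ α J e x k l - α x ^ 2 * (co ζ k * co ζ l) / 2

/-- symmetrised products of two complex fields with two derivative slots -/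
noncomputable def Rp (B B' : Fin 2 → E2 → C4) : E2 → T2C :=
  fun x k l => (cdot2 (B k x) (B' l x) + cdot2 (B l x) (B' k x)) / 4

noncomputable def Rm (B B' : Fin 2 → E2 → C4) : E2 → T2C :=
  fun x k l => (cdot2 (B k x) (star (B' l x)) + cdot2 (B l x) (star (B' k x))) / 4

/-- nondegeneracy of a covector with respect to a family of maps -/
def NonDeg {ι : Type} (S : Setting ι E2) (g : ι → ℝ) (F : ι → E2 → V4) (i : ι) (ζ : E2) : Prop :=
  ‖ζ‖ ≤ g i ∧ 1 ≤ g i * nsq ζ ∧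
    ∀ x ∈ S.U i, 1 ≤ g i * gram3 (pd 0 (F i) x) (pd 1 (F i) x) (ddv (perp ζ) (F i) x)

/-- the data and the hypotheses of the cell theorem -/
structure Cell (ι : Type) (S : Setting ι E2) (N : ℕ) where
  q : ι → ℝ
  δ : ι → ℝ
  g : ι → ℝ
  F : ι → E2 → V4
  om : ι → Fin 3 → E2
  cof : ι → Fin 3 → (T2 →L[ℝ] ℝ)
  fr : ι → ℕ → Fin 3 → ℝ
  gs : ι → E2 → T2
  H : ι → E2 → T2
  psi : ι → ℕ → E2 → ℝ
  hN : 1 ≤ N
  hg : g ∈ S.G.mem
  q_pos : ∀ i, 0 < q i
  q_lt : ∀ i, q i < 1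
  d_pos : ∀ i, 0 < δ i
  d_le : ∀ i, Real.sqrt (δ i) ≤ q i ^ 2 * S.s i
  smF : ∀ i, ContDiffOn ℝ ∞ (F i) (S.U i)
  F1 : Bd S (fun _ _ => 1) (fun i x => fderiv ℝ (F i) x)
  F2 : Bd S (fun _ _ => 1) (fun i x => fderiv ℝ (fun y => fderiv ℝ (F i) y) x)
  om_le : ∀ i j, ‖om i j‖ ≤ g i
  cof_le : ∀ i j, ‖cof i j‖ ≤ g i
  cof_eq : ∀ i (h : T2), h 0 1 = h 1 0 → ∀ k l, h k l =
    ∑ j, cof i j h * (co (om i j) k * co (om i j) l)
  fr_ge : ∀ i n j, 1 ≤ fr i n j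
  fr_le : ∀ i n j, n < N → fr i n j ≤ g i
  nd1 : ∀ i n j, n < N → NonDeg S g F i (fr i n j • om i j)
  ndp : ∀ i n j n' j', n < N → n' < N →
    NonDeg S g F i (fr i n j • om i j + fr i n' j' • om i j')
  ndm : ∀ i n j n' j', n < N → n' < N → (n, j) ≠ (n', j') →
    NonDeg S g F i (fr i n j • om i j - fr i n' j' • om i j')
  gs_sym : ∀ i, ∀ x ∈ S.U i, gs i x 0 1 = gs i x 1 0
  H_sym : ∀ i, ∀ x ∈ S.U i, H i x 0 1 = H i x 1 0
  gs_bd : Bd S (fun _ _ => 1) gs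
  H_bd : Bd S (fun i _ => δ i) H
  gs_pos : ∀ i j, ∀ x ∈ S.U i, 1 ≤ g i * cof i j (gs i x)
  H_pos : ∀ i j, ∀ x ∈ S.U i, δ i ≤ g i * cof i j (H i x)
  psi_sm : ∀ i m, m < N → ContDiff ℝ ∞ (psi i m)
  psi_bd : ∀ m, m < N → Bd S (fun _ _ => 1) (fun i => psi i m)
  psi_supp : ∀ i m, m < N → tsupport (psi i m) ⊆ S.U i
  psi_one : ∀ i m, m + 1 < N → ∀ x ∈ tsupport (psi i m), psi i (m + 1) =ᶠ[𝓝 x] fun _ => 1

namespace Cell

variable {ι : Type} {S : Setting ι E2} {N : ℕ} (C : Cell ι S N)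

/-- the wave length -/
noncomputable def e (i : ι) : ℝ := C.q i ^ 2 * S.s i

theorem e_pos (i : ι) : 0 < C.e i := mul_pos (pow_pos (C.q_pos i) 2) (S.s_pos i)

theorem e_le_s (i : ι) : C.e i ≤ S.s i := by
  have h1 : C.q i ^ 2 ≤ 1 := pow_le_one₀ (C.q_pos i).le (C.q_lt i).le
  calc C.e i = C.q i ^ 2 * S.s i := rfl
    _ ≤ 1 * S.s i := mul_le_mul_of_nonneg_right h1 (S.s_pos i).le
    _ = S.s i := one_mul _

theorem e_le_one (i : ι) : C.e i ≤ 1 := (C.e_le_s i).trans (S.s_le i)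

/-- the covector of a label -/
noncomputable def z (i : ι) (l : ℕ × Fin 3) : E2 := C.fr i l.1 l.2 • C.om i l.2

/-- the labels -/
def lab (_ : Cell ι S N) : Finset (ℕ × Fin 3) := Finset.range N ×ˢ Finset.univ

/-- the slow error of a family of three amplitudes -/
noncomputable def errOf (J : ℕ) (i : ι) (n : ℕ) (a : Fin 3 → E2 → ℝ) : E2 → T2 :=
  fun x k l => ∑ j, slowErr (C.F i) (C.z i (n, j)) (fun y => a j y / C.fr i n j) J (C.e i) x k l

/-- the amplitudes -/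
noncomputable def amp (J : ℕ) (i : ι) : ℕ → Fin 3 → E2 → ℝ
  | 0, j => fun x => C.psi i 0 x * Real.sqrt (2 * C.cof i j (C.H i x))
  | n + 1, j => fun x => C.psi i (n + 1) x * Real.sqrt (2 * C.cof i j
      (fun k l => C.δ i * C.q i ^ (n + 1) * C.gs i x k l - C.errOf J i n (amp J i n) x k l))

/-- the slow error of the family `n` -/
noncomputable def err (J : ℕ) (i : ι) (n : ℕ) : E2 → T2 := C.errOf J i n (C.amp J i n)

/-- normalised amplitude of a label -/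
noncomputable def al (J : ℕ) (i : ι) (l : ℕ × Fin 3) : E2 → ℝ :=
  fun x => C.amp J i l.1 l.2 x / C.fr i l.1 l.2

/-- the fields `B` of a label -/
noncomputable def B (J : ℕ) (i : ι) (l : ℕ × Fin 3) (k : Fin 2) : E2 → C4 :=
  Bf (C.F i) (C.z i l) (C.al J i l) J (C.e i) k

/-- first part of the perturbation -/
noncomputable def w1 (J : ℕ) (i : ι) : E2 → V4 := fun x => ∑ l ∈ C.lab,
  C.e i • osc (wsum (C.F i) (C.z i l) (fun _ _ _ => 0) (keA (C.F i) (C.z i l) (C.al J i l)) J (C.e i))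
    (C.z i l) (C.e i) x

/-- solution of the inhomogeneous equation with right hand side `R e^{iζ.x/e}` -/
noncomputable def sol (J : ℕ) (i : ι) (ζ : E2) (R : E2 → T2C) : E2 → V4 :=
  osc (wsum (C.F i) ζ R (lsA (C.F i) ζ R) J (C.e i)) ζ (C.e i)

/-- second part of the perturbation -/
noncomputable def w2 (J : ℕ) (i : ι) : E2 → V4 := fun x =>
  -(∑ l ∈ C.lab, ∑ m ∈ C.lab, C.sol J i (C.z i l + C.z i m) (Rp (C.B J i l) (C.B J i m)) x
    + ∑ l ∈ C.lab, ∑ m ∈ C.lab with m ≠ l,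
      C.sol J i (C.z i l - C.z i m) (Rm (C.B J i l) (C.B J i m)) x)

/-- the indices for which the theorem gives something -/
def good (g0 : ι → ℝ) (i : ι) : Prop := g0 i * C.q i ≤ 1

/-- the restricted setting at the scale of the wave length -/
noncomputable def S' (g0 : ι → ℝ) : Setting ι E2 :=
  (S.restrict (C.good g0)).rescale C.e C.e_pos C.e_le_one

end Cell

end P205F
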