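import Vale.Agent.Lib.P205F.TA

/-! # P205F module TC: the WKB recursion, algebra -/

open scoped ContDiff Topology
open Set

namespace P205F

/-! ### auxiliary lemmas -/

/-- the real part as a continuous linear map -/
noncomputable def TC_reL : C4 →L[ℝ] V4 :=
  LinearMap.toContinuousLinearMap
    { toFun := reV
      map_add' := fun A B => by
        ext k; fin_cases k <;> simp [reV]
      map_smul' := fun r A => by
        ext k; fin_cases k <;> simp [reV] }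

theorem TC_reL_apply (A : C4) : TC_reL A = reV A := rfl

/-- the oscillating factor -/
noncomputable def TC_ex (ζ : E2) (e : ℝ) (y : E2) : ℂ :=
  Complex.exp (((ph ζ y / e : ℝ) : ℂ) * Complex.I)

/-- the phase as a linear map -/
noncomputable def TC_phL (ζ : E2) : E2 →L[ℝ] ℝ :=
  ζ.1 • ContinuousLinearMap.fst ℝ ℝ ℝ + ζ.2 • ContinuousLinearMap.snd ℝ ℝ ℝ

theorem TC_phL_apply (ζ x : E2) : TC_phL ζ x = ph ζ x := by
  simp [TC_phL, ph]

theorem TC_ph_bv (ζ : E2) (i : Fin 2) : ph ζ (bv i) = co ζ i := by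
  fin_cases i <;> simp [ph, bv, co]

theorem TC_ex_hasFDerivAt (ζ : E2) (e : ℝ) (x : E2) :
    HasFDerivAt (TC_ex ζ e) (TC_ex ζ e x •
      ((Complex.ofRealCLM.comp (e⁻¹ • TC_phL ζ)).smulRight Complex.I)) x := by
  have h1 : HasFDerivAt (fun y : E2 => (((ph ζ y / e : ℝ) : ℂ) * Complex.I))
      ((Complex.ofRealCLM.comp (e⁻¹ • TC_phL ζ)).smulRight Complex.I) x := by
    have h2 : (fun y : E2 => (((ph ζ y / e : ℝ) : ℂ) * Complex.I)) =
        fun y => ((Complex.ofRealCLM.comp (e⁻¹ • TC_phL ζ)).smulRight Complex.I) y := by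
      funext y
      simp only [ContinuousLinearMap.smulRight_apply, ContinuousLinearMap.comp_apply,
        smul_apply, TC_phL_apply, Complex.ofRealCLM_apply, smul_eq_mul]
      congr 2
      ring
    rw [h2]
    exact ContinuousLinearMap.hasFDerivAt _
  exact h1.cexp

theorem TC_ex_contDiff (ζ : E2) (e : ℝ) : ContDiff ℝ ∞ (TC_ex ζ e) := by
  have h2 : (fun y : E2 => (((ph ζ y / e : ℝ) : ℂ) * Complex.I)) =
      fun y => ((Complex.ofRealCLM.comp (e⁻¹ • TC_phL ζ)).smulRight Complex.I) y := by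
    funext y
    simp only [ContinuousLinearMap.smulRight_apply, ContinuousLinearMap.comp_apply,
      smul_apply, TC_phL_apply, Complex.ofRealCLM_apply, smul_eq_mul]
    congr 2
    ring
  have h3 : ContDiff ℝ ∞ (fun y : E2 => (((ph ζ y / e : ℝ) : ℂ) * Complex.I)) := by
    rw [h2]
    exact ContinuousLinearMap.contDiff _
  exact h3.cexp

theorem TC_pd_hasFDerivAt {V : Type} [NormedAddCommGroup V] [NormedSpace ℝ V] {u : E2 → V}
    {u' : E2 →L[ℝ] V} {x : E2} (h : HasFDerivAt u u' x) (i : Fin 2) : pd i u x = u' (bv i) := by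
  rw [pd, h.fderiv]

theorem TC_diffAt {V : Type} [NormedAddCommGroup V] [NormedSpace ℝ V] {U : Set E2} {u : E2 → V}
    (hU : IsOpen U) (hu : ContDiffOn ℝ ∞ u U) {x : E2} (hx : x ∈ U) : DifferentiableAt ℝ u x :=
  (hu.contDiffAt (hU.mem_nhds hx)).differentiableAt (by simp)

/-- the derivative of an oscillating field -/
theorem pd_osc {U : Set E2} (hU : IsOpen U) {A : E2 → C4} (hA : ContDiffOn ℝ ∞ A U) (ζ : E2)
    {e : ℝ} (he : 0 < e) (i : Fin 2) {x : E2} (hx : x ∈ U) :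
    pd i (osc A ζ e) x =
      osc (fun y => (((co ζ i / e : ℝ) : ℂ) * Complex.I) • A y + pd i A y) ζ e x := by
  have hA1 := (TC_diffAt hU hA hx).hasFDerivAt
  have h1 := (TC_ex_hasFDerivAt ζ e x).smul hA1
  have h2 := TC_reL.hasFDerivAt.comp x h1
  have h3 : osc A ζ e = TC_reL ∘ (TC_ex ζ e • A) := rfl
  have key : (TC_ex ζ e x • fderiv ℝ A x + (TC_ex ζ e x •
      (Complex.ofRealCLM.comp (e⁻¹ • TC_phL ζ)).smulRight Complex.I).smulRight (A x)) (bv i)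
      = TC_ex ζ e x • ((((co ζ i / e : ℝ) : ℂ) * Complex.I) • A x + pd i A x) := by
    simp only [add_apply, smul_apply,
      ContinuousLinearMap.smulRight_apply, ContinuousLinearMap.comp_apply, TC_phL_apply, TC_ph_bv,
      Complex.ofRealCLM_apply, smul_eq_mul, pd, smul_add, smul_smul]
    rw [add_comm]
    congr 2
    rw [div_eq_inv_mul]
  rw [h3, TC_pd_hasFDerivAt h2 i, ContinuousLinearMap.comp_apply, key]
  rfl

theorem osc_contDiffOn {U : Set E2} (hU : IsOpen U) {A : E2 → C4} (hA : ContDiffOn ℝ ∞ A U)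
    (ζ : E2) (e : ℝ) : ContDiffOn ℝ ∞ (osc A ζ e) U := by
  have h3 : osc A ζ e = TC_reL ∘ (fun y => TC_ex ζ e y • A y) := rfl
  rw [h3]
  exact TC_reL.contDiff.comp_contDiffOn ((TC_ex_contDiff ζ e).contDiffOn.smul hA)

theorem ph_bv (ζ : E2) (i : Fin 2) : ph ζ (bv i) = co ζ i := TC_ph_bv ζ i

/-- the bilinear product as a continuous bilinear map -/
theorem TC_cdot_contDiffOn {U : Set E2} {a : E2 → V4} {A : E2 → C4} (ha : ContDiffOn ℝ ∞ a U)
    (hA : ContDiffOn ℝ ∞ A U) : ContDiffOn ℝ ∞ (fun x => cdot (a x) (A x)) U := by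
  unfold cdot
  refine ContDiffOn.sum fun k _ => ?_
  refine ContDiffOn.mul ?_ ?_
  · exact Complex.ofRealCLM.contDiff.comp_contDiffOn
      ((EuclideanSpace.proj (𝕜 := ℝ) k).contDiff.comp_contDiffOn ha)
  · exact (contDiffOn_pi.1 hA) k

theorem TC_pd_cdot {U : Set E2} (hU : IsOpen U) {a : E2 → V4} {A : E2 → C4}
    (ha : ContDiffOn ℝ ∞ a U) (hA : ContDiffOn ℝ ∞ A U) (i : Fin 2) {x : E2} (hx : x ∈ U) :
    pd i (fun y => cdot (a y) (A y)) x = cdot (pd i a x) (A x) + cdot (a x) (pd i A x) := by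
  have ha1 := (TC_diffAt hU ha hx).hasFDerivAt
  have hA1 := (TC_diffAt hU hA hx).hasFDerivAt
  have hk : ∀ k : Fin 4, HasFDerivAt (fun y => ((a y k : ℝ) : ℂ) * A y k)
      (((a x k : ℝ) : ℂ) • ((ContinuousLinearMap.proj (R := ℝ) (φ := fun _ : Fin 4 => ℂ) k).comp
        (fderiv ℝ A x)) + A x k • (Complex.ofRealCLM.comp
          ((EuclideanSpace.proj (𝕜 := ℝ) k).comp (fderiv ℝ a x)))) x := by
    intro k
    have h1 : HasFDerivAt (fun y => ((a y k : ℝ) : ℂ)) (Complex.ofRealCLM.comp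
          ((EuclideanSpace.proj (𝕜 := ℝ) k).comp (fderiv ℝ a x))) x :=
      Complex.ofRealCLM.hasFDerivAt.comp x
        ((EuclideanSpace.proj (𝕜 := ℝ) k).hasFDerivAt.comp x ha1)
    have h2 : HasFDerivAt (fun y => A y k)
        ((ContinuousLinearMap.proj (R := ℝ) (φ := fun _ : Fin 4 => ℂ) k).comp (fderiv ℝ A x)) x :=
      (ContinuousLinearMap.proj (R := ℝ) (φ := fun _ : Fin 4 => ℂ) k).hasFDerivAt.comp x hA1
    exact h1.mul h2
  have hs : HasFDerivAt (fun y => cdot (a y) (A y)) _ x := HasFDerivAt.fun_sum fun k _ => hk k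
  rw [TC_pd_hasFDerivAt hs i]
  simp only [cdot, pd, sum_apply, add_apply,
    smul_apply, ContinuousLinearMap.comp_apply,
    ContinuousLinearMap.proj_apply, Complex.ofRealCLM_apply, smul_eq_mul,
    Finset.sum_add_distrib]
  rw [add_comm]
  congr 1
  refine Finset.sum_congr rfl fun k _ => ?_
  rw [mul_comm]
  rfl

/-- the linearised operator on an oscillating field -/
theorem linF_osc {U : Set E2} (hU : IsOpen U) {F : E2 → V4} (hF : ContDiffOn ℝ ∞ F U) {A : E2 → C4}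
    (hA : ContDiffOn ℝ ∞ A U) (ζ : E2) {e : ℝ} (he : 0 < e) (i j : Fin 2) {x : E2} (hx : x ∈ U) :
    linF F (osc A ζ e) x i j = (Complex.exp (((ph ζ x / e : ℝ) : ℂ) * Complex.I) *
      (pd j (fun y => cdot (pd i F y) (A y)) x + pd i (fun y => cdot (pd j F y) (A y)) x
        - 2 * cdot (pd i (pd j F) x) (A x)
        + ((e⁻¹ : ℝ) : ℂ) * Complex.I * (co ζ j * cdot (pd i F x) (A x)
          + co ζ i * cdot (pd j F x) (A x)))).re := by
  have hFi := fun i => pd_contDiffOn hU hF i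
  have hin : ∀ i j : Fin 2, inner ℝ (pd i F x) (pd j (osc A ζ e) x) =
      (TC_ex ζ e x * ((((co ζ j / e : ℝ) : ℂ) * Complex.I) * cdot (pd i F x) (A x)
        + cdot (pd i F x) (pd j A x))).re := by
    intro i j
    rw [pd_osc hU hA ζ he j hx, osc, inner_reV, cdot_smul, cdot_add, cdot_smul]
    rfl
  rw [linF, hin i j, hin j i, ← Complex.add_re, TC_pd_cdot hU (hFi i) hA j hx,
    TC_pd_cdot hU (hFi j) hA i hx, pd_comm hU hF j i hx]
  congr 1
  rw [← mul_add]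
  change TC_ex ζ e x * _ = TC_ex ζ e x * _
  congr 1
  push_cast
  ring

/-! ### smoothness -/

theorem TC_toC_contDiffOn {U : Set E2} {a : E2 → V4} (ha : ContDiffOn ℝ ∞ a U) :
    ContDiffOn ℝ ∞ (fun x => toC (a x)) U := by
  refine contDiffOn_pi.2 fun k => ?_
  exact Complex.ofRealCLM.contDiff.comp_contDiffOn
      ((EuclideanSpace.proj (𝕜 := ℝ) k).contDiff.comp_contDiffOn ha)

theorem TC_gram3_contDiffOn {U : Set E2} {a b c : E2 → V4} (ha : ContDiffOn ℝ ∞ a U)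
    (hb : ContDiffOn ℝ ∞ b U) (hc : ContDiffOn ℝ ∞ c U) :
    ContDiffOn ℝ ∞ (fun x => gram3 (a x) (b x) (c x)) U := by
  unfold gram3
  exact (((ha.inner ℝ ha).mul (((hb.inner ℝ hb).mul (hc.inner ℝ hc)).sub
    ((hb.inner ℝ hc).pow 2))).sub ((ha.inner ℝ hb).mul (((ha.inner ℝ hb).mul
      (hc.inner ℝ hc)).sub ((hb.inner ℝ hc).mul (ha.inner ℝ hc))))).add
    ((ha.inner ℝ hc).mul (((ha.inner ℝ hb).mul (hb.inner ℝ hc)).sub
      ((hb.inner ℝ hb).mul (ha.inner ℝ hc))))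

theorem TC_dual_contDiffOn {U : Set E2} {a b c : E2 → V4} (ha : ContDiffOn ℝ ∞ a U)
    (hb : ContDiffOn ℝ ∞ b U) (hc : ContDiffOn ℝ ∞ c U)
    (h : ∀ x ∈ U, gram3 (a x) (b x) (c x) ≠ 0) :
    ContDiffOn ℝ ∞ (fun x => dual (a x) (b x) (c x)) U := by
  unfold dual
  refine ((TC_gram3_contDiffOn ha hb hc).inv h).smul ?_
  exact (((((hb.inner ℝ hb).mul (hc.inner ℝ hc)).sub ((hb.inner ℝ hc).pow 2)).smul ha).sub
    ((((ha.inner ℝ hb).mul (hc.inner ℝ hc)).sub ((ha.inner ℝ hc).mul (hb.inner ℝ hc))).smul hb)).add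
    ((((ha.inner ℝ hb).mul (hb.inner ℝ hc)).sub ((ha.inner ℝ hc).mul (hb.inner ℝ hb))).smul hc)

theorem TC_wY_contDiffOn {U : Set E2} (hU : IsOpen U) {F : E2 → V4} (hF : ContDiffOn ℝ ∞ F U)
    {R : E2 → T2C} (hR : ContDiffOn ℝ ∞ R U) {p : E2 → Fin 2 → ℂ} (hp : ContDiffOn ℝ ∞ p U)
    {A : E2 → C4} (hA : ContDiffOn ℝ ∞ A U) : ContDiffOn ℝ ∞ (wY F R p A) U := by
  refine contDiffOn_pi.2 fun i => contDiffOn_pi.2 fun j => ?_
  have h1 : ContDiffOn ℝ ∞ (fun x => R x i j) U := contDiffOn_pi.1 (contDiffOn_pi.1 hR i) j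
  have h2 := pd_contDiffOn hU (contDiffOn_pi.1 hp i) j
  have h3 := pd_contDiffOn hU (contDiffOn_pi.1 hp j) i
  have h4 := TC_cdot_contDiffOn (pd_contDiffOn hU (pd_contDiffOn hU hF j) i) hA
  exact h1.sub ((h2.add h3).sub (contDiffOn_const.mul h4))

theorem TC_ev2_contDiffOn {U : Set E2} {Y : E2 → T2C} (hY : ContDiffOn ℝ ∞ Y U) (u v : E2) :
    ContDiffOn ℝ ∞ (fun x => ev2 (Y x) u v) U := by
  unfold ev2
  refine ContDiffOn.sum fun i _ => ContDiffOn.sum fun j _ => ?_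
  exact contDiffOn_const.mul (contDiffOn_pi.1 (contDiffOn_pi.1 hY i) j)

theorem TC_wP_contDiffOn {U : Set E2} (ζ : E2) {Y : E2 → T2C} (hY : ContDiffOn ℝ ∞ Y U) :
    ContDiffOn ℝ ∞ (wP ζ Y) U := by
  refine contDiffOn_pi.2 fun i => ?_
  exact ((contDiffOn_const.mul (TC_ev2_contDiffOn hY _ _)).div_const _).add
    ((contDiffOn_const.mul (TC_ev2_contDiffOn hY _ _)).div_const _)

theorem TC_wA_contDiffOn {U : Set E2} (hU : IsOpen U) {F : E2 → V4} (hF : ContDiffOn ℝ ∞ F U)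
    {ζ : E2} (hgr : ∀ x ∈ U, 0 < gram3 (pd 0 F x) (pd 1 F x) (ddv (perp ζ) F x))
    {p : E2 → Fin 2 → ℂ} (hp : ContDiffOn ℝ ∞ p U) : ContDiffOn ℝ ∞ (wA F ζ p) U := by
  have h0 := pd_contDiffOn hU hF 0
  have h1 := pd_contDiffOn hU hF 1
  have h2 := ddv_contDiffOn hU hF (perp ζ)
  have hp0 : ContDiffOn ℝ ∞ (fun x => p x 0) U := contDiffOn_pi.1 hp 0
  have hp1 : ContDiffOn ℝ ∞ (fun x => p x 1) U := contDiffOn_pi.1 hp 1
  have hS : ContDiffOn ℝ ∞ (fun x => ∑ k : Fin 2, ∑ l : Fin 2,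
      ((co (perp ζ) k * co (perp ζ) l : ℝ) : ℂ) * pd l (fun y => p y k) x) U := by
    refine ContDiffOn.sum fun k _ => ContDiffOn.sum fun l _ => ?_
    exact contDiffOn_const.mul (pd_contDiffOn hU (contDiffOn_pi.1 hp k) l)
  have g0 : ∀ x ∈ U, gram3 (pd 0 F x) (pd 1 F x) (ddv (perp ζ) F x) ≠ 0 :=
    fun x hx => (hgr x hx).ne'
  have g1 : ∀ x ∈ U, gram3 (pd 1 F x) (pd 0 F x) (ddv (perp ζ) F x) ≠ 0 := by
    intro x hx
    rw [gram3_swap]
    exact (hgr x hx).ne'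
  have g2 : ∀ x ∈ U, gram3 (ddv (perp ζ) F x) (pd 0 F x) (pd 1 F x) ≠ 0 := by
    intro x hx
    rw [gram3_rot]
    exact (hgr x hx).ne'
  exact ((hp0.smul (TC_toC_contDiffOn (TC_dual_contDiffOn h0 h1 h2 g0))).add
    (hp1.smul (TC_toC_contDiffOn (TC_dual_contDiffOn h1 h0 h2 g1)))).add
    (hS.smul (TC_toC_contDiffOn (TC_dual_contDiffOn h2 h0 h1 g2)))

/-! ### the recursion -/

theorem TC_cdot_zero (a : V4) : cdot a 0 = 0 := by simp [cdot]

theorem TC_cdot_add_left (a b : V4) (A : C4) : cdot (a + b) A = cdot a A + cdot b A := by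
  simp [cdot, add_mul, Finset.sum_add_distrib]

theorem TC_cdot_smul_left (r : ℝ) (a : V4) (A : C4) : cdot (r • a) A = (r : ℂ) * cdot a A := by
  simp [cdot, Finset.mul_sum, mul_assoc]

theorem TC_cdot_sum_left {κ : Type} (t : Finset κ) (a : κ → V4) (A : C4) :
    cdot (∑ k ∈ t, a k) A = ∑ k ∈ t, cdot (a k) A := by
  classical
  induction t using Finset.induction_on with
  | empty => simp [cdot]
  | insert b s hb ih => rw [Finset.sum_insert hb, Finset.sum_insert hb, TC_cdot_add_left, ih]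

theorem TC_cdot_sum {κ : Type} (t : Finset κ) (a : V4) (A : κ → C4) :
    cdot a (∑ k ∈ t, A k) = ∑ k ∈ t, cdot a (A k) := by
  classical
  induction t using Finset.induction_on with
  | empty => simp [cdot]
  | insert b s hb ih => rw [Finset.sum_insert hb, Finset.sum_insert hb, cdot_add, ih]

/-- the amplitude `wA` has the prescribed products -/
theorem TC_wA_spec {F : E2 → V4} {ζ : E2} {x : E2}
    (hgr : 0 < gram3 (pd 0 F x) (pd 1 F x) (ddv (perp ζ) F x)) (p : E2 → Fin 2 → ℂ) :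
    (∀ i, cdot (pd i F x) (wA F ζ p x) = p x i) ∧
      cdot (ddv (perp ζ) F x) (wA F ζ p x) =
        ∑ k, ∑ l, ((co (perp ζ) k * co (perp ζ) l : ℝ) : ℂ) * pd l (fun y => p y k) x := by
  have g0 : gram3 (pd 0 F x) (pd 1 F x) (ddv (perp ζ) F x) ≠ 0 := hgr.ne'
  have g1 : gram3 (pd 1 F x) (pd 0 F x) (ddv (perp ζ) F x) ≠ 0 := by
    rw [gram3_swap]; exact hgr.ne'
  have g2 : gram3 (ddv (perp ζ) F x) (pd 0 F x) (pd 1 F x) ≠ 0 := by
    rw [gram3_rot]; exact hgr.ne'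
  refine ⟨fun i => ?_, ?_⟩
  · rw [wA, cdot_add, cdot_add, cdot_smul, cdot_smul, cdot_smul, cdot_toC, cdot_toC, cdot_toC]
    fin_cases i
    · change p x 0 * ((inner ℝ (pd 0 F x) (dual (pd 0 F x) (pd 1 F x) (ddv (perp ζ) F x)) : ℝ) : ℂ)
        + p x 1 * ((inner ℝ (pd 0 F x) (dual (pd 1 F x) (pd 0 F x) (ddv (perp ζ) F x)) : ℝ) : ℂ)
        + _ * ((inner ℝ (pd 0 F x) (dual (ddv (perp ζ) F x) (pd 0 F x) (pd 1 F x)) : ℝ) : ℂ) = p x 0
      rw [real_inner_comm, inner_dual_fst _ _ _ g0,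
        real_inner_comm (dual (pd 1 F x) (pd 0 F x) (ddv (perp ζ) F x)), inner_dual_snd,
        real_inner_comm (dual (ddv (perp ζ) F x) (pd 0 F x) (pd 1 F x)), inner_dual_snd]
      simp
    · change p x 0 * ((inner ℝ (pd 1 F x) (dual (pd 0 F x) (pd 1 F x) (ddv (perp ζ) F x)) : ℝ) : ℂ)
        + p x 1 * ((inner ℝ (pd 1 F x) (dual (pd 1 F x) (pd 0 F x) (ddv (perp ζ) F x)) : ℝ) : ℂ)
        + _ * ((inner ℝ (pd 1 F x) (dual (ddv (perp ζ) F x) (pd 0 F x) (pd 1 F x)) : ℝ) : ℂ) = p x 1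
      rw [real_inner_comm (dual (pd 0 F x) (pd 1 F x) (ddv (perp ζ) F x)), inner_dual_snd,
        real_inner_comm (dual (pd 1 F x) (pd 0 F x) (ddv (perp ζ) F x)), inner_dual_fst _ _ _ g1,
        real_inner_comm (dual (ddv (perp ζ) F x) (pd 0 F x) (pd 1 F x)), inner_dual_thd]
      simp
  · rw [wA, cdot_add, cdot_add, cdot_smul, cdot_smul, cdot_smul, cdot_toC, cdot_toC, cdot_toC]
    rw [real_inner_comm (dual (pd 0 F x) (pd 1 F x) (ddv (perp ζ) F x)), inner_dual_thd,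
        real_inner_comm (dual (pd 1 F x) (pd 0 F x) (ddv (perp ζ) F x)), inner_dual_thd,
        real_inner_comm (dual (ddv (perp ζ) F x) (pd 0 F x) (pd 1 F x)), inner_dual_fst _ _ _ g2]
    simp

/-- symmetric tensors vanishing on `(v, v)` -/
theorem TC_tensor {ζ : E2} (hζ : nsq ζ ≠ 0) (Y : E2 → T2C) (x : E2)
    (hs : Y x 1 0 = Y x 0 1) (hv : ev2 (Y x) (perp ζ) (perp ζ) = 0) (k l : Fin 2) :
    Y x k l = Complex.I * (co ζ l * wP ζ Y x k + co ζ k * wP ζ Y x l) := by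
  have hI : Complex.I ≠ 0 := Complex.I_ne_zero
  have hn : ((nsq ζ : ℝ) : ℂ) ≠ 0 := by exact_mod_cast hζ
  have hn' : ((ζ.1 : ℂ) ^ 2 + (ζ.2 : ℂ) ^ 2) ≠ 0 := by
    have : ((nsq ζ : ℝ) : ℂ) = (ζ.1 : ℂ) ^ 2 + (ζ.2 : ℂ) ^ 2 := by simp [nsq]
    rwa [this] at hn
  have hv' : (ζ.2 : ℂ) ^ 2 * Y x 0 0 - 2 * (ζ.1 : ℂ) * ζ.2 * Y x 0 1 + (ζ.1 : ℂ) ^ 2 * Y x 1 1 = 0 := by
    have : ev2 (Y x) (perp ζ) (perp ζ) =
        (ζ.2 : ℂ) ^ 2 * Y x 0 0 - 2 * (ζ.1 : ℂ) * ζ.2 * Y x 0 1 + (ζ.1 : ℂ) ^ 2 * Y x 1 1 := by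
      simp only [ev2, co, perp, Fin.sum_univ_two, Fin.isValue, if_true, one_ne_zero, if_false, hs]
      push_cast
      ring
    rw [← this]; exact hv
  have hdd : ev2 (Y x) (dl ζ) (dl ζ) = ((ζ.1 : ℂ) ^ 2 * Y x 0 0 + 2 * (ζ.1 : ℂ) * ζ.2 * Y x 0 1
      + (ζ.2 : ℂ) ^ 2 * Y x 1 1) / ((ζ.1 : ℂ) ^ 2 + (ζ.2 : ℂ) ^ 2) ^ 2 := by
    simp only [ev2, co, dl, nsq, Fin.sum_univ_two, Fin.isValue, if_true, one_ne_zero, if_false, hs]
    push_cast
    field_simp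
    ring
  have hdv : ev2 (Y x) (dl ζ) (perp ζ) = (-(ζ.1 : ℂ) * ζ.2 * Y x 0 0
      + ((ζ.1 : ℂ) ^ 2 - (ζ.2 : ℂ) ^ 2) * Y x 0 1
      + (ζ.1 : ℂ) * ζ.2 * Y x 1 1) / ((ζ.1 : ℂ) ^ 2 + (ζ.2 : ℂ) ^ 2) := by
    simp only [ev2, co, dl, perp, nsq, Fin.sum_univ_two, Fin.isValue, if_true, one_ne_zero,
      if_false, hs]
    push_cast
    field_simp
    ring
  have hw : ∀ i, Complex.I * wP ζ Y x i = (co ζ i : ℂ) * ev2 (Y x) (dl ζ) (dl ζ) / 2
      + ((co (perp ζ) i / nsq ζ : ℝ) : ℂ) * ev2 (Y x) (dl ζ) (perp ζ) := by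
    intro i
    rw [wP]
    field_simp
  have hg : Complex.I * (co ζ l * wP ζ Y x k + co ζ k * wP ζ Y x l) =
      co ζ l * (Complex.I * wP ζ Y x k) + co ζ k * (Complex.I * wP ζ Y x l) := by ring
  rw [hg, hw, hw, hdd, hdv]
  fin_cases k <;> fin_cases l <;>
    simp only [co, perp, nsq, Fin.zero_eta, Fin.mk_one, Fin.isValue, if_true, one_ne_zero,
      if_false, hs] <;> push_cast <;> field_simp
  · linear_combination (2 * (ζ.2 : ℂ) ^ 2) * hv'
  · linear_combination (-(2 * (ζ.1 : ℂ) * ζ.2)) * hv'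
  · linear_combination (-(2 * (ζ.1 : ℂ) * ζ.2)) * hv'
  · linear_combination (2 * (ζ.1 : ℂ) ^ 2) * hv'

section wkb

variable {U : Set E2} (hU : IsOpen U) {F : E2 → V4} (hF : ContDiffOn ℝ ∞ F U) {ζ : E2}
  (hζ : nsq ζ ≠ 0) (hgr : ∀ x ∈ U, 0 < gram3 (pd 0 F x) (pd 1 F x) (ddv (perp ζ) F x))
  {R : E2 → T2C} (hR : ContDiffOn ℝ ∞ R U) (hRs : ∀ x ∈ U, ∀ i j, R x i j = R x j i)
  {A0 : E2 → C4} (hA0 : ContDiffOn ℝ ∞ A0 U)
  (h1 : ∀ x ∈ U, ∀ i, cdot (pd i F x) (A0 x) = 0)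
  (h2 : ∀ x ∈ U, cdot (ddv (perp ζ) F x) (A0 x) = -ev2 (R x) (perp ζ) (perp ζ) / 2)

theorem TC_wkb_succ (F : E2 → V4) (ζ : E2) (R : E2 → T2C) (A0 : E2 → C4) (j : ℕ) :
    wkb F ζ R A0 (j + 1) = (wP ζ (wkbY F ζ R A0 j), wA F ζ (wP ζ (wkbY F ζ R A0 j))) := rfl

include hU hF hgr hR hA0 in
theorem wkb_smooth (j : ℕ) : ContDiffOn ℝ ∞ (wkb F ζ R A0 j).1 U ∧
    ContDiffOn ℝ ∞ (wkb F ζ R A0 j).2 U ∧ ContDiffOn ℝ ∞ (wkbY F ζ R A0 j) U := by
  have hRj : ∀ j : ℕ, ContDiffOn ℝ ∞ (if j = 0 then R else fun _ _ _ => 0) U := by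
    intro j
    split_ifs
    · exact hR
    · exact contDiffOn_const
  induction j with
  | zero =>
    have ha : ContDiffOn ℝ ∞ (wkb F ζ R A0 0).1 U := contDiffOn_const
    have hb : ContDiffOn ℝ ∞ (wkb F ζ R A0 0).2 U := hA0
    exact ⟨ha, hb, TC_wY_contDiffOn hU hF (hRj 0) ha hb⟩
  | succ j ih =>
    have ha : ContDiffOn ℝ ∞ (wkb F ζ R A0 (j + 1)).1 U := TC_wP_contDiffOn ζ ih.2.2
    have hb : ContDiffOn ℝ ∞ (wkb F ζ R A0 (j + 1)).2 U := TC_wA_contDiffOn hU hF hgr ha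
    exact ⟨ha, hb, TC_wY_contDiffOn hU hF (hRj (j + 1)) ha hb⟩

theorem TC_ev2_sub (Y Z : T2C) (u v : E2) :
    ev2 (fun i j => Y i j - Z i j) u v = ev2 Y u v - ev2 Z u v := by
  simp only [ev2, mul_sub, Finset.sum_sub_distrib]

/-- the value of `wY` on `(v, v)` -/
theorem TC_ev2_wY {U : Set E2} (hU : IsOpen U) {F : E2 → V4} (hF : ContDiffOn ℝ ∞ F U)
    (R : E2 → T2C) (p : E2 → Fin 2 → ℂ) (A : E2 → C4) (v : E2) {x : E2} (hx : x ∈ U) :
    ev2 (wY F R p A x) v v = ev2 (R x) v v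
      - (2 * (∑ k, ∑ l, ((co v k * co v l : ℝ) : ℂ) * pd l (fun y => p y k) x)
        - 2 * cdot (ddv v F x) (A x)) := by
  rw [ddv_eq_sum hU hF v hx]
  simp only [TC_cdot_sum_left, TC_cdot_smul_left]
  simp only [ev2, wY, Fin.sum_univ_two]
  push_cast
  ring

include hU hF hζ hgr hR hRs hA0 h1 h2 in
theorem wkb_spec (j : ℕ) : ∀ x ∈ U, (∀ i, cdot (pd i F x) ((wkb F ζ R A0 j).2 x) =
      (wkb F ζ R A0 j).1 x i) ∧ (∀ k l, wkbY F ζ R A0 j x k l = wkbY F ζ R A0 j x l k) ∧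
    ev2 (wkbY F ζ R A0 j x) (perp ζ) (perp ζ) = 0 ∧
    ∀ k l, wkbY F ζ R A0 j x k l = Complex.I * (co ζ l * (wkb F ζ R A0 (j + 1)).1 x k
      + co ζ k * (wkb F ζ R A0 (j + 1)).1 x l) := by
  intro x hx
  have hs : ∀ k l, wkbY F ζ R A0 j x k l = wkbY F ζ R A0 j x l k := by
    intro k l
    simp only [wkbY, wY]
    rw [pd_comm hU hF k l hx]
    have hR' : (if j = 0 then R else fun _ _ _ => 0) x k l =
        (if j = 0 then R else fun _ _ _ => 0) x l k := by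
      split_ifs
      · exact hRs x hx k l
      · rfl
    rw [hR']
    ring
  have ha : ∀ i, cdot (pd i F x) ((wkb F ζ R A0 j).2 x) = (wkb F ζ R A0 j).1 x i := by
    cases j with
    | zero => exact fun i => h1 x hx i
    | succ j => exact (TC_wA_spec (hgr x hx) _).1
  have hv : ev2 (wkbY F ζ R A0 j x) (perp ζ) (perp ζ) = 0 := by
    rw [wkbY, TC_ev2_wY hU hF _ _ _ _ hx]
    cases j with
    | zero =>
      have h3 : cdot (ddv (perp ζ) F x) ((wkb F ζ R A0 0).2 x) =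
        -ev2 (R x) (perp ζ) (perp ζ) / 2 := h2 x hx
      rw [h3]
      have h4 : ∀ k l, pd l (fun y => (wkb F ζ R A0 0).1 y k) x = 0 := by
        intro k l
        change pd l (fun _ => (0 : ℂ)) x = 0
        simp [pd]
      simp only [h4, if_true, mul_zero, Finset.sum_const_zero]
      ring
    | succ j =>
      have h3 : cdot (ddv (perp ζ) F x) ((wkb F ζ R A0 (j + 1)).2 x) = _ :=
        (TC_wA_spec (hgr x hx) (wkb F ζ R A0 (j + 1)).1).2
      rw [h3]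
      simp [ev2]
  exact ⟨ha, hs, hv, fun k l => TC_tensor hζ (wkbY F ζ R A0 j) x (hs 1 0) hv k l⟩

theorem TC_pd_sum {V : Type} [NormedAddCommGroup V] [NormedSpace ℝ V] {κ : Type} (t : Finset κ)
    {u : κ → E2 → V} {x : E2} (h : ∀ k ∈ t, DifferentiableAt ℝ (u k) x) (i : Fin 2) :
    pd i (fun y => ∑ k ∈ t, u k y) x = ∑ k ∈ t, pd i (u k) x := by
  have := HasFDerivAt.fun_sum fun k hk => (h k hk).hasFDerivAt
  rw [TC_pd_hasFDerivAt this i]
  simp [pd]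

theorem TC_pd_smul {V : Type} [NormedAddCommGroup V] [NormedSpace ℝ V]
    {u : E2 → V} {x : E2} (h : DifferentiableAt ℝ u x) (r : ℝ) (i : Fin 2) :
    pd i (fun y => r • u y) x = r • pd i u x := by
  have := h.hasFDerivAt.const_smul r
  have h2 : HasFDerivAt (fun y => r • u y) (r • fderiv ℝ u x) x := this
  rw [TC_pd_hasFDerivAt h2 i]
  simp [pd]

include hU hF hζ hgr hR hRs hA0 h1 h2 in
theorem wkb_main {J : ℕ} (hJ : 1 ≤ J) {e : ℝ} (he : 0 < e) : ∀ x ∈ U, ∀ i j,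
    linF F (osc (wsum F ζ R A0 J e) ζ e) x i j =
      (Complex.exp (((ph ζ x / e : ℝ) : ℂ) * Complex.I) *
        (R x i j - ((e ^ J : ℝ) : ℂ) * wkbY F ζ R A0 J x i j)).re := by
  intro x hx i j
  have hsm := fun m => wkb_smooth hU hF hgr hR hA0 m (ζ := ζ)
  have hsp := fun m => wkb_spec hU hF hζ hgr hR hRs hA0 h1 h2 m
  have hA : ContDiffOn ℝ ∞ (wsum F ζ R A0 J e) U := by
    unfold wsum
    refine ContDiffOn.sum fun m _ => ?_
    have h3 : ContDiffOn ℝ ∞ (fun _ : E2 => (e ^ m : ℝ)) U := contDiffOn_const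
    exact h3.smul (hsm m).2.1
  have hc : ∀ (a : V4) (y : E2), cdot a (wsum F ζ R A0 J e y) =
      ∑ m ∈ Finset.range (J + 1), (e ^ m : ℝ) • cdot a ((wkb F ζ R A0 m).2 y) := by
    intro a y
    rw [wsum, TC_cdot_sum]
    refine Finset.sum_congr rfl fun m _ => ?_
    have h3 : ((e ^ m : ℝ) • (wkb F ζ R A0 m).2 y) = (((e ^ m : ℝ) : ℂ)) • (wkb F ζ R A0 m).2 y := by
      ext k
      simp
    rw [h3, cdot_smul, Complex.real_smul]
  have hp : ∀ i, ∀ y ∈ U, cdot (pd i F y) (wsum F ζ R A0 J e y) =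
      ∑ m ∈ Finset.range (J + 1), (e ^ m : ℝ) • (wkb F ζ R A0 m).1 y i := by
    intro i y hy
    rw [hc]
    exact Finset.sum_congr rfl fun m _ => by rw [(hsp m y hy).1 i]
  have hpc : ∀ m (i : Fin 2), DifferentiableAt ℝ (fun y => (wkb F ζ R A0 m).1 y i) x := fun m i =>
    TC_diffAt hU (contDiffOn_pi.1 (hsm m).1 i) hx
  have hpd : ∀ i j, pd j (fun y => cdot (pd i F y) (wsum F ζ R A0 J e y)) x =
      ∑ m ∈ Finset.range (J + 1), (e ^ m : ℝ) • pd j (fun y => (wkb F ζ R A0 m).1 y i) x := by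
    intro i j
    rw [pd_congr hU (hp i) j hx,
      TC_pd_sum (u := fun m y => (e ^ m : ℝ) • (wkb F ζ R A0 m).1 y i) _
        (fun m _ => (hpc m i).const_smul (e ^ m))]
    exact Finset.sum_congr rfl fun m _ => TC_pd_smul (hpc m i) _ _
  rw [linF_osc hU hF hA ζ he i j hx, hpd, hpd, hc, hp i x hx, hp j x hx]
  congr 2
  -- the telescoping sum
  have hY : ∀ m, pd j (fun y => (wkb F ζ R A0 m).1 y i) x + pd i (fun y => (wkb F ζ R A0 m).1 y j) x
      - 2 * cdot (pd i (pd j F) x) ((wkb F ζ R A0 m).2 x) =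
      (if m = 0 then R x i j else 0) - wkbY F ζ R A0 m x i j := by
    intro m
    simp only [wkbY, wY]
    split_ifs <;> ring
  have hg : ∀ n : ℕ, (∑ m ∈ Finset.range (n + 1), ((e ^ m : ℝ) : ℂ) *
      (pd j (fun y => (wkb F ζ R A0 m).1 y i) x + pd i (fun y => (wkb F ζ R A0 m).1 y j) x
      - 2 * cdot (pd i (pd j F) x) ((wkb F ζ R A0 m).2 x)))
      + ((e⁻¹ : ℝ) : ℂ) * (∑ m ∈ Finset.range (n + 1), ((e ^ m : ℝ) : ℂ) *
        (Complex.I * (co ζ j * (wkb F ζ R A0 m).1 x i + co ζ i * (wkb F ζ R A0 m).1 x j)))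
      = R x i j - ((e ^ n : ℝ) : ℂ) * wkbY F ζ R A0 n x i j := by
    intro n
    induction n with
    | zero =>
      rw [zero_add, Finset.sum_range_one, Finset.sum_range_one, hY]
      have h3 : ∀ k, (wkb F ζ R A0 0).1 x k = 0 := fun _ => rfl
      simp [h3]
    | succ n ih =>
      rw [Finset.sum_range_succ, Finset.sum_range_succ _ (n + 1), hY (n + 1), mul_add,
        ← (hsp n x hx).2.2.2 i j, if_neg (Nat.succ_ne_zero n)]
      have h4 : ((e⁻¹ : ℝ) : ℂ) * (((e ^ (n + 1) : ℝ) : ℂ) * wkbY F ζ R A0 n x i j) =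
          ((e ^ n : ℝ) : ℂ) * wkbY F ζ R A0 n x i j := by
        have h5 : (e : ℂ) ≠ 0 := by exact_mod_cast he.ne'
        push_cast
        field_simp
        ring
      rw [h4]
      linear_combination ih
  rw [← hg J]
  simp only [Complex.real_smul, Finset.mul_sum, mul_add, mul_sub, Finset.sum_add_distrib,
    Finset.sum_sub_distrib]
  have e1 : ∀ f g : ℕ → ℂ, (∀ m, f m = g m) → ∑ m ∈ Finset.range (J + 1), f m =
      ∑ m ∈ Finset.range (J + 1), g m := fun f g h => Finset.sum_congr rfl fun m _ => h m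
  congr 1
  · congr 1
    exact e1 _ _ fun m => by ring
  · rw [← Finset.sum_add_distrib, ← Finset.sum_add_distrib]
    exact e1 _ _ fun m => by ring

end wkb

/-- supports -/
theorem wkb_support {O : Set E2} (hO : IsOpen O) (F : E2 → V4) (ζ : E2) {R : E2 → T2C}
    {A0 : E2 → C4} (hR : ∀ x ∈ O, R x = 0) (hA0 : ∀ x ∈ O, A0 x = 0) (j : ℕ) : ∀ x ∈ O,
    (wkb F ζ R A0 j).1 x = 0 ∧ (wkb F ζ R A0 j).2 x = 0 ∧ wkbY F ζ R A0 j x = 0 := by
  have hpd : ∀ {u : E2 → ℂ}, (∀ x ∈ O, u x = 0) → ∀ i, ∀ x ∈ O, pd i u x = 0 := by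
    intro u hu i x hx
    have h := pd_congr (u := fun _ : E2 => (0 : ℂ)) (u' := u) hO (fun y hy => hu y hy) i hx
    rw [h]
    simp [pd]
  have hY : ∀ (R' : E2 → T2C) (p : E2 → Fin 2 → ℂ) (A : E2 → C4), (∀ x ∈ O, R' x = 0) →
      (∀ x ∈ O, p x = 0) → (∀ x ∈ O, A x = 0) → ∀ x ∈ O, wY F R' p A x = 0 := by
    intro R' p A hR' hp hA x hx
    funext i j
    have h1 : ∀ k l, pd l (fun y => p y k) x = 0 := fun k l =>
      hpd (fun y hy => by rw [hp y hy]; rfl) l x hx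
    simp only [wY, h1, hA x hx, hR' x hx, TC_cdot_zero]
    simp
  have hR'' : ∀ j : ℕ, ∀ x ∈ O, (if j = 0 then R else fun _ _ _ => 0) x = 0 := by
    intro j x hx
    split_ifs
    · exact hR x hx
    · rfl
  induction j with
  | zero =>
    intro x hx
    refine ⟨rfl, hA0 x hx, ?_⟩
    exact hY _ _ _ (hR'' 0) (fun _ _ => rfl) hA0 x hx
  | succ j ih =>
    have hp : ∀ x ∈ O, (wkb F ζ R A0 (j + 1)).1 x = 0 := by
      intro x hx
      change wP ζ (wkbY F ζ R A0 j) x = 0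
      funext i
      simp [wP, (ih x hx).2.2, ev2]
    have hA : ∀ x ∈ O, (wkb F ζ R A0 (j + 1)).2 x = 0 := by
      intro x hx
      change wA F ζ (wkb F ζ R A0 (j + 1)).1 x = 0
      have h1 : ∀ k l, pd l (fun y => (wkb F ζ R A0 (j + 1)).1 y k) x = 0 := fun k l =>
        hpd (fun y hy => by rw [hp y hy]; rfl) l x hx
      simp only [wA, hp x hx, h1]
      simp
    exact fun x hx => ⟨hp x hx, hA x hx, hY _ _ _ (hR'' (j + 1)) hp hA x hx⟩

/-- the inhomogeneous start satisfies the two conditions -/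
theorem lsA_spec {U : Set E2} {F : E2 → V4} {ζ : E2}
    (hgr : ∀ x ∈ U, 0 < gram3 (pd 0 F x) (pd 1 F x) (ddv (perp ζ) F x)) (R : E2 → T2C) :
    ∀ x ∈ U, (∀ i, cdot (pd i F x) (lsA F ζ R x) = 0) ∧
      cdot (ddv (perp ζ) F x) (lsA F ζ R x) = -ev2 (R x) (perp ζ) (perp ζ) / 2 := by
  intro x hx
  have g2 : gram3 (ddv (perp ζ) F x) (pd 0 F x) (pd 1 F x) ≠ 0 := by
    rw [gram3_rot]; exact (hgr x hx).ne'
  constructor
  · intro i
    rw [lsA, cdot_smul, cdot_toC]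
    fin_cases i
    · change _ * ((inner ℝ (pd 0 F x) (dual (ddv (perp ζ) F x) (pd 0 F x) (pd 1 F x)) : ℝ) : ℂ) = 0
      rw [real_inner_comm (dual (ddv (perp ζ) F x) (pd 0 F x) (pd 1 F x)), inner_dual_snd]
      simp
    · change _ * ((inner ℝ (pd 1 F x) (dual (ddv (perp ζ) F x) (pd 0 F x) (pd 1 F x)) : ℝ) : ℂ) = 0
      rw [real_inner_comm (dual (ddv (perp ζ) F x) (pd 0 F x) (pd 1 F x)), inner_dual_thd]
      simp
  · rw [lsA, cdot_smul, cdot_toC,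
      real_inner_comm (dual (ddv (perp ζ) F x) (pd 0 F x) (pd 1 F x)), inner_dual_fst _ _ _ g2]
    simp

/-- the kernel start satisfies the two conditions -/
theorem keA_spec (F : E2 → V4) (ζ : E2) (α : E2 → ℝ) (x : E2) :
    (∀ i, cdot (pd i F x) (keA F ζ α x) = 0) ∧
      cdot (ddv (perp ζ) F x) (keA F ζ α x) = -ev2 (fun _ _ => 0) (perp ζ) (perp ζ) / 2 := by
  constructor
  · intro i
    rw [keA, cdot_smul, cdot_toC]
    fin_cases i
    · change _ * ((inner ℝ (pd 0 F x) (nor (pd 0 F x) (pd 1 F x) (ddv (perp ζ) F x)) : ℝ) : ℂ) = 0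
      rw [real_inner_comm, inner_nor_fst]
      simp
    · change _ * ((inner ℝ (pd 1 F x) (nor (pd 0 F x) (pd 1 F x) (ddv (perp ζ) F x)) : ℝ) : ℂ) = 0
      rw [real_inner_comm, inner_nor_snd]
      simp
  · rw [keA, cdot_smul, cdot_toC, real_inner_comm, inner_nor_thd]
    simp [ev2]

end P205F

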