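import Mathlib
import Vale.Agent.Lib.P205F.KB
import Vale.Agent.Lib.P205F.KC
import Vale.Agent.Lib.P205F.TA

/-! # P205F module TB: bounds for dual vectors, normals, partial derivatives, phases -/

open scoped ContDiff Topology
open Set

namespace P205F

variable {ι : Type} {S : Setting ι E2} {W W' : ι → E2 → ℝ}

theorem Bd.restrict {ι E V : Type} [NormedAddCommGroup E] [NormedSpace ℝ E]
    [NormedAddCommGroup V] [NormedSpace ℝ V] {S : Setting ι E} {W : ι → E → ℝ} {u : ι → E → V}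
    (P : ι → Prop) (h : Bd S W u) : Bd (S.restrict P) W u := by
  refine ⟨fun i => (h.1 i).mono (fun x hx => hx.1), fun r => ?_⟩
  obtain ⟨g, hg, h1⟩ := h.2 r
  exact ⟨g, hg, fun i x hx => h1 i x hx.1⟩

theorem Bd.pd {V : Type} [NormedAddCommGroup V] [NormedSpace ℝ V] {u : ι → E2 → V}
    (hu : Bd S W u) (k : Fin 2) :
    Bd S (fun i x => W i x * (S.s i)⁻¹) (fun i x => P205F.pd k (u i) x) :=
  Bd.dir (S.G.const 1 le_rfl) (fun _ => bv k) (fun _ => norm_bv_le k) hu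

/-- first derivatives, when the total derivative is bounded by `W` -/
theorem Bd.pd' {V : Type} [NormedAddCommGroup V] [NormedSpace ℝ V] {u : ι → E2 → V}
    (hu : Bd S W (fun i x => _root_.fderiv ℝ (u i) x)) (k : Fin 2) :
    Bd S W (fun i x => P205F.pd k (u i) x) :=
  Bd.clm (ContinuousLinearMap.apply ℝ V (bv k)) hu

private theorem TB_apply_norm {V V' : Type} [NormedAddCommGroup V] [NormedSpace ℝ V]
    [NormedAddCommGroup V'] [NormedSpace ℝ V'] (a : V) :
    ‖ContinuousLinearMap.apply ℝ V' a‖ ≤ ‖a‖ := by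
  refine ContinuousLinearMap.opNorm_le_bound _ (norm_nonneg _) fun L => ?_
  rw [ContinuousLinearMap.apply_apply, mul_comm]
  exact L.le_opNorm a

private theorem TB_fderiv2 {V : Type} [NormedAddCommGroup V] [NormedSpace ℝ V] {U : Set E2}
    (hU : IsOpen U) {u : E2 → V} (hs : ContDiffOn ℝ ∞ u U) (v w : E2) {x : E2} (hx : x ∈ U) :
    _root_.fderiv ℝ (fun y => _root_.fderiv ℝ u y v) x w
      = (_root_.fderiv ℝ (fun y => _root_.fderiv ℝ u y) x w) v := by
  have h1 : ContDiffOn ℝ ∞ (fun y => _root_.fderiv ℝ u y) U :=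
    hs.fderiv_of_isOpen hU (by norm_cast)
  have h2 : DifferentiableAt ℝ (fun y => _root_.fderiv ℝ u y) x :=
    (h1.contDiffAt (hU.mem_nhds hx)).differentiableAt (by simp)
  have h3 : HasFDerivAt (fun y => _root_.fderiv ℝ u y v)
      ((ContinuousLinearMap.apply ℝ V v).comp (_root_.fderiv ℝ (fun y => _root_.fderiv ℝ u y) x))
      x := (ContinuousLinearMap.apply ℝ V v).hasFDerivAt.comp x h2.hasFDerivAt
  rw [h3.fderiv]
  rfl

theorem Bd.pdpd' {V : Type} [NormedAddCommGroup V] [NormedSpace ℝ V] {u : ι → E2 → V}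
    (hs : ∀ i, ContDiffOn ℝ ∞ (u i) (S.U i))
    (hu : Bd S W (fun i x => _root_.fderiv ℝ (fun y => _root_.fderiv ℝ (u i) y) x)) (k l : Fin 2) :
    Bd S W (fun i x => P205F.pd k (P205F.pd l (u i)) x) := by
  refine (Bd.clm ((ContinuousLinearMap.apply ℝ V (bv l)).comp
    (ContinuousLinearMap.apply ℝ (E2 →L[ℝ] V) (bv k))) hu).congr fun i x hx => ?_
  exact TB_fderiv2 (S.isOpen i) (hs i) (bv l) (bv k) hx

theorem Bd.ddv' {V : Type} [NormedAddCommGroup V] [NormedSpace ℝ V] {u : ι → E2 → V}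
    (hs : ∀ i, ContDiffOn ℝ ∞ (u i) (S.U i))
    (hu : Bd S W (fun i x => _root_.fderiv ℝ (fun y => _root_.fderiv ℝ (u i) y) x)) {g : ι → ℝ}
    (hg : g ∈ S.G.mem) (v : ι → E2) (hv : ∀ i, ‖v i‖ ≤ g i) :
    Bd S W (fun i x => P205F.ddv (v i) (u i) x) := by
  refine (Bd.clmFam (S.G.mul g hg g hg) (fun i => (ContinuousLinearMap.apply ℝ V (v i)).comp
    (ContinuousLinearMap.apply ℝ (E2 →L[ℝ] V) (v i))) (fun i => ?_) hu).congr fun i x hx => ?_
  · refine (ContinuousLinearMap.opNorm_comp_le _ _).trans ?_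
    have h0 : 0 ≤ g i := (norm_nonneg _).trans (hv i)
    exact mul_le_mul ((TB_apply_norm (v i)).trans (hv i)) ((TB_apply_norm (v i)).trans (hv i))
      (norm_nonneg _) h0
  · exact TB_fderiv2 (S.isOpen i) (hs i) (v i) (v i) hx

private theorem TB_mul1 {u v : ι → E2 → ℝ} (hu : Bd S (fun _ _ => 1) u)
    (hv : Bd S (fun _ _ => 1) v) : Bd S (fun _ _ => 1) (fun i x => u i x * v i x) := by
  simpa using hu.mul hv

private theorem TB_smul1 {V : Type} [NormedAddCommGroup V] [NormedSpace ℝ V] {u : ι → E2 → ℝ}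
    {v : ι → E2 → V} (hu : Bd S (fun _ _ => 1) u)
    (hv : Bd S (fun _ _ => 1) v) : Bd S (fun _ _ => 1) (fun i x => u i x • v i x) := by
  simpa using hu.smul hv

private theorem TB_inner1 {u v : ι → E2 → V4} (hu : Bd S (fun _ _ => 1) u)
    (hv : Bd S (fun _ _ => 1) v) : Bd S (fun _ _ => 1) (fun i x => inner ℝ (u i x) (v i x)) := by
  simpa using hu.inner hv

private theorem TB_sq1 {u : ι → E2 → ℝ} (hu : Bd S (fun _ _ => 1) u) :
    Bd S (fun _ _ => 1) (fun i x => u i x ^ 2) := by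
  simpa using hu.pow 2

theorem Bd.gram3 {a b c : ι → E2 → V4} (ha : Bd S (fun _ _ => 1) a) (hb : Bd S (fun _ _ => 1) b)
    (hc : Bd S (fun _ _ => 1) c) :
    Bd S (fun _ _ => 1) (fun i x => P205F.gram3 (a i x) (b i x) (c i x)) := by
  have haa := TB_inner1 ha ha
  have hab := TB_inner1 ha hb
  have hac := TB_inner1 ha hc
  have hbb := TB_inner1 hb hb
  have hbc := TB_inner1 hb hc
  have hcc := TB_inner1 hc hc
  exact ((TB_mul1 haa ((TB_mul1 hbb hcc).sub (TB_sq1 hbc))).sub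
    (TB_mul1 hab ((TB_mul1 hab hcc).sub (TB_mul1 hbc hac)))).add
    (TB_mul1 hac ((TB_mul1 hab hbc).sub (TB_mul1 hbb hac)))

theorem Bd.dual {a b c : ι → E2 → V4} (ha : Bd S (fun _ _ => 1) a) (hb : Bd S (fun _ _ => 1) b)
    (hc : Bd S (fun _ _ => 1) c) {g : ι → ℝ} (hg : g ∈ S.G.mem)
    (h : ∀ i, ∀ x ∈ S.U i, 1 ≤ g i * P205F.gram3 (a i x) (b i x) (c i x)) :
    Bd S (fun _ _ => 1) (fun i x => P205F.dual (a i x) (b i x) (c i x)) := by
  have hab := TB_inner1 ha hb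
  have hac := TB_inner1 ha hc
  have hbb := TB_inner1 hb hb
  have hbc := TB_inner1 hb hc
  have hcc := TB_inner1 hc hc
  have hinv : Bd S (fun _ _ => 1) (fun i x => (P205F.gram3 (a i x) (b i x) (c i x))⁻¹) := by
    have h1 := Bd.inv (W := fun _ _ => (1 : ℝ)) hg (Bd.gram3 ha hb hc)
      (fun _ _ _ => one_pos) (fun i x hx => ?_)
    · simpa using h1
    · have h2 := h i x hx
      have h3 := S.G.one_le g hg i
      exact h2.trans (mul_le_mul_of_nonneg_left (le_abs_self _) (by linarith))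
  exact TB_smul1 hinv (((TB_smul1 ((TB_mul1 hbb hcc).sub (TB_sq1 hbc)) ha).sub
    (TB_smul1 ((TB_mul1 hab hcc).sub (TB_mul1 hac hbc)) hb)).add
    (TB_smul1 ((TB_mul1 hab hbc).sub (TB_mul1 hac hbb)) hc))

private theorem TB_comp {a : ι → E2 → V4} (ha : Bd S W a) (k : Fin 4) :
    Bd S W (fun i x => a i x k) :=
  Bd.clm (EuclideanSpace.proj (𝕜 := ℝ) k) ha

private theorem TB_vec {f : ι → E2 → (Fin 4 → ℝ)} (hf : ∀ k, Bd S W (fun i x => f i x k)) :
    Bd S W (fun i x => (WithLp.toLp 2 (f i x) : V4)) :=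
  Bd.clm ((EuclideanSpace.equiv (Fin 4) ℝ).symm : (Fin 4 → ℝ) →L[ℝ] V4) (Bd.pi.2 hf)

private theorem TB_minor {a b c : ι → E2 → V4} (ha : Bd S (fun _ _ => 1) a)
    (hb : Bd S (fun _ _ => 1) b) (hc : Bd S (fun _ _ => 1) c) (p q r : Fin 4) :
    Bd S (fun _ _ => 1) (fun i x => minor3 (a i x) (b i x) (c i x) p q r) :=
  ((TB_mul1 (TB_comp ha p) ((TB_mul1 (TB_comp hb q) (TB_comp hc r)).sub
      (TB_mul1 (TB_comp hb r) (TB_comp hc q)))).sub
    (TB_mul1 (TB_comp ha q) ((TB_mul1 (TB_comp hb p) (TB_comp hc r)).sub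
      (TB_mul1 (TB_comp hb r) (TB_comp hc p))))).add
    (TB_mul1 (TB_comp ha r) ((TB_mul1 (TB_comp hb p) (TB_comp hc q)).sub
      (TB_mul1 (TB_comp hb q) (TB_comp hc p))))

private theorem TB_cr3 {a b c : ι → E2 → V4} (ha : Bd S (fun _ _ => 1) a)
    (hb : Bd S (fun _ _ => 1) b) (hc : Bd S (fun _ _ => 1) c) :
    Bd S (fun _ _ => 1) (fun i x => cr3 (a i x) (b i x) (c i x)) := by
  refine TB_vec (f := fun i x => ![minor3 (a i x) (b i x) (c i x) 1 2 3,
    -minor3 (a i x) (b i x) (c i x) 0 2 3, minor3 (a i x) (b i x) (c i x) 0 1 3,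
    -minor3 (a i x) (b i x) (c i x) 0 1 2]) fun k => ?_
  fin_cases k
  · exact TB_minor ha hb hc 1 2 3
  · exact (TB_minor ha hb hc 0 2 3).neg
  · exact TB_minor ha hb hc 0 1 3
  · exact (TB_minor ha hb hc 0 1 2).neg

theorem Bd.nor {a b c : ι → E2 → V4} (ha : Bd S (fun _ _ => 1) a) (hb : Bd S (fun _ _ => 1) b)
    (hc : Bd S (fun _ _ => 1) c) {g : ι → ℝ} (hg : g ∈ S.G.mem)
    (h : ∀ i, ∀ x ∈ S.U i, 1 ≤ g i * P205F.gram3 (a i x) (b i x) (c i x)) :
    Bd S (fun _ _ => 1) (fun i x => P205F.nor (a i x) (b i x) (c i x)) := by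
  have hsq : Bd S (fun _ _ => 1) (fun i x => Real.sqrt (P205F.gram3 (a i x) (b i x) (c i x))) := by
    have h1 := Bd.sqrt (W := fun _ _ => (1 : ℝ)) hg (Bd.gram3 ha hb hc)
      (fun _ _ _ => one_pos) h
    simpa using h1
  have hinv : Bd S (fun _ _ => 1)
      (fun i x => (Real.sqrt (P205F.gram3 (a i x) (b i x) (c i x)))⁻¹) := by
    have h1 := Bd.inv (W := fun _ _ => (1 : ℝ)) hg hsq
      (fun _ _ _ => one_pos) (fun i x hx => ?_)
    · simpa using h1
    · have h2 := h i x hx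
      have h3 := S.G.one_le g hg i
      have h4 : 0 ≤ P205F.gram3 (a i x) (b i x) (c i x) := by
        by_contra hcon
        push Not at hcon
        nlinarith
      rw [abs_of_nonneg (Real.sqrt_nonneg _)]
      have h5 := Real.sq_sqrt h4
      have h6 := Real.sqrt_nonneg (P205F.gram3 (a i x) (b i x) (c i x))
      have h7 : 0 ≤ g i * Real.sqrt (P205F.gram3 (a i x) (b i x) (c i x)) :=
        mul_nonneg (by linarith) h6
      by_contra hcon
      push Not at hcon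
      have h8 : (g i * Real.sqrt (P205F.gram3 (a i x) (b i x) (c i x))) ^ 2 < 1 := by
        nlinarith
      have h9 : (g i * Real.sqrt (P205F.gram3 (a i x) (b i x) (c i x))) ^ 2
          = g i * (g i * P205F.gram3 (a i x) (b i x) (c i x)) := by
        rw [mul_pow, h5]; ring
      nlinarith
  exact TB_smul1 hinv (TB_cr3 ha hb hc)

private theorem TB_toC_comp {a : ι → E2 → V4} (ha : Bd S W a) (k : Fin 4) :
    Bd S W (fun i x => ((a i x k : ℝ) : ℂ)) :=
  Bd.clm Complex.ofRealCLM (TB_comp ha k)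

theorem Bd.toC {a : ι → E2 → V4} (ha : Bd S W a) : Bd S W (fun i x => P205F.toC (a i x)) :=
  Bd.pi.2 fun k => TB_toC_comp ha k

theorem Bd.reV {A : ι → E2 → C4} (hA : Bd S W A) : Bd S W (fun i x => P205F.reV (A i x)) := by
  have h0 : ∀ k, Bd S W (fun i x => (A i x k).re) := fun k =>
    Bd.clm Complex.reCLM (Bd.pi.1 hA k)
  refine TB_vec (f := fun i x => ![(A i x 0).re, (A i x 1).re, (A i x 2).re, (A i x 3).re])
    fun k => ?_
  fin_cases k
  · exact h0 0
  · exact h0 1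
  · exact h0 2
  · exact h0 3

theorem Bd.cdot {a : ι → E2 → V4} {A : ι → E2 → C4} (ha : Bd S W a) (hA : Bd S W' A) :
    Bd S (fun i x => W i x * W' i x) (fun i x => P205F.cdot (a i x) (A i x)) :=
  Bd.sum Finset.univ (f := fun k i x => ((a i x k : ℝ) : ℂ) * A i x k)
    (fun i _ hx => mul_nonneg (ha.nonneg i hx) (hA.nonneg i hx))
    (fun k _ => (TB_toC_comp ha k).mulC (Bd.pi.1 hA k))

theorem Bd.cdot2 {A B : ι → E2 → C4} (hA : Bd S W A) (hB : Bd S W' B) :
    Bd S (fun i x => W i x * W' i x) (fun i x => P205F.cdot2 (A i x) (B i x)) :=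
  Bd.sum Finset.univ (f := fun k i x => A i x k * B i x k)
    (fun i _ hx => mul_nonneg (hA.nonneg i hx) (hB.nonneg i hx))
    (fun k _ => (Bd.pi.1 hA k).mulC (Bd.pi.1 hB k))

private theorem TB_co_le (v : E2) (k : Fin 2) : |co v k| ≤ ‖v‖ := by
  unfold co
  split_ifs
  · exact norm_fst_le v
  · exact norm_snd_le v

/-- evaluation of complex tensors at bounded vectors -/
theorem Bd.ev2 {Y : ι → E2 → T2C} (hY : Bd S W Y) {g : ι → ℝ} (hg : g ∈ S.G.mem) (u v : ι → E2)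
    (hu : ∀ i, ‖u i‖ ≤ g i) (hv : ∀ i, ‖v i‖ ≤ g i) :
    Bd S W (fun i x => P205F.ev2 (Y i x) (u i) (v i)) := by
  have hW : ∀ i, ∀ x ∈ S.U i, 0 ≤ W i x := fun i x hx => hY.nonneg i hx
  refine Bd.sum Finset.univ (f := fun k i x => ∑ l, ((co (u i) k * co (v i) l : ℝ) : ℂ) * Y i x k l)
    hW (fun k _ => ?_)
  refine Bd.sum Finset.univ (f := fun l i x => ((co (u i) k * co (v i) l : ℝ) : ℂ) * Y i x k l)
    hW (fun l _ => ?_)
  have h1 : Bd S W (fun i x => Y i x k l) := Bd.pi.1 (Bd.pi.1 hY k) l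
  refine (h1.constSmul (S.G.mul g hg g hg) (fun i => co (u i) k * co (v i) l)
    (fun i => ?_)).congr (fun i x _ => ?_)
  · rw [abs_mul]
    have h0 : 0 ≤ g i := (norm_nonneg _).trans (hu i)
    exact mul_le_mul ((TB_co_le _ _).trans (hu i)) ((TB_co_le _ _).trans (hv i)) (abs_nonneg _) h0
  · rw [Complex.real_smul]

end P205F
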