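import Mathlib
import Vale.Agent.Lib.P205F.KE
import Vale.Agent.Lib.P205F.TB

/-! # P205F module TD: the WKB recursion, bounds -/

open scoped ContDiff Topology
open Set

namespace P205F

section TDaux

private theorem TD_co_le {g : ℝ} {ζ : E2} (h : ‖ζ‖ ≤ g) (i : Fin 2) : |co ζ i| ≤ g := by
  have h1 : ‖ζ.1‖ ≤ g := (norm_fst_le ζ).trans h
  have h2 : ‖ζ.2‖ ≤ g := (norm_snd_le ζ).trans h
  rw [Real.norm_eq_abs] at h1 h2
  unfold co
  split_ifs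
  · exact h1
  · exact h2

private theorem TD_perp_le {g : ℝ} {ζ : E2} (h : ‖ζ‖ ≤ g) : ‖perp ζ‖ ≤ g := by
  have h1 : ‖ζ.1‖ ≤ g := (norm_fst_le ζ).trans h
  have h2 : ‖ζ.2‖ ≤ g := (norm_snd_le ζ).trans h
  rw [Prod.norm_def]
  refine max_le ?_ h1
  show ‖-ζ.2‖ ≤ g
  rw [norm_neg]
  exact h2

private theorem TD_nsq_inv {g : ℝ} (hg : 1 ≤ g) {ζ : E2} (h : 1 ≤ g * nsq ζ) :
    |(nsq ζ)⁻¹| ≤ g := by
  have h0 : 0 ≤ nsq ζ := by unfold nsq; positivity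
  have hpos : 0 < nsq ζ := by
    rcases h0.eq_or_lt with h1 | h1
    · rw [← h1, mul_zero] at h
      linarith
    · exact h1
  rw [abs_of_pos (inv_pos.mpr hpos), inv_le_iff_one_le_mul₀ hpos]
  exact h

private theorem TD_dl_le {g : ℝ} (hg : 1 ≤ g) {ζ : E2} (h1 : ‖ζ‖ ≤ g) (h : 1 ≤ g * nsq ζ) :
    ‖dl ζ‖ ≤ g * g := by
  have h3 : ‖ζ.1‖ ≤ g := (norm_fst_le ζ).trans h1
  have h2 : ‖ζ.2‖ ≤ g := (norm_snd_le ζ).trans h1
  have h4 := TD_nsq_inv hg h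
  rw [Prod.norm_def]
  refine max_le ?_ ?_
  · show ‖ζ.1 / nsq ζ‖ ≤ g * g
    rw [div_eq_mul_inv, norm_mul]
    exact mul_le_mul h3 h4 (norm_nonneg _) (by linarith)
  · show ‖ζ.2 / nsq ζ‖ ≤ g * g
    rw [div_eq_mul_inv, norm_mul]
    exact mul_le_mul h2 h4 (norm_nonneg _) (by linarith)

private theorem TD_le_sq {g x : ℝ} (hg : 1 ≤ g) (h : x ≤ g) : x ≤ g * g :=
  h.trans (by nlinarith)

/-- multiplication by a fixed complex number -/
private theorem TD_mulConst {ι : Type} {S : Setting ι E2} {W : ι → E2 → ℝ} (z : ℂ)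
    {u : ι → E2 → ℂ} (hu : Bd S W u) : Bd S W (fun i x => u i x * z) :=
  (hu.clm ((ContinuousLinearMap.mul ℝ ℂ) z)).congr fun i x _ => by
    rw [ContinuousLinearMap.mul_apply', mul_comm]

/-- weights -/
private theorem TD_one_mul {ι V : Type} [NormedAddCommGroup V] [NormedSpace ℝ V]
    {S : Setting ι E2} {W : ι → E2 → ℝ} {u : ι → E2 → V} (h : Bd S (fun i x => 1 * W i x) u) :
    Bd S W u := h.mono (S.G.const 1 le_rfl) (fun _ _ _ => le_rfl)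

private theorem TD_mul_one {ι V : Type} [NormedAddCommGroup V] [NormedSpace ℝ V]
    {S : Setting ι E2} {W : ι → E2 → ℝ} {u : ι → E2 → V} (h : Bd S (fun i x => W i x * 1) u) :
    Bd S W u := h.mono (S.G.const 1 le_rfl) (fun i x _ => by rw [mul_one, one_mul])

/-- a larger power of the inverse scale -/
private theorem TD_scale {ι V : Type} [NormedAddCommGroup V] [NormedSpace ℝ V]
    {S : Setting ι E2} {W : ι → E2 → ℝ} {u : ι → E2 → V} (h : Bd S W u) :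
    Bd S (fun i x => W i x * (S.s i)⁻¹) u :=
  h.mono (S.G.const 1 le_rfl) (fun i x hx => by
    rw [one_mul]
    have h1 : 1 ≤ (S.s i)⁻¹ := (one_le_inv₀ (S.s_pos i)).mpr (S.s_le i)
    have h2 := h.nonneg i hx
    nlinarith)

variable {ι : Type} {S : Setting ι E2} {W : ι → E2 → ℝ} {g : ι → ℝ} (hg : g ∈ S.G.mem)
  {F : ι → E2 → V4} (hF : ∀ i, ContDiffOn ℝ ∞ (F i) (S.U i))
  (F1 : Bd S (fun _ _ => 1) (fun i x => fderiv ℝ (F i) x))
  (F2 : Bd S (fun _ _ => 1) (fun i x => fderiv ℝ (fun y => fderiv ℝ (F i) y) x))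
  {ζ : ι → E2} (hζ1 : ∀ i, ‖ζ i‖ ≤ g i) (hζ2 : ∀ i, 1 ≤ g i * nsq (ζ i))
  (hgr : ∀ i, ∀ x ∈ S.U i, 1 ≤ g i * gram3 (pd 0 (F i) x) (pd 1 (F i) x)
    (ddv (perp (ζ i)) (F i) x))

include hF F2 in
private theorem TD_wY {R : ι → E2 → T2C} (hR : Bd S W R) {p : ι → E2 → Fin 2 → ℂ}
    (hp : ∀ k l, Bd S W (fun i x => pd k (fun y => p i y l) x))
    {A : ι → E2 → C4} (hA : Bd S W A) :
    Bd S W (fun i => wY (F i) (R i) (p i) (A i)) := by
  refine Bd.pi.2 fun k => Bd.pi.2 fun l => ?_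
  have h1 : Bd S W (fun i x => R i x k l) := Bd.pi.1 (Bd.pi.1 hR k) l
  have h2 : Bd S W (fun i x => cdot (pd k (pd l (F i)) x) (A i x)) :=
    TD_one_mul (Bd.cdot (Bd.pdpd' hF F2 k l) hA)
  exact (h1.sub (((hp l k).add (hp k l)).sub (TD_mulConst 2 h2))).congr fun i x _ => by
    simp only [wY]
    ring

include hg hζ1 hζ2 in
private theorem TD_wP {Y : ι → E2 → T2C} (hY : Bd S W Y) :
    Bd S W (fun i => wP (ζ i) (Y i)) := by
  have hg1 : ∀ i, 1 ≤ g i := fun i => S.G.one_le g hg i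
  have hgg := S.G.mul g hg g hg
  refine Bd.pi.2 fun k => ?_
  have h1 := Bd.ev2 hY hgg (fun i => dl (ζ i)) (fun i => dl (ζ i))
    (fun i => TD_dl_le (hg1 i) (hζ1 i) (hζ2 i)) (fun i => TD_dl_le (hg1 i) (hζ1 i) (hζ2 i))
  have h2 := Bd.ev2 hY hgg (fun i => dl (ζ i)) (fun i => perp (ζ i))
    (fun i => TD_dl_le (hg1 i) (hζ1 i) (hζ2 i))
    (fun i => TD_le_sq (hg1 i) (TD_perp_le (hζ1 i)))
  have h3 := Bd.constSmul hg (fun i => co (ζ i) k) (fun i => TD_co_le (hζ1 i) k)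
    (TD_mulConst (2 * Complex.I)⁻¹ h1)
  have h4 := Bd.constSmul hgg (fun i => co (perp (ζ i)) k / nsq (ζ i)) (fun i => by
    rw [div_eq_mul_inv, abs_mul]
    exact mul_le_mul (TD_co_le (TD_perp_le (hζ1 i)) k) (TD_nsq_inv (hg1 i) (hζ2 i))
      (abs_nonneg _) (by linarith [hg1 i])) (TD_mulConst (Complex.I)⁻¹ h2)
  refine (h3.add h4).congr fun i x _ => ?_
  simp only [wP, Complex.real_smul, div_eq_mul_inv]
  ring

include hg hF F1 F2 hζ1 hgr in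
private theorem TD_dual0 : Bd S (fun _ _ => 1)
    (fun i x => toC (dual (pd 0 (F i) x) (pd 1 (F i) x) (ddv (perp (ζ i)) (F i) x))) :=
  Bd.toC (Bd.dual (Bd.pd' F1 0) (Bd.pd' F1 1)
    (Bd.ddv' hF F2 hg (fun i => perp (ζ i)) (fun i => TD_perp_le (hζ1 i))) hg hgr)

include hg hF F1 F2 hζ1 hgr in
private theorem TD_dual1 : Bd S (fun _ _ => 1)
    (fun i x => toC (dual (pd 1 (F i) x) (pd 0 (F i) x) (ddv (perp (ζ i)) (F i) x))) :=
  Bd.toC (Bd.dual (Bd.pd' F1 1) (Bd.pd' F1 0)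
    (Bd.ddv' hF F2 hg (fun i => perp (ζ i)) (fun i => TD_perp_le (hζ1 i))) hg
    (fun i x hx => by rw [gram3_swap]; exact hgr i x hx))

include hg hF F1 F2 hζ1 hgr in
private theorem TD_dual2 : Bd S (fun _ _ => 1)
    (fun i x => toC (dual (ddv (perp (ζ i)) (F i) x) (pd 0 (F i) x) (pd 1 (F i) x))) :=
  Bd.toC (Bd.dual (Bd.ddv' hF F2 hg (fun i => perp (ζ i)) (fun i => TD_perp_le (hζ1 i)))
    (Bd.pd' F1 0) (Bd.pd' F1 1) hg
    (fun i x hx => by rw [gram3_rot]; exact hgr i x hx))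

include hg hF F1 F2 hζ1 hgr in
private theorem TD_wA {p : ι → E2 → Fin 2 → ℂ} (hp : Bd S W p) :
    Bd S (fun i x => W i x * (S.s i)⁻¹) (fun i => wA (F i) (ζ i) (p i)) := by
  have hgg := S.G.mul g hg g hg
  have hg1 : ∀ i, 1 ≤ g i := fun i => S.G.one_le g hg i
  have a0 := TD_scale (TD_mul_one (Bd.smulC (Bd.pi.1 hp 0) (TD_dual0 hg hF F1 F2 hζ1 hgr)))
  have a1 := TD_scale (TD_mul_one (Bd.smulC (Bd.pi.1 hp 1) (TD_dual1 hg hF F1 F2 hζ1 hgr)))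
  have hW : ∀ i, ∀ x ∈ S.U i, 0 ≤ W i x * (S.s i)⁻¹ := fun i x hx => a0.nonneg i hx
  have hs : Bd S (fun i x => W i x * (S.s i)⁻¹) (fun i x =>
      ∑ k, ∑ l, ((co (perp (ζ i)) k * co (perp (ζ i)) l : ℝ) : ℂ) *
        pd l (fun y => p i y k) x) := by
    refine Bd.sum Finset.univ hW fun k _ => Bd.sum Finset.univ hW fun l _ => ?_
    have h1 := Bd.pd (Bd.pi.1 hp k) l
    refine (Bd.constSmul hgg (fun i => co (perp (ζ i)) k * co (perp (ζ i)) l) (fun i => ?_)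
      h1).congr fun i x _ => ?_
    · rw [abs_mul]
      exact mul_le_mul (TD_co_le (TD_perp_le (hζ1 i)) k) (TD_co_le (TD_perp_le (hζ1 i)) l)
        (abs_nonneg _) (by linarith [hg1 i])
    · rw [Complex.real_smul]
  have a2 := TD_mul_one (Bd.smulC hs (TD_dual2 hg hF F1 F2 hζ1 hgr))
  exact ((a0.add a1).add a2).congr fun i x _ => rfl

end TDaux

variable {ι : Type} {S : Setting ι E2} {W : ι → E2 → ℝ} {g : ι → ℝ} (hg : g ∈ S.G.mem)
  {F : ι → E2 → V4} (hF : ∀ i, ContDiffOn ℝ ∞ (F i) (S.U i))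
  (F1 : Bd S (fun _ _ => 1) (fun i x => fderiv ℝ (F i) x))
  (F2 : Bd S (fun _ _ => 1) (fun i x => fderiv ℝ (fun y => fderiv ℝ (F i) y) x))
  {ζ : ι → E2} (hζ1 : ∀ i, ‖ζ i‖ ≤ g i) (hζ2 : ∀ i, 1 ≤ g i * nsq (ζ i))
  (hgr : ∀ i, ∀ x ∈ S.U i, 1 ≤ g i * gram3 (pd 0 (F i) x) (pd 1 (F i) x)
    (ddv (perp (ζ i)) (F i) x))
  {R : ι → E2 → T2C} (hR : Bd S W R) {A0 : ι → E2 → C4} (hA0 : Bd S W A0)

include hg hF F1 F2 hζ1 hζ2 hgr hR hA0 in
theorem wkb_bd (j : ℕ) :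
    Bd S (fun i x => W i x * (S.s i)⁻¹ ^ j) (fun i => (wkb (F i) (ζ i) (R i) (A0 i) j).2) ∧
    Bd S (fun i x => W i x * (S.s i)⁻¹ ^ j) (fun i => wkbY (F i) (ζ i) (R i) (A0 i) j) ∧
    Bd S (fun i x => W i x * (S.s i)⁻¹ ^ j) (fun i => (wkb (F i) (ζ i) (R i) (A0 i) (j + 1)).1) := by
  have hW : ∀ i, ∀ x ∈ S.U i, 0 ≤ W i x := fun i x hx => hR.nonneg i hx
  induction j with
  | zero =>
    have hA : Bd S (fun i x => W i x * (S.s i)⁻¹ ^ 0)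
        (fun i => (wkb (F i) (ζ i) (R i) (A0 i) 0).2) :=
      hA0.mono (S.G.const 1 le_rfl) (fun i x _ => by rw [pow_zero, mul_one, one_mul])
    have hR' : Bd S (fun i x => W i x * (S.s i)⁻¹ ^ 0) R :=
      hR.mono (S.G.const 1 le_rfl) (fun i x _ => by rw [pow_zero, mul_one, one_mul])
    have hp : ∀ k l, Bd S (fun i x => W i x * (S.s i)⁻¹ ^ 0)
        (fun i x => pd k (fun y => (wkb (F i) (ζ i) (R i) (A0 i) 0).1 y l) x) := by
      intro k l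
      refine (Bd.zero (V := ℂ) (fun i x hx => ?_)).congr fun i x _ => ?_
      · rw [pow_zero, mul_one]; exact hW i x hx
      · simp [wkb, pd]
    have hY : Bd S (fun i x => W i x * (S.s i)⁻¹ ^ 0)
        (fun i => wkbY (F i) (ζ i) (R i) (A0 i) 0) := TD_wY hF F2 hR' hp hA
    exact ⟨hA, hY, TD_wP hg hζ1 hζ2 hY⟩
  | succ j ih =>
    obtain ⟨_, _, ihp⟩ := ih
    have e1 : (fun i x => W i x * (S.s i)⁻¹ ^ j * (S.s i)⁻¹) =
        fun (i : ι) (x : E2) => W i x * (S.s i)⁻¹ ^ (j + 1) := by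
      funext i x
      rw [pow_succ, mul_assoc]
    have hA : Bd S (fun i x => W i x * (S.s i)⁻¹ ^ (j + 1))
        (fun i => (wkb (F i) (ζ i) (R i) (A0 i) (j + 1)).2) := by
      have h := TD_wA hg hF F1 F2 hζ1 hgr ihp
      rw [e1] at h
      exact h
    have hp : ∀ k l, Bd S (fun i x => W i x * (S.s i)⁻¹ ^ (j + 1))
        (fun i x => pd k (fun y => (wkb (F i) (ζ i) (R i) (A0 i) (j + 1)).1 y l) x) := by
      intro k l
      have h := Bd.pd (Bd.pi.1 ihp l) k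
      rw [e1] at h
      exact h
    have h0 : Bd S (fun i x => W i x * (S.s i)⁻¹ ^ (j + 1))
        (fun (_ : ι) (_ : E2) => (0 : T2C)) := Bd.zero fun i x hx =>
      mul_nonneg (hW i x hx) (pow_nonneg (inv_nonneg.mpr (S.s_pos i).le) _)
    have hY : Bd S (fun i x => W i x * (S.s i)⁻¹ ^ (j + 1))
        (fun i => wkbY (F i) (ζ i) (R i) (A0 i) (j + 1)) := TD_wY hF F2 h0 hp hA
    exact ⟨hA, hY, TD_wP hg hζ1 hζ2 hY⟩

include hg hF F1 F2 hζ1 hζ2 hgr hR hA0 in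
theorem wsum_bd (J : ℕ) (e : ι → ℝ) (he0 : ∀ i, 0 < e i) (he : ∀ i, e i ≤ S.s i) :
    Bd S W (fun i => wsum (F i) (ζ i) (R i) (A0 i) J (e i)) := by
  have hW : ∀ i, ∀ x ∈ S.U i, 0 ≤ W i x := fun i x hx => hR.nonneg i hx
  refine Bd.sum (Finset.range (J + 1)) hW fun j _ => ?_
  have h := (wkb_bd hg hF F1 F2 hζ1 hζ2 hgr hR hA0 j).1
  refine (h.weightSmul (fun i => e i ^ j)).mono (S.G.const 1 le_rfl) fun i x hx => ?_
  have h1 : e i * (S.s i)⁻¹ ≤ 1 := by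
    rw [← div_eq_mul_inv, div_le_one (S.s_pos i)]
    exact he i
  have h2 : (e i * (S.s i)⁻¹) ^ j ≤ 1 :=
    pow_le_one₀ (mul_nonneg (he0 i).le (inv_nonneg.mpr (S.s_pos i).le)) h1
  rw [abs_of_pos (pow_pos (he0 i) j), one_mul]
  calc e i ^ j * (W i x * (S.s i)⁻¹ ^ j) = W i x * (e i * (S.s i)⁻¹) ^ j := by
        rw [mul_pow]; ring
    _ ≤ W i x * 1 := mul_le_mul_of_nonneg_left h2 (hW i x hx)
    _ = W i x := mul_one _

include hg hF F1 F2 hζ1 hζ2 hgr hR hA0 in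
/-- the corrections beyond the leading term -/
theorem wsum_sub_bd (J : ℕ) (e : ι → ℝ) (he0 : ∀ i, 0 < e i) (he : ∀ i, e i ≤ S.s i) :
    Bd S (fun i x => W i x * (e i / S.s i))
      (fun i x => wsum (F i) (ζ i) (R i) (A0 i) J (e i) x - A0 i x) := by
  have hW : ∀ i, ∀ x ∈ S.U i, 0 ≤ W i x := fun i x hx => hR.nonneg i hx
  have hW' : ∀ i, ∀ x ∈ S.U i, 0 ≤ W i x * (e i / S.s i) := fun i x hx =>
    mul_nonneg (hW i x hx) (div_nonneg (he0 i).le (S.s_pos i).le)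
  have key : Bd S (fun i x => W i x * (e i / S.s i)) (fun i x =>
      ∑ j ∈ Finset.range J, (e i ^ (j + 1) : ℝ) • (wkb (F i) (ζ i) (R i) (A0 i) (j + 1)).2 x) := by
    refine Bd.sum (Finset.range J) hW' fun j _ => ?_
    have h := (wkb_bd hg hF F1 F2 hζ1 hζ2 hgr hR hA0 (j + 1)).1
    refine (h.weightSmul (fun i => e i ^ (j + 1))).mono (S.G.const 1 le_rfl) fun i x hx => ?_
    have h1 : e i * (S.s i)⁻¹ ≤ 1 := by
      rw [← div_eq_mul_inv, div_le_one (S.s_pos i)]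
      exact he i
    have h0 : 0 ≤ e i * (S.s i)⁻¹ := mul_nonneg (he0 i).le (inv_nonneg.mpr (S.s_pos i).le)
    have h2 : (e i * (S.s i)⁻¹) ^ j ≤ 1 := pow_le_one₀ h0 h1
    rw [abs_of_pos (pow_pos (he0 i) (j + 1)), one_mul]
    calc e i ^ (j + 1) * (W i x * (S.s i)⁻¹ ^ (j + 1))
        = W i x * ((e i * (S.s i)⁻¹) ^ j * (e i * (S.s i)⁻¹)) := by
          rw [← pow_succ, mul_pow]; ring
      _ ≤ W i x * (1 * (e i * (S.s i)⁻¹)) :=
          mul_le_mul_of_nonneg_left (mul_le_mul_of_nonneg_right h2 h0) (hW i x hx)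
      _ = W i x * (e i / S.s i) := by rw [one_mul, div_eq_mul_inv]
  refine key.congr fun i x _ => ?_
  unfold wsum
  rw [Finset.sum_range_succ', pow_zero, one_smul]
  exact add_sub_cancel_right _ _

include hg F1 F2 hζ1 hgr hR hF hζ2 in
theorem lsA_bd : Bd S W (fun i => lsA (F i) (ζ i) (R i)) := by
  have h1 := Bd.ev2 hR hg (fun i => perp (ζ i)) (fun i => perp (ζ i))
    (fun i => TD_perp_le (hζ1 i)) (fun i => TD_perp_le (hζ1 i))
  have h2 : Bd S W (fun i x => -ev2 (R i x) (perp (ζ i)) (perp (ζ i)) / 2) :=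
    (TD_mulConst (-(2 : ℂ)⁻¹) h1).congr fun i x _ => by ring
  exact TD_mul_one (Bd.smulC h2 (TD_dual2 hg hF F1 F2 hζ1 hgr))

include hg F1 F2 hζ1 hgr hF hζ2 in
theorem keA_bd {α : ι → E2 → ℝ} (hα : Bd S W α) : Bd S W (fun i => keA (F i) (ζ i) (α i)) := by
  have h1 : Bd S W (fun i x => (α i x : ℂ)) := hα.clm Complex.ofRealCLM
  have h2 := Bd.toC (Bd.nor (Bd.pd' F1 0) (Bd.pd' F1 1)
    (Bd.ddv' hF F2 hg (fun i => perp (ζ i)) (fun i => TD_perp_le (hζ1 i))) hg hgr)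
  exact TD_mul_one (Bd.smulC h1 h2)

private theorem TD_phase {ι : Type} {S : Setting ι E2} {g : ι → ℝ} (hg : g ∈ S.G.mem)
    {ζ : ι → E2} (hζ1 : ∀ i, ‖ζ i‖ ≤ g i) :
    Bd S (fun _ _ => 1)
      (fun i x => Complex.exp (((ph (ζ i) x / S.s i : ℝ) : ℂ) * Complex.I)) := by
  have h2 := S.G.mul _ (S.G.const 2 (by norm_num)) g hg
  have hf : ‖ContinuousLinearMap.fst ℝ ℝ ℝ‖ ≤ 1 := ContinuousLinearMap.norm_fst_le ..
  have hs : ‖ContinuousLinearMap.snd ℝ ℝ ℝ‖ ≤ 1 := ContinuousLinearMap.norm_snd_le ..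
  refine (Bd.phase h2 (fun i => (ζ i).1 • ContinuousLinearMap.fst ℝ ℝ ℝ +
    (ζ i).2 • ContinuousLinearMap.snd ℝ ℝ ℝ) (fun i => ?_)).congr fun i x _ => ?_
  · have a1 : ‖(ζ i).1‖ ≤ g i := (norm_fst_le (ζ i)).trans (hζ1 i)
    have a2 : ‖(ζ i).2‖ ≤ g i := (norm_snd_le (ζ i)).trans (hζ1 i)
    have hg1 := S.G.one_le g hg i
    refine (norm_add_le _ _).trans ?_
    rw [norm_smul, norm_smul]
    have b1 : ‖(ζ i).1‖ * ‖ContinuousLinearMap.fst ℝ ℝ ℝ‖ ≤ g i * 1 :=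
      mul_le_mul a1 hf (norm_nonneg _) (by linarith)
    have b2 : ‖(ζ i).2‖ * ‖ContinuousLinearMap.snd ℝ ℝ ℝ‖ ≤ g i * 1 :=
      mul_le_mul a2 hs (norm_nonneg _) (by linarith)
    linarith
  · rfl

/-- oscillating fields at the scale of the wave length -/
theorem osc_bd {ι : Type} {S : Setting ι E2} {W : ι → E2 → ℝ} {g : ι → ℝ} (hg : g ∈ S.G.mem)
    {ζ : ι → E2} (hζ1 : ∀ i, ‖ζ i‖ ≤ g i) {A : ι → E2 → C4} (hA : Bd S W A) (e : ι → ℝ)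
    (h0 : ∀ i, 0 < e i) (h1 : ∀ i, e i ≤ 1) (hes : ∀ i, e i ≤ S.s i) :
    Bd (S.rescale e h0 h1) W (fun i => osc (A i) (ζ i) (e i)) := by
  have h2 := TD_phase (S := S.rescale e h0 h1) hg hζ1
  have h3 := hA.rescale e h0 h1 hes
  exact Bd.reV (TD_one_mul (Bd.smulC h2 h3))

/-- the same for scalars -/
theorem oscC_bd {ι : Type} {S : Setting ι E2} {W : ι → E2 → ℝ} {g : ι → ℝ} (hg : g ∈ S.G.mem)
    {ζ : ι → E2} (hζ1 : ∀ i, ‖ζ i‖ ≤ g i) {A : ι → E2 → ℂ} (hA : Bd S W A) (e : ι → ℝ)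
    (h0 : ∀ i, 0 < e i) (h1 : ∀ i, e i ≤ 1) (hes : ∀ i, e i ≤ S.s i) :
    Bd (S.rescale e h0 h1) W (fun i x =>
      (Complex.exp (((ph (ζ i) x / e i : ℝ) : ℂ) * Complex.I) * A i x).re) := by
  have h2 := TD_phase (S := S.rescale e h0 h1) hg hζ1
  have h3 := hA.rescale e h0 h1 hes
  exact (TD_one_mul (Bd.mulC h2 h3)).clm Complex.reCLM

end P205F
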