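import Mathlib
import Vale.Agent.Lib.P205F.CDefs
import Vale.Agent.Lib.P205F.TC
import Vale.Agent.Lib.P205F.TD

/-! # P205F module CA: the slow part of the square of a kernel element -/

open scoped ContDiff Topology
open Set

namespace P205F

private theorem CA_cdot2_star (A B : C4) : cdot2 B (star A) = star (cdot2 A (star B)) := by
  unfold cdot2
  rw [star_sum]
  refine Finset.sum_congr rfl fun k _ => ?_
  rw [star_mul', Pi.star_apply, Pi.star_apply, star_star, mul_comm]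

theorem slowErr_sym (F : E2 → V4) (ζ : E2) (α : E2 → ℝ) (J : ℕ) (e : ℝ) (x : E2) (k l : Fin 2) :
    slowErr F ζ α J e x k l = slowErr F ζ α J e x l k := by
  unfold slowErr Sf
  rw [CA_cdot2_star (Bf F ζ α J e k x) (Bf F ζ α J e l x), mul_comm (co ζ k)]
  congr 2

theorem Rp_sym (B B' : Fin 2 → E2 → C4) (x : E2) (k l : Fin 2) :
    Rp B B' x k l = Rp B B' x l k := by
  unfold Rp
  rw [add_comm]

theorem Rm_sym (B B' : Fin 2 → E2 → C4) (x : E2) (k l : Fin 2) :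
    Rm B B' x k l = Rm B B' x l k := by
  unfold Rm
  rw [add_comm]

/-- supports: where the amplitude vanishes, everything vanishes -/
theorem ke_support {O : Set E2} (hO : IsOpen O) (F : E2 → V4) (ζ : E2) {α : E2 → ℝ}
    (hα : ∀ x ∈ O, α x = 0) (J : ℕ) (e : ℝ) : ∀ x ∈ O,
    wsum F ζ (fun _ _ _ => 0) (keA F ζ α) J e x = 0 ∧ (∀ k, Bf F ζ α J e k x = 0) ∧
      Sf F ζ α J e x = 0 ∧ slowErr F ζ α J e x = 0 := by
  have h0 : ∀ x ∈ O, wsum F ζ (fun _ _ _ => 0) (keA F ζ α) J e x = 0 := by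
    intro x hx
    unfold wsum
    refine Finset.sum_eq_zero fun j _ => ?_
    have h1 := (wkb_support hO F ζ (R := fun _ _ _ => 0) (A0 := keA F ζ α) (fun _ _ => rfl)
      (fun y hy => by unfold keA; rw [hα y hy, Complex.ofReal_zero, zero_smul]) j x hx).2.1
    rw [h1, smul_zero]
  have h1 : ∀ x ∈ O, ∀ k, Bf F ζ α J e k x = 0 := by
    intro x hx k
    have h2 : pd k (wsum F ζ (fun _ _ _ => 0) (keA F ζ α) J e) x = 0 := by
      rw [pd_congr (u := fun _ => (0 : C4)) hO h0 k hx]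
      unfold pd
      rw [fderiv_fun_const]
      rfl
    unfold Bf
    rw [h2, h0 x hx, smul_zero, smul_zero, add_zero]
  have h2 : ∀ x ∈ O, Sf F ζ α J e x = 0 := by
    intro x hx
    funext k l
    unfold Sf
    rw [h1 x hx k, h1 x hx l]
    simp [cdot2]
  intro x hx
  refine ⟨h0 x hx, h1 x hx, h2 x hx, ?_⟩
  funext k l
  unfold slowErr
  rw [h2 x hx, hα x hx]
  simp

section

variable {ι : Type} {S : Setting ι E2} {W : ι → E2 → ℝ} {g : ι → ℝ} (hg : g ∈ S.G.mem)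
  {F : ι → E2 → V4} (hF : ∀ i, ContDiffOn ℝ ∞ (F i) (S.U i))
  (F1 : Bd S (fun _ _ => 1) (fun i x => fderiv ℝ (F i) x))
  (F2 : Bd S (fun _ _ => 1) (fun i x => fderiv ℝ (fun y => fderiv ℝ (F i) y) x))
  {ζ : ι → E2} (hζ : ∀ i, NonDeg S g F i (ζ i)) {α : ι → E2 → ℝ} (hα : Bd S W α)
  (J : ℕ) (e : ι → ℝ) (he0 : ∀ i, 0 < e i) (he : ∀ i, e i ≤ S.s i)

private theorem CA_co_le {g : ℝ} {ζ : E2} (h : ‖ζ‖ ≤ g) (i : Fin 2) : |co ζ i| ≤ g := by
  have h1 : ‖ζ.1‖ ≤ g := (norm_fst_le ζ).trans h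
  have h2 : ‖ζ.2‖ ≤ g := (norm_snd_le ζ).trans h
  rw [Real.norm_eq_abs] at h1 h2
  unfold co
  split_ifs
  · exact h1
  · exact h2

private theorem CA_star {W : ι → E2 → ℝ} {A : ι → E2 → C4} (hA : Bd S W A) :
    Bd S W (fun i x => star (A i x)) :=
  Bd.pi.2 fun k => (Bd.pi.1 hA k).clm (Complex.conjCLE : ℂ →L[ℝ] ℂ)

private theorem CA_zeta {W : ι → E2 → ℝ} {g : ι → ℝ} (hg : g ∈ S.G.mem) {ζ : ι → E2}
    (hζ1 : ∀ i, ‖ζ i‖ ≤ g i) (k : Fin 2) {A : ι → E2 → C4} (hA : Bd S W A) :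
    Bd S W (fun i x => (((co (ζ i) k : ℝ) : ℂ) * Complex.I) • A i x) := by
  have h1 : Bd S (fun _ _ => 1)
      (fun (i : ι) (_ : E2) => (((co (ζ i) k : ℝ) : ℂ) * Complex.I)) :=
    Bd.const hg (fun i => (((co (ζ i) k : ℝ) : ℂ) * Complex.I)) fun i => by
      rw [norm_mul, Complex.norm_I, mul_one, Complex.norm_real, Real.norm_eq_abs]
      exact CA_co_le (hζ1 i) k
  exact (Bd.smulC h1 hA).mono (S.G.const 1 le_rfl) (fun i x _ => le_rfl)

private theorem CA_epd {W : ι → E2 → ℝ} (e : ι → ℝ) (he0 : ∀ i, 0 < e i) (k : Fin 2)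
    {A : ι → E2 → C4} (hA : Bd S W A) :
    Bd S (fun i x => W i x * (e i / S.s i)) (fun i x => ((e i : ℝ) : ℂ) • pd k (A i) x) := by
  refine (((Bd.pd hA k).weightSmul e).mono (S.G.const 1 le_rfl) fun i x hx => ?_).congr
    fun i x _ => ?_
  · rw [abs_of_pos (he0 i), one_mul, div_eq_mul_inv]
    exact le_of_eq (by ring)
  · exact (RCLike.real_smul_eq_coe_smul (K := ℂ) (e i) (pd k (A i) x)).symm

private theorem CA_down {V : Type} [NormedAddCommGroup V] [NormedSpace ℝ V] {W : ι → E2 → ℝ}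
    (hW : ∀ i, ∀ x ∈ S.U i, 0 ≤ W i x) (e : ι → ℝ) (he : ∀ i, e i ≤ S.s i)
    {A : ι → E2 → V} (hA : Bd S (fun i x => W i x * (e i / S.s i)) A) : Bd S W A :=
  hA.mono (S.G.const 1 le_rfl) fun i x hx => by
    rw [one_mul]
    have h1 : e i / S.s i ≤ 1 := by
      rw [div_le_one (S.s_pos i)]
      exact he i
    calc W i x * (e i / S.s i) ≤ W i x * 1 := mul_le_mul_of_nonneg_left h1 (hW i x hx)
      _ = W i x := mul_one _

include hg hF F1 F2 hζ hα in
private theorem CA_keA : Bd S W (fun i => keA (F i) (ζ i) (α i)) :=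
  keA_bd hg hF F1 F2 (fun i => (hζ i).1) (fun i => (hζ i).2.1) (fun i => (hζ i).2.2) hα

include hg hF F1 F2 hζ hα he0 he in
private theorem CA_wsum :
    Bd S W (fun i => wsum (F i) (ζ i) (fun _ _ _ => 0) (keA (F i) (ζ i) (α i)) J (e i)) := by
  have hW : ∀ i, ∀ x ∈ S.U i, 0 ≤ W i x := fun i x hx => hα.nonneg i hx
  exact wsum_bd hg hF F1 F2 (fun i => (hζ i).1) (fun i => (hζ i).2.1) (fun i => (hζ i).2.2)
    (R := fun _ _ _ _ => 0) (Bd.zero hW) (CA_keA hg hF F1 F2 hζ hα) J e he0 he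

include hg hF F1 F2 hζ hα he0 he in
private theorem CA_diff : Bd S (fun i x => W i x * (e i / S.s i)) (fun i x =>
    wsum (F i) (ζ i) (fun _ _ _ => 0) (keA (F i) (ζ i) (α i)) J (e i) x
      - keA (F i) (ζ i) (α i) x) := by
  have hW : ∀ i, ∀ x ∈ S.U i, 0 ≤ W i x := fun i x hx => hα.nonneg i hx
  exact wsum_sub_bd hg hF F1 F2 (fun i => (hζ i).1) (fun i => (hζ i).2.1) (fun i => (hζ i).2.2)
    (R := fun _ _ _ _ => 0) (Bd.zero hW) (CA_keA hg hF F1 F2 hζ hα) J e he0 he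

include hg hF F1 F2 hζ hα he0 he in
theorem Bf_bd (k : Fin 2) : Bd S W (fun i => Bf (F i) (ζ i) (α i) J (e i) k) := by
  have hW : ∀ i, ∀ x ∈ S.U i, 0 ≤ W i x := fun i x hx => hα.nonneg i hx
  have hA := CA_wsum hg hF F1 F2 hζ hα J e he0 he
  exact (CA_zeta hg (fun i => (hζ i).1) k hA).add (CA_down hW e he (CA_epd e he0 k hA))

include hg hF F1 F2 hζ hα he0 he in
/-- the field without its leading term -/
private theorem CA_D (k : Fin 2) : Bd S (fun i x => W i x * (e i / S.s i)) (fun i x =>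
    Bf (F i) (ζ i) (α i) J (e i) k x
      - (((co (ζ i) k : ℝ) : ℂ) * Complex.I) • keA (F i) (ζ i) (α i) x) := by
  have hA := CA_wsum hg hF F1 F2 hζ hα J e he0 he
  have hD := CA_diff hg hF F1 F2 hζ hα J e he0 he
  refine ((CA_zeta hg (fun i => (hζ i).1) k hD).add (CA_epd e he0 k hA)).congr fun i x _ => ?_
  unfold Bf
  rw [smul_sub]
  abel

private theorem CA_cdot2_add_left (A B D : C4) : cdot2 (A + B) D = cdot2 A D + cdot2 B D := by
  unfold cdot2
  rw [← Finset.sum_add_distrib]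
  refine Finset.sum_congr rfl fun k _ => ?_
  rw [Pi.add_apply, add_mul]

private theorem CA_cdot2_add_right (A B D : C4) : cdot2 A (B + D) = cdot2 A B + cdot2 A D := by
  unfold cdot2
  rw [← Finset.sum_add_distrib]
  refine Finset.sum_congr rfl fun k _ => ?_
  rw [Pi.add_apply, mul_add]

private theorem CA_toC_self (n : V4) : cdot2 (toC n) (star (toC n)) = ((inner ℝ n n : ℝ) : ℂ) := by
  unfold cdot2 toC
  rw [TA_inner, Fin.sum_univ_four]
  simp only [Pi.star_apply, RCLike.star_def, Complex.conj_ofReal]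
  push_cast
  ring

private theorem CA_lead (n : V4) (hn : inner ℝ n n = (1 : ℝ)) (a x y : ℝ) :
    cdot2 (((x : ℂ) * Complex.I) • ((a : ℂ) • toC n))
      (star (((y : ℂ) * Complex.I) • ((a : ℂ) • toC n))) = ((a ^ 2 * (x * y) : ℝ) : ℂ) := by
  have h1 := CA_toC_self n
  rw [hn, Complex.ofReal_one] at h1
  have h2 : cdot2 (((x : ℂ) * Complex.I) • ((a : ℂ) • toC n))
      (star (((y : ℂ) * Complex.I) • ((a : ℂ) • toC n)))
      = ((x : ℂ) * Complex.I * a) * ((y : ℂ) * (-Complex.I) * a) * cdot2 (toC n) (star (toC n)) := by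
    unfold cdot2
    rw [Finset.mul_sum]
    refine Finset.sum_congr rfl fun k _ => ?_
    simp only [Pi.star_apply, Pi.smul_apply, smul_eq_mul, star_mul', RCLike.star_def,
      Complex.conj_ofReal, Complex.conj_I]
    ring
  rw [h2, h1]
  push_cast
  have h3 := Complex.I_mul_I
  linear_combination (-(x : ℂ) * y * a ^ 2) * h3

include hg hF F1 F2 hζ hα he0 he in
theorem slowErr_bd : Bd S (fun i x => W i x ^ 2 * (e i / S.s i))
    (fun i => slowErr (F i) (ζ i) (α i) J (e i)) := by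
  have hW : ∀ i, ∀ x ∈ S.U i, 0 ≤ W i x := fun i x hx => hα.nonneg i hx
  have hK := CA_keA hg hF F1 F2 hζ hα
  refine Bd.pi.2 fun k => Bd.pi.2 fun l => ?_
  have hDk := CA_D hg hF F1 F2 hζ hα J e he0 he k
  have hDl := CA_D hg hF F1 F2 hζ hα J e he0 he l
  have hBl := Bf_bd hg hF F1 F2 hζ hα J e he0 he l
  have hZk := CA_zeta hg (fun i => (hζ i).1) k hK
  have t1 := Bd.cdot2 hZk (CA_star hDl)
  have t2 := Bd.cdot2 hDk (CA_star hBl)
  have t1' : Bd S (fun i x => W i x ^ 2 * (e i / S.s i)) _ :=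
    t1.mono (S.G.const 1 le_rfl) fun i x _ => le_of_eq (by ring)
  have t2' : Bd S (fun i x => W i x ^ 2 * (e i / S.s i)) _ :=
    t2.mono (S.G.const 1 le_rfl) fun i x _ => le_of_eq (by ring)
  have t3 := ((t1'.add t2').clm Complex.reCLM).constSmul (S.G.const 1 le_rfl)
    (fun _ => (1 / 2 : ℝ)) (fun _ => by rw [abs_of_pos (by norm_num)]; norm_num)
  refine t3.congr fun i x hx => ?_
  have hgr : 0 < gram3 (pd 0 (F i) x) (pd 1 (F i) x) (ddv (perp (ζ i)) (F i) x) := by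
    have h1 := (hζ i).2.2 x hx
    have h2 := gram3_nonneg (pd 0 (F i) x) (pd 1 (F i) x) (ddv (perp (ζ i)) (F i) x)
    rcases h2.eq_or_lt with h3 | h3
    · rw [← h3, mul_zero] at h1
      linarith
    · exact h3
  have hL := CA_lead _ (inner_nor_self _ _ _ hgr) (α i x) (co (ζ i) k) (co (ζ i) l)
  have hL' : cdot2 ((((co (ζ i) k : ℝ) : ℂ) * Complex.I) • keA (F i) (ζ i) (α i) x)
      (star ((((co (ζ i) l : ℝ) : ℂ) * Complex.I) • keA (F i) (ζ i) (α i) x))
      = ((α i x ^ 2 * (co (ζ i) k * co (ζ i) l) : ℝ) : ℂ) := hL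
  set K := keA (F i) (ζ i) (α i) x with hKdef
  set Bk := Bf (F i) (ζ i) (α i) J (e i) k x with hBk
  set Bl := Bf (F i) (ζ i) (α i) J (e i) l x with hBl'
  set zk : ℂ := ((co (ζ i) k : ℝ) : ℂ) * Complex.I with hzk
  set zl : ℂ := ((co (ζ i) l : ℝ) : ℂ) * Complex.I with hzl
  have hsplit : cdot2 Bk (star Bl) = cdot2 (zk • K) (star (zl • K))
      + (cdot2 (zk • K) (star (Bl - zl • K)) + cdot2 (Bk - zk • K) (star Bl)) := by
    have e1 : Bk = zk • K + (Bk - zk • K) := by abel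
    have e2 : star Bl = star (zl • K) + star (Bl - zl • K) := by
      rw [← star_add]
      congr 1
      abel
    calc cdot2 Bk (star Bl) = cdot2 (zk • K + (Bk - zk • K)) (star Bl) := by rw [← e1]
      _ = cdot2 (zk • K) (star Bl) + cdot2 (Bk - zk • K) (star Bl) := CA_cdot2_add_left _ _ _
      _ = (cdot2 (zk • K) (star (zl • K)) + cdot2 (zk • K) (star (Bl - zl • K)))
          + cdot2 (Bk - zk • K) (star Bl) := by
        rw [← CA_cdot2_add_right, ← e2]
      _ = _ := by rw [add_assoc]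
  show slowErr (F i) (ζ i) (α i) J (e i) x k l = (1 / 2 : ℝ) • Complex.reCLM
    (cdot2 (zk • K) (star (Bl - zl • K)) + cdot2 (Bk - zk • K) (star Bl))
  unfold slowErr Sf
  rw [← hBk, ← hBl', hsplit, hL', Complex.add_re, Complex.ofReal_re, Complex.reCLM_apply,
    smul_eq_mul]
  ring

end

theorem Rp_bd {ι : Type} {S : Setting ι E2} {W W' : ι → E2 → ℝ} {B B' : ι → Fin 2 → E2 → C4}
    (hB : ∀ k, Bd S W (fun i => B i k)) (hB' : ∀ k, Bd S W' (fun i => B' i k)) :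
    Bd S (fun i x => W i x * W' i x) (fun i => Rp (B i) (B' i)) := by
  refine Bd.pi.2 fun k => Bd.pi.2 fun l => ?_
  have h1 := ((Bd.cdot2 (hB k) (hB' l)).add (Bd.cdot2 (hB l) (hB' k))).constSmul
    (S.G.const 1 le_rfl) (fun _ => (1 / 4 : ℝ)) (fun _ => by rw [abs_of_pos (by norm_num)]; norm_num)
  refine h1.congr fun i x _ => ?_
  show (cdot2 (B i k x) (B' i l x) + cdot2 (B i l x) (B' i k x)) / 4 = _
  rw [Complex.real_smul]
  push_cast
  ring

theorem Rm_bd {ι : Type} {S : Setting ι E2} {W W' : ι → E2 → ℝ} {B B' : ι → Fin 2 → E2 → C4}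
    (hB : ∀ k, Bd S W (fun i => B i k)) (hB' : ∀ k, Bd S W' (fun i => B' i k)) :
    Bd S (fun i x => W i x * W' i x) (fun i => Rm (B i) (B' i)) := by
  refine Bd.pi.2 fun k => Bd.pi.2 fun l => ?_
  have h1 := ((Bd.cdot2 (hB k) (CA_star (hB' l))).add
    (Bd.cdot2 (hB l) (CA_star (hB' k)))).constSmul
    (S.G.const 1 le_rfl) (fun _ => (1 / 4 : ℝ)) (fun _ => by rw [abs_of_pos (by norm_num)]; norm_num)
  refine h1.congr fun i x _ => ?_
  show (cdot2 (B i k x) (star (B' i l x)) + cdot2 (B i l x) (star (B' i k x))) / 4 = _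
  rw [Complex.real_smul]
  push_cast
  ring

end P205F
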