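import Mathlib
import Vale.Agent.Lib.P205F.C2Defs
import Vale.Agent.Lib.P205F.CA

/-! # P205F module C2D1: bounds for the perturbation -/

open scoped ContDiff Topology
open Set

namespace P205F

namespace Cell2

variable {ι : Type} {S : Setting ι E2} (C : Cell2 ι S)

private theorem C2D1_nd {g : ι → ℝ} {F : ι → E2 → V4} (P : ι → Prop) {i : ι} {ζ : E2}
    (h : NonDeg S g F i ζ) : NonDeg (S.restrict P) g F i ζ :=
  ⟨h.1, h.2.1, fun x hx => h.2.2 x hx.1⟩

private theorem C2D1_smF (P : ι → Prop) (i : ι) : ContDiffOn ℝ ∞ (C.F i) ((S.restrict P).U i) :=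
  (C.smF i).mono fun _ hx => hx.1

private theorem C2D1_cb (M : ℕ) (i : ι) (x : E2) : 0 ≤ C.cb M i x := Real.sqrt_nonneg _

/-- bounds for the normalised amplitudes -/
private theorem C2D1_al (M J n : ℕ) {g0 : ι → ℝ} (j : Fin 3)
    (ha : Bd (S.restrict (C.good g0)) (fun i x => Real.sqrt (C.δ i) * C.cb M i x)
      (fun i => C.amp M J i n j)) :
    Bd (S.restrict (C.good g0)) (fun i x => Real.sqrt (C.δ i) * C.cb M i x)
      (fun i => C.al M J i n j) := by
  have h1 : ∀ i, |(C.fr i j)⁻¹| ≤ (1 : ℝ) := fun i => by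
    have h2 := C.fr_ge i j
    rw [abs_of_nonneg (inv_nonneg.mpr (by linarith))]
    exact inv_le_one_of_one_le₀ h2
  refine (Bd.constSmul ((S.restrict (C.good g0)).G.const 1 le_rfl)
    (fun i => (C.fr i j)⁻¹) h1 ha).congr fun i x _ => ?_
  unfold Cell2.al
  rw [smul_eq_mul]
  ring

/-- bounds for the solution of the inhomogeneous equation -/
private theorem C2D1_sol (J : ℕ) {g0 : ι → ℝ} {W : ι → E2 → ℝ} {ζ : ι → E2}
    (hζ : ∀ i, NonDeg S C.g C.F i (ζ i)) {R : ι → E2 → T2C}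
    (hR : Bd (S.restrict (C.good g0)) W R) :
    Bd (C.S' g0) W (fun i => C.sol J i (ζ i) (R i)) := by
  have F1 := C.F1.restrict (C.good g0)
  have F2 := C.F2.restrict (C.good g0)
  have hF := fun i => C2D1_smF C (C.good g0) i
  have hζ' := fun i => C2D1_nd (C.good g0) (hζ i)
  have hA := lsA_bd (S := S.restrict (C.good g0)) C.hg hF F1 F2 (fun i => (hζ' i).1)
    (fun i => (hζ' i).2.1) (fun i => (hζ' i).2.2) hR
  have hw := wsum_bd (S := S.restrict (C.good g0)) C.hg hF F1 F2 (fun i => (hζ' i).1)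
    (fun i => (hζ' i).2.1) (fun i => (hζ' i).2.2) hR hA J C.e C.e_pos C.e_le_s
  exact osc_bd (S := S.restrict (C.good g0)) C.hg (fun i => (hζ' i).1) hw C.e C.e_pos C.e_le_one
    C.e_le_s

private theorem C2D1_B (M J n : ℕ) {g0 : ι → ℝ} {j : Fin 3}
    (ha : Bd (S.restrict (C.good g0)) (fun i x => Real.sqrt (C.δ i) * C.cb M i x)
      (fun i => C.amp M J i n j)) (k : Fin 2) :
    Bd (S.restrict (C.good g0)) (fun i x => Real.sqrt (C.δ i) * C.cb M i x)
      (fun i => C.B M J i n j k) :=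
  Bf_bd (S := S.restrict (C.good g0)) C.hg (fun i => C2D1_smF C (C.good g0) i)
    (C.F1.restrict (C.good g0)) (C.F2.restrict (C.good g0))
    (fun i => C2D1_nd (C.good g0) (C.nd1 i j))
    (C2D1_al C M J n j ha) J C.e C.e_pos C.e_le_s k

private theorem C2D1_sq (M : ℕ) (i : ι) (x : E2) :
    Real.sqrt (C.δ i) * C.cb M i x * (Real.sqrt (C.δ i) * C.cb M i x) =
      C.δ i * C.cb M i x ^ 2 := by
  have h := Real.mul_self_sqrt (C.d_pos i).le
  calc Real.sqrt (C.δ i) * C.cb M i x * (Real.sqrt (C.δ i) * C.cb M i x)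
      = Real.sqrt (C.δ i) * Real.sqrt (C.δ i) * C.cb M i x ^ 2 := by ring
    _ = C.δ i * C.cb M i x ^ 2 := by rw [h]

/-- bounds for the two parts of the perturbation -/
theorem w1_bd (M J n : ℕ) {g0 : ι → ℝ} (hg0 : g0 ∈ S.G.mem) (ha : C.AmpOK M J g0 n) :
    Bd (C.S' g0) (fun i x => Real.sqrt (C.δ i) * C.cb M i x * C.e i) (fun i => C.w1 M J i n) := by
  have hW : ∀ i, ∀ x ∈ (C.S' g0).U i, 0 ≤ Real.sqrt (C.δ i) * C.cb M i x * C.e i :=
    fun i x _ => mul_nonneg (mul_nonneg (Real.sqrt_nonneg _) (C2D1_cb C M i x)) (C.e_pos i).le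
  unfold Cell2.w1
  refine Bd.sum Finset.univ hW fun j _ => ?_
  have hal := C2D1_al C M J n j (ha j)
  have F1 := C.F1.restrict (C.good g0)
  have F2 := C.F2.restrict (C.good g0)
  have hF := fun i => C2D1_smF C (C.good g0) i
  have hζ' := fun i => C2D1_nd (C.good g0) (C.nd1 i j)
  have hk := keA_bd (S := S.restrict (C.good g0)) C.hg hF F1 F2 (fun i => (hζ' i).1)
    (fun i => (hζ' i).2.1) (fun i => (hζ' i).2.2) hal
  have h0 : Bd (S.restrict (C.good g0)) (fun i x => Real.sqrt (C.δ i) * C.cb M i x)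
      (fun _ _ => (fun _ _ => 0 : T2C)) :=
    Bd.zero fun i x _ => mul_nonneg (Real.sqrt_nonneg _) (C2D1_cb C M i x)
  have hw := wsum_bd (S := S.restrict (C.good g0)) C.hg hF F1 F2 (fun i => (hζ' i).1)
    (fun i => (hζ' i).2.1) (fun i => (hζ' i).2.2) h0 hk J C.e C.e_pos C.e_le_s
  have ho := osc_bd (S := S.restrict (C.good g0)) C.hg (fun i => (hζ' i).1) hw C.e C.e_pos
    C.e_le_one C.e_le_s
  refine (Bd.weightSmul C.e ho).mono
    (((S.restrict (C.good g0)).rescale C.e C.e_pos C.e_le_one).G.const 1 le_rfl)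
    fun i x _ => ?_
  rw [one_mul, abs_of_pos (C.e_pos i), mul_comm]

theorem w2_bd (M J n : ℕ) {g0 : ι → ℝ} (hg0 : g0 ∈ S.G.mem) (ha : C.AmpOK M J g0 n) :
    Bd (C.S' g0) (fun i x => C.δ i * C.cb M i x ^ 2) (fun i => C.w2 M J i n) := by
  have hW : ∀ i, ∀ x ∈ (C.S' g0).U i, 0 ≤ C.δ i * C.cb M i x ^ 2 := fun i x _ =>
    mul_nonneg (C.d_pos i).le (sq_nonneg _)
  have hB : ∀ l k, Bd (S.restrict (C.good g0))
      (fun i x => Real.sqrt (C.δ i) * C.cb M i x) (fun i => C.B M J i n l k) := fun l k =>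
    C2D1_B C M J n (ha l) k
  unfold Cell2.w2
  refine Bd.neg (Bd.add ?_ ?_)
  · refine Bd.sum _ hW fun l _ => Bd.sum _ hW fun m _ => ?_
    refine C2D1_sol C J (fun i => C.ndp i l m) ?_
    refine (Rp_bd (hB l) (hB m)).mono ((S.restrict (C.good g0)).G.const 1 le_rfl)
      fun i x _ => ?_
    rw [one_mul]
    exact (C2D1_sq C M i x).le
  · refine Bd.sum _ hW fun l _ => Bd.sum _ hW fun m hm => ?_
    rw [Finset.mem_filter] at hm
    refine C2D1_sol C J (fun i => C.ndm i l m (Ne.symm hm.2)) ?_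
    refine (Rm_bd (hB l) (hB m)).mono ((S.restrict (C.good g0)).G.const 1 le_rfl)
      fun i x _ => ?_
    rw [one_mul]
    exact (C2D1_sq C M i x).le

end Cell2

end P205F
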