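import Mathlib
import Vale.Agent.Lib.P205F.C2Defs
import Vale.Agent.Lib.P205F.TC
import Vale.Agent.Lib.P205F.TD

/-! # P205F module C2D2: the linear part of w1 -/

open scoped ContDiff Topology
open Set

namespace P205F

/-- the linearised operator is linear -/
theorem C2D2_linF_sum {L : Type} (s : Finset L) (F : E2 → V4) (c : ℝ) (u : L → E2 → V4) (x : E2)
    (hu : ∀ m ∈ s, DifferentiableAt ℝ (u m) x) (k l : Fin 2) :
    linF F (fun y => ∑ m ∈ s, c • u m y) x k l = ∑ m ∈ s, c * linF F (u m) x k l := by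
  have h1 : ∀ i, pd i (fun y => ∑ m ∈ s, c • u m y) x = ∑ m ∈ s, c • pd i (u m) x := by
    intro i
    have h2 : HasFDerivAt (fun y => ∑ m ∈ s, c • u m y) (∑ m ∈ s, c • fderiv ℝ (u m) x) x :=
      HasFDerivAt.fun_sum fun m hm => (hu m hm).hasFDerivAt.const_smul c
    unfold pd
    rw [h2.fderiv, _root_.sum_apply]
    rfl
  change inner ℝ (pd k F x) (pd l (fun y => ∑ m ∈ s, c • u m y) x) +
    inner ℝ (pd l F x) (pd k (fun y => ∑ m ∈ s, c • u m y) x) = _
  rw [h1, h1, inner_sum, inner_sum, ← Finset.sum_add_distrib]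
  refine Finset.sum_congr rfl fun m _ => ?_
  rw [real_inner_smul_right, real_inner_smul_right, ← mul_add]
  rfl

namespace Cell2

variable {ι : Type} {S : Setting ι E2} (C : Cell2 ι S)

/-- one label -/
theorem C2D2_label (M J n : ℕ) (hJ : 1 ≤ J) {g0 : ι → ℝ} (j : Fin 3)
    (ha : Bd (S.restrict (C.good g0)) (fun i x => Real.sqrt (C.δ i) * C.cb M i x)
      (fun i => C.amp M J i n j)) :
    (∀ i, ContDiffOn ℝ ∞ (wsum (C.F i) (C.z i j) (fun _ _ _ => 0)
      (keA (C.F i) (C.z i j) (C.al M J i n j)) J (C.e i)) ((S.restrict (C.good g0)).U i)) ∧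
    (∀ i, ∀ x ∈ (S.restrict (C.good g0)).U i, ∀ k l,
      linF (C.F i) (osc (wsum (C.F i) (C.z i j) (fun _ _ _ => 0)
        (keA (C.F i) (C.z i j) (C.al M J i n j)) J (C.e i)) (C.z i j) (C.e i)) x k l =
        -(C.e i ^ J) * (Complex.exp (((ph (C.z i j) x / C.e i : ℝ) : ℂ) * Complex.I) *
          wkbY (C.F i) (C.z i j) (fun _ _ _ => 0)
            (keA (C.F i) (C.z i j) (C.al M J i n j)) J x k l).re) ∧
    ∀ k l, Bd (C.S' g0) (fun i x => Real.sqrt (C.δ i) * C.cb M i x * C.q i ^ J) (fun i x =>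
      C.e i * (-(C.e i ^ J) * (Complex.exp (((ph (C.z i j) x / C.e i : ℝ) : ℂ) * Complex.I) *
          wkbY (C.F i) (C.z i j) (fun _ _ _ => 0)
            (keA (C.F i) (C.z i j) (C.al M J i n j)) J x k l).re)) := by
  set S1 := S.restrict (C.good g0) with hS1
  have hsub : ∀ i, ∀ x ∈ S1.U i, x ∈ S.U i := fun i x hx => hx.1
  have hg1 : ∀ i, 1 ≤ C.g i := fun i => S.G.one_le _ C.hg i
  have hgm : C.g ∈ S1.G.mem := C.hg
  have hF : ∀ i, ContDiffOn ℝ ∞ (C.F i) (S1.U i) := fun i => (C.smF i).mono (hsub i)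
  have F1 : Bd S1 (fun _ _ => 1) (fun i x => fderiv ℝ (C.F i) x) := C.F1.restrict _
  have F2 : Bd S1 (fun _ _ => 1) (fun i x => fderiv ℝ (fun y => fderiv ℝ (C.F i) y) x) :=
    C.F2.restrict _
  have hnd : ∀ i, NonDeg S C.g C.F i (C.z i j) := fun i => C.nd1 i j
  have hζ1 : ∀ i, ‖C.z i j‖ ≤ C.g i := fun i => (hnd i).1
  have hζ2 : ∀ i, 1 ≤ C.g i * nsq (C.z i j) := fun i => (hnd i).2.1
  have hgr : ∀ i, ∀ x ∈ S1.U i, 1 ≤ C.g i * gram3 (pd 0 (C.F i) x) (pd 1 (C.F i) x)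
    (ddv (perp (C.z i j)) (C.F i) x) := fun i x hx => (hnd i).2.2 x (hsub i x hx)
  have hcb : ∀ i x, 0 ≤ C.cb M i x := fun i x => Real.sqrt_nonneg _
  have hal : Bd S1 (fun i x => Real.sqrt (C.δ i) * C.cb M i x) (fun i => C.al M J i n j) := by
    refine (Bd.constSmul (S1.G.const 1 le_rfl) (fun i => (C.fr i j)⁻¹) (fun i => ?_)
      ha).congr fun i x _ => ?_
    · have h1 := C.fr_ge i j
      rw [abs_of_pos (inv_pos.mpr (by linarith))]
      exact inv_le_one_of_one_le₀ h1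
    · rw [smul_eq_mul]
      change C.amp M J i n j x / C.fr i j = _
      rw [div_eq_inv_mul]
  have hR : Bd S1 (fun i x => Real.sqrt (C.δ i) * C.cb M i x)
      (fun (_ : ι) (_ : E2) => (0 : T2C)) :=
    Bd.zero fun i x _ => mul_nonneg (Real.sqrt_nonneg _) (hcb i x)
  have hA0 := keA_bd hgm hF F1 F2 hζ1 hζ2 hgr hal
  have hws := wsum_bd hgm hF F1 F2 hζ1 hζ2 hgr hR hA0 J C.e C.e_pos C.e_le_s
  have hwY := (wkb_bd hgm hF F1 F2 hζ1 hζ2 hgr hR hA0 J).2.1
  refine ⟨hws.1, ?_, ?_⟩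
  · intro i x hx k l
    have hU : IsOpen (S1.U i) := S1.isOpen i
    have hz : nsq (C.z i j) ≠ 0 := by
      intro h0
      have := hζ2 i
      rw [h0, mul_zero] at this
      linarith
    have hgp : ∀ y ∈ S1.U i, 0 < gram3 (pd 0 (C.F i) y) (pd 1 (C.F i) y)
        (ddv (perp (C.z i j)) (C.F i) y) := by
      intro y hy
      by_contra hcon
      have h1 := hgr i y hy
      have h2 := mul_nonpos_of_nonneg_of_nonpos (by linarith [hg1 i] : 0 ≤ C.g i) (not_lt.1 hcon)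
      linarith
    have h3 := wkb_main hU (hF i) hz hgp (R := fun _ _ _ => 0) contDiffOn_const
      (fun _ _ _ _ => rfl) (hA0.1 i)
      (fun y _ => (keA_spec (C.F i) (C.z i j) (C.al M J i n j) y).1)
      (fun y _ => (keA_spec (C.F i) (C.z i j) (C.al M J i n j) y).2) hJ (C.e_pos i) x hx k l
    rw [h3, zero_sub, mul_neg, Complex.neg_re, neg_mul]
    congr 1
    rw [mul_left_comm, Complex.re_ofReal_mul]
  · intro k l
    have h1 := Bd.pi.1 (Bd.pi.1 hwY k) l
    have h2 := oscC_bd hgm hζ1 h1 C.e C.e_pos C.e_le_one C.e_le_s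
    have h3 := h2.weightSmul (fun i => -(C.e i ^ (J + 1)))
    have h4 : Bd (C.S' g0) (fun i x => Real.sqrt (C.δ i) * C.cb M i x * C.q i ^ J) (fun i x =>
        (-(C.e i ^ (J + 1))) • (Complex.exp (((ph (C.z i j) x / C.e i : ℝ) : ℂ) *
          Complex.I) * wkbY (C.F i) (C.z i j) (fun _ _ _ => 0)
            (keA (C.F i) (C.z i j) (C.al M J i n j)) J x k l).re) := by
      refine h3.mono (S1.G.const 1 le_rfl) fun i x _ => ?_
      have hq0 := C.q_pos i
      have hq1 := (C.q_lt i).le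
      have hs0 := S.s_pos i
      have hs1 := S.s_le i
      have hd0 := (C.d_pos i).le
      have e1 : |(-(C.e i ^ (J + 1)))| = C.e i ^ (J + 1) := by
        rw [abs_neg, abs_of_pos (pow_pos (C.e_pos i) _)]
      have e3 : C.e i ^ (J + 1) * (S.s i)⁻¹ ^ J ≤ C.q i ^ J := by
        have e4 : C.e i ^ (J + 1) * (S.s i)⁻¹ ^ J = C.q i ^ J * (C.q i * S.s i) := by
          unfold Cell2.e
          rw [pow_succ, mul_pow, inv_pow]
          field_simp
        rw [e4]
        have e5 : C.q i * S.s i ≤ 1 := mul_le_one₀ hq1 hs0.le hs1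
        calc C.q i ^ J * (C.q i * S.s i) ≤ C.q i ^ J * 1 :=
              mul_le_mul_of_nonneg_left e5 (pow_nonneg hq0.le _)
          _ = C.q i ^ J := mul_one _
      rw [e1, one_mul]
      change C.e i ^ (J + 1) * (Real.sqrt (C.δ i) * C.cb M i x * (S.s i)⁻¹ ^ J) ≤ _
      calc C.e i ^ (J + 1) * (Real.sqrt (C.δ i) * C.cb M i x * (S.s i)⁻¹ ^ J)
          = Real.sqrt (C.δ i) * C.cb M i x * (C.e i ^ (J + 1) * (S.s i)⁻¹ ^ J) := by ring
        _ ≤ Real.sqrt (C.δ i) * C.cb M i x * C.q i ^ J :=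
            mul_le_mul_of_nonneg_left e3 (mul_nonneg (Real.sqrt_nonneg _) (hcb i x))
    refine h4.congr fun i x _ => ?_
    rw [smul_eq_mul, pow_succ]
    ring

/-- the linear part of `w1` is small -/
theorem lin_w1 (M J n : ℕ) (hJ : 1 ≤ J) {g0 : ι → ℝ} (hg0 : g0 ∈ S.G.mem)
    (ha : C.AmpOK M J g0 n) :
    Bd (C.S' g0) (fun i x => Real.sqrt (C.δ i) * C.cb M i x * C.q i ^ J)
      (fun i => linF (C.F i) (C.w1 M J i n)) := by
  have _ := hg0
  refine Bd.pi.2 fun k => Bd.pi.2 fun l => ?_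
  have hcb : ∀ i x, 0 ≤ C.cb M i x := fun i x => Real.sqrt_nonneg _
  have hsum := Bd.sum (S := C.S' g0) (Finset.univ : Finset (Fin 3))
    (W := fun i x => Real.sqrt (C.δ i) * C.cb M i x * C.q i ^ J)
    (f := fun (m : Fin 3) i x =>
      C.e i * (-(C.e i ^ J) * (Complex.exp (((ph (C.z i m) x / C.e i : ℝ) : ℂ) * Complex.I) *
          wkbY (C.F i) (C.z i m) (fun _ _ _ => 0)
            (keA (C.F i) (C.z i m) (C.al M J i n m)) J x k l).re))
    (fun i x _ => mul_nonneg (mul_nonneg (Real.sqrt_nonneg _) (hcb i x))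
      (pow_nonneg (C.q_pos i).le _))
    (fun m _ => (C.C2D2_label M J n hJ m (ha m)).2.2 k l)
  refine hsum.congr fun i x hx => ?_
  have hx' : x ∈ (S.restrict (C.good g0)).U i := hx
  have hU : IsOpen ((S.restrict (C.good g0)).U i) := (S.restrict (C.good g0)).isOpen i
  have h1 : linF (C.F i) (C.w1 M J i n) x k l = ∑ m, C.e i *
      linF (C.F i) (osc (wsum (C.F i) (C.z i m) (fun _ _ _ => 0)
        (keA (C.F i) (C.z i m) (C.al M J i n m)) J (C.e i)) (C.z i m) (C.e i)) x k l := by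
    refine C2D2_linF_sum Finset.univ (C.F i) (C.e i) (fun m => osc (wsum (C.F i) (C.z i m)
      (fun _ _ _ => 0) (keA (C.F i) (C.z i m) (C.al M J i n m)) J (C.e i)) (C.z i m) (C.e i)) x
      (fun m hm => ?_) k l
    have h2 := (C.C2D2_label M J n hJ m (ha m)).1 i
    exact ((osc_contDiffOn hU h2 (C.z i m) (C.e i)).contDiffAt
      (hU.mem_nhds hx')).differentiableAt (by simp)
  rw [h1]
  refine Finset.sum_congr rfl fun m hm => ?_
  rw [(C.C2D2_label M J n hJ m (ha m)).2.1 i x hx' k l]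

end Cell2

end P205F
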