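import Mathlib
import Vale.Agent.Lib.P205F.CDefs
import Vale.Agent.Lib.P205F.TC

/-! # P205F module CC: products of oscillating fields -/

open scoped ContDiff Topology
open Set

namespace P205F

theorem CC_reV_inner (A A' : C4) :
    inner ℝ (reV A) (reV A') = (cdot2 A A').re / 2 + (cdot2 A (star A')).re / 2 := by
  have e0 : ∀ B : C4, reV B 0 = (B 0).re := fun _ => rfl
  have e1 : ∀ B : C4, reV B 1 = (B 1).re := fun _ => rfl
  have e2 : ∀ B : C4, reV B 2 = (B 2).re := fun _ => rfl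
  have e3 : ∀ B : C4, reV B 3 = (B 3).re := fun _ => rfl
  unfold cdot2
  rw [TA_inner, e0, e1, e2, e3, e0, e1, e2, e3, Fin.sum_univ_four, Fin.sum_univ_four]
  simp only [Complex.add_re, Complex.mul_re, Pi.star_apply, RCLike.star_def, Complex.conj_re,
    Complex.conj_im]
  ring

theorem CC_cdot2_smul (u v : ℂ) (A A' : C4) : cdot2 (u • A) (v • A') = u * v * cdot2 A A' := by
  unfold cdot2
  rw [Finset.mul_sum]
  refine Finset.sum_congr rfl fun k _ => ?_
  rw [Pi.smul_apply, Pi.smul_apply, smul_eq_mul, smul_eq_mul]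
  ring

theorem CC_ph_add (ζ ζ' x : E2) : ph (ζ + ζ') x = ph ζ x + ph ζ' x := by
  unfold ph
  rw [Prod.fst_add, Prod.snd_add]
  ring

theorem CC_ph_sub (ζ ζ' x : E2) : ph (ζ - ζ') x = ph ζ x - ph ζ' x := by
  unfold ph
  rw [Prod.fst_sub, Prod.snd_sub]
  ring

theorem CC_star_exp (t : ℝ) :
    star (Complex.exp ((t : ℂ) * Complex.I)) = Complex.exp (((-t : ℝ) : ℂ) * Complex.I) := by
  rw [RCLike.star_def, ← Complex.exp_conj, map_mul, Complex.conj_ofReal, Complex.conj_I]
  congr 1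
  push_cast
  ring

theorem CC_exp_sub (a b : ℝ) : Complex.exp ((a : ℂ) * Complex.I) *
    Complex.exp (((-b : ℝ) : ℂ) * Complex.I) = Complex.exp (((a - b : ℝ) : ℂ) * Complex.I) := by
  rw [← Complex.exp_add]
  congr 1
  push_cast
  ring

theorem CC_exp_add (a b : ℝ) : Complex.exp ((a : ℂ) * Complex.I) *
    Complex.exp ((b : ℂ) * Complex.I) = Complex.exp (((a + b : ℝ) : ℂ) * Complex.I) := by
  rw [← Complex.exp_add]
  congr 1
  push_cast
  ring

theorem inner_osc (A A' : E2 → C4) (ζ ζ' : E2) (e : ℝ) (x : E2) :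
    inner ℝ (osc A ζ e x) (osc A' ζ' e x) =
      (Complex.exp (((ph (ζ + ζ') x / e : ℝ) : ℂ) * Complex.I) * cdot2 (A x) (A' x)).re / 2
      + (Complex.exp (((ph (ζ - ζ') x / e : ℝ) : ℂ) * Complex.I) *
        cdot2 (A x) (star (A' x))).re / 2 := by
  unfold osc
  rw [CC_reV_inner, CC_cdot2_smul, star_smul, CC_cdot2_smul, CC_star_exp, CC_exp_sub, CC_exp_add,
    CC_ph_add, CC_ph_sub, add_div, sub_div]

theorem CC_cdot2_comm (A B : C4) : cdot2 A B = cdot2 B A := by
  unfold cdot2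
  exact Finset.sum_congr rfl fun k _ => mul_comm _ _

theorem CC_cdot2_star (A B : C4) : star (cdot2 A B) = cdot2 (star A) (star B) := by
  unfold cdot2
  rw [star_sum]
  refine Finset.sum_congr rfl fun k _ => ?_
  rw [star_mul, Pi.star_apply, Pi.star_apply, mul_comm]

theorem CC_re_star (z : ℂ) : (star z).re = z.re := by
  rw [RCLike.star_def, Complex.conj_re]

/-- the quadratic part of a finite sum of oscillating fields -/
theorem quad_osc {L : Type} [DecidableEq L] (s : Finset L) (ζ : L → E2) (B : L → Fin 2 → E2 → C4)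
    (e : ℝ) (x : E2) (k m : Fin 2) :
    inner ℝ (∑ l ∈ s, osc (B l k) (ζ l) e x) (∑ l ∈ s, osc (B l m) (ζ l) e x) =
      ∑ l ∈ s, (cdot2 (B l k x) (star (B l m x))).re / 2
      + ∑ l ∈ s, ∑ l' ∈ s, (Complex.exp (((ph (ζ l + ζ l') x / e : ℝ) : ℂ) * Complex.I) *
          Rp (B l) (B l') x k m).re
      + ∑ l ∈ s, ∑ l' ∈ s with l' ≠ l,
          (Complex.exp (((ph (ζ l - ζ l') x / e : ℝ) : ℂ) * Complex.I) *
            Rm (B l) (B l') x k m).re := by
  -- the plus part
  have hplus : ∑ l ∈ s, ∑ l' ∈ s,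
      (Complex.exp (((ph (ζ l + ζ l') x / e : ℝ) : ℂ) * Complex.I) *
        cdot2 (B l k x) (B l' m x)).re / 2 =
      ∑ l ∈ s, ∑ l' ∈ s, (Complex.exp (((ph (ζ l + ζ l') x / e : ℝ) : ℂ) * Complex.I) *
          Rp (B l) (B l') x k m).re := by
    have hsw : ∑ l ∈ s, ∑ l' ∈ s,
        (Complex.exp (((ph (ζ l + ζ l') x / e : ℝ) : ℂ) * Complex.I) *
          cdot2 (B l k x) (B l' m x)).re / 4 =
        ∑ l ∈ s, ∑ l' ∈ s,
        (Complex.exp (((ph (ζ l + ζ l') x / e : ℝ) : ℂ) * Complex.I) *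
          cdot2 (B l m x) (B l' k x)).re / 4 := by
      rw [Finset.sum_comm]
      refine Finset.sum_congr rfl fun l _ => Finset.sum_congr rfl fun l' _ => ?_
      rw [add_comm (ζ l') (ζ l), CC_cdot2_comm (B l' k x)]
    have h1 : ∑ l ∈ s, ∑ l' ∈ s,
        (Complex.exp (((ph (ζ l + ζ l') x / e : ℝ) : ℂ) * Complex.I) *
          cdot2 (B l k x) (B l' m x)).re / 2 =
        ∑ l ∈ s, ∑ l' ∈ s,
        (Complex.exp (((ph (ζ l + ζ l') x / e : ℝ) : ℂ) * Complex.I) *
          cdot2 (B l k x) (B l' m x)).re / 4 + ∑ l ∈ s, ∑ l' ∈ s,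
        (Complex.exp (((ph (ζ l + ζ l') x / e : ℝ) : ℂ) * Complex.I) *
          cdot2 (B l k x) (B l' m x)).re / 4 := by
      rw [← Finset.sum_add_distrib]
      refine Finset.sum_congr rfl fun l _ => ?_
      rw [← Finset.sum_add_distrib]
      refine Finset.sum_congr rfl fun l' _ => ?_
      ring
    rw [h1]
    nth_rewrite 2 [hsw]
    rw [← Finset.sum_add_distrib]
    refine Finset.sum_congr rfl fun l _ => ?_
    rw [← Finset.sum_add_distrib]
    refine Finset.sum_congr rfl fun l' _ => ?_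
    unfold Rp
    have h4 : ∀ z w c : ℂ, (c * ((z + w) / 4)).re = (c * z).re / 4 + (c * w).re / 4 := by
      intro z w c
      have : c * ((z + w) / 4) = (((1 / 4 : ℝ) : ℂ)) * (c * z + c * w) := by
        push_cast
        ring
      rw [this, Complex.re_ofReal_mul, Complex.add_re]
      ring
    rw [h4]
  -- the minus part
  have hoff : ∑ l ∈ s, ∑ l' ∈ s with l' ≠ l,
      (Complex.exp (((ph (ζ l - ζ l') x / e : ℝ) : ℂ) * Complex.I) *
        cdot2 (B l k x) (star (B l' m x))).re / 2 =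
      ∑ l ∈ s, ∑ l' ∈ s with l' ≠ l,
        (Complex.exp (((ph (ζ l - ζ l') x / e : ℝ) : ℂ) * Complex.I) *
          Rm (B l) (B l') x k m).re := by
    have hsw : ∑ l ∈ s, ∑ l' ∈ s with l' ≠ l,
        (Complex.exp (((ph (ζ l - ζ l') x / e : ℝ) : ℂ) * Complex.I) *
          cdot2 (B l k x) (star (B l' m x))).re / 4 =
        ∑ l ∈ s, ∑ l' ∈ s with l' ≠ l,
        (Complex.exp (((ph (ζ l - ζ l') x / e : ℝ) : ℂ) * Complex.I) *
          cdot2 (B l m x) (star (B l' k x))).re / 4 := by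
      simp only [Finset.sum_filter]
      rw [Finset.sum_comm]
      refine Finset.sum_congr rfl fun l _ => Finset.sum_congr rfl fun l' _ => ?_
      by_cases h : l' = l
      · subst h
        simp
      · rw [if_pos (Ne.symm h), if_pos h]
        congr 1
        rw [← CC_re_star, star_mul, CC_star_exp, CC_cdot2_star, star_star, CC_cdot2_comm, mul_comm,
          ← neg_div, CC_ph_sub, CC_ph_sub, neg_sub]
    have h1 : ∑ l ∈ s, ∑ l' ∈ s with l' ≠ l,
        (Complex.exp (((ph (ζ l - ζ l') x / e : ℝ) : ℂ) * Complex.I) *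
          cdot2 (B l k x) (star (B l' m x))).re / 2 =
        ∑ l ∈ s, ∑ l' ∈ s with l' ≠ l,
        (Complex.exp (((ph (ζ l - ζ l') x / e : ℝ) : ℂ) * Complex.I) *
          cdot2 (B l k x) (star (B l' m x))).re / 4 + ∑ l ∈ s, ∑ l' ∈ s with l' ≠ l,
        (Complex.exp (((ph (ζ l - ζ l') x / e : ℝ) : ℂ) * Complex.I) *
          cdot2 (B l k x) (star (B l' m x))).re / 4 := by
      rw [← Finset.sum_add_distrib]
      refine Finset.sum_congr rfl fun l _ => ?_
      rw [← Finset.sum_add_distrib]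
      refine Finset.sum_congr rfl fun l' _ => ?_
      ring
    rw [h1]
    nth_rewrite 2 [hsw]
    rw [← Finset.sum_add_distrib]
    refine Finset.sum_congr rfl fun l _ => ?_
    rw [← Finset.sum_add_distrib]
    refine Finset.sum_congr rfl fun l' _ => ?_
    unfold Rm
    have h4 : ∀ z w c : ℂ, (c * ((z + w) / 4)).re = (c * z).re / 4 + (c * w).re / 4 := by
      intro z w c
      have : c * ((z + w) / 4) = (((1 / 4 : ℝ) : ℂ)) * (c * z + c * w) := by
        push_cast
        ring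
      rw [this, Complex.re_ofReal_mul, Complex.add_re]
      ring
    rw [h4]
  rw [← hplus, ← hoff, sum_inner]
  simp only [inner_sum, inner_osc]
  rw [← Finset.sum_add_distrib, ← Finset.sum_add_distrib]
  refine Finset.sum_congr rfl fun l hl => ?_
  rw [Finset.sum_add_distrib]
  have hdiag : ∑ l' ∈ s, (Complex.exp (((ph (ζ l - ζ l') x / e : ℝ) : ℂ) * Complex.I) *
        cdot2 (B l k x) (star (B l' m x))).re / 2 =
      (cdot2 (B l k x) (star (B l m x))).re / 2 + ∑ l' ∈ s with l' ≠ l,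
      (Complex.exp (((ph (ζ l - ζ l') x / e : ℝ) : ℂ) * Complex.I) *
        cdot2 (B l k x) (star (B l' m x))).re / 2 := by
    rw [Finset.filter_ne', ← Finset.add_sum_erase s _ hl]
    congr 1
    have h0 : ph (ζ l - ζ l) x / e = 0 := by
      rw [CC_ph_sub, sub_self, zero_div]
    rw [h0, Complex.ofReal_zero, zero_mul, Complex.exp_zero, one_mul]
  rw [hdiag]
  ring

theorem CC_reV_smul (e : ℝ) (A : C4) : e • reV A = reV (((e : ℝ) : ℂ) • A) := by
  ext i
  fin_cases i <;>
    simp [reV]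

/-- the derivative of `e • osc` of a kernel element -/
theorem pd_smul_osc {U : Set E2} (hU : IsOpen U) {F : E2 → V4} {ζ : E2} {α : E2 → ℝ} {J : ℕ} {e : ℝ}
    (he : 0 < e)
    (hA : ContDiffOn ℝ ∞ (wsum F ζ (fun _ _ _ => 0) (keA F ζ α) J e) U) (k : Fin 2) {x : E2}
    (hx : x ∈ U) :
    pd k (fun y => e • osc (wsum F ζ (fun _ _ _ => 0) (keA F ζ α) J e) ζ e y) x =
      osc (Bf F ζ α J e k) ζ e x := by
  have hd : DifferentiableAt ℝ (osc (wsum F ζ (fun _ _ _ => 0) (keA F ζ α) J e) ζ e) x :=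
    ((osc_contDiffOn hU hA ζ e).contDiffAt (hU.mem_nhds hx)).differentiableAt (by simp)
  have h1 : pd k (fun y => e • osc (wsum F ζ (fun _ _ _ => 0) (keA F ζ α) J e) ζ e y) x =
      e • pd k (osc (wsum F ζ (fun _ _ _ => 0) (keA F ζ α) J e) ζ e) x := by
    unfold pd
    rw [fderiv_fun_const_smul hd, ContinuousLinearMap.smul_apply]
  rw [h1, pd_osc hU hA ζ he k hx]
  unfold osc
  rw [CC_reV_smul]
  congr 1
  rw [smul_comm]
  congr 1
  unfold Bf
  rw [smul_add, smul_smul]
  congr 2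
  have he' : (e : ℂ) ≠ 0 := by exact_mod_cast he.ne'
  push_cast
  field_simp

/-- metric of a perturbed map -/
theorem met_add {F w : E2 → V4} {x : E2} (hF : DifferentiableAt ℝ F x)
    (hw : DifferentiableAt ℝ w x) (k l : Fin 2) :
    met (fun y => F y + w y) x k l = met F x k l + linF F w x k l +
      inner ℝ (pd k w x) (pd l w x) := by
  have h1 : ∀ j, pd j (fun y => F y + w y) x = pd j F x + pd j w x := by
    intro j
    unfold pd
    rw [fderiv_fun_add hF hw, ContinuousLinearMap.add_apply]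
  unfold met linF
  rw [h1, h1, inner_add_left, inner_add_right, inner_add_right,
    real_inner_comm (pd l F x) (pd k w x)]
  ring

end P205F
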