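import Mathlib
import Vale.Agent.Lib.P205F.C2Defs
import Vale.Agent.Lib.P205F.CA
import Vale.Agent.Lib.P205F.CC

/-! # P205F module C2D3: cancellation of the oscillating part -/

open scoped ContDiff Topology
open Set

namespace P205F

namespace Cell2

theorem C2D3_diff {U : Set E2} (hU : IsOpen U) {w : E2 → V4} (h : ContDiffOn ℝ ∞ w U) {x : E2}
    (hx : x ∈ U) : DifferentiableAt ℝ w x :=
  (h.contDiffAt (hU.mem_nhds hx)).differentiableAt (by simp)

theorem C2D3_pd_sum {κ : Type} (s : Finset κ) (w : κ → E2 → V4) (x : E2)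
    (h : ∀ a ∈ s, DifferentiableAt ℝ (w a) x) (k : Fin 2) :
    pd k (fun y => ∑ a ∈ s, w a y) x = ∑ a ∈ s, pd k (w a) x := by
  unfold pd
  rw [fderiv_fun_sum h, _root_.sum_apply]

theorem C2D3_diff_sum {κ : Type} (s : Finset κ) (w : κ → E2 → V4) (x : E2)
    (h : ∀ a ∈ s, DifferentiableAt ℝ (w a) x) :
    DifferentiableAt ℝ (fun y => ∑ a ∈ s, w a y) x :=
  DifferentiableAt.fun_sum h

theorem C2D3_linF_sum {κ : Type} (s : Finset κ) (F : E2 → V4) (w : κ → E2 → V4) (x : E2)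
    (h : ∀ a ∈ s, DifferentiableAt ℝ (w a) x) (k m : Fin 2) :
    linF F (fun y => ∑ a ∈ s, w a y) x k m = ∑ a ∈ s, linF F (w a) x k m := by
  unfold linF
  rw [C2D3_pd_sum s w x h k, C2D3_pd_sum s w x h m, inner_sum, inner_sum,
    ← Finset.sum_add_distrib]

theorem C2D3_linF_neg_add (F u v : E2 → V4) (x : E2)
    (hu : DifferentiableAt ℝ u x) (hv : DifferentiableAt ℝ v x) (k m : Fin 2) :
    linF F (fun y => -(u y + v y)) x k m = -(linF F u x k m + linF F v x k m) := by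
  have h1 : ∀ k, pd k (fun y => -(u y + v y)) x = -(pd k u x + pd k v x) := by
    intro k
    have h2 : HasFDerivAt (fun y => -(u y + v y)) (-(fderiv ℝ u x + fderiv ℝ v x)) x :=
      (hu.hasFDerivAt.add hv.hasFDerivAt).neg
    unfold pd
    rw [h2.fderiv]
    rfl
  unfold linF
  rw [h1 k, h1 m, inner_neg_right, inner_neg_right, inner_add_right, inner_add_right]
  ring

variable {ι : Type} {S : Setting ι E2} (C : Cell2 ι S)

theorem C2D3_cb_nonneg (M : ℕ) (i : ι) (x : E2) : 0 ≤ C.cb M i x := Real.sqrt_nonneg _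

theorem C2D3_nonDeg {g0 : ι → ℝ} {ζ : E2} {i : ι} (h : NonDeg S C.g C.F i ζ) :
    NonDeg (S.restrict (C.good g0)) C.g C.F i ζ :=
  ⟨h.1, h.2.1, fun x hx => h.2.2 x hx.1⟩

theorem C2D3_F1 (g0 : ι → ℝ) :
    Bd (S.restrict (C.good g0)) (fun _ _ => 1) (fun i x => fderiv ℝ (C.F i) x) :=
  C.F1.restrict _

theorem C2D3_F2 (g0 : ι → ℝ) :
    Bd (S.restrict (C.good g0)) (fun _ _ => 1)
      (fun i x => fderiv ℝ (fun y => fderiv ℝ (C.F i) y) x) :=
  C.F2.restrict _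

theorem C2D3_smF (g0 : ι → ℝ) (i : ι) : ContDiffOn ℝ ∞ (C.F i) ((S.restrict (C.good g0)).U i) :=
  (C.smF i).mono (fun _ hx => hx.1)

section

variable (M J n : ℕ) {g0 : ι → ℝ} (ha : C.AmpOK M J g0 n)

include ha in
theorem C2D3_al (l : Fin 3) :
    Bd (S.restrict (C.good g0)) (fun i x => Real.sqrt (C.δ i) * C.cb M i x)
      (fun i => C.al M J i n l) := by
  have h1 := Bd.constSmul (S := S.restrict (C.good g0)) ((S.restrict (C.good g0)).G.const 1 le_rfl)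
    (fun i => (C.fr i l)⁻¹) (fun i => ?_) (ha l)
  · refine h1.congr (fun i x _ => ?_)
    show C.amp M J i n l x / C.fr i l = (C.fr i l)⁻¹ • C.amp M J i n l x
    rw [smul_eq_mul, div_eq_inv_mul]
  · have h2 := C.fr_ge i l
    rw [abs_of_pos (by positivity)]
    exact inv_le_one_of_one_le₀ h2

theorem C2D3_nd1 (l : Fin 3) (i : ι) :
    NonDeg (S.restrict (C.good g0)) C.g C.F i (C.z i l) :=
  C.C2D3_nonDeg (C.nd1 i l)

include ha in
theorem C2D3_B (l : Fin 3) (k : Fin 2) :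
    Bd (S.restrict (C.good g0)) (fun i x => Real.sqrt (C.δ i) * C.cb M i x)
      (fun i => C.B M J i n l k) :=
  Bf_bd (S := S.restrict (C.good g0)) C.hg (C.C2D3_smF g0) (C.C2D3_F1 g0) (C.C2D3_F2 g0)
    (C.C2D3_nd1 l) (C.C2D3_al M J n ha l) J C.e C.e_pos C.e_le_s k

theorem C2D3_w (i : ι) (x : E2) : (Real.sqrt (C.δ i) * C.cb M i x) *
    (Real.sqrt (C.δ i) * C.cb M i x) = C.δ i * C.cb M i x ^ 2 := by
  have h := Real.mul_self_sqrt (C.d_pos i).le
  calc (Real.sqrt (C.δ i) * C.cb M i x) * (Real.sqrt (C.δ i) * C.cb M i x)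
      = (Real.sqrt (C.δ i) * Real.sqrt (C.δ i)) * C.cb M i x ^ 2 := by ring
    _ = C.δ i * C.cb M i x ^ 2 := by rw [h]

include ha in
theorem C2D3_Rp (l m : Fin 3) :
    Bd (S.restrict (C.good g0)) (fun i x => C.δ i * C.cb M i x ^ 2)
      (fun i => Rp (C.B M J i n l) (C.B M J i n m)) := by
  refine (Rp_bd (C.C2D3_B M J n ha l) (C.C2D3_B M J n ha m)).mono
    ((S.restrict (C.good g0)).G.const 1 le_rfl) (fun i x _ => ?_)
  rw [C.C2D3_w, one_mul]

include ha in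
theorem C2D3_Rm (l m : Fin 3) :
    Bd (S.restrict (C.good g0)) (fun i x => C.δ i * C.cb M i x ^ 2)
      (fun i => Rm (C.B M J i n l) (C.B M J i n m)) := by
  refine (Rm_bd (C.C2D3_B M J n ha l) (C.C2D3_B M J n ha m)).mono
    ((S.restrict (C.good g0)).G.const 1 le_rfl) (fun i x _ => ?_)
  rw [C.C2D3_w, one_mul]

end

theorem C2D3_gram {g : ι → ℝ} {P : ι → Prop} {F : ι → E2 → V4} {i : ι} {ζ : E2}
    (h : NonDeg (S.restrict P) g F i ζ) (_hg : 1 ≤ g i) {x : E2}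
    (hx : x ∈ (S.restrict P).U i) :
    0 < gram3 (pd 0 (F i) x) (pd 1 (F i) x) (ddv (perp ζ) (F i) x) := by
  have h1 := h.2.2 x hx
  have h2 := gram3_nonneg (pd 0 (F i) x) (pd 1 (F i) x) (ddv (perp ζ) (F i) x)
  rcases h2.eq_or_lt with h3 | h3
  · rw [← h3, mul_zero] at h1
    linarith
  · exact h3

theorem C2D3_nsq {g : ι → ℝ} {P : ι → Prop} {F : ι → E2 → V4} {i : ι} {ζ : E2}
    (h : NonDeg (S.restrict P) g F i ζ) : nsq ζ ≠ 0 := by
  intro h0
  have h1 := h.2.1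
  rw [h0, mul_zero] at h1
  linarith

section

variable (M J : ℕ) {g0 : ι → ℝ} {ζ : ι → E2}
  (hζ : ∀ i, NonDeg (S.restrict (C.good g0)) C.g C.F i (ζ i))
  {R : ι → E2 → T2C} (hR : Bd (S.restrict (C.good g0)) (fun i x => C.δ i * C.cb M i x ^ 2) R)

include hζ hR in
theorem C2D3_lsA : Bd (S.restrict (C.good g0)) (fun i x => C.δ i * C.cb M i x ^ 2)
    (fun i => lsA (C.F i) (ζ i) (R i)) :=
  lsA_bd (S := S.restrict (C.good g0)) C.hg (C.C2D3_smF g0) (C.C2D3_F1 g0) (C.C2D3_F2 g0)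
    (fun i => (hζ i).1) (fun i => (hζ i).2.1) (fun i => (hζ i).2.2) hR

include hζ hR in
theorem C2D3_sol_diff (i : ι) (x : E2) (hx : x ∈ (S.restrict (C.good g0)).U i) :
    DifferentiableAt ℝ (C.sol J i (ζ i) (R i)) x := by
  have h1 := wsum_bd (S := S.restrict (C.good g0)) C.hg (C.C2D3_smF g0) (C.C2D3_F1 g0)
    (C.C2D3_F2 g0) (fun i => (hζ i).1) (fun i => (hζ i).2.1) (fun i => (hζ i).2.2) hR
    (C.C2D3_lsA M hζ hR) J C.e C.e_pos C.e_le_s
  exact C2D3_diff ((S.restrict (C.good g0)).isOpen i)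
    (osc_contDiffOn ((S.restrict (C.good g0)).isOpen i) (h1.1 i) (ζ i) (C.e i)) hx

include hζ hR in
theorem C2D3_sol_lin (hJ : 1 ≤ J) (hRs : ∀ i x k l, R i x k l = R i x l k) (i : ι) (x : E2)
    (hx : x ∈ (S.restrict (C.good g0)).U i) (k m : Fin 2) :
    linF (C.F i) (C.sol J i (ζ i) (R i)) x k m =
      (Complex.exp (((ph (ζ i) x / C.e i : ℝ) : ℂ) * Complex.I) * R i x k m).re -
      (Complex.exp (((ph (ζ i) x / C.e i : ℝ) : ℂ) * Complex.I) *
        (((C.e i ^ J : ℝ) : ℂ) * wkbY (C.F i) (ζ i) (R i) (lsA (C.F i) (ζ i) (R i)) J x k m)).re := by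
  have hg1 : 1 ≤ C.g i := S.G.one_le C.g C.hg i
  have hgr : ∀ y ∈ (S.restrict (C.good g0)).U i,
      0 < gram3 (pd 0 (C.F i) y) (pd 1 (C.F i) y) (ddv (perp (ζ i)) (C.F i) y) :=
    fun y hy => C2D3_gram (hζ i) hg1 hy
  have hls := lsA_spec hgr (R i)
  have h := wkb_main (U := (S.restrict (C.good g0)).U i) ((S.restrict (C.good g0)).isOpen i)
    (C.C2D3_smF g0 i) (C2D3_nsq (hζ i)) hgr (hR.1 i) (fun y _ k l => hRs i y k l)
    ((C.C2D3_lsA M hζ hR).1 i) (fun y hy => (hls y hy).1) (fun y hy => (hls y hy).2) hJ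
    (C.e_pos i) x hx k m
  unfold sol
  rw [h, mul_sub, Complex.sub_re]

theorem C2D3_weight (i : ι) (x : E2) : |C.e i ^ J| * (C.δ i * C.cb M i x ^ 2 * (S.s i)⁻¹ ^ J) =
    C.δ i * C.cb M i x ^ 2 * C.q i ^ J := by
  have h1 := C.e_pos i
  have h2 := S.s_pos i
  rw [abs_of_pos (pow_pos h1 J)]
  unfold e
  rw [mul_pow, inv_pow]
  field_simp

include hζ hR in
theorem C2D3_term : Bd (C.S' g0) (fun i x => C.δ i * C.cb M i x ^ 2 * C.q i ^ J)
    (fun i x k m => (Complex.exp (((ph (ζ i) x / C.e i : ℝ) : ℂ) * Complex.I) *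
        (((C.e i ^ J : ℝ) : ℂ) * wkbY (C.F i) (ζ i) (R i) (lsA (C.F i) (ζ i) (R i)) J x k m)).re) := by
  have h1 := (wkb_bd (S := S.restrict (C.good g0)) C.hg (C.C2D3_smF g0) (C.C2D3_F1 g0)
    (C.C2D3_F2 g0) (fun i => (hζ i).1) (fun i => (hζ i).2.1) (fun i => (hζ i).2.2) hR
    (C.C2D3_lsA M hζ hR) J).2.1
  refine Bd.pi.2 fun k => Bd.pi.2 fun m => ?_
  have h2 := Bd.pi.1 (Bd.pi.1 h1 k) m
  have h3 := h2.weightSmul (fun i => C.e i ^ J)
  have h4 : Bd (S.restrict (C.good g0)) (fun i x => C.δ i * C.cb M i x ^ 2 * C.q i ^ J)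
      (fun i x => ((C.e i ^ J : ℝ) : ℂ) *
        wkbY (C.F i) (ζ i) (R i) (lsA (C.F i) (ζ i) (R i)) J x k m) := by
    refine (h3.congr (fun i x _ => ?_)).mono
      ((S.restrict (C.good g0)).G.const 1 le_rfl) (fun i x _ => ?_)
    · rw [Complex.real_smul]
    · rw [one_mul]
      exact (C.C2D3_weight M J i x).le
  exact oscC_bd (S := S.restrict (C.good g0)) C.hg (fun i => (hζ i).1) h4 C.e C.e_pos C.e_le_one
    C.e_le_s

end

section

variable (M J n : ℕ) {g0 : ι → ℝ} (ha : C.AmpOK M J g0 n)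

theorem C2D3_ndp (l m : Fin 3) (i : ι) :
    NonDeg (S.restrict (C.good g0)) C.g C.F i (C.z i l + C.z i m) :=
  C.C2D3_nonDeg (C.ndp i l m)

theorem C2D3_ndm (l m : Fin 3) (hlm : m ≠ l) (i : ι) :
    NonDeg (S.restrict (C.good g0)) C.g C.F i (C.z i l - C.z i m) :=
  C.C2D3_nonDeg (C.ndm i l m hlm.symm)

/-- the oscillating remainder of a pair of labels -/
noncomputable def C2D3_Tp (C : Cell2 ι S) (M J n : ℕ) (l m : Fin 3) (i : ι) (x : E2) : T2 :=
  fun k k' => (Complex.exp (((ph (C.z i l + C.z i m) x / C.e i : ℝ) : ℂ) * Complex.I) *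
    (((C.e i ^ J : ℝ) : ℂ) * wkbY (C.F i) (C.z i l + C.z i m)
      (Rp (C.B M J i n l) (C.B M J i n m))
      (lsA (C.F i) (C.z i l + C.z i m) (Rp (C.B M J i n l) (C.B M J i n m))) J x k k')).re

/-- the oscillating remainder of a pair of labels -/
noncomputable def C2D3_Tm (C : Cell2 ι S) (M J n : ℕ) (l m : Fin 3) (i : ι) (x : E2) : T2 :=
  fun k k' => (Complex.exp (((ph (C.z i l - C.z i m) x / C.e i : ℝ) : ℂ) * Complex.I) *
    (((C.e i ^ J : ℝ) : ℂ) * wkbY (C.F i) (C.z i l - C.z i m)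
      (Rm (C.B M J i n l) (C.B M J i n m))
      (lsA (C.F i) (C.z i l - C.z i m) (Rm (C.B M J i n l) (C.B M J i n m))) J x k k')).re

include ha in
theorem C2D3_wsum0 (l : Fin 3) (i : ι) :
    ContDiffOn ℝ ∞ (wsum (C.F i) (C.z i l) (fun _ _ _ => 0)
      (keA (C.F i) (C.z i l) (C.al M J i n l)) J (C.e i)) ((S.restrict (C.good g0)).U i) := by
  have h0 : Bd (S.restrict (C.good g0)) (fun i x => Real.sqrt (C.δ i) * C.cb M i x)
      (fun (_ : ι) (_ : E2) => (0 : T2C)) :=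
    Bd.zero (fun i x _ => mul_nonneg (Real.sqrt_nonneg _) (C.C2D3_cb_nonneg M i x))
  have hk := keA_bd (S := S.restrict (C.good g0)) C.hg (C.C2D3_smF g0) (C.C2D3_F1 g0)
    (C.C2D3_F2 g0) (fun i => (C.C2D3_nd1 (g0 := g0) l i).1)
    (fun i => (C.C2D3_nd1 (g0 := g0) l i).2.1)
    (fun i => (C.C2D3_nd1 (g0 := g0) l i).2.2) (C.C2D3_al M J n ha l)
  exact (wsum_bd (S := S.restrict (C.good g0)) C.hg (C.C2D3_smF g0) (C.C2D3_F1 g0)
    (C.C2D3_F2 g0) (fun i => (C.C2D3_nd1 (g0 := g0) l i).1)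
    (fun i => (C.C2D3_nd1 (g0 := g0) l i).2.1)
    (fun i => (C.C2D3_nd1 (g0 := g0) l i).2.2) h0 hk J C.e C.e_pos C.e_le_s).1 i

include ha in
theorem C2D3_pd_w1 (i : ι) (x : E2) (hx : x ∈ (S.restrict (C.good g0)).U i) (k : Fin 2) :
    pd k (C.w1 M J i n) x = ∑ l, osc (C.B M J i n l k) (C.z i l) (C.e i) x := by
  have hU := (S.restrict (C.good g0)).isOpen i
  unfold w1
  rw [C2D3_pd_sum]
  · refine Finset.sum_congr rfl (fun l _ => ?_)
    exact pd_smul_osc hU (C.e_pos i) (C.C2D3_wsum0 M J n ha l i) k hx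
  · intro l _
    exact (C2D3_diff hU (osc_contDiffOn hU (C.C2D3_wsum0 M J n ha l i) (C.z i l) (C.e i))
      hx).fun_const_smul _

include ha in
theorem C2D3_lin (hJ : 1 ≤ J) (i : ι) (x : E2) (hx : x ∈ (S.restrict (C.good g0)).U i)
    (k m : Fin 2) :
    linF (C.F i) (C.w2 M J i n) x k m =
      -(∑ l, ∑ l', ((Complex.exp (((ph (C.z i l + C.z i l') x / C.e i : ℝ) : ℂ)
          * Complex.I) * Rp (C.B M J i n l) (C.B M J i n l') x k m).re
            - C.C2D3_Tp M J n l l' i x k m)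
      + ∑ l, ∑ l' with l' ≠ l,
        ((Complex.exp (((ph (C.z i l - C.z i l') x / C.e i : ℝ) : ℂ)
          * Complex.I) * Rm (C.B M J i n l) (C.B M J i n l') x k m).re
            - C.C2D3_Tm M J n l l' i x k m)) := by
  have hp : ∀ l l' : Fin 3, DifferentiableAt ℝ
      (C.sol J i (C.z i l + C.z i l') (Rp (C.B M J i n l) (C.B M J i n l'))) x := fun l l' =>
    C.C2D3_sol_diff M J (ζ := fun i => C.z i l + C.z i l') (C.C2D3_ndp l l')
      (C.C2D3_Rp M J n ha l l') i x hx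
  have hm : ∀ l : Fin 3, ∀ l' ∈ Finset.univ.filter (fun l' => l' ≠ l), DifferentiableAt ℝ
      (C.sol J i (C.z i l - C.z i l') (Rm (C.B M J i n l) (C.B M J i n l'))) x := fun l l' hl' =>
    C.C2D3_sol_diff M J (ζ := fun i => C.z i l - C.z i l')
      (C.C2D3_ndm l l' (Finset.mem_filter.mp hl').2)
      (C.C2D3_Rm M J n ha l l') i x hx
  unfold w2
  rw [C2D3_linF_neg_add]
  · congr 2
    · rw [C2D3_linF_sum]
      · refine Finset.sum_congr rfl (fun l _ => ?_)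
        rw [C2D3_linF_sum _ _ _ _ (fun l' _ => hp l l')]
        refine Finset.sum_congr rfl (fun l' _ => ?_)
        exact C.C2D3_sol_lin M J (ζ := fun i => C.z i l + C.z i l')
          (R := fun i => Rp (C.B M J i n l) (C.B M J i n l')) (C.C2D3_ndp l l')
          (C.C2D3_Rp M J n ha l l') hJ (fun i y k k' => Rp_sym _ _ y k k') i x hx k m
      · exact fun l _ => C2D3_diff_sum _ _ _ (fun l' _ => hp l l')
    · rw [C2D3_linF_sum]
      · refine Finset.sum_congr rfl (fun l _ => ?_)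
        rw [C2D3_linF_sum _ _ _ _ (fun l' hl' => hm l l' hl')]
        refine Finset.sum_congr rfl (fun l' hl' => ?_)
        exact C.C2D3_sol_lin M J (ζ := fun i => C.z i l - C.z i l')
          (R := fun i => Rm (C.B M J i n l) (C.B M J i n l'))
          (C.C2D3_ndm l l' (Finset.mem_filter.mp hl').2)
          (C.C2D3_Rm M J n ha l l') hJ
          (fun i y k k' => Rm_sym _ _ y k k') i x hx k m
      · exact fun l _ => C2D3_diff_sum _ _ _ (fun l' hl' => hm l l' hl')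
  · exact C2D3_diff_sum _ _ _ (fun l _ => C2D3_diff_sum _ _ _ (fun l' _ => hp l l'))
  · exact C2D3_diff_sum _ _ _ (fun l _ => C2D3_diff_sum _ _ _ (fun l' hl' => hm l l' hl'))

end

/-- the oscillating part of the square of `w1` is cancelled by the linear part of `w2` -/
theorem lin_w2 (M J n : ℕ) (hJ : 1 ≤ J) {g0 : ι → ℝ} (hg0 : g0 ∈ S.G.mem)
    (ha : C.AmpOK M J g0 n) :
    Bd (C.S' g0) (fun i x => C.δ i * C.cb M i x ^ 2 * C.q i ^ J)
      (fun i x k m => linF (C.F i) (C.w2 M J i n) x k m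
        + (inner ℝ (pd k (C.w1 M J i n) x) (pd m (C.w1 M J i n) x)
          - ∑ l, Sf (C.F i) (C.z i l) (C.al M J i n l) J (C.e i) x k m)) := by
  have _ := hg0
  have hW : ∀ i, ∀ x ∈ (C.S' g0).U i,
      0 ≤ (fun (i : ι) (x : E2) => C.δ i * C.cb M i x ^ 2 * C.q i ^ J) i x :=
    fun i x _ => mul_nonneg (mul_nonneg (C.d_pos i).le (sq_nonneg _)) (pow_nonneg (C.q_pos i).le _)
  have h1 : Bd (C.S' g0) (fun i x => C.δ i * C.cb M i x ^ 2 * C.q i ^ J)
      (fun i x => ∑ l, ∑ l', C.C2D3_Tp M J n l l' i x) := by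
    refine Bd.sum _ hW (fun l _ => Bd.sum _ hW (fun l' _ => ?_))
    exact C.C2D3_term M J (ζ := fun i => C.z i l + C.z i l')
      (R := fun i => Rp (C.B M J i n l) (C.B M J i n l')) (C.C2D3_ndp l l')
      (C.C2D3_Rp M J n ha l l')
  have h2 : Bd (C.S' g0) (fun i x => C.δ i * C.cb M i x ^ 2 * C.q i ^ J)
      (fun i x => ∑ l, ∑ l' with l' ≠ l, C.C2D3_Tm M J n l l' i x) := by
    refine Bd.sum _ hW (fun l _ => Bd.sum _ hW (fun l' hl' => ?_))
    exact C.C2D3_term M J (ζ := fun i => C.z i l - C.z i l')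
      (R := fun i => Rm (C.B M J i n l) (C.B M J i n l'))
      (C.C2D3_ndm l l' (Finset.mem_filter.mp hl').2)
      (C.C2D3_Rm M J n ha l l')
  refine (h1.add h2).congr (fun i x hx => ?_)
  funext k m
  rw [C.C2D3_lin M J n ha hJ i x hx k m, C.C2D3_pd_w1 M J n ha i x hx k,
    C.C2D3_pd_w1 M J n ha i x hx m,
    quad_osc Finset.univ (fun l => C.z i l) (fun l => C.B M J i n l) (C.e i) x k m]
  simp only [Pi.add_apply, Finset.sum_apply, Finset.sum_sub_distrib]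
  have h3 : ∑ l, (cdot2 (C.B M J i n l k x) (star (C.B M J i n l m x))).re / 2 =
      ∑ l, Sf (C.F i) (C.z i l) (C.al M J i n l) J (C.e i) x k m := rfl
  rw [h3]
  ring

end Cell2

end P205F
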