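import Mathlib
import Vale.Agent.Lib.P205F.C2B
import Vale.Agent.Lib.P205F.C2D1
import Vale.Agent.Lib.P205F.C2D2
import Vale.Agent.Lib.P205F.C2D3

/-! # P205F module C2D: the cell theorem -/

open scoped ContDiff Topology
open Set

namespace P205F

namespace Cell2

variable {ι : Type} {S : Setting ι E2} (C : Cell2 ι S)

private theorem C2D_s0 (i : ι) : 0 ≤ Real.sqrt (C.δ i) := Real.sqrt_nonneg _

private theorem C2D_se (i : ι) : Real.sqrt (C.δ i) ≤ C.e i := C.d_le i

private theorem C2D_s1 (i : ι) : Real.sqrt (C.δ i) ≤ 1 := (C.C2D_se i).trans (C.e_le_one i)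

private theorem C2D_ss (i : ι) : Real.sqrt (C.δ i) * Real.sqrt (C.δ i) = C.δ i :=
  Real.mul_self_sqrt (C.d_pos i).le

private theorem C2D_ds (i : ι) : C.δ i ≤ Real.sqrt (C.δ i) := by
  have h := mul_le_mul_of_nonneg_left (C.C2D_s1 i) (C.C2D_s0 i)
  rw [C.C2D_ss i, mul_one] at h
  exact h

private theorem C2D_d1 (i : ι) : C.δ i ≤ 1 := (C.C2D_ds i).trans (C.C2D_s1 i)

private theorem C2D_cb0 (M : ℕ) (i : ι) (x : E2) : 0 ≤ C.cb M i x := Real.sqrt_nonneg _

private theorem C2D_cb_sq (M : ℕ) (i : ι) (x : E2) :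
    C.cb M i x ^ 2 = C.chi i x ^ 2 + (C.δ i) ^ (2 * M) := by
  unfold cb chibar
  rw [Real.sq_sqrt]
  have h := (C.d_pos i).le
  positivity

private theorem C2D_cb_bound (M : ℕ) : ∃ gc ∈ S.G.mem, ∀ i, ∀ x ∈ S.U i, C.cb M i x ≤ gc i := by
  obtain ⟨g, hg, h⟩ := C.chi_flat.bd.bound
  refine ⟨_, Growth.add hg (S.G.const 1 le_rfl), fun i x hx => ?_⟩
  have h1 := h i x hx
  rw [mul_one, Real.norm_eq_abs] at h1
  have h0 : 0 ≤ g i + 1 := by
    have := S.G.one_le g hg i
    linarith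
  have h2 : C.cb M i x ^ 2 ≤ (g i + 1) ^ 2 := by
    rw [C2D_cb_sq]
    have h3 : (C.δ i) ^ (2 * M) ≤ 1 := pow_le_one₀ (C.d_pos i).le (C.C2D_d1 i)
    have h4 : C.chi i x ^ 2 ≤ g i ^ 2 := by
      rw [← sq_abs]
      exact pow_le_pow_left₀ (abs_nonneg _) h1 2
    have := S.G.one_le g hg i
    nlinarith
  exact abs_le_of_sq_le_sq' h2 h0 |>.2

/-- the metric error of the perturbation before the cut-off -/
theorem pre_err (M J N : ℕ) (hJ : 1 ≤ J) {g0 : ι → ℝ} (hg0 : g0 ∈ S.G.mem)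
    (h : ∀ n, n ≤ N →
      C.AmpOK M J g0 n ∧
      Bd (S.restrict (C.good g0)) (fun i x => C.δ i * C.cb M i x ^ 2 * C.q i ^ (n + 2))
        (fun i x => C.errOf J i (C.amp M J i (n + 1)) x - C.errOf J i (C.amp M J i n) x) ∧
      ∀ i, C.good g0 i → ∀ j, ∀ x ∈ S.U i, 0 ≤ C.cof i j
        (fun k l => C.H i x k l - C.errOf J i (C.amp M J i n) x k l / C.cb M i x ^ 2))
    (hN : C.AmpOK M J g0 (N + 1)) :
    Bd (C.S' g0) (fun i x => C.cb M i x * (Real.sqrt (C.δ i) * C.q i ^ J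
        + C.δ i * C.q i ^ (N + 1) + C.δ i * Real.sqrt (C.δ i) / C.e i))
      (fun i x k m => met (fun y => C.F i y + (C.w1 M J i (N + 1) y + C.w2 M J i (N + 1) y)) x k m
        - met (C.F i) x k m - C.cb M i x ^ 2 * C.H i x k m) := by
  obtain ⟨gc, hgc, hcb⟩ := C.C2D_cb_bound M
  have b1 := C.w1_bd M J (N + 1) hg0 hN
  have b2 := C.w2_bd M J (N + 1) hg0 hN
  have b3 := C.lin_w1 M J (N + 1) hJ hg0 hN
  have b4 := C.lin_w2 M J (N + 1) hJ hg0 hN
  obtain ⟨_, hE, hP⟩ := h N le_rfl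
  have b5 := Bd.rescale (S := S.restrict (C.good g0)) C.e C.e_pos C.e_le_one C.e_le_s hE
  have hq0 : ∀ i (n : ℕ), 0 ≤ C.q i ^ n := fun i n => pow_nonneg (C.q_pos i).le n
  have hp1 : ∀ i, 0 ≤ Real.sqrt (C.δ i) * C.q i ^ J := fun i => mul_nonneg (C.C2D_s0 i) (hq0 i _)
  have hp2 : ∀ i, 0 ≤ C.δ i * C.q i ^ (N + 1) := fun i => mul_nonneg (C.d_pos i).le (hq0 i _)
  have hp3 : ∀ i, 0 ≤ C.δ i * Real.sqrt (C.δ i) / C.e i := fun i =>
    div_nonneg (mul_nonneg (C.d_pos i).le (C.C2D_s0 i)) (C.e_pos i).le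
  have hgc1 : ∀ i, 1 ≤ gc i := fun i => S.G.one_le gc hgc i
  set A : ι → ℝ := fun i => Real.sqrt (C.δ i) * C.q i ^ J
        + C.δ i * C.q i ^ (N + 1) + C.δ i * Real.sqrt (C.δ i) / C.e i with hA
  have hA1 : ∀ i, Real.sqrt (C.δ i) * C.q i ^ J ≤ A i := fun i => by
    have := hp2 i
    have := hp3 i
    simp only [hA]
    linarith
  have hA2 : ∀ i, C.δ i * C.q i ^ (N + 1) ≤ A i := fun i => by
    have := hp1 i
    have := hp3 i
    simp only [hA]
    linarith
  have hA3 : ∀ i, C.δ i * Real.sqrt (C.δ i) / C.e i ≤ A i := fun i => by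
    have := hp1 i
    have := hp2 i
    simp only [hA]
    linarith
  have hA0 : ∀ i, 0 ≤ A i := fun i => (hp1 i).trans (hA1 i)
  have hcbx : ∀ i, ∀ x ∈ (C.S' g0).U i, C.cb M i x ≤ gc i := fun i x hx => hcb i x hx.1
  have c0 : ∀ i x, 0 ≤ C.cb M i x := fun i x => C.C2D_cb0 M i x
  -- linear part of w1
  have b3' : Bd (C.S' g0) (fun i x => C.cb M i x * A i)
      (fun i => linF (C.F i) (C.w1 M J i (N + 1))) := by
    refine b3.mono (S.G.const 1 le_rfl) fun i x hx => ?_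
    change Real.sqrt (C.δ i) * C.cb M i x * C.q i ^ J ≤ 1 * (C.cb M i x * A i)
    have h1 := mul_le_mul_of_nonneg_left (hA1 i) (c0 i x)
    calc Real.sqrt (C.δ i) * C.cb M i x * C.q i ^ J
        = C.cb M i x * (Real.sqrt (C.δ i) * C.q i ^ J) := by ring
      _ ≤ C.cb M i x * A i := h1
      _ = 1 * (C.cb M i x * A i) := (one_mul _).symm
  have b4' := Bd.mono (S := C.S' g0) (W' := fun i x => C.cb M i x * A i) hgc b4 fun i x hx => by
    change C.δ i * C.cb M i x ^ 2 * C.q i ^ J ≤ gc i * (C.cb M i x * A i)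
    have h1 := mul_le_mul_of_nonneg_right (C.C2D_ds i) (hq0 i J)
    have h2 : C.δ i * C.q i ^ J ≤ A i := h1.trans (hA1 i)
    calc C.δ i * C.cb M i x ^ 2 * C.q i ^ J
        = C.cb M i x * (C.cb M i x * (C.δ i * C.q i ^ J)) := by ring
      _ ≤ gc i * (C.cb M i x * A i) :=
        mul_le_mul (hcbx i x hx) (mul_le_mul_of_nonneg_left h2 (c0 i x))
          (mul_nonneg (c0 i x) (mul_nonneg (C.d_pos i).le (hq0 i J)))
          ((c0 i x).trans (hcbx i x hx))
  have b5' := Bd.mono (S := C.S' g0) (W' := fun i x => C.cb M i x * A i) hgc b5 fun i x hx => by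
    change C.δ i * C.cb M i x ^ 2 * C.q i ^ (N + 2) ≤ gc i * (C.cb M i x * A i)
    have h1 : C.δ i * C.q i ^ (N + 2) ≤ A i := by
      refine le_trans ?_ (hA2 i)
      refine mul_le_mul_of_nonneg_left ?_ (C.d_pos i).le
      exact pow_le_pow_of_le_one (C.q_pos i).le (C.q_lt i).le (by omega)
    calc C.δ i * C.cb M i x ^ 2 * C.q i ^ (N + 2)
        = C.cb M i x * (C.cb M i x * (C.δ i * C.q i ^ (N + 2))) := by ring
      _ ≤ gc i * (C.cb M i x * A i) :=
        mul_le_mul (hcbx i x hx) (mul_le_mul_of_nonneg_left h1 (c0 i x))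
          (mul_nonneg (c0 i x) (mul_nonneg (C.d_pos i).le (hq0 i (N + 2))))
          ((c0 i x).trans (hcbx i x hx))
  -- cross terms
  have hcb2 : ∀ i, ∀ x ∈ (C.S' g0).U i, C.cb M i x * C.cb M i x ≤ gc i * gc i :=
    fun i x hx => mul_le_mul (hcbx i x hx) (hcbx i x hx) (c0 i x) ((c0 i x).trans (hcbx i x hx))
  have c12 : ∀ k m, Bd (C.S' g0) (fun i x => C.cb M i x * A i)
      (fun i x => (inner ℝ (pd k (C.w1 M J i (N + 1)) x) (pd m (C.w2 M J i (N + 1)) x) : ℝ)) := by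
    intro k m
    refine ((b1.pd k).inner (b2.pd m)).mono (S.G.mul _ hgc _ hgc) fun i x hx => ?_
    change Real.sqrt (C.δ i) * C.cb M i x * C.e i * (C.e i)⁻¹ *
      (C.δ i * C.cb M i x ^ 2 * (C.e i)⁻¹) ≤ gc i * gc i * (C.cb M i x * A i)
    have he := (C.e_pos i).ne'
    have h1 : Real.sqrt (C.δ i) * C.cb M i x * C.e i * (C.e i)⁻¹ *
        (C.δ i * C.cb M i x ^ 2 * (C.e i)⁻¹) = (C.cb M i x * C.cb M i x) *
        (C.cb M i x * (C.δ i * Real.sqrt (C.δ i) / C.e i)) := by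
      field_simp
    rw [h1]
    exact mul_le_mul (hcb2 i x hx) (mul_le_mul_of_nonneg_left (hA3 i) (c0 i x))
      (mul_nonneg (c0 i x) (hp3 i)) (mul_nonneg (by linarith [hgc1 i]) (by linarith [hgc1 i]))
  have c21 : ∀ k m, Bd (C.S' g0) (fun i x => C.cb M i x * A i)
      (fun i x => (inner ℝ (pd k (C.w2 M J i (N + 1)) x) (pd m (C.w1 M J i (N + 1)) x) : ℝ)) := by
    intro k m
    refine (c12 m k).congr fun i x _ => real_inner_comm _ _
  have c22 : ∀ k m, Bd (C.S' g0) (fun i x => C.cb M i x * A i)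
      (fun i x => (inner ℝ (pd k (C.w2 M J i (N + 1)) x) (pd m (C.w2 M J i (N + 1)) x) : ℝ)) := by
    intro k m
    refine ((b2.pd k).inner (b2.pd m)).mono (S.G.mul _ (S.G.mul _ hgc _ hgc) _ hgc)
      fun i x hx => ?_
    change C.δ i * C.cb M i x ^ 2 * (C.e i)⁻¹ * (C.δ i * C.cb M i x ^ 2 * (C.e i)⁻¹) ≤
      gc i * gc i * gc i * (C.cb M i x * A i)
    have he := C.e_pos i
    have h1 : C.δ i * (C.e i)⁻¹ ≤ Real.sqrt (C.δ i) := by
      rw [← div_eq_mul_inv, div_le_iff₀ he]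
      calc C.δ i = Real.sqrt (C.δ i) * Real.sqrt (C.δ i) := (C.C2D_ss i).symm
        _ ≤ Real.sqrt (C.δ i) * C.e i := mul_le_mul_of_nonneg_left (C.C2D_se i) (C.C2D_s0 i)
    have h2 : (C.δ i * (C.e i)⁻¹) * (C.δ i * (C.e i)⁻¹) ≤ A i := by
      refine le_trans ?_ (hA3 i)
      calc (C.δ i * (C.e i)⁻¹) * (C.δ i * (C.e i)⁻¹)
          ≤ (C.δ i * (C.e i)⁻¹) * Real.sqrt (C.δ i) :=
            mul_le_mul_of_nonneg_left h1 (mul_nonneg (C.d_pos i).le (inv_nonneg.mpr he.le))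
        _ = C.δ i * Real.sqrt (C.δ i) / C.e i := by
            rw [div_eq_mul_inv]; ring
    have h3 : C.cb M i x * C.cb M i x * C.cb M i x ≤ gc i * gc i * gc i :=
      mul_le_mul (hcb2 i x hx) (hcbx i x hx) (c0 i x)
        (mul_nonneg (by linarith [hgc1 i]) (by linarith [hgc1 i]))
    have h4 : 0 ≤ gc i * gc i * gc i := by
      have := hgc1 i
      positivity
    calc C.δ i * C.cb M i x ^ 2 * (C.e i)⁻¹ * (C.δ i * C.cb M i x ^ 2 * (C.e i)⁻¹)
        = (C.cb M i x * C.cb M i x * C.cb M i x) *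
          (C.cb M i x * ((C.δ i * (C.e i)⁻¹) * (C.δ i * (C.e i)⁻¹))) := by ring
      _ ≤ gc i * gc i * gc i * (C.cb M i x * A i) :=
        mul_le_mul h3 (mul_le_mul_of_nonneg_left h2 (c0 i x))
          (mul_nonneg (c0 i x) (mul_self_nonneg _)) h4
  have b6' : Bd (C.S' g0) (fun i x => C.cb M i x * A i)
      (fun i x k m => (inner ℝ (pd k (C.w1 M J i (N + 1)) x) (pd m (C.w2 M J i (N + 1)) x)
        + inner ℝ (pd k (C.w2 M J i (N + 1)) x) (pd m (C.w1 M J i (N + 1)) x))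
        + inner ℝ (pd k (C.w2 M J i (N + 1)) x) (pd m (C.w2 M J i (N + 1)) x)) :=
    Bd.pi.2 fun k => Bd.pi.2 fun m => ((c12 k m).add (c21 k m)).add (c22 k m)
  refine ((b3'.add b4').add (b5'.add b6')).congr fun i x hx => ?_
  have hnh : (C.S' g0).U i ∈ 𝓝 x := ((C.S' g0).isOpen i).mem_nhds hx
  have d1 : DifferentiableAt ℝ (C.w1 M J i (N + 1)) x :=
    ((b1.1 i).contDiffAt hnh).differentiableAt (by simp)
  have d2 : DifferentiableAt ℝ (C.w2 M J i (N + 1)) x :=
    ((b2.1 i).contDiffAt hnh).differentiableAt (by simp)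
  have dF : DifferentiableAt ℝ (C.F i) x :=
    ((C.smF i).contDiffAt ((S.isOpen i).mem_nhds hx.1)).differentiableAt (by simp)
  have hpd : ∀ k, pd k (fun y => C.w1 M J i (N + 1) y + C.w2 M J i (N + 1) y) x =
      pd k (C.w1 M J i (N + 1)) x + pd k (C.w2 M J i (N + 1)) x := by
    intro k
    unfold pd
    rw [fderiv_fun_add d1 d2]
    rfl
  funext k m
  have hS := C.sum_Sf M J N (i := i) (fun j y hy => hP i hx.2 j y hy) x hx.1 k m
  have hm := met_add (w := fun y => C.w1 M J i (N + 1) y + C.w2 M J i (N + 1) y) dF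
    (d1.add d2) k m
  simp only [Pi.add_apply, Pi.sub_apply]
  rw [hm]
  unfold linF
  rw [hpd k, hpd m]
  simp only [inner_add_right, inner_add_left]
  linarith

/-- the quadratic expression of a perturbation -/
private noncomputable def C2DQ (i : ι) (u : E2 → V4) : E2 → T2 := fun x k m =>
  linF (C.F i) u x k m + inner ℝ (pd k u x) (pd m u x)

private theorem C2DQ_bd (M : ℕ) {g0 : ι → ℝ} {u : ι → E2 → V4}
    (hu : Bd (C.S' g0) (fun i x => Real.sqrt (C.δ i) * C.e i * C.cb M i x) u) :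
    Bd (C.S' g0) (C.cb M) (fun i => C.C2DQ i (u i)) := by
  obtain ⟨gc, hgc, hcb⟩ := C.C2D_cb_bound M
  have c0 : ∀ i x, 0 ≤ C.cb M i x := fun i x => C.C2D_cb0 M i x
  have hcbx : ∀ i, ∀ x ∈ (C.S' g0).U i, C.cb M i x ≤ gc i := fun i x hx => hcb i x hx.1
  have hp : ∀ k, Bd (C.S' g0) (C.cb M) (fun i x => pd k (u i) x) := by
    intro k
    refine (hu.pd k).mono (S.G.const 1 le_rfl) fun i x _ => ?_
    change Real.sqrt (C.δ i) * C.e i * C.cb M i x * (C.e i)⁻¹ ≤ 1 * C.cb M i x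
    have he := (C.e_pos i).ne'
    have h1 : Real.sqrt (C.δ i) * C.e i * C.cb M i x * (C.e i)⁻¹ =
        Real.sqrt (C.δ i) * C.cb M i x := by
      field_simp
    rw [h1]
    exact mul_le_mul_of_nonneg_right (C.C2D_s1 i) (c0 i x)
  have hF : ∀ k, Bd (C.S' g0) (fun _ _ => 1) (fun i x => pd k (C.F i) x) := fun k =>
    ((Bd.pd' C.F1 k).restrict _).rescale C.e C.e_pos C.e_le_one C.e_le_s
  have h1 : ∀ k m, Bd (C.S' g0) (C.cb M)
      (fun i x => (inner ℝ (pd k (C.F i) x) (pd m (u i) x) : ℝ)) := by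
    intro k m
    refine ((hF k).inner (hp m)).mono (S.G.const 1 le_rfl) fun i x _ => ?_
    change 1 * C.cb M i x ≤ 1 * C.cb M i x
    exact le_rfl
  have h2 : ∀ k m, Bd (C.S' g0) (C.cb M)
      (fun i x => (inner ℝ (pd k (u i) x) (pd m (u i) x) : ℝ)) := by
    intro k m
    refine ((hp k).inner (hp m)).mono hgc fun i x hx => ?_
    change C.cb M i x * C.cb M i x ≤ gc i * C.cb M i x
    exact mul_le_mul_of_nonneg_right (hcbx i x hx) (c0 i x)
  refine Bd.pi.2 fun k => Bd.pi.2 fun m => ?_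
  exact ((h1 k m).add (h1 m k)).add (h2 k m)

/-- THE CELL THEOREM -/
theorem main (M J N : ℕ) (hJ : 1 ≤ J) : ∃ g0 ∈ S.G.mem, ∃ w : ι → E2 → V4, ∃ er : ι → E2 → T2,
    Bd (C.S' g0) (fun i _ => Real.sqrt (C.δ i) * C.e i) w ∧
    Bd (C.S' g0) (fun i _ => Real.sqrt (C.δ i) * C.q i ^ J + C.δ i * C.q i ^ (N + 1)
      + C.δ i * Real.sqrt (C.δ i) / C.e i + C.δ i ^ M) er ∧
    ∀ i, C.good g0 i → ContDiff ℝ ∞ (w i) ∧ ContDiff ℝ ∞ (er i) ∧
      (∀ x, x ∉ tsupport (C.kap i) → w i x = 0 ∧ er i x = 0) ∧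
      (∀ x k m, er i x k m = er i x m k) ∧
      ∀ x ∈ S.U i, ∀ k m, met (fun y => C.F i y + w i y) x k m = met (C.F i) x k m
        + C.chi i x ^ 2 * C.H i x k m + er i x k m := by
  classical
  obtain ⟨gc, hgc, hcb⟩ := C.C2D_cb_bound M
  obtain ⟨g0, hg0, hamp⟩ := C.amp_bd M J (N + 1)
  have hN : C.AmpOK M J g0 (N + 1) := (hamp (N + 1) le_rfl).1
  have b1 := C.w1_bd M J (N + 1) hg0 hN
  have b2 := C.w2_bd M J (N + 1) hg0 hN
  have bp := C.pre_err M J N hJ hg0 (fun n hn =>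
    ⟨(hamp n (by omega)).1, (hamp n (by omega)).2.2.1, (hamp n (by omega)).2.2.2⟩) hN
  have c0 : ∀ i x, 0 ≤ C.cb M i x := fun i x => C.C2D_cb0 M i x
  have hcbx : ∀ i, ∀ x ∈ (C.S' g0).U i, C.cb M i x ≤ gc i := fun i x hx => hcb i x hx.1
  have hgc1 : ∀ i, 1 ≤ gc i := fun i => S.G.one_le gc hgc i
  have hq0 : ∀ i (n : ℕ), 0 ≤ C.q i ^ n := fun i n => pow_nonneg (C.q_pos i).le n
  have hp1 : ∀ i, 0 ≤ Real.sqrt (C.δ i) * C.q i ^ J := fun i => mul_nonneg (C.C2D_s0 i) (hq0 i _)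
  have hp2 : ∀ i, 0 ≤ C.δ i * C.q i ^ (N + 1) := fun i => mul_nonneg (C.d_pos i).le (hq0 i _)
  have hp3 : ∀ i, 0 ≤ C.δ i * Real.sqrt (C.δ i) / C.e i := fun i =>
    div_nonneg (mul_nonneg (C.d_pos i).le (C.C2D_s0 i)) (C.e_pos i).le
  have hp4 : ∀ i, 0 ≤ C.δ i ^ M := fun i => pow_nonneg (C.d_pos i).le M
  -- the perturbation before the cut-off
  let v : ι → E2 → V4 := fun i y => C.w1 M J i (N + 1) y + C.w2 M J i (N + 1) y
  have vb : Bd (C.S' g0) (fun i x => Real.sqrt (C.δ i) * C.e i * C.cb M i x) v := by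
    have b1' : Bd (C.S' g0) (fun i x => Real.sqrt (C.δ i) * C.e i * C.cb M i x)
        (fun i => C.w1 M J i (N + 1)) := by
      refine b1.mono (S.G.const 1 le_rfl) fun i x _ => le_of_eq ?_
      change Real.sqrt (C.δ i) * C.cb M i x * C.e i = 1 * (Real.sqrt (C.δ i) * C.e i * C.cb M i x)
      ring
    have b2' : Bd (C.S' g0) (fun i x => Real.sqrt (C.δ i) * C.e i * C.cb M i x)
        (fun i => C.w2 M J i (N + 1)) := by
      refine b2.mono hgc fun i x hx => ?_
      change C.δ i * C.cb M i x ^ 2 ≤ gc i * (Real.sqrt (C.δ i) * C.e i * C.cb M i x)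
      have h1 : C.δ i ≤ Real.sqrt (C.δ i) * C.e i := by
        calc C.δ i = Real.sqrt (C.δ i) * Real.sqrt (C.δ i) := (C.C2D_ss i).symm
          _ ≤ Real.sqrt (C.δ i) * C.e i := mul_le_mul_of_nonneg_left (C.C2D_se i) (C.C2D_s0 i)
      calc C.δ i * C.cb M i x ^ 2 = C.cb M i x * (C.δ i * C.cb M i x) := by ring
        _ ≤ gc i * (Real.sqrt (C.δ i) * C.e i * C.cb M i x) :=
          mul_le_mul (hcbx i x hx) (mul_le_mul_of_nonneg_right h1 (c0 i x))
            (mul_nonneg (C.d_pos i).le (c0 i x)) (by linarith [hgc1 i])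
    exact b1'.add b2'
  have kb : Bd (C.S' g0) (fun _ _ => 1) C.kap :=
    (C.kap_bd.restrict _).rescale C.e C.e_pos C.e_le_one C.e_le_s
  let w : ι → E2 → V4 := fun i y => C.kap i y • v i y
  have wb0 : Bd (C.S' g0) (fun i x => Real.sqrt (C.δ i) * C.e i * C.cb M i x) w := by
    refine (kb.smul vb).mono (S.G.const 1 le_rfl) fun i x _ => le_rfl
  have wb : Bd (C.S' g0) (fun i _ => Real.sqrt (C.δ i) * C.e i) w := by
    refine wb0.mono hgc fun i x hx => ?_
    change Real.sqrt (C.δ i) * C.e i * C.cb M i x ≤ gc i * (Real.sqrt (C.δ i) * C.e i)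
    rw [mul_comm (gc i)]
    exact mul_le_mul_of_nonneg_left (hcbx i x hx) (mul_nonneg (C.C2D_s0 i) (C.e_pos i).le)
  -- the difference of the quadratic expressions
  have hX : Bd (C.S' g0) (C.cb M) (fun i x => C.C2DQ i (w i) x - C.C2DQ i (v i) x) :=
    (C.C2DQ_bd M wb0).sub (C.C2DQ_bd M vb)
  have hX' : Bd (C.S' g0) (fun i _ => C.δ i ^ M)
      (fun i x => C.C2DQ i (w i) x - C.C2DQ i (v i) x) := by
    refine hX.mono_off (S.G.const 1 le_rfl) (fun i x _ => hp4 i) fun i x hx => ?_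
    by_cases hx1 : x ∈ tsupport (C.chi i)
    · left
      have h1 := C.kap_one i x hx1
      have h2 : w i =ᶠ[𝓝 x] v i := by
        filter_upwards [h1] with y hy
        change C.kap i y • v i y = v i y
        rw [hy, one_smul]
      have h3 : ∀ᶠ y in 𝓝 x, w i =ᶠ[𝓝 y] v i := h2.eventuallyEq_nhds
      filter_upwards [h3] with y hy
      have h4 : ∀ k, pd k (w i) y = pd k (v i) y := by
        intro k
        unfold pd
        rw [hy.fderiv_eq]
      rw [sub_eq_zero]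
      funext k m
      unfold C2DQ linF
      rw [h4 k, h4 m]
    · right
      have h1 : C.chi i x = 0 := image_eq_zero_of_notMem_tsupport hx1
      have h2 : C.cb M i x = C.δ i ^ M := by
        unfold cb chibar
        rw [h1]
        have h3 : (0 : ℝ) ^ 2 + C.δ i ^ (2 * M) = (C.δ i ^ M) ^ 2 := by
          rw [← pow_mul, mul_comm M 2]
          ring
        rw [h3, Real.sqrt_sq (hp4 i)]
      rw [h2, one_mul]
  have hH : Bd (C.S' g0) (fun i _ => |C.δ i ^ (2 * M)| * C.δ i)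
      (fun i x => C.δ i ^ (2 * M) • C.H i x) :=
    Bd.weightSmul (fun i => C.δ i ^ (2 * M))
      ((C.H_bd.restrict _).rescale C.e C.e_pos C.e_le_one C.e_le_s)
  -- the error term
  let er : ι → E2 → T2 := fun i x k m => if x ∈ S.U i then
    met (fun y => C.F i y + w i y) x k m - met (C.F i) x k m - C.chi i x ^ 2 * C.H i x k m else 0
  have her : ∀ i, ∀ x ∈ (C.S' g0).U i, er i x =
      ((fun k m => met (fun y => C.F i y + (C.w1 M J i (N + 1) y + C.w2 M J i (N + 1) y)) x k m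
        - met (C.F i) x k m - C.cb M i x ^ 2 * C.H i x k m)
        + C.δ i ^ (2 * M) • C.H i x) + (C.C2DQ i (w i) x - C.C2DQ i (v i) x) := by
    intro i x hx
    have hnh : (C.S' g0).U i ∈ 𝓝 x := ((C.S' g0).isOpen i).mem_nhds hx
    have dv : DifferentiableAt ℝ (v i) x := ((vb.1 i).contDiffAt hnh).differentiableAt (by simp)
    have dw : DifferentiableAt ℝ (w i) x := ((wb.1 i).contDiffAt hnh).differentiableAt (by simp)
    have dF : DifferentiableAt ℝ (C.F i) x :=
      ((C.smF i).contDiffAt ((S.isOpen i).mem_nhds hx.1)).differentiableAt (by simp)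
    funext k m
    have m1 := met_add (w := v i) dF dv k m
    have m2 := met_add (w := w i) dF dw k m
    have m1' : met (fun y => C.F i y + (C.w1 M J i (N + 1) y + C.w2 M J i (N + 1) y)) x k m =
        met (C.F i) x k m + linF (C.F i) (v i) x k m + inner ℝ (pd k (v i) x) (pd m (v i) x) := m1
    have hsq := C.C2D_cb_sq M i x
    have e1 : er i x k m = met (fun y => C.F i y + w i y) x k m - met (C.F i) x k m
        - C.chi i x ^ 2 * C.H i x k m := if_pos hx.1
    rw [e1, m2]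
    simp only [Pi.add_apply, Pi.sub_apply, Pi.smul_apply, smul_eq_mul]
    rw [m1', hsq]
    unfold C2DQ
    ring
  have erb : Bd (C.S' g0) (fun i _ => Real.sqrt (C.δ i) * C.q i ^ J + C.δ i * C.q i ^ (N + 1)
      + C.δ i * Real.sqrt (C.δ i) / C.e i + C.δ i ^ M) er := by
    have t1 := Bd.mono (S := C.S' g0) (W' := fun i _ => Real.sqrt (C.δ i) * C.q i ^ J + C.δ i * C.q i ^ (N + 1)
      + C.δ i * Real.sqrt (C.δ i) / C.e i + C.δ i ^ M) hgc bp fun i x hx => by
        have h1 := hp1 i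
        have h2 := hp2 i
        have h3 := hp3 i
        have h4 := hp4 i
        refine mul_le_mul (hcbx i x hx) (by linarith) (by linarith) (by linarith [hgc1 i])
    have t2 := Bd.mono (S := C.S' g0) (W' := fun i _ => Real.sqrt (C.δ i) * C.q i ^ J + C.δ i * C.q i ^ (N + 1)
      + C.δ i * Real.sqrt (C.δ i) / C.e i + C.δ i ^ M) (S.G.const 1 le_rfl) hH fun i x hx => by
        have h1 := hp1 i
        have h2 := hp2 i
        have h3 := hp3 i
        have h4 := hp4 i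
        have h5 : |C.δ i ^ (2 * M)| * C.δ i ≤ C.δ i ^ M := by
          rw [abs_of_nonneg (pow_nonneg (C.d_pos i).le _)]
          calc C.δ i ^ (2 * M) * C.δ i ≤ C.δ i ^ (2 * M) * 1 :=
                mul_le_mul_of_nonneg_left (C.C2D_d1 i) (pow_nonneg (C.d_pos i).le _)
            _ = C.δ i ^ (2 * M) := mul_one _
            _ ≤ C.δ i ^ M := pow_le_pow_of_le_one (C.d_pos i).le (C.C2D_d1 i) (by omega)
        rw [one_mul]
        linarith
    have t3 := Bd.mono (S := C.S' g0) (W' := fun i _ => Real.sqrt (C.δ i) * C.q i ^ J + C.δ i * C.q i ^ (N + 1)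
      + C.δ i * Real.sqrt (C.δ i) / C.e i + C.δ i ^ M) (S.G.const 1 le_rfl) hX' fun i x hx => by
        have h1 := hp1 i
        have h2 := hp2 i
        have h3 := hp3 i
        rw [one_mul]
        linarith
    exact ((t1.add t2).add t3).congr fun i x hx => her i x hx
  refine ⟨g0, hg0, w, er, wb, erb, fun i hi => ?_⟩
  have hU : (C.S' g0).U i = S.U i := by
    ext y
    exact ⟨fun h => h.1, fun h => ⟨h, hi⟩⟩
  have sw := wb.1 i
  have se := erb.1 i
  rw [hU] at sw se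
  have hcc : IsClosed (tsupport (C.kap i)) := isClosed_tsupport _
  have hsub : tsupport (C.kap i) ⊆ S.U i := C.kap_supp i
  have hw0 : ∀ x, x ∉ tsupport (C.kap i) → w i x = 0 := by
    intro x hx
    change C.kap i x • v i x = 0
    rw [image_eq_zero_of_notMem_tsupport hx, zero_smul]
  have hchi : ∀ x, x ∉ tsupport (C.kap i) → C.chi i x = 0 := by
    intro x hx
    by_contra h
    have h1 : x ∈ tsupport (C.chi i) := subset_tsupport _ h
    have h2 := (C.kap_one i x h1).self_of_nhds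
    refine hx (subset_tsupport _ ?_)
    rw [Function.mem_support, h2]
    exact one_ne_zero
  have he0 : ∀ x, x ∉ tsupport (C.kap i) → er i x = 0 := by
    intro x hx
    funext k m
    change (if x ∈ S.U i then met (fun y => C.F i y + w i y) x k m - met (C.F i) x k m
      - C.chi i x ^ 2 * C.H i x k m else 0) = 0
    split_ifs with hxU
    · have hO : IsOpen ((tsupport (C.kap i))ᶜ) := hcc.isOpen_compl
      have hpd : ∀ k, pd k (fun y => C.F i y + w i y) x = pd k (C.F i) x := by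
        intro k
        refine pd_congr hO (fun y hy => ?_) k hx
        rw [hw0 y hy, add_zero]
      have h2 : met (fun y => C.F i y + w i y) x k m = met (C.F i) x k m := by
        unfold met
        rw [hpd k, hpd m]
      rw [h2, hchi x hx]
      ring
    · rfl
  refine ⟨?_, ?_, fun x hx => ⟨hw0 x hx, he0 x hx⟩, ?_, ?_⟩
  · exact contDiff_of_zero_off (S.isOpen i) hcc hsub sw hw0
  · exact contDiff_of_zero_off (S.isOpen i) hcc hsub se he0
  · intro x k m
    change (if x ∈ S.U i then met (fun y => C.F i y + w i y) x k m - met (C.F i) x k m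
      - C.chi i x ^ 2 * C.H i x k m else 0) = (if x ∈ S.U i then
      met (fun y => C.F i y + w i y) x m k - met (C.F i) x m k
      - C.chi i x ^ 2 * C.H i x m k else 0)
    split_ifs with hxU
    · have h1 : ∀ (u : E2 → V4) k m, met u x k m = met u x m k := fun u k m =>
        real_inner_comm _ _
      have h2 : C.H i x k m = C.H i x m k := by
        have h3 := C.H_sym i x hxU
        fin_cases k <;> fin_cases m
        · rfl
        · exact h3
        · exact h3.symm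
        · rfl
      rw [h1 _ k m, h1 (C.F i) k m, h2]
    · rfl
  · intro x hx k m
    have e1 : er i x k m = met (fun y => C.F i y + w i y) x k m - met (C.F i) x k m
        - C.chi i x ^ 2 * C.H i x k m := if_pos hx
    rw [e1]
    ring

end Cell2

end P205F
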