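import Vale.Agent.Lib.P205F.CA

/-! # P205F module CB: the amplitudes of the cell theorem -/

open scoped ContDiff Topology
open Set

namespace P205F

/-- change of the weight -/
private theorem CB_congrW {ι E V : Type} [NormedAddCommGroup E] [NormedSpace ℝ E]
    [NormedAddCommGroup V] [NormedSpace ℝ V] {S : Setting ι E} {W W' : ι → E → ℝ} {u : ι → E → V}
    (h : Bd S W u) (hW : ∀ i, ∀ x ∈ S.U i, W i x = W' i x) : Bd S W' u :=
  h.mono (S.G.const 1 le_rfl) fun i x hx => by rw [one_mul, hW i x hx]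

/-- smaller index sets -/
private theorem CB_restrict_mono {ι E V : Type} [NormedAddCommGroup E] [NormedSpace ℝ E]
    [NormedAddCommGroup V] [NormedSpace ℝ V] {S : Setting ι E} {W : ι → E → ℝ} {u : ι → E → V}
    {P Q : ι → Prop} (hQP : ∀ i, Q i → P i) (h : Bd (S.restrict P) W u) :
    Bd (S.restrict Q) W u := by
  refine ⟨fun i => (h.1 i).mono (fun x hx => ⟨hx.1, hQP i hx.2⟩), fun r => ?_⟩
  obtain ⟨g, hg, h1⟩ := h.2 r
  exact ⟨g, hg, fun i x hx => h1 i x ⟨hx.1, hQP i hx.2⟩⟩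

private theorem CB_co_smul (c : ℝ) (v : E2) (k : Fin 2) : co (c • v) k = c * co v k := by
  unfold co
  split_ifs <;> rfl

namespace Cell

variable {ι : Type} {S : Setting ι E2} {N : ℕ} (C : Cell ι S N)

private theorem CB_amp_zero (J : ℕ) (i : ι) (j : Fin 3) (x : E2) :
    C.amp J i 0 j x = C.psi i 0 x * Real.sqrt (2 * C.cof i j (C.H i x)) := rfl

private theorem CB_amp_succ (J : ℕ) (i : ι) (n : ℕ) (j : Fin 3) (x : E2) :
    C.amp J i (n + 1) j x = C.psi i (n + 1) x * Real.sqrt (2 * C.cof i j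
      (fun k l => C.δ i * C.q i ^ (n + 1) * C.gs i x k l - C.err J i n x k l)) := rfl

theorem al_zero (J : ℕ) (i : ι) (l : ℕ × Fin 3) {x : E2} (hx : x ∉ tsupport (C.psi i l.1)) :
    C.amp J i l.1 l.2 x = 0 ∧ C.al J i l x = 0 := by
  have h0 : C.psi i l.1 x = 0 := image_eq_zero_of_notMem_tsupport hx
  have h1 : C.amp J i l.1 l.2 x = 0 := by
    obtain ⟨n, j⟩ := l
    cases n with
    | zero =>
      change C.amp J i 0 j x = 0
      rw [CB_amp_zero, h0, zero_mul]
    | succ n =>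
      change C.amp J i (n + 1) j x = 0
      rw [CB_amp_succ, h0, zero_mul]
  refine ⟨h1, ?_⟩
  change C.amp J i l.1 l.2 x / C.fr i l.1 l.2 = 0
  rw [h1, zero_div]

theorem err_zero (J : ℕ) (i : ι) (n : ℕ) {x : E2} (hx : x ∉ tsupport (C.psi i n)) :
    C.err J i n x = 0 := by
  funext k l
  change ∑ j, slowErr (C.F i) (C.z i (n, j)) (fun y => C.amp J i n j y / C.fr i n j) J (C.e i) x k l
    = 0
  refine Finset.sum_eq_zero fun j _ => ?_
  have hO : IsOpen (tsupport (C.psi i n))ᶜ := (isClosed_tsupport _).isOpen_compl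
  have h1 := (ke_support hO (C.F i) (C.z i (n, j))
    (α := fun y => C.amp J i n j y / C.fr i n j)
    (fun y hy => (C.al_zero J i (n, j) hy).2) J (C.e i) x hx).2.2.2
  rw [h1]
  rfl

theorem err_sym (J : ℕ) (i : ι) (n : ℕ) (x : E2) (k l : Fin 2) :
    C.err J i n x k l = C.err J i n x l k := by
  change ∑ j, slowErr (C.F i) (C.z i (n, j)) (fun y => C.amp J i n j y / C.fr i n j) J (C.e i) x k l
    = ∑ j, slowErr (C.F i) (C.z i (n, j)) (fun y => C.amp J i n j y / C.fr i n j) J (C.e i) x l k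
  exact Finset.sum_congr rfl fun j _ => slowErr_sym _ _ _ _ _ _ _ _

/-- the bound of the amplitudes of order `n` -/
private def CB_a (J : ℕ) (g0 : ι → ℝ) (n : ℕ) : Prop :=
  ∀ j, Bd (S.restrict (C.good g0)) (fun i _ => Real.sqrt (C.δ i * C.q i ^ n))
    (fun i => C.amp J i n j)

/-- the bound of the slow error of order `n` -/
private def CB_b (J : ℕ) (g0 : ι → ℝ) (n : ℕ) : Prop :=
  Bd (S.restrict (C.good g0)) (fun i _ => C.δ i * C.q i ^ (n + 2)) (fun i => C.err J i n)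

/-- positivity at order `n` -/
private def CB_c (J : ℕ) (g0 : ι → ℝ) (n : ℕ) : Prop :=
  ∀ i, C.good g0 i → ∀ j, ∀ x ∈ S.U i, C.δ i * C.q i ^ (n + 1) ≤
    C.g i * (2 * C.cof i j (fun k l => C.δ i * C.q i ^ (n + 1) * C.gs i x k l - C.err J i n x k l))

private theorem CB_good_mono {g0 g1 : ι → ℝ} (h : ∀ i, g0 i ≤ g1 i) (i : ι) (hi : C.good g1 i) :
    C.good g0 i :=
  (mul_le_mul_of_nonneg_right (h i) (C.q_pos i).le).trans hi

private theorem CB_a0 (J : ℕ) (g0 : ι → ℝ) : C.CB_a J g0 0 := by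
  intro j
  have hN0 : 0 < N := C.hN
  have h1 : Bd S (fun i _ => C.δ i) (fun i x => C.cof i j (C.H i x)) :=
    Bd.clmFam C.hg (fun i => C.cof i j) (fun i => C.cof_le i j) C.H_bd
  have h2 : Bd S (fun i _ => C.δ i) (fun i x => 2 * C.cof i j (C.H i x)) :=
    Bd.constSmul (S.G.const 2 (by norm_num)) (fun _ => (2 : ℝ)) (fun _ => by norm_num) h1
  have h3 : Bd S (fun i _ => Real.sqrt (C.δ i)) (fun i x => Real.sqrt (2 * C.cof i j (C.H i x))) :=
    Bd.sqrt C.hg h2 (fun i _ _ => C.d_pos i) fun i x hx => by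
      have h4 := C.H_pos i j x hx
      have h5 := C.d_pos i
      linarith
  have h4 := (C.psi_bd 0 hN0).mul h3
  refine (CB_congrW h4 fun i x _ => ?_).restrict _
  rw [one_mul, pow_zero, mul_one]

private theorem CB_b_of_a (J : ℕ) {g0 : ι → ℝ} {n : ℕ} (hn : n < N) (h : C.CB_a J g0 n) :
    C.CB_b J g0 n := by
  have hδq : ∀ i, 0 < C.δ i * C.q i ^ n := fun i => mul_pos (C.d_pos i) (pow_pos (C.q_pos i) n)
  have h1 : ∀ j : Fin 3, Bd (S.restrict (C.good g0)) (fun i _ => C.δ i * C.q i ^ (n + 2))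
      (fun i => slowErr (C.F i) (C.z i (n, j)) (fun y => C.amp J i n j y / C.fr i n j) J
        (C.e i)) := by
    intro j
    have h2 : Bd (S.restrict (C.good g0)) (fun i _ => Real.sqrt (C.δ i * C.q i ^ n))
        (fun i y => C.amp J i n j y / C.fr i n j) := by
      refine (Bd.constSmul ((S.restrict (C.good g0)).G.const 1 le_rfl)
        (fun i => (C.fr i n j)⁻¹) (fun i => ?_) (h j)).congr fun i x _ => ?_
      · have h3 := C.fr_ge i n j
        rw [abs_of_pos (inv_pos.mpr (by linarith))]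
        exact inv_le_one_of_one_le₀ h3
      · rw [smul_eq_mul, div_eq_inv_mul]
    have h3 : ∀ i, NonDeg (S.restrict (C.good g0)) C.g C.F i (C.z i (n, j)) := fun i =>
      ⟨(C.nd1 i n j hn).1, (C.nd1 i n j hn).2.1, fun x hx => (C.nd1 i n j hn).2.2 x hx.1⟩
    have h4 := slowErr_bd (S := S.restrict (C.good g0)) C.hg (fun i => (C.smF i).mono fun x hx => hx.1)
      (C.F1.restrict _) (C.F2.restrict _) h3 h2 J C.e C.e_pos C.e_le_s
    refine CB_congrW h4 fun i x _ => ?_
    rw [Real.sq_sqrt (hδq i).le]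
    have hs : (S.restrict (C.good g0)).s i = S.s i := rfl
    have hs0 := S.s_pos i
    rw [hs]
    unfold Cell.e
    field_simp
    ring
  have h2 := Bd.sum (S := S.restrict (C.good g0)) (Finset.univ : Finset (Fin 3))
    (W := fun i _ => C.δ i * C.q i ^ (n + 2))
    (fun i x _ => (mul_pos (C.d_pos i) (pow_pos (C.q_pos i) _)).le) (fun j _ => h1 j)
  refine h2.congr fun i x _ => ?_
  funext k l
  rw [Finset.sum_apply, Finset.sum_apply]
  rfl

private theorem CB_c_of_b (J : ℕ) {g0 : ι → ℝ} (hg0 : g0 ∈ S.G.mem) {n : ℕ}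
    (h : C.CB_b J g0 n) : ∃ g1 ∈ S.G.mem, (∀ i, g0 i ≤ g1 i) ∧ C.CB_c J g1 n := by
  obtain ⟨g', hg', hb⟩ := h.bound
  have hg'' : g' ∈ S.G.mem := hg'
  have hm : (fun i => g0 i * (2 * (C.g i * C.g i * g' i))) ∈ S.G.mem :=
    S.G.mul _ hg0 _ (S.G.mul _ (S.G.const 2 (by norm_num)) _
      (S.G.mul _ (S.G.mul _ C.hg _ C.hg) _ hg''))
  have hle : ∀ i, g0 i ≤ g0 i * (2 * (C.g i * C.g i * g' i)) := by
    intro i
    have h1 := S.G.one_le _ hg0 i
    have h2 := S.G.one_le _ C.hg i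
    have h3 := S.G.one_le _ hg'' i
    have h4 : 1 ≤ C.g i * C.g i := by nlinarith
    have h5 : 1 ≤ C.g i * C.g i * g' i := by nlinarith
    nlinarith
  refine ⟨_, hm, hle, fun i hi j x hx => ?_⟩
  have h1 := S.G.one_le _ hg0 i
  have h2 := S.G.one_le _ C.hg i
  have h3 := S.G.one_le _ hg'' i
  have hq := C.q_pos i
  have hδ := C.d_pos i
  have hgood : C.good g0 i := C.CB_good_mono hle i hi
  have he := hb i x ⟨hx, hgood⟩
  have hcof : |C.cof i j (C.err J i n x)| ≤ C.g i * (g' i * (C.δ i * C.q i ^ (n + 2))) :=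
    ((C.cof i j).le_opNorm _).trans
      (mul_le_mul (C.cof_le i j) he (norm_nonneg _) (by linarith))
  have hsplit : C.cof i j (fun k l => C.δ i * C.q i ^ (n + 1) * C.gs i x k l - C.err J i n x k l)
      = C.δ i * C.q i ^ (n + 1) * C.cof i j (C.gs i x) - C.cof i j (C.err J i n x) := by
    have h4 : (fun k l => C.δ i * C.q i ^ (n + 1) * C.gs i x k l - C.err J i n x k l)
        = (C.δ i * C.q i ^ (n + 1)) • C.gs i x - C.err J i n x := rfl
    rw [h4, map_sub, map_smul, smul_eq_mul]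
  rw [hsplit]
  have hp := C.gs_pos i j x hx
  set D := C.δ i * C.q i ^ (n + 1) with hD
  have hD0 : 0 < D := mul_pos hδ (pow_pos hq _)
  have hD2 : C.δ i * C.q i ^ (n + 2) = D * C.q i := by rw [hD]; ring
  rw [hD2] at hcof
  -- `2 g ^ 2 g' q ≤ 1`
  have hi' : g0 i * (2 * (C.g i * C.g i * g' i)) * C.q i ≤ 1 := hi
  have hprod : 0 ≤ C.g i * C.g i * g' i * C.q i :=
    mul_nonneg (mul_nonneg (mul_nonneg (by linarith) (by linarith)) (by linarith)) hq.le
  have h5 : 2 * (C.g i * C.g i * g' i * C.q i) ≤ 1 := by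
    have h6 : 2 * (C.g i * C.g i * g' i * C.q i) ≤ g0 i * (2 * (C.g i * C.g i * g' i * C.q i)) :=
      le_mul_of_one_le_left (by linarith) h1
    linarith [hi', h6]
  have h6 : C.cof i j (C.err J i n x) ≤ C.g i * (g' i * (D * C.q i)) := (le_abs_self _).trans hcof
  have h7 : C.g i * C.cof i j (C.err J i n x) ≤ C.g i * (C.g i * (g' i * (D * C.q i))) :=
    mul_le_mul_of_nonneg_left h6 (by linarith)
  have h8 : C.g i * (C.g i * (g' i * (D * C.q i))) * 2 ≤ D := by
    have h9 := mul_le_mul_of_nonneg_left h5 hD0.le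
    linarith
  have h10 : D ≤ D * (C.g i * C.cof i j (C.gs i x)) := le_mul_of_one_le_right hD0.le hp
  linarith

private theorem CB_a_succ (J : ℕ) {g0 : ι → ℝ} {n : ℕ} (hn : n + 1 < N)
    (hb : C.CB_b J g0 n) (hc : C.CB_c J g0 n) : C.CB_a J g0 (n + 1) := by
  intro j
  have hD0 : ∀ i, 0 < C.δ i * C.q i ^ (n + 1) := fun i =>
    mul_pos (C.d_pos i) (pow_pos (C.q_pos i) _)
  have h1 : Bd (S.restrict (C.good g0)) (fun i _ => C.δ i * C.q i ^ (n + 1))
      (fun i x => (C.δ i * C.q i ^ (n + 1)) • C.gs i x) := by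
    refine CB_congrW (Bd.weightSmul (fun i => C.δ i * C.q i ^ (n + 1)) (C.gs_bd.restrict _))
      fun i x _ => ?_
    rw [abs_of_pos (hD0 i), mul_one]
  have h2 : Bd (S.restrict (C.good g0)) (fun i _ => C.δ i * C.q i ^ (n + 1))
      (fun i => C.err J i n) := by
    refine hb.mono ((S.restrict (C.good g0)).G.const 1 le_rfl) fun i x _ => ?_
    have h3 : C.δ i * C.q i ^ (n + 2) = C.δ i * C.q i ^ (n + 1) * C.q i := by ring
    rw [h3, one_mul]
    exact mul_le_of_le_one_right (hD0 i).le (C.q_lt i).le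
  have h3 := h1.sub h2
  have h4 : Bd (S.restrict (C.good g0)) (fun i _ => C.δ i * C.q i ^ (n + 1))
      (fun i x => C.cof i j ((C.δ i * C.q i ^ (n + 1)) • C.gs i x - C.err J i n x)) :=
    Bd.clmFam (S := S.restrict (C.good g0)) C.hg (fun i => C.cof i j) (fun i => C.cof_le i j) h3
  have h5 : Bd (S.restrict (C.good g0)) (fun i _ => C.δ i * C.q i ^ (n + 1))
      (fun i x => 2 * C.cof i j ((C.δ i * C.q i ^ (n + 1)) • C.gs i x - C.err J i n x)) :=
    Bd.constSmul ((S.restrict (C.good g0)).G.const 2 (by norm_num)) (fun _ => (2 : ℝ))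
      (fun _ => by norm_num) h4
  have h6 : Bd (S.restrict (C.good g0)) (fun i _ => Real.sqrt (C.δ i * C.q i ^ (n + 1)))
      (fun i x => Real.sqrt
        (2 * C.cof i j ((C.δ i * C.q i ^ (n + 1)) • C.gs i x - C.err J i n x))) :=
    Bd.sqrt (S := S.restrict (C.good g0)) C.hg h5 (fun i _ _ => hD0 i) fun i x hx =>
      hc i hx.2 j x hx.1
  have h7 := ((C.psi_bd (n + 1) hn).restrict (C.good g0)).mul h6
  refine (CB_congrW h7 fun i x _ => ?_)
  rw [one_mul]

private theorem CB_main (J : ℕ) (n : ℕ) : ∃ g0 ∈ S.G.mem, ∀ m, m ≤ n → m < N →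
    C.CB_a J g0 m ∧ C.CB_b J g0 m ∧ C.CB_c J g0 m := by
  have mono : ∀ {g0 g1 : ι → ℝ}, (∀ i, g0 i ≤ g1 i) → ∀ m,
      (C.CB_a J g0 m → C.CB_a J g1 m) ∧ (C.CB_b J g0 m → C.CB_b J g1 m) ∧
      (C.CB_c J g0 m → C.CB_c J g1 m) := by
    intro g0 g1 h m
    refine ⟨fun ha j => CB_restrict_mono (C.CB_good_mono h) (ha j),
      fun hb => CB_restrict_mono (C.CB_good_mono h) hb, fun hc i hi => ?_⟩
    exact hc i (C.CB_good_mono h i hi)
  induction n with
  | zero =>
    have h1 : (fun _ : ι => (1 : ℝ)) ∈ S.G.mem := S.G.const 1 le_rfl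
    have ha := C.CB_a0 J (fun _ => 1)
    have hb := C.CB_b_of_a J C.hN ha
    obtain ⟨g1, hg1, hle, hc⟩ := C.CB_c_of_b J h1 hb
    refine ⟨g1, hg1, fun m hm _ => ?_⟩
    obtain rfl : m = 0 := by omega
    exact ⟨(mono hle 0).1 ha, (mono hle 0).2.1 hb, hc⟩
  | succ n ih =>
    obtain ⟨g0, hg0, h⟩ := ih
    by_cases hn : n + 1 < N
    · obtain ⟨_, hb0, hc0⟩ := h n le_rfl (by omega)
      have ha := C.CB_a_succ J hn hb0 hc0
      have hb := C.CB_b_of_a J hn ha
      obtain ⟨g1, hg1, hle, hc⟩ := C.CB_c_of_b J hg0 hb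
      refine ⟨g1, hg1, fun m hm hmN => ?_⟩
      rcases Nat.lt_or_ge m (n + 1) with hm' | hm'
      · obtain ⟨h1, h2, h3⟩ := h m (by omega) hmN
        exact ⟨(mono hle m).1 h1, (mono hle m).2.1 h2, (mono hle m).2.2 h3⟩
      · obtain rfl : m = n + 1 := by omega
        exact ⟨(mono hle _).1 ha, (mono hle _).2.1 hb, hc⟩
    · exact ⟨g0, hg0, fun m hm hmN => h m (by omega) hmN⟩

/-- the amplitudes and the slow errors -/
theorem amp_bd (J : ℕ) : ∃ g0 ∈ S.G.mem, ∀ n, n < N →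
    (∀ j, Bd (S.restrict (C.good g0)) (fun i _ => Real.sqrt (C.δ i * C.q i ^ n))
      (fun i => C.amp J i n j)) ∧
    Bd (S.restrict (C.good g0)) (fun i _ => C.δ i * C.q i ^ (n + 2)) (fun i => C.err J i n) ∧
    ∀ i, C.good g0 i → ∀ j, ∀ x ∈ S.U i, n + 1 < N →
      0 ≤ C.cof i j (fun k l => C.δ i * C.q i ^ (n + 1) * C.gs i x k l - C.err J i n x k l) := by
  obtain ⟨g0, hg0, h⟩ := C.CB_main J N
  refine ⟨g0, hg0, fun n hn => ?_⟩
  obtain ⟨ha, hb, hc⟩ := h n hn.le hn
  refine ⟨ha, hb, fun i hi j x hx _ => ?_⟩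
  have h1 := hc i hi j x hx
  have h2 : 0 < C.δ i * C.q i ^ (n + 1) := mul_pos (C.d_pos i) (pow_pos (C.q_pos i) _)
  have h3 := S.G.one_le _ C.hg i
  have h4 := (mul_pos_iff_of_pos_left (by linarith : (0 : ℝ) < C.g i)).mp (h2.trans_le h1)
  linarith

private theorem CB_sum_j (J : ℕ) (i : ι) (n : ℕ) (x : E2) (k m : Fin 2) (p : ℝ) (h : T2)
    (hs : h 0 1 = h 1 0) (h0 : ∀ j, 0 ≤ C.cof i j h)
    (ha : ∀ j, C.amp J i n j x = p * Real.sqrt (2 * C.cof i j h)) :
    ∑ j, Sf (C.F i) (C.z i (n, j)) (C.al J i (n, j)) J (C.e i) x k m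
      = p ^ 2 * h k m + C.err J i n x k m := by
  have h1 : ∀ j : Fin 3, Sf (C.F i) (C.z i (n, j)) (C.al J i (n, j)) J (C.e i) x k m
      = slowErr (C.F i) (C.z i (n, j)) (fun y => C.amp J i n j y / C.fr i n j) J (C.e i) x k m
        + p ^ 2 * (C.cof i j h * (co (C.om i j) k * co (C.om i j) m)) := by
    intro j
    have hfr : C.fr i n j ≠ 0 := by
      have := C.fr_ge i n j
      linarith
    have h2 : slowErr (C.F i) (C.z i (n, j)) (fun y => C.amp J i n j y / C.fr i n j) J (C.e i) x k m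
        = Sf (C.F i) (C.z i (n, j)) (C.al J i (n, j)) J (C.e i) x k m
          - (C.amp J i n j x / C.fr i n j) ^ 2
            * (co (C.z i (n, j)) k * co (C.z i (n, j)) m) / 2 := rfl
    have h3 : C.z i (n, j) = C.fr i n j • C.om i j := rfl
    have h4 : (C.amp J i n j x / C.fr i n j) ^ 2
            * (co (C.z i (n, j)) k * co (C.z i (n, j)) m) / 2
        = C.amp J i n j x ^ 2 / 2 * (co (C.om i j) k * co (C.om i j) m) := by
      rw [h3, CB_co_smul, CB_co_smul]
      field_simp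
    have h5 : C.amp J i n j x ^ 2 / 2 = p ^ 2 * C.cof i j h := by
      rw [ha j, mul_pow, Real.sq_sqrt (by linarith [h0 j])]
      ring
    rw [h2, h4, h5]
    ring
  rw [Finset.sum_congr rfl fun j _ => h1 j, Finset.sum_add_distrib, ← Finset.mul_sum,
    ← C.cof_eq i h hs k m, add_comm]
  rfl

/-- the sum of the slow parts telescopes -/
theorem sum_Sf (J : ℕ) {i : ι} (hi : ∀ n j, n + 1 < N → ∀ x ∈ S.U i,
      0 ≤ C.cof i j (fun k l => C.δ i * C.q i ^ (n + 1) * C.gs i x k l - C.err J i n x k l)) :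
    ∀ x ∈ S.U i, ∀ k m, ∑ l ∈ C.lab, Sf (C.F i) (C.z i l) (C.al J i l) J (C.e i) x k m =
      C.psi i 0 x ^ 2 * C.H i x k m
      + ∑ n ∈ Finset.Ico 1 N, C.δ i * C.q i ^ n * C.psi i n x ^ 2 * C.gs i x k m
      + C.err J i (N - 1) x k m := by
  intro x hx k m
  have key : ∀ M : ℕ, M + 1 ≤ N →
      ∑ n ∈ Finset.range (M + 1), ∑ j, Sf (C.F i) (C.z i (n, j)) (C.al J i (n, j)) J (C.e i) x k m
      = C.psi i 0 x ^ 2 * C.H i x k m
      + ∑ n ∈ Finset.Ico 1 (M + 1), C.δ i * C.q i ^ n * C.psi i n x ^ 2 * C.gs i x k m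
      + C.err J i M x k m := by
    intro M
    induction M with
    | zero =>
      intro _
      rw [zero_add, Finset.sum_range_one, Finset.Ico_self, Finset.sum_empty, add_zero]
      refine C.CB_sum_j J i 0 x k m (C.psi i 0 x) (C.H i x) (C.H_sym i x hx) (fun j => ?_)
        (fun j => C.CB_amp_zero J i j x)
      have h1 := C.H_pos i j x hx
      have h2 := C.d_pos i
      have h3 := S.G.one_le _ C.hg i
      exact ((mul_pos_iff_of_pos_left (by linarith : (0 : ℝ) < C.g i)).mp (h2.trans_le h1)).le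
    | succ M ih =>
      intro hM
      have hMN : M + 1 < N := by omega
      rw [Finset.sum_range_succ, ih (by omega),
        Finset.sum_Ico_succ_top (by omega : 1 ≤ M + 1),
        C.CB_sum_j J i (M + 1) x k m (C.psi i (M + 1) x)
          (fun k l => C.δ i * C.q i ^ (M + 1) * C.gs i x k l - C.err J i M x k l) ?_
          (fun j => hi M j hMN x hx) (fun j => C.CB_amp_succ J i M j x)]
      · have h1 : C.psi i (M + 1) x ^ 2 * C.err J i M x k m = C.err J i M x k m := by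
          by_cases hxs : x ∈ tsupport (C.psi i M)
          · have h2 : C.psi i (M + 1) x = 1 := (C.psi_one i M hMN x hxs).eq_of_nhds
            rw [h2, one_pow, one_mul]
          · have h2 : C.err J i M x = 0 := C.err_zero J i M hxs
            rw [h2]
            simp
        linear_combination (-1 : ℝ) * h1
      · rw [C.gs_sym i x hx, C.err_sym J i M x 0 1]
  have hN := C.hN
  have h1 := key (N - 1) (by omega)
  rw [show N - 1 + 1 = N by omega] at h1
  rw [← h1]
  unfold Cell.lab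
  exact Finset.sum_product _ _ _

end Cell

end P205F
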