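import Vale.Agent.Lib.P205F.CB
import Vale.Agent.Lib.P205F.CC

/-! # P205F module CD3: cancellation of the oscillating part -/

open scoped ContDiff Topology
open Set

namespace P205F

namespace Cell

theorem CD3_diff {U : Set E2} (hU : IsOpen U) {w : E2 → V4} (h : ContDiffOn ℝ ∞ w U) {x : E2}
    (hx : x ∈ U) : DifferentiableAt ℝ w x :=
  (h.contDiffAt (hU.mem_nhds hx)).differentiableAt (by simp)

theorem CD3_pd_sum {κ : Type} (s : Finset κ) (w : κ → E2 → V4) (x : E2)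
    (h : ∀ a ∈ s, DifferentiableAt ℝ (w a) x) (k : Fin 2) :
    pd k (fun y => ∑ a ∈ s, w a y) x = ∑ a ∈ s, pd k (w a) x := by
  unfold pd
  rw [fderiv_fun_sum h, _root_.sum_apply]

theorem CD3_diff_sum {κ : Type} (s : Finset κ) (w : κ → E2 → V4) (x : E2)
    (h : ∀ a ∈ s, DifferentiableAt ℝ (w a) x) :
    DifferentiableAt ℝ (fun y => ∑ a ∈ s, w a y) x :=
  DifferentiableAt.fun_sum h

theorem CD3_linF_sum {κ : Type} (s : Finset κ) (F : E2 → V4) (w : κ → E2 → V4) (x : E2)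
    (h : ∀ a ∈ s, DifferentiableAt ℝ (w a) x) (k m : Fin 2) :
    linF F (fun y => ∑ a ∈ s, w a y) x k m = ∑ a ∈ s, linF F (w a) x k m := by
  unfold linF
  rw [CD3_pd_sum s w x h k, CD3_pd_sum s w x h m, inner_sum, inner_sum, ← Finset.sum_add_distrib]

theorem CD3_linF_neg_add (F u v : E2 → V4) (x : E2)
    (hu : DifferentiableAt ℝ u x) (hv : DifferentiableAt ℝ v x) (k m : Fin 2) :
    linF F (fun y => -(u y + v y)) x k m = -(linF F u x k m + linF F v x k m) := by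
  have h1 : ∀ k, pd k (fun y => -(u y + v y)) x = -(pd k u x + pd k v x) := by
    intro k
    have h2 : HasFDerivAt (fun y => -(u y + v y)) (-(fderiv ℝ u x + fderiv ℝ v x)) x :=
      (hu.hasFDerivAt.add hv.hasFDerivAt).neg
    unfold pd
    rw [h2.fderiv]
    rfl
  unfold linF
  rw [h1 k, h1 m, inner_neg_right, inner_neg_right, inner_add_right, inner_add_right]
  ring

variable {ι : Type} {S : Setting ι E2} {N : ℕ} (C : Cell ι S N)

theorem CD3_mem_lab (l : ℕ × Fin 3) : l ∈ C.lab ↔ l.1 < N := by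
  simp [lab]

theorem CD3_nonDeg {g0 : ι → ℝ} {ζ : E2} {i : ι} (h : NonDeg S C.g C.F i ζ) :
    NonDeg (S.restrict (C.good g0)) C.g C.F i ζ :=
  ⟨h.1, h.2.1, fun x hx => h.2.2 x hx.1⟩

theorem CD3_F1 (g0 : ι → ℝ) :
    Bd (S.restrict (C.good g0)) (fun _ _ => 1) (fun i x => fderiv ℝ (C.F i) x) :=
  C.F1.restrict _

theorem CD3_F2 (g0 : ι → ℝ) :
    Bd (S.restrict (C.good g0)) (fun _ _ => 1)
      (fun i x => fderiv ℝ (fun y => fderiv ℝ (C.F i) y) x) :=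
  C.F2.restrict _

theorem CD3_smF (g0 : ι → ℝ) (i : ι) : ContDiffOn ℝ ∞ (C.F i) ((S.restrict (C.good g0)).U i) :=
  (C.smF i).mono (fun _ hx => hx.1)

section

variable (J : ℕ) {g0 : ι → ℝ}
    (ha : ∀ n, n < N → ∀ j, Bd (S.restrict (C.good g0)) (fun i _ => Real.sqrt (C.δ i * C.q i ^ n))
      (fun i => C.amp J i n j))

include ha in
theorem CD3_al (l : ℕ × Fin 3) (hl : l ∈ C.lab) :
    Bd (S.restrict (C.good g0)) (fun i _ => Real.sqrt (C.δ i)) (fun i => C.al J i l) := by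
  rw [CD3_mem_lab] at hl
  have h1 := Bd.constSmul (S := S.restrict (C.good g0)) C.hg (fun i => (C.fr i l.1 l.2)⁻¹)
    (fun i => ?_) (ha l.1 hl l.2)
  · refine (h1.congr (fun i x _ => ?_)).mono
      ((S.restrict (C.good g0)).G.const 1 le_rfl) (fun i x _ => ?_)
    · show C.amp J i l.1 l.2 x / C.fr i l.1 l.2 = (C.fr i l.1 l.2)⁻¹ • C.amp J i l.1 l.2 x
      rw [smul_eq_mul, div_eq_inv_mul]
    · show Real.sqrt (C.δ i * C.q i ^ l.1) ≤ 1 * Real.sqrt (C.δ i)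
      rw [one_mul]
      apply Real.sqrt_le_sqrt
      have h2 : C.q i ^ l.1 ≤ 1 := pow_le_one₀ (C.q_pos i).le (C.q_lt i).le
      have h3 := (C.d_pos i).le
      nlinarith
  · have h2 := C.fr_ge i l.1 l.2
    have h3 : 1 ≤ C.g i := S.G.one_le C.g C.hg i
    rw [abs_of_pos (by positivity)]
    exact (inv_le_one_of_one_le₀ h2).trans h3

theorem CD3_nd1 (l : ℕ × Fin 3) (hl : l ∈ C.lab) (i : ι) :
    NonDeg (S.restrict (C.good g0)) C.g C.F i (C.z i l) := by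
  rw [CD3_mem_lab] at hl
  exact C.CD3_nonDeg (C.nd1 i l.1 l.2 hl)

include ha in
theorem CD3_B (l : ℕ × Fin 3) (hl : l ∈ C.lab) (k : Fin 2) :
    Bd (S.restrict (C.good g0)) (fun i _ => Real.sqrt (C.δ i)) (fun i => C.B J i l k) :=
  Bf_bd (S := S.restrict (C.good g0)) C.hg (C.CD3_smF g0) (C.CD3_F1 g0) (C.CD3_F2 g0)
    (C.CD3_nd1 l hl) (C.CD3_al J ha l hl) J C.e C.e_pos C.e_le_s k

include ha in
theorem CD3_Rp (l m : ℕ × Fin 3) (hl : l ∈ C.lab) (hm : m ∈ C.lab) :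
    Bd (S.restrict (C.good g0)) (fun i _ => C.δ i) (fun i => Rp (C.B J i l) (C.B J i m)) := by
  refine (Rp_bd (C.CD3_B J ha l hl) (C.CD3_B J ha m hm)).mono
    ((S.restrict (C.good g0)).G.const 1 le_rfl) (fun i x _ => ?_)
  rw [Real.mul_self_sqrt (C.d_pos i).le, one_mul]

include ha in
theorem CD3_Rm (l m : ℕ × Fin 3) (hl : l ∈ C.lab) (hm : m ∈ C.lab) :
    Bd (S.restrict (C.good g0)) (fun i _ => C.δ i) (fun i => Rm (C.B J i l) (C.B J i m)) := by
  refine (Rm_bd (C.CD3_B J ha l hl) (C.CD3_B J ha m hm)).mono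
    ((S.restrict (C.good g0)).G.const 1 le_rfl) (fun i x _ => ?_)
  rw [Real.mul_self_sqrt (C.d_pos i).le, one_mul]

end

theorem CD3_gram {g : ι → ℝ} {P : ι → Prop} {F : ι → E2 → V4} {i : ι} {ζ : E2}
    (h : NonDeg (S.restrict P) g F i ζ) (_hg : 1 ≤ g i) {x : E2}
    (hx : x ∈ (S.restrict P).U i) :
    0 < gram3 (pd 0 (F i) x) (pd 1 (F i) x) (ddv (perp ζ) (F i) x) := by
  have h1 := h.2.2 x hx
  have h2 := gram3_nonneg (pd 0 (F i) x) (pd 1 (F i) x) (ddv (perp ζ) (F i) x)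
  rcases h2.eq_or_lt with h3 | h3
  · rw [← h3, mul_zero] at h1
    linarith
  · exact h3

theorem CD3_nsq {g : ι → ℝ} {P : ι → Prop} {F : ι → E2 → V4} {i : ι} {ζ : E2}
    (h : NonDeg (S.restrict P) g F i ζ) : nsq ζ ≠ 0 := by
  intro h0
  have h1 := h.2.1
  rw [h0, mul_zero] at h1
  linarith

section

variable (J : ℕ) {g0 : ι → ℝ} {ζ : ι → E2}
  (hζ : ∀ i, NonDeg (S.restrict (C.good g0)) C.g C.F i (ζ i))
  {R : ι → E2 → T2C} (hR : Bd (S.restrict (C.good g0)) (fun i _ => C.δ i) R)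

include hζ hR in
theorem CD3_lsA : Bd (S.restrict (C.good g0)) (fun i _ => C.δ i)
    (fun i => lsA (C.F i) (ζ i) (R i)) :=
  lsA_bd (S := S.restrict (C.good g0)) C.hg (C.CD3_smF g0) (C.CD3_F1 g0) (C.CD3_F2 g0)
    (fun i => (hζ i).1) (fun i => (hζ i).2.1) (fun i => (hζ i).2.2) hR

include hζ hR in
theorem CD3_sol_diff (i : ι) (x : E2) (hx : x ∈ (S.restrict (C.good g0)).U i) :
    DifferentiableAt ℝ (C.sol J i (ζ i) (R i)) x := by
  have h1 := wsum_bd (S := S.restrict (C.good g0)) C.hg (C.CD3_smF g0) (C.CD3_F1 g0)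
    (C.CD3_F2 g0) (fun i => (hζ i).1) (fun i => (hζ i).2.1) (fun i => (hζ i).2.2) hR
    (C.CD3_lsA hζ hR) J C.e C.e_pos C.e_le_s
  exact CD3_diff ((S.restrict (C.good g0)).isOpen i)
    (osc_contDiffOn ((S.restrict (C.good g0)).isOpen i) (h1.1 i) (ζ i) (C.e i)) hx

include hζ hR in
theorem CD3_sol_lin (hJ : 1 ≤ J) (hRs : ∀ i x k l, R i x k l = R i x l k) (i : ι) (x : E2)
    (hx : x ∈ (S.restrict (C.good g0)).U i) (k m : Fin 2) :
    linF (C.F i) (C.sol J i (ζ i) (R i)) x k m =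
      (Complex.exp (((ph (ζ i) x / C.e i : ℝ) : ℂ) * Complex.I) * R i x k m).re -
      (Complex.exp (((ph (ζ i) x / C.e i : ℝ) : ℂ) * Complex.I) *
        (((C.e i ^ J : ℝ) : ℂ) * wkbY (C.F i) (ζ i) (R i) (lsA (C.F i) (ζ i) (R i)) J x k m)).re := by
  have hg1 : 1 ≤ C.g i := S.G.one_le C.g C.hg i
  have hgr : ∀ y ∈ (S.restrict (C.good g0)).U i,
      0 < gram3 (pd 0 (C.F i) y) (pd 1 (C.F i) y) (ddv (perp (ζ i)) (C.F i) y) :=
    fun y hy => CD3_gram (hζ i) hg1 hy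
  have hls := lsA_spec hgr (R i)
  have h := wkb_main (U := (S.restrict (C.good g0)).U i) ((S.restrict (C.good g0)).isOpen i)
    (C.CD3_smF g0 i) (CD3_nsq (hζ i)) hgr (hR.1 i) (fun y _ k l => hRs i y k l)
    ((C.CD3_lsA hζ hR).1 i) (fun y hy => (hls y hy).1) (fun y hy => (hls y hy).2) hJ (C.e_pos i)
    x hx k m
  unfold sol
  rw [h, mul_sub, Complex.sub_re]

theorem CD3_weight (i : ι) : |C.e i ^ J| * (C.δ i * (S.s i)⁻¹ ^ J) = C.δ i * C.q i ^ (2 * J) := by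
  have h1 := C.e_pos i
  have h2 := S.s_pos i
  rw [abs_of_pos (pow_pos h1 J)]
  unfold e
  rw [mul_pow, inv_pow, ← pow_mul]
  field_simp

include hζ hR in
theorem CD3_term : Bd (C.S' g0) (fun i _ => C.δ i * C.q i ^ (2 * J))
    (fun i x k m => (Complex.exp (((ph (ζ i) x / C.e i : ℝ) : ℂ) * Complex.I) *
        (((C.e i ^ J : ℝ) : ℂ) * wkbY (C.F i) (ζ i) (R i) (lsA (C.F i) (ζ i) (R i)) J x k m)).re) := by
  have h1 := (wkb_bd (S := S.restrict (C.good g0)) C.hg (C.CD3_smF g0) (C.CD3_F1 g0)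
    (C.CD3_F2 g0) (fun i => (hζ i).1) (fun i => (hζ i).2.1) (fun i => (hζ i).2.2) hR
    (C.CD3_lsA hζ hR) J).2.1
  refine Bd.pi.2 fun k => Bd.pi.2 fun m => ?_
  have h2 := Bd.pi.1 (Bd.pi.1 h1 k) m
  have h3 := h2.weightSmul (fun i => C.e i ^ J)
  have h4 : Bd (S.restrict (C.good g0)) (fun i _ => C.δ i * C.q i ^ (2 * J))
      (fun i x => ((C.e i ^ J : ℝ) : ℂ) *
        wkbY (C.F i) (ζ i) (R i) (lsA (C.F i) (ζ i) (R i)) J x k m) := by
    refine (h3.congr (fun i x _ => ?_)).mono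
      ((S.restrict (C.good g0)).G.const 1 le_rfl) (fun i x _ => ?_)
    · rw [Complex.real_smul]
    · rw [one_mul]
      exact (C.CD3_weight J i).le
  exact oscC_bd (S := S.restrict (C.good g0)) C.hg (fun i => (hζ i).1) h4 C.e C.e_pos C.e_le_one
    C.e_le_s

end

section

variable (J : ℕ) {g0 : ι → ℝ}
    (ha : ∀ n, n < N → ∀ j, Bd (S.restrict (C.good g0)) (fun i _ => Real.sqrt (C.δ i * C.q i ^ n))
      (fun i => C.amp J i n j))

theorem CD3_ndp (l m : ℕ × Fin 3) (hl : l ∈ C.lab) (hm : m ∈ C.lab) (i : ι) :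
    NonDeg (S.restrict (C.good g0)) C.g C.F i (C.z i l + C.z i m) := by
  rw [CD3_mem_lab] at hl hm
  exact C.CD3_nonDeg (C.ndp i l.1 l.2 m.1 m.2 hl hm)

theorem CD3_ndm (l m : ℕ × Fin 3) (hl : l ∈ C.lab) (hm : m ∈ C.lab) (hlm : m ≠ l) (i : ι) :
    NonDeg (S.restrict (C.good g0)) C.g C.F i (C.z i l - C.z i m) := by
  rw [CD3_mem_lab] at hl hm
  exact C.CD3_nonDeg (C.ndm i l.1 l.2 m.1 m.2 hl hm (fun h => hlm h.symm))

/-- the oscillating remainder of a pair of labels -/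
noncomputable def CD3_Tp (C : Cell ι S N) (J : ℕ) (l m : ℕ × Fin 3) (i : ι) (x : E2) : T2 :=
  fun k k' => (Complex.exp (((ph (C.z i l + C.z i m) x / C.e i : ℝ) : ℂ) * Complex.I) *
    (((C.e i ^ J : ℝ) : ℂ) * wkbY (C.F i) (C.z i l + C.z i m) (Rp (C.B J i l) (C.B J i m))
      (lsA (C.F i) (C.z i l + C.z i m) (Rp (C.B J i l) (C.B J i m))) J x k k')).re

/-- the oscillating remainder of a pair of labels -/
noncomputable def CD3_Tm (C : Cell ι S N) (J : ℕ) (l m : ℕ × Fin 3) (i : ι) (x : E2) : T2 :=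
  fun k k' => (Complex.exp (((ph (C.z i l - C.z i m) x / C.e i : ℝ) : ℂ) * Complex.I) *
    (((C.e i ^ J : ℝ) : ℂ) * wkbY (C.F i) (C.z i l - C.z i m) (Rm (C.B J i l) (C.B J i m))
      (lsA (C.F i) (C.z i l - C.z i m) (Rm (C.B J i l) (C.B J i m))) J x k k')).re

include ha in
theorem CD3_wsum0 (l : ℕ × Fin 3) (hl : l ∈ C.lab) (i : ι) :
    ContDiffOn ℝ ∞ (wsum (C.F i) (C.z i l) (fun _ _ _ => 0)
      (keA (C.F i) (C.z i l) (C.al J i l)) J (C.e i)) ((S.restrict (C.good g0)).U i) := by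
  have h0 : Bd (S.restrict (C.good g0)) (fun i _ => Real.sqrt (C.δ i))
      (fun (_ : ι) (_ : E2) => (0 : T2C)) := Bd.zero (fun i x _ => Real.sqrt_nonneg _)
  have hk := keA_bd (S := S.restrict (C.good g0)) C.hg (C.CD3_smF g0) (C.CD3_F1 g0) (C.CD3_F2 g0)
    (fun i => (C.CD3_nd1 (g0 := g0) l hl i).1) (fun i => (C.CD3_nd1 (g0 := g0) l hl i).2.1)
    (fun i => (C.CD3_nd1 (g0 := g0) l hl i).2.2) (C.CD3_al J ha l hl)
  exact (wsum_bd (S := S.restrict (C.good g0)) C.hg (C.CD3_smF g0) (C.CD3_F1 g0)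
    (C.CD3_F2 g0) (fun i => (C.CD3_nd1 (g0 := g0) l hl i).1)
    (fun i => (C.CD3_nd1 (g0 := g0) l hl i).2.1)
    (fun i => (C.CD3_nd1 (g0 := g0) l hl i).2.2) h0 hk J C.e C.e_pos C.e_le_s).1 i

include ha in
theorem CD3_pd_w1 (i : ι) (x : E2) (hx : x ∈ (S.restrict (C.good g0)).U i) (k : Fin 2) :
    pd k (C.w1 J i) x = ∑ l ∈ C.lab, osc (C.B J i l k) (C.z i l) (C.e i) x := by
  have hU := (S.restrict (C.good g0)).isOpen i
  unfold w1
  rw [CD3_pd_sum]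
  · refine Finset.sum_congr rfl (fun l hl => ?_)
    exact pd_smul_osc hU (C.e_pos i) (C.CD3_wsum0 J ha l hl i) k hx
  · intro l hl
    exact (CD3_diff hU (osc_contDiffOn hU (C.CD3_wsum0 J ha l hl i) (C.z i l) (C.e i))
      hx).fun_const_smul _

include ha in
theorem CD3_lin (hJ : 1 ≤ J) (i : ι) (x : E2) (hx : x ∈ (S.restrict (C.good g0)).U i)
    (k m : Fin 2) :
    linF (C.F i) (C.w2 J i) x k m =
      -(∑ l ∈ C.lab, ∑ l' ∈ C.lab, ((Complex.exp (((ph (C.z i l + C.z i l') x / C.e i : ℝ) : ℂ)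
          * Complex.I) * Rp (C.B J i l) (C.B J i l') x k m).re - C.CD3_Tp J l l' i x k m)
      + ∑ l ∈ C.lab, ∑ l' ∈ C.lab with l' ≠ l,
        ((Complex.exp (((ph (C.z i l - C.z i l') x / C.e i : ℝ) : ℂ)
          * Complex.I) * Rm (C.B J i l) (C.B J i l') x k m).re - C.CD3_Tm J l l' i x k m)) := by
  have hp : ∀ l ∈ C.lab, ∀ l' ∈ C.lab, DifferentiableAt ℝ
      (C.sol J i (C.z i l + C.z i l') (Rp (C.B J i l) (C.B J i l'))) x := fun l hl l' hl' =>
    C.CD3_sol_diff J (ζ := fun i => C.z i l + C.z i l') (C.CD3_ndp l l' hl hl')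
      (C.CD3_Rp J ha l l' hl hl') i x hx
  have hm : ∀ l ∈ C.lab, ∀ l' ∈ C.lab.filter (fun l' => l' ≠ l), DifferentiableAt ℝ
      (C.sol J i (C.z i l - C.z i l') (Rm (C.B J i l) (C.B J i l'))) x := fun l hl l' hl' =>
    C.CD3_sol_diff J (ζ := fun i => C.z i l - C.z i l')
      (C.CD3_ndm l l' hl (Finset.mem_filter.mp hl').1 (Finset.mem_filter.mp hl').2)
      (C.CD3_Rm J ha l l' hl (Finset.mem_filter.mp hl').1) i x hx
  unfold w2
  rw [CD3_linF_neg_add]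
  · congr 2
    · rw [CD3_linF_sum]
      · refine Finset.sum_congr rfl (fun l hl => ?_)
        rw [CD3_linF_sum _ _ _ _ (fun l' hl' => hp l hl l' hl')]
        refine Finset.sum_congr rfl (fun l' hl' => ?_)
        exact C.CD3_sol_lin J (ζ := fun i => C.z i l + C.z i l')
          (R := fun i => Rp (C.B J i l) (C.B J i l')) (C.CD3_ndp l l' hl hl')
          (C.CD3_Rp J ha l l' hl hl') hJ (fun i y k k' => Rp_sym _ _ y k k') i x hx k m
      · exact fun l hl => CD3_diff_sum _ _ _ (fun l' hl' => hp l hl l' hl')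
    · rw [CD3_linF_sum]
      · refine Finset.sum_congr rfl (fun l hl => ?_)
        rw [CD3_linF_sum _ _ _ _ (fun l' hl' => hm l hl l' hl')]
        refine Finset.sum_congr rfl (fun l' hl' => ?_)
        exact C.CD3_sol_lin J (ζ := fun i => C.z i l - C.z i l')
          (R := fun i => Rm (C.B J i l) (C.B J i l'))
          (C.CD3_ndm l l' hl (Finset.mem_filter.mp hl').1 (Finset.mem_filter.mp hl').2)
          (C.CD3_Rm J ha l l' hl (Finset.mem_filter.mp hl').1) hJ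
          (fun i y k k' => Rm_sym _ _ y k k') i x hx k m
      · exact fun l hl => CD3_diff_sum _ _ _ (fun l' hl' => hm l hl l' hl')
  · exact CD3_diff_sum _ _ _ (fun l hl => CD3_diff_sum _ _ _ (fun l' hl' => hp l hl l' hl'))
  · exact CD3_diff_sum _ _ _ (fun l hl => CD3_diff_sum _ _ _ (fun l' hl' => hm l hl l' hl'))

end

/-- the oscillating part of the square of `w1` is cancelled by the linear part of `w2` -/
theorem lin_w2 (J : ℕ) (hJ : 1 ≤ J) {g0 : ι → ℝ} (hg0 : g0 ∈ S.G.mem)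
    (ha : ∀ n, n < N → ∀ j, Bd (S.restrict (C.good g0)) (fun i _ => Real.sqrt (C.δ i * C.q i ^ n))
      (fun i => C.amp J i n j)) :
    Bd (C.S' g0) (fun i _ => C.δ i * C.q i ^ (2 * J))
      (fun i x k m => linF (C.F i) (C.w2 J i) x k m
        + (inner ℝ (pd k (C.w1 J i) x) (pd m (C.w1 J i) x)
          - ∑ l ∈ C.lab, Sf (C.F i) (C.z i l) (C.al J i l) J (C.e i) x k m)) := by
  have _ := hg0
  have hW : ∀ i, ∀ x ∈ (C.S' g0).U i, 0 ≤ (fun (i : ι) (_ : E2) => C.δ i * C.q i ^ (2 * J)) i x :=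
    fun i _ _ => mul_nonneg (C.d_pos i).le (pow_nonneg (C.q_pos i).le _)
  have h1 : Bd (C.S' g0) (fun i _ => C.δ i * C.q i ^ (2 * J))
      (fun i x => ∑ l ∈ C.lab, ∑ l' ∈ C.lab, C.CD3_Tp J l l' i x) := by
    refine Bd.sum _ hW (fun l hl => Bd.sum _ hW (fun l' hl' => ?_))
    exact C.CD3_term J (ζ := fun i => C.z i l + C.z i l')
      (R := fun i => Rp (C.B J i l) (C.B J i l')) (C.CD3_ndp l l' hl hl')
      (C.CD3_Rp J ha l l' hl hl')
  have h2 : Bd (C.S' g0) (fun i _ => C.δ i * C.q i ^ (2 * J))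
      (fun i x => ∑ l ∈ C.lab, ∑ l' ∈ C.lab with l' ≠ l, C.CD3_Tm J l l' i x) := by
    refine Bd.sum _ hW (fun l hl => Bd.sum _ hW (fun l' hl' => ?_))
    exact C.CD3_term J (ζ := fun i => C.z i l - C.z i l')
      (R := fun i => Rm (C.B J i l) (C.B J i l'))
      (C.CD3_ndm l l' hl (Finset.mem_filter.mp hl').1 (Finset.mem_filter.mp hl').2)
      (C.CD3_Rm J ha l l' hl (Finset.mem_filter.mp hl').1)
  refine (h1.add h2).congr (fun i x hx => ?_)
  funext k m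
  rw [C.CD3_lin J ha hJ i x hx k m, C.CD3_pd_w1 J ha i x hx k, C.CD3_pd_w1 J ha i x hx m,
    quad_osc C.lab (fun l => C.z i l) (fun l => C.B J i l) (C.e i) x k m]
  simp only [Pi.add_apply, Finset.sum_apply, Finset.sum_sub_distrib]
  have h3 : ∑ l ∈ C.lab, (cdot2 (C.B J i l k x) (star (C.B J i l m x))).re / 2 =
      ∑ l ∈ C.lab, Sf (C.F i) (C.z i l) (C.al J i l) J (C.e i) x k m := rfl
  rw [h3]
  ring

end Cell

end P205F
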