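import Vale.Agent.Lib.P205F.CD1
import Vale.Agent.Lib.P205F.CD2
import Vale.Agent.Lib.P205F.CD3

/-! # P205F module CD: the cell theorem -/

open scoped ContDiff Topology
open Set

namespace P205F

private theorem CD_reV_zero : reV (0 : C4) = 0 := by
  ext k
  fin_cases k <;> simp [reV]

private theorem CD_osc_zero {A : E2 → C4} {ζ : E2} {e : ℝ} {x : E2} (h : A x = 0) :
    osc A ζ e x = 0 := by
  unfold osc
  rw [h, smul_zero, CD_reV_zero]

namespace Cell

variable {ι : Type} {S : Setting ι E2} {N : ℕ} (C : Cell ι S N)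

private theorem CD_supp_add (i : ι) (n d : ℕ) (h : n + d < N) :
    tsupport (C.psi i n) ⊆ tsupport (C.psi i (n + d)) := by
  induction d with
  | zero => exact subset_rfl
  | succ d ih =>
    refine (ih (by omega)).trans fun x hx => ?_
    have h1 := (C.psi_one i (n + d) (by omega) x hx).self_of_nhds
    refine subset_tsupport _ ?_
    have h2 : C.psi i (n + (d + 1)) x = 1 := h1
    simp [Function.mem_support, h2]

private theorem CD_supp (i : ι) {n : ℕ} (h : n < N) :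
    tsupport (C.psi i n) ⊆ tsupport (C.psi i (N - 1)) := by
  have h1 := C.CD_supp_add i n (N - 1 - n) (by omega)
  have h2 : n + (N - 1 - n) = N - 1 := by omega
  rwa [h2] at h1

private theorem CD_al (J : ℕ) (i : ι) {l : ℕ × Fin 3} (hl : l ∈ C.lab) {x : E2}
    (hx : x ∉ tsupport (C.psi i (N - 1))) : C.al J i l x = 0 := by
  have hl1 : l.1 < N := by
    have := hl
    unfold lab at this
    rw [Finset.mem_product, Finset.mem_range] at this
    exact this.1
  exact (C.al_zero J i l (fun h => hx (C.CD_supp i hl1 h))).2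

private theorem CD_B (J : ℕ) (i : ι) {l : ℕ × Fin 3} (hl : l ∈ C.lab) {x : E2}
    (hx : x ∉ tsupport (C.psi i (N - 1))) :
    wsum (C.F i) (C.z i l) (fun _ _ _ => 0) (keA (C.F i) (C.z i l) (C.al J i l)) J (C.e i) x = 0 ∧
      ∀ k, C.B J i l k x = 0 := by
  have h := ke_support (O := (tsupport (C.psi i (N - 1)))ᶜ) (isClosed_tsupport _).isOpen_compl
    (C.F i) (C.z i l) (α := C.al J i l) (fun y hy => C.CD_al J i hl hy) J (C.e i) x hx
  exact ⟨h.1, h.2.1⟩

private theorem CD_sol (J : ℕ) (i : ι) (ζ : E2) {R : E2 → T2C}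
    (hR : ∀ x, x ∉ tsupport (C.psi i (N - 1)) → R x = 0) {x : E2}
    (hx : x ∉ tsupport (C.psi i (N - 1))) : C.sol J i ζ R x = 0 := by
  unfold sol
  refine CD_osc_zero ?_
  unfold wsum
  refine Finset.sum_eq_zero fun j _ => ?_
  have h := wkb_support (O := (tsupport (C.psi i (N - 1)))ᶜ) (isClosed_tsupport _).isOpen_compl
    (C.F i) ζ (R := R) (A0 := lsA (C.F i) ζ R) (fun y hy => hR y hy)
    (fun y hy => by
      unfold lsA
      rw [hR y hy]
      have : ev2 (0 : T2C) (perp ζ) (perp ζ) = 0 := by simp [ev2]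
      rw [this]
      simp) j x hx
  rw [h.2.1, smul_zero]

theorem CD_w1_zero (J : ℕ) (i : ι) {x : E2} (hx : x ∉ tsupport (C.psi i (N - 1))) :
    C.w1 J i x = 0 := by
  unfold w1
  refine Finset.sum_eq_zero fun l hl => ?_
  rw [CD_osc_zero (C.CD_B J i hl hx).1, smul_zero]

theorem CD_w2_zero (J : ℕ) (i : ι) {x : E2} (hx : x ∉ tsupport (C.psi i (N - 1))) :
    C.w2 J i x = 0 := by
  unfold w2
  have h1 : ∑ l ∈ C.lab, ∑ m ∈ C.lab,
      C.sol J i (C.z i l + C.z i m) (Rp (C.B J i l) (C.B J i m)) x = 0 := by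
    refine Finset.sum_eq_zero fun l hl => Finset.sum_eq_zero fun m _ => ?_
    refine C.CD_sol J i _ (fun y hy => ?_) hx
    funext k k'
    unfold Rp
    rw [(C.CD_B J i hl hy).2 k, (C.CD_B J i hl hy).2 k']
    simp [cdot2]
  have h2 : ∑ l ∈ C.lab, ∑ m ∈ C.lab with m ≠ l,
      C.sol J i (C.z i l - C.z i m) (Rm (C.B J i l) (C.B J i m)) x = 0 := by
    refine Finset.sum_eq_zero fun l hl => Finset.sum_eq_zero fun m _ => ?_
    refine C.CD_sol J i _ (fun y hy => ?_) hx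
    funext k k'
    unfold Rm
    rw [(C.CD_B J i hl hy).2 k, (C.CD_B J i hl hy).2 k']
    simp [cdot2]
  rw [h1, h2, add_zero, neg_zero]

private theorem CD_psi_zero (i : ι) {n : ℕ} (hn : n < N) {x : E2}
    (hx : x ∉ tsupport (C.psi i (N - 1))) : C.psi i n x = 0 :=
  image_eq_zero_of_notMem_tsupport (fun h => hx (C.CD_supp i hn h))

open Classical in
/-- the error term -/
noncomputable def CDer (J : ℕ) (i : ι) : E2 → T2 := fun x k m =>
  if x ∈ S.U i then met (fun y => C.F i y + (C.w1 J i y + C.w2 J i y)) x k m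
    - met (C.F i) x k m - C.psi i 0 x ^ 2 * C.H i x k m
    - ∑ n ∈ Finset.Ico 1 N, C.δ i * C.q i ^ n * C.psi i n x ^ 2 * C.gs i x k m else 0

theorem CDer_zero (J : ℕ) (i : ι) {x : E2} (hx : x ∉ tsupport (C.psi i (N - 1))) :
    C.CDer J i x = 0 := by
  funext k m
  unfold CDer
  split_ifs with hU
  · have hN := C.hN
    have h0 : C.psi i 0 x = 0 := C.CD_psi_zero i (by omega) hx
    have h1 : ∑ n ∈ Finset.Ico 1 N, C.δ i * C.q i ^ n * C.psi i n x ^ 2 * C.gs i x k m = 0 := by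
      refine Finset.sum_eq_zero fun n hn => ?_
      rw [Finset.mem_Ico] at hn
      rw [C.CD_psi_zero i hn.2 hx]
      ring
    have hO : IsOpen ((tsupport (C.psi i (N - 1)))ᶜ) := (isClosed_tsupport _).isOpen_compl
    have hpd : ∀ k, pd k (fun y => C.F i y + (C.w1 J i y + C.w2 J i y)) x = pd k (C.F i) x := by
      intro k
      refine pd_congr hO (fun y hy => ?_) k hx
      rw [C.CD_w1_zero J i hy, C.CD_w2_zero J i hy, add_zero, add_zero]
    have h2 : met (fun y => C.F i y + (C.w1 J i y + C.w2 J i y)) x k m = met (C.F i) x k m := by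
      unfold met
      rw [hpd k, hpd m]
    rw [h0, h1, h2]
    simp
  · rfl

/-- splitting of the error term on the domain -/
private theorem CDer_eq (J : ℕ) {i : ι}
    (hi : ∀ n j, n + 1 < N → ∀ x ∈ S.U i,
      0 ≤ C.cof i j (fun k l => C.δ i * C.q i ^ (n + 1) * C.gs i x k l - C.err J i n x k l))
    (h1 : ContDiffOn ℝ ∞ (C.w1 J i) (S.U i)) (h2 : ContDiffOn ℝ ∞ (C.w2 J i) (S.U i))
    {x : E2} (hx : x ∈ S.U i) :
    C.CDer J i x = (linF (C.F i) (C.w1 J i) x
      + (fun k m => linF (C.F i) (C.w2 J i) x k m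
        + (inner ℝ (pd k (C.w1 J i) x) (pd m (C.w1 J i) x)
          - ∑ l ∈ C.lab, Sf (C.F i) (C.z i l) (C.al J i l) J (C.e i) x k m)))
      + (C.err J i (N - 1) x
      + fun k m => (inner ℝ (pd k (C.w1 J i) x) (pd m (C.w2 J i) x)
        + inner ℝ (pd k (C.w2 J i) x) (pd m (C.w1 J i) x))
        + inner ℝ (pd k (C.w2 J i) x) (pd m (C.w2 J i) x)) := by
  have hnh : S.U i ∈ 𝓝 x := (S.isOpen i).mem_nhds hx
  have d1 : DifferentiableAt ℝ (C.w1 J i) x := (h1.contDiffAt hnh).differentiableAt (by simp)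
  have d2 : DifferentiableAt ℝ (C.w2 J i) x := (h2.contDiffAt hnh).differentiableAt (by simp)
  have dF : DifferentiableAt ℝ (C.F i) x :=
    ((C.smF i).contDiffAt hnh).differentiableAt (by simp)
  have hpd : ∀ k, pd k (fun y => C.w1 J i y + C.w2 J i y) x =
      pd k (C.w1 J i) x + pd k (C.w2 J i) x := by
    intro k
    unfold pd
    rw [fderiv_fun_add d1 d2]
    rfl
  funext k m
  have hS := C.sum_Sf J hi x hx k m
  have hm := met_add (w := fun y => C.w1 J i y + C.w2 J i y) dF (d1.add d2) k m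
  simp only [Pi.add_apply]
  unfold CDer
  rw [if_pos hx, hm]
  unfold linF
  rw [hpd k, hpd m]
  simp only [inner_add_right, inner_add_left]
  linarith

/-- THE CELL THEOREM -/
theorem main (J : ℕ) (hJ : 1 ≤ J) : ∃ g0 ∈ S.G.mem, ∃ w : ι → E2 → V4, ∃ er : ι → E2 → T2,
    Bd (C.S' g0) (fun i _ => Real.sqrt (C.δ i) * C.e i) w ∧
    Bd (C.S' g0) (fun i _ => Real.sqrt (C.δ i) * C.q i ^ (2 * J) + C.δ i * C.q i ^ (N + 1)
      + C.δ i * Real.sqrt (C.δ i) / C.e i) er ∧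
    ∀ i, C.good g0 i → ContDiff ℝ ∞ (w i) ∧ ContDiff ℝ ∞ (er i) ∧
      (∀ x, x ∉ tsupport (C.psi i (N - 1)) → w i x = 0 ∧ er i x = 0) ∧
      ∀ x ∈ S.U i, ∀ k m, met (fun y => C.F i y + w i y) x k m = met (C.F i) x k m
        + C.psi i 0 x ^ 2 * C.H i x k m
        + ∑ n ∈ Finset.Ico 1 N, C.δ i * C.q i ^ n * C.psi i n x ^ 2 * C.gs i x k m
        + er i x k m := by
  obtain ⟨g0, hg0, hamp⟩ := C.amp_bd J
  have ha : ∀ n, n < N → ∀ j, Bd (S.restrict (C.good g0))
      (fun i _ => Real.sqrt (C.δ i * C.q i ^ n)) (fun i => C.amp J i n j) :=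
    fun n hn => (hamp n hn).1
  have hN := C.hN
  have b1 := C.w1_bd J hg0 ha
  have b2 := C.w2_bd J hg0 ha
  have b3 := C.lin_w1 J hJ hg0 ha
  have b4 := C.lin_w2 J hJ hg0 ha
  have b5 : Bd (C.S' g0) (fun i _ => C.δ i * C.q i ^ (N + 1)) (fun i => C.err J i (N - 1)) := by
    have h := (hamp (N - 1) (by omega)).2.1
    have hN1 : N - 1 + 2 = N + 1 := by omega
    rw [hN1] at h
    exact h.rescale C.e C.e_pos C.e_le_one C.e_le_s
  -- elementary inequalities
  have hs0 : ∀ i, 0 ≤ Real.sqrt (C.δ i) := fun i => Real.sqrt_nonneg _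
  have hse : ∀ i, Real.sqrt (C.δ i) ≤ C.e i := fun i => C.d_le i
  have hs1 : ∀ i, Real.sqrt (C.δ i) ≤ 1 := fun i => (hse i).trans (C.e_le_one i)
  have hss : ∀ i, Real.sqrt (C.δ i) * Real.sqrt (C.δ i) = C.δ i := fun i =>
    Real.mul_self_sqrt (C.d_pos i).le
  have hds : ∀ i, C.δ i ≤ Real.sqrt (C.δ i) := by
    intro i
    have h := mul_le_mul_of_nonneg_left (hs1 i) (hs0 i)
    rw [hss i, mul_one] at h
    exact h
  have hq0 : ∀ i (n : ℕ), 0 ≤ C.q i ^ n := fun i n => pow_nonneg (C.q_pos i).le n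
  have hp1 : ∀ i, 0 ≤ Real.sqrt (C.δ i) * C.q i ^ (2 * J) := fun i => mul_nonneg (hs0 i) (hq0 i _)
  have hp2 : ∀ i, 0 ≤ C.δ i * C.q i ^ (N + 1) := fun i => mul_nonneg (C.d_pos i).le (hq0 i _)
  have hp3 : ∀ i, 0 ≤ C.δ i * Real.sqrt (C.δ i) / C.e i := fun i =>
    div_nonneg (mul_nonneg (C.d_pos i).le (hs0 i)) (C.e_pos i).le
  -- cross terms
  have c12 : ∀ k m, Bd (C.S' g0) (fun i _ => C.δ i * Real.sqrt (C.δ i) / C.e i)
      (fun i x => (inner ℝ (pd k (C.w1 J i) x) (pd m (C.w2 J i) x) : ℝ)) := by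
    intro k m
    refine ((b1.pd k).inner (b2.pd m)).mono (S.G.const 1 le_rfl) fun i x _ => le_of_eq ?_
    change Real.sqrt (C.δ i) * C.e i * (C.e i)⁻¹ * (C.δ i * (C.e i)⁻¹) =
      1 * (C.δ i * Real.sqrt (C.δ i) / C.e i)
    have he := (C.e_pos i).ne'
    field_simp
  have c21 : ∀ k m, Bd (C.S' g0) (fun i _ => C.δ i * Real.sqrt (C.δ i) / C.e i)
      (fun i x => (inner ℝ (pd k (C.w2 J i) x) (pd m (C.w1 J i) x) : ℝ)) := by
    intro k m
    refine (c12 m k).congr fun i x _ => real_inner_comm _ _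
  have c22 : ∀ k m, Bd (C.S' g0) (fun i _ => C.δ i * Real.sqrt (C.δ i) / C.e i)
      (fun i x => (inner ℝ (pd k (C.w2 J i) x) (pd m (C.w2 J i) x) : ℝ)) := by
    intro k m
    refine ((b2.pd k).inner (b2.pd m)).mono (S.G.const 1 le_rfl) fun i x _ => ?_
    change C.δ i * (C.e i)⁻¹ * (C.δ i * (C.e i)⁻¹) ≤ 1 * (C.δ i * Real.sqrt (C.δ i) / C.e i)
    have he := C.e_pos i
    have h1 : C.δ i * (C.e i)⁻¹ ≤ Real.sqrt (C.δ i) := by
      rw [← div_eq_mul_inv, div_le_iff₀ he]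
      calc C.δ i = Real.sqrt (C.δ i) * Real.sqrt (C.δ i) := (hss i).symm
        _ ≤ Real.sqrt (C.δ i) * C.e i := mul_le_mul_of_nonneg_left (hse i) (hs0 i)
    calc C.δ i * (C.e i)⁻¹ * (C.δ i * (C.e i)⁻¹)
        ≤ C.δ i * (C.e i)⁻¹ * Real.sqrt (C.δ i) :=
          mul_le_mul_of_nonneg_left h1 (mul_nonneg (C.d_pos i).le (inv_nonneg.mpr he.le))
      _ = 1 * (C.δ i * Real.sqrt (C.δ i) / C.e i) := by
          rw [div_eq_mul_inv]; ring
  set Wf : ι → E2 → ℝ := fun i _ => Real.sqrt (C.δ i) * C.q i ^ (2 * J)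
    + C.δ i * C.q i ^ (N + 1) + C.δ i * Real.sqrt (C.δ i) / C.e i with hWf
  have b3' : Bd (C.S' g0) Wf (fun i => linF (C.F i) (C.w1 J i)) :=
    b3.mono (S.G.const 1 le_rfl) fun i x _ => by
      have h2 := hp2 i
      have h3 := hp3 i
      change Real.sqrt (C.δ i) * C.q i ^ (2 * J) ≤ 1 * (Real.sqrt (C.δ i) * C.q i ^ (2 * J)
        + C.δ i * C.q i ^ (N + 1) + C.δ i * Real.sqrt (C.δ i) / C.e i)
      linarith
  have b4' : Bd (C.S' g0) Wf (fun i x k m => linF (C.F i) (C.w2 J i) x k m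
        + (inner ℝ (pd k (C.w1 J i) x) (pd m (C.w1 J i) x)
          - ∑ l ∈ C.lab, Sf (C.F i) (C.z i l) (C.al J i l) J (C.e i) x k m)) :=
    b4.mono (S.G.const 1 le_rfl) fun i x _ => by
      have h1 := mul_le_mul_of_nonneg_right (hds i) (hq0 i (2 * J))
      have h2 := hp2 i
      have h3 := hp3 i
      change C.δ i * C.q i ^ (2 * J) ≤ 1 * (Real.sqrt (C.δ i) * C.q i ^ (2 * J)
        + C.δ i * C.q i ^ (N + 1) + C.δ i * Real.sqrt (C.δ i) / C.e i)
      linarith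
  have b5' : Bd (C.S' g0) Wf (fun i => C.err J i (N - 1)) :=
    b5.mono (S.G.const 1 le_rfl) fun i x _ => by
      have h2 := hp1 i
      have h3 := hp3 i
      change C.δ i * C.q i ^ (N + 1) ≤ 1 * (Real.sqrt (C.δ i) * C.q i ^ (2 * J)
        + C.δ i * C.q i ^ (N + 1) + C.δ i * Real.sqrt (C.δ i) / C.e i)
      linarith
  have hc : ∀ i, C.δ i * Real.sqrt (C.δ i) / C.e i ≤
      1 * (Real.sqrt (C.δ i) * C.q i ^ (2 * J)
        + C.δ i * C.q i ^ (N + 1) + C.δ i * Real.sqrt (C.δ i) / C.e i) := by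
    intro i
    have h2 := hp1 i
    have h3 := hp2 i
    linarith
  have b6' : Bd (C.S' g0) Wf (fun i x k m => (inner ℝ (pd k (C.w1 J i) x) (pd m (C.w2 J i) x)
        + inner ℝ (pd k (C.w2 J i) x) (pd m (C.w1 J i) x))
        + inner ℝ (pd k (C.w2 J i) x) (pd m (C.w2 J i) x)) := by
    refine Bd.mono (S.G.const 1 le_rfl) ?_ (fun i x _ => hc i)
    exact Bd.pi.2 fun k => Bd.pi.2 fun m => ((c12 k m).add (c21 k m)).add (c22 k m)
  refine ⟨g0, hg0, fun i x => C.w1 J i x + C.w2 J i x, C.CDer J, ?_, ?_, ?_⟩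
  · refine b1.add (b2.mono (S.G.const 1 le_rfl) fun i x _ => ?_)
    rw [one_mul]
    calc C.δ i = Real.sqrt (C.δ i) * Real.sqrt (C.δ i) := (hss i).symm
      _ ≤ Real.sqrt (C.δ i) * C.e i := mul_le_mul_of_nonneg_left (hse i) (hs0 i)
  · refine ((b3'.add b4').add (b5'.add b6')).congr fun i x hx => ?_
    have hx' : x ∈ S.U i ∧ C.good g0 i := hx
    have hU : (C.S' g0).U i = S.U i := by
      ext y
      exact ⟨fun h => h.1, fun h => ⟨h, hx'.2⟩⟩
    have s1 := b1.1 i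
    have s2 := b2.1 i
    rw [hU] at s1 s2
    exact C.CDer_eq J (fun n j hn y hy => (hamp n (by omega)).2.2 i hx'.2 j y hy hn) s1 s2 hx'.1
  · intro i hi
    have hU : (C.S' g0).U i = S.U i := by
      ext y
      exact ⟨fun h => h.1, fun h => ⟨h, hi⟩⟩
    have s1 := b1.1 i
    have s2 := b2.1 i
    rw [hU] at s1 s2
    have s3 := ((b3'.add b4').add (b5'.add b6')).1 i
    rw [hU] at s3
    have hcc : IsClosed (tsupport (C.psi i (N - 1))) := isClosed_tsupport _
    have hsub : tsupport (C.psi i (N - 1)) ⊆ S.U i := C.psi_supp i (N - 1) (by omega)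
    have hz : ∀ x, x ∉ tsupport (C.psi i (N - 1)) → C.w1 J i x + C.w2 J i x = 0 ∧
        C.CDer J i x = 0 := fun x hx =>
      ⟨by rw [C.CD_w1_zero J i hx, C.CD_w2_zero J i hx, add_zero], C.CDer_zero J i hx⟩
    refine ⟨?_, ?_, hz, ?_⟩
    · exact contDiff_of_zero_off (S.isOpen i) hcc hsub (s1.add s2) fun x hx => (hz x hx).1
    · refine contDiff_of_zero_off (S.isOpen i) hcc hsub ?_ fun x hx => (hz x hx).2
      refine s3.congr fun x hx => ?_
      exact C.CDer_eq J (fun n j hn y hy => (hamp n (by omega)).2.2 i hi j y hy hn) s1 s2 hx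
    · intro x hx k m
      have h : C.CDer J i x k m = met (fun y => C.F i y + (C.w1 J i y + C.w2 J i y)) x k m
          - met (C.F i) x k m - C.psi i 0 x ^ 2 * C.H i x k m
          - ∑ n ∈ Finset.Ico 1 N, C.δ i * C.q i ^ n * C.psi i n x ^ 2 * C.gs i x k m := by
        unfold CDer
        rw [if_pos hx]
      rw [h]
      ring

end Cell

end P205F
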