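import Vale.Agent.Lib.P205F.CB
import Vale.Agent.Lib.P205F.CC

/-! # P205F module CD1: bounds for the perturbation -/

open scoped ContDiff Topology
open Set

namespace P205F

namespace Cell

variable {ι : Type} {S : Setting ι E2} {N : ℕ} (C : Cell ι S N)

private theorem CD1_nd {g : ι → ℝ} {F : ι → E2 → V4} (P : ι → Prop) {i : ι} {ζ : E2}
    (h : NonDeg S g F i ζ) : NonDeg (S.restrict P) g F i ζ :=
  ⟨h.1, h.2.1, fun x hx => h.2.2 x hx.1⟩

private theorem CD1_smF (P : ι → Prop) (i : ι) : ContDiffOn ℝ ∞ (C.F i) ((S.restrict P).U i) :=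
  (C.smF i).mono fun _ hx => hx.1

private theorem CD1_mem_lab {l : ℕ × Fin 3} (hl : l ∈ C.lab) : l.1 < N := by
  unfold Cell.lab at hl
  rw [Finset.mem_product, Finset.mem_range] at hl
  exact hl.1

/-- bounds for the normalised amplitudes -/
private theorem CD1_al (J : ℕ) {g0 : ι → ℝ} (l : ℕ × Fin 3)
    (ha : Bd (S.restrict (C.good g0)) (fun i _ => Real.sqrt (C.δ i * C.q i ^ l.1))
      (fun i => C.amp J i l.1 l.2)) :
    Bd (S.restrict (C.good g0)) (fun i _ => Real.sqrt (C.δ i * C.q i ^ l.1))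
      (fun i => C.al J i l) := by
  have h1 : ∀ i, |(C.fr i l.1 l.2)⁻¹| ≤ (1 : ℝ) := fun i => by
    have h2 := C.fr_ge i l.1 l.2
    rw [abs_of_nonneg (inv_nonneg.mpr (by linarith))]
    exact inv_le_one_of_one_le₀ h2
  refine (Bd.constSmul ((S.restrict (C.good g0)).G.const 1 le_rfl)
    (fun i => (C.fr i l.1 l.2)⁻¹) h1 ha).congr fun i x _ => ?_
  unfold Cell.al
  rw [smul_eq_mul]
  ring

/-- bounds for the solution of the inhomogeneous equation -/
private theorem CD1_sol (J : ℕ) {g0 : ι → ℝ} {W : ι → E2 → ℝ} {ζ : ι → E2}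
    (hζ : ∀ i, NonDeg S C.g C.F i (ζ i)) {R : ι → E2 → T2C}
    (hR : Bd (S.restrict (C.good g0)) W R) :
    Bd (C.S' g0) W (fun i => C.sol J i (ζ i) (R i)) := by
  have F1 := C.F1.restrict (C.good g0)
  have F2 := C.F2.restrict (C.good g0)
  have hF := fun i => CD1_smF C (C.good g0) i
  have hζ' := fun i => CD1_nd (C.good g0) (hζ i)
  have hA := lsA_bd (S := S.restrict (C.good g0)) C.hg hF F1 F2 (fun i => (hζ' i).1)
    (fun i => (hζ' i).2.1) (fun i => (hζ' i).2.2) hR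
  have hw := wsum_bd (S := S.restrict (C.good g0)) C.hg hF F1 F2 (fun i => (hζ' i).1)
    (fun i => (hζ' i).2.1) (fun i => (hζ' i).2.2) hR hA J C.e C.e_pos C.e_le_s
  exact osc_bd (S := S.restrict (C.good g0)) C.hg (fun i => (hζ' i).1) hw C.e C.e_pos C.e_le_one
    C.e_le_s

private theorem CD1_B (J : ℕ) {g0 : ι → ℝ} {l : ℕ × Fin 3} (hl : l ∈ C.lab)
    (ha : Bd (S.restrict (C.good g0)) (fun i _ => Real.sqrt (C.δ i * C.q i ^ l.1))
      (fun i => C.amp J i l.1 l.2)) (k : Fin 2) :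
    Bd (S.restrict (C.good g0)) (fun i _ => Real.sqrt (C.δ i * C.q i ^ l.1))
      (fun i => C.B J i l k) :=
  Bf_bd (S := S.restrict (C.good g0)) C.hg (fun i => CD1_smF C (C.good g0) i)
    (C.F1.restrict (C.good g0)) (C.F2.restrict (C.good g0))
    (fun i => CD1_nd (C.good g0) (C.nd1 i l.1 l.2 (CD1_mem_lab C hl)))
    (CD1_al C J l ha) J C.e C.e_pos C.e_le_s k

private theorem CD1_sqrt (i : ι) (n : ℕ) :
    Real.sqrt (C.δ i * C.q i ^ n) ≤ Real.sqrt (C.δ i) := by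
  refine Real.sqrt_le_sqrt ?_
  have h1 : C.q i ^ n ≤ 1 := pow_le_one₀ (C.q_pos i).le (C.q_lt i).le
  calc C.δ i * C.q i ^ n ≤ C.δ i * 1 := mul_le_mul_of_nonneg_left h1 (C.d_pos i).le
    _ = C.δ i := mul_one _

private theorem CD1_sqrt2 (i : ι) (n m : ℕ) :
    Real.sqrt (C.δ i * C.q i ^ n) * Real.sqrt (C.δ i * C.q i ^ m) ≤ C.δ i := by
  calc Real.sqrt (C.δ i * C.q i ^ n) * Real.sqrt (C.δ i * C.q i ^ m)
      ≤ Real.sqrt (C.δ i) * Real.sqrt (C.δ i) :=
        mul_le_mul (CD1_sqrt C i n) (CD1_sqrt C i m) (Real.sqrt_nonneg _) (Real.sqrt_nonneg _)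
    _ = C.δ i := Real.mul_self_sqrt (C.d_pos i).le

/-- bounds for the two parts of the perturbation -/
theorem w1_bd (J : ℕ) {g0 : ι → ℝ} (hg0 : g0 ∈ S.G.mem)
    (ha : ∀ n, n < N → ∀ j, Bd (S.restrict (C.good g0)) (fun i _ => Real.sqrt (C.δ i * C.q i ^ n))
      (fun i => C.amp J i n j)) :
    Bd (C.S' g0) (fun i _ => Real.sqrt (C.δ i) * C.e i) (fun i => C.w1 J i) := by
  have hW : ∀ i, ∀ x ∈ (C.S' g0).U i, 0 ≤ Real.sqrt (C.δ i) * C.e i := fun i _ _ =>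
    mul_nonneg (Real.sqrt_nonneg _) (C.e_pos i).le
  unfold Cell.w1
  refine Bd.sum C.lab hW fun l hl => ?_
  have hl' := CD1_mem_lab C hl
  have hal := CD1_al C J l (ha l.1 hl' l.2)
  have F1 := C.F1.restrict (C.good g0)
  have F2 := C.F2.restrict (C.good g0)
  have hF := fun i => CD1_smF C (C.good g0) i
  have hζ' := fun i => CD1_nd (C.good g0) (C.nd1 i l.1 l.2 hl')
  have hk := keA_bd (S := S.restrict (C.good g0)) C.hg hF F1 F2 (fun i => (hζ' i).1)
    (fun i => (hζ' i).2.1) (fun i => (hζ' i).2.2) hal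
  have h0 : Bd (S.restrict (C.good g0)) (fun i _ => Real.sqrt (C.δ i * C.q i ^ l.1))
      (fun _ _ => (fun _ _ => 0 : T2C)) :=
    Bd.zero fun i x hx => Real.sqrt_nonneg _
  have hw := wsum_bd (S := S.restrict (C.good g0)) C.hg hF F1 F2 (fun i => (hζ' i).1)
    (fun i => (hζ' i).2.1) (fun i => (hζ' i).2.2) h0 hk J C.e C.e_pos C.e_le_s
  have ho := osc_bd (S := S.restrict (C.good g0)) C.hg (fun i => (hζ' i).1) hw C.e C.e_pos
    C.e_le_one C.e_le_s
  refine (Bd.weightSmul C.e ho).mono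
    (((S.restrict (C.good g0)).rescale C.e C.e_pos C.e_le_one).G.const 1 le_rfl)
    fun i x _ => ?_
  rw [one_mul, abs_of_pos (C.e_pos i), mul_comm]
  exact mul_le_mul_of_nonneg_right (CD1_sqrt C i l.1) (C.e_pos i).le

theorem w2_bd (J : ℕ) {g0 : ι → ℝ} (hg0 : g0 ∈ S.G.mem)
    (ha : ∀ n, n < N → ∀ j, Bd (S.restrict (C.good g0)) (fun i _ => Real.sqrt (C.δ i * C.q i ^ n))
      (fun i => C.amp J i n j)) :
    Bd (C.S' g0) (fun i _ => C.δ i) (fun i => C.w2 J i) := by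
  have hW : ∀ i, ∀ x ∈ (C.S' g0).U i, 0 ≤ C.δ i := fun i _ _ => (C.d_pos i).le
  have hB : ∀ l ∈ C.lab, ∀ k, Bd (S.restrict (C.good g0))
      (fun i _ => Real.sqrt (C.δ i * C.q i ^ l.1)) (fun i => C.B J i l k) := fun l hl k =>
    CD1_B C J hl (ha l.1 (CD1_mem_lab C hl) l.2) k
  have h1 : (1 : ℝ) ≤ 1 := le_rfl
  unfold Cell.w2
  refine Bd.neg (Bd.add ?_ ?_)
  · refine Bd.sum C.lab hW fun l hl => Bd.sum C.lab hW fun m hm => ?_
    refine CD1_sol C J (fun i => C.ndp i l.1 l.2 m.1 m.2 (CD1_mem_lab C hl) (CD1_mem_lab C hm)) ?_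
    refine (Rp_bd (hB l hl) (hB m hm)).mono ((S.restrict (C.good g0)).G.const 1 le_rfl)
      fun i x _ => ?_
    rw [one_mul]
    exact CD1_sqrt2 C i l.1 m.1
  · refine Bd.sum C.lab hW fun l hl => Bd.sum _ hW fun m hm => ?_
    rw [Finset.mem_filter] at hm
    have hne : (l.1, l.2) ≠ (m.1, m.2) := fun h => hm.2 (by
      rw [Prod.mk.injEq] at h
      exact (Prod.ext h.1 h.2).symm)
    refine CD1_sol C J (fun i => C.ndm i l.1 l.2 m.1 m.2 (CD1_mem_lab C hl)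
      (CD1_mem_lab C hm.1) hne) ?_
    refine (Rm_bd (hB l hl) (hB m hm.1)).mono ((S.restrict (C.good g0)).G.const 1 le_rfl)
      fun i x _ => ?_
    rw [one_mul]
    exact CD1_sqrt2 C i l.1 m.1

end Cell

end P205F
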