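import Vale.Agent.Lib.P205F.GTm
import Vale.Agent.Lib.P205F.C2Defs

/-!
# P205F: definitions for the colour step
-/

open scoped ContDiff Topology
open Set

namespace P205F

/-- the small quantity `(C Lam ^ m)⁻¹` -/
noncomputable def nu (C m : ℕ) (Lam : ℝ) : ℝ := (C * Lam ^ m)⁻¹

/-- the hypotheses of the colour step; the cells have size `nu C0 m0 Lam` -/
structure ColH (C0 m0 P : ℕ) (ι : Type) where
  Lam : ι → ℝ
  δ : ι → ℝ
  q : ι → ℝ
  s : ι → ℝ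
  F0 : ι → E2 → V4
  Fm : ι → E2 → V4
  gst : ι → E2 → T2
  Hm : ι → E2 → T2
  psi : ι → E2 → ℝ
  kap : ι → E2 → ℝ
  hL : ∀ i, 1 ≤ Lam i
  d_pos : ∀ i, 0 < δ i
  d_le1 : ∀ i, δ i ≤ 1
  q_pos : ∀ i, 0 < q i
  q_lt : ∀ i, q i < 1
  q_pow : ∀ i, q i ^ P = δ i
  s_pos : ∀ i, 0 < s i
  s_le : ∀ i, s i ≤ 1
  d_le : ∀ i, Real.sqrt (δ i) ≤ q i * s i
  smF : ∀ i, ContDiffOn ℝ ∞ (F0 i) (Metric.ball 0 4)
  ok : ∀ i, MapOK (Lam i) (Metric.closedBall 0 3) (F0 i) (gst i)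
  smg : ∀ i, ContDiffOn ℝ ∞ (gst i) (Metric.ball 0 4)
  Fm_sm : ∀ i, ContDiffOn ℝ ∞ (Fm i) (Metric.ball 0 (29 / 10))
  close : ∀ i, ∀ r ≤ 2, ∀ x ∈ Metric.ball (0 : E2) (29 / 10),
    ‖iteratedFDeriv ℝ r (fun y => Fm i y - F0 i y) x‖ ≤ nu C0 m0 (Lam i)
  Hm_sym : ∀ i x, Hm i x 0 1 = Hm i x 1 0
  Hm_close : ∀ i, ∀ x ∈ Metric.ball (0 : E2) (29 / 10), ∀ k l,
    |Hm i x k l - δ i * gst i x k l| ≤ nu C0 m0 (Lam i) * δ i
  kap_sm : ∀ i, ContDiff ℝ ∞ (kap i)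
  kap_supp : ∀ i, tsupport (kap i) ⊆ Metric.closedBall 0 (26 / 10)
  kap_one : ∀ i, ∀ x ∈ tsupport (psi i), kap i =ᶠ[𝓝 x] fun _ => 1

namespace ColH

variable {C0 m0 P : ℕ} {ι : Type} (D : ColH C0 m0 P ι)

/-- the setting on the ball of radius `29/10` -/
noncomputable def S : Setting ι E2 where
  G := GT D.Lam D.δ D.hL D.d_pos D.d_le1
  U := fun _ => Metric.ball 0 (29 / 10)
  s := D.s
  isOpen := fun _ => Metric.isOpen_ball
  s_pos := D.s_pos
  s_le := D.s_le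

/-- the analytic hypotheses -/
structure Bds : Prop where
  F1 : Bd D.S (fun _ _ => 1) (fun i x => fderiv ℝ (D.Fm i) x)
  F2 : Bd D.S (fun _ _ => 1) (fun i x => fderiv ℝ (fun y => fderiv ℝ (D.Fm i) y) x)
  H : Bd D.S (fun i _ => D.δ i) D.Hm
  flat : FlatFam D.S D.psi
  kap : Bd D.S (fun _ _ => 1) D.kap

/-- cell size -/
noncomputable def ρ (i : ι) : ℝ := nu C0 m0 (D.Lam i)

/-- the wave length -/
noncomputable def e (i : ι) : ℝ := D.q i * D.s i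

theorem e_pos (i : ι) : 0 < D.e i := mul_pos (D.q_pos i) (D.s_pos i)

theorem e_le_one (i : ι) : D.e i ≤ 1 :=
  mul_le_one₀ (D.q_lt i).le (D.s_pos i).le (D.s_le i)

/-- restricted setting at the scale of the wave length -/
noncomputable def S' (g0 : ι → ℝ) : Setting ι E2 :=
  (D.S.restrict (fun i => g0 i * D.q i ≤ 1)).rescale D.e D.e_pos D.e_le_one

open Classical in
/-- domains of the cells of colour `c` -/
noncomputable def cellU (c : Bool × Bool) (p : ι × (ℤ × ℤ)) : Set E2 :=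
  if p.2 ∈ cells (D.ρ p.1) ∧ col p.2 = c then Metric.ball (cen (D.ρ p.1) p.2) (2 * D.ρ p.1) else ∅

/-- the setting of the cells of colour `c` -/
noncomputable def cellS (c : Bool × Bool) : Setting (ι × (ℤ × ℤ)) E2 where
  G := GT (fun p => D.Lam p.1) (fun p => D.δ p.1) (fun p => D.hL p.1) (fun p => D.d_pos p.1)
    (fun p => D.d_le1 p.1)
  U := D.cellU c
  s := fun p => D.s p.1
  isOpen := by
    intro p
    unfold cellU
    split_ifs
    · exact Metric.isOpen_ball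
    · exact isOpen_empty
  s_pos := fun p => D.s_pos p.1
  s_le := fun p => D.s_le p.1

open Classical in
/-- flat cutoff of a cell -/
noncomputable def cellChi (PF : CellFun) (c : Bool × Bool) (p : ι × (ℤ × ℤ)) (x : E2) : ℝ :=
  if p.2 ∈ cells (D.ρ p.1) ∧ col p.2 = c then D.psi p.1 x * PF.ψ (cellc (D.ρ p.1) p.2 x) else 0

open Classical in
/-- ordinary cutoff of a cell -/
noncomputable def cellKap (PF : CellFun) (c : Bool × Bool) (p : ι × (ℤ × ℤ)) (x : E2) : ℝ :=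
  if p.2 ∈ cells (D.ρ p.1) ∧ col p.2 = c then D.kap p.1 x * PF.κ (cellc (D.ρ p.1) p.2 x) else 0

end ColH

end P205F
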