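import Mathlib
import Vale.Agent.Lib.P205F.ColDefs

/-! # P205F module CS2: sums over the cells of a colour -/

open scoped ContDiff Topology
open Set

namespace P205F

private theorem CS2_rho_pos {C0 m0 P : ℕ} (hC0 : 20 ≤ C0) {ι : Type} (D : ColH C0 m0 P ι) (i : ι) :
    0 < D.ρ i := by
  unfold ColH.ρ nu
  have h1 : (0 : ℝ) < C0 := by
    have : (20 : ℝ) ≤ C0 := by exact_mod_cast hC0
    linarith
  have h2 : 0 < D.Lam i := lt_of_lt_of_le one_pos (D.hL i)
  positivity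

private theorem CS2_col {z z' : ℤ × ℤ} (h : col z = col z') (hne : z ≠ z') :
    2 ≤ |z.1 - z'.1| ∨ 2 ≤ |z.2 - z'.2| := by
  unfold col at h
  rw [Prod.mk.injEq, decide_eq_decide, decide_eq_decide] at h
  obtain ⟨h1, h2⟩ := h
  by_contra hcon
  rw [not_or, not_le, not_le, abs_lt, abs_lt] at hcon
  exact hne (Prod.ext (by omega) (by omega))

private theorem CS2_norm {ρ : ℝ} (hρ : 0 < ρ) {z z' : ℤ × ℤ} (h : col z = col z') (hne : z ≠ z') :
    2 * ρ ≤ ‖cen ρ z - cen ρ z'‖ := by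
  have e1 : (cen ρ z - cen ρ z').1 = ρ * ((z.1 - z'.1 : ℤ) : ℝ) := by
    simp only [cen, Prod.fst_sub]
    push_cast
    ring
  have e2 : (cen ρ z - cen ρ z').2 = ρ * ((z.2 - z'.2 : ℤ) : ℝ) := by
    simp only [cen, Prod.snd_sub]
    push_cast
    ring
  rcases CS2_col h hne with h1 | h1
  · refine le_trans ?_ (norm_fst_le _)
    rw [e1, norm_mul, Real.norm_of_nonneg hρ.le, mul_comm]
    refine mul_le_mul_of_nonneg_left ?_ hρ.le
    rw [Real.norm_eq_abs, ← Int.cast_abs]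
    exact_mod_cast h1
  · refine le_trans ?_ (norm_snd_le _)
    rw [e2, norm_mul, Real.norm_of_nonneg hρ.le, mul_comm]
    refine mul_le_mul_of_nonneg_left ?_ hρ.le
    rw [Real.norm_eq_abs, ← Int.cast_abs]
    exact_mod_cast h1

private theorem CS2_disj {C0 m0 P : ℕ} (hC0 : 20 ≤ C0) {ι : Type} (D : ColH C0 m0 P ι)
    (c : Bool × Bool) (i : ι) (x : E2) {z z' : ℤ × ℤ} (hz : col z = c) (hz' : col z' = c)
    (hne : z ≠ z') (h : ‖x - cen (D.ρ i) z‖ < 95 / 100 * D.ρ i) :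
    95 / 100 * D.ρ i < ‖x - cen (D.ρ i) z'‖ := by
  have hρ := CS2_rho_pos hC0 D i
  have h1 := CS2_norm hρ (hz.trans hz'.symm) hne
  have h2 : ‖cen (D.ρ i) z - cen (D.ρ i) z'‖ ≤
      ‖x - cen (D.ρ i) z‖ + ‖x - cen (D.ρ i) z'‖ := by
    have e : cen (D.ρ i) z - cen (D.ρ i) z' =
        (x - cen (D.ρ i) z') - (x - cen (D.ρ i) z) := by abel
    rw [e]
    refine (norm_sub_le _ _).trans ?_
    rw [add_comm]
  linarith

private theorem CS2_zero {ρ : ℝ} {V : Type} [NormedAddCommGroup V] [NormedSpace ℝ V]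
    {u : E2 → V} {p x : E2} (h0 : ∀ x, 9 / 10 * ρ ≤ ‖x - p‖ → u x = 0)
    (hx : 9 / 10 * ρ < ‖x - p‖) : u =ᶠ[𝓝 x] fun _ => 0 := by
  have hc : ContinuousAt (fun y : E2 => ‖y - p‖) x := by fun_prop
  filter_upwards [hc.eventually (lt_mem_nhds hx)] with y hy
  exact h0 y hy.le

theorem cell_sum {C0 m0 P : ℕ} (hC0 : 20 ≤ C0) {ι : Type} (D : ColH C0 m0 P ι) (c : Bool × Bool)
    {V : Type} [NormedAddCommGroup V] [NormedSpace ℝ V] (g0 : ι × (ℤ × ℤ) → ℝ)
    (hg0 : g0 ∈ (D.cellS c).G.mem) (W : ι → ℝ) (hW : ∀ i, 0 ≤ W i) (w : ι × (ℤ × ℤ) → E2 → V)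
    (h : Bd (((D.cellS c).restrict (fun p => g0 p * D.q p.1 ≤ 1)).rescale (fun p => D.e p.1)
      (fun p => D.e_pos p.1) (fun p => D.e_le_one p.1)) (fun p _ => W p.1) w)
    (h0 : ∀ p, g0 p * D.q p.1 ≤ 1 → ∀ x, 9 / 10 * D.ρ p.1 ≤ ‖x - cen (D.ρ p.1) p.2‖ → w p x = 0)
    (hs : ∀ p, g0 p * D.q p.1 ≤ 1 → ContDiff ℝ ∞ (w p)) :
    ∃ g1 ∈ D.S.G.mem, (∀ i z, g1 i * D.q i ≤ 1 → g0 (i, z) * D.q i ≤ 1) ∧
      Bd (D.S' g1) (fun i _ => W i)
        (fun i x => ∑ z ∈ cells (D.ρ i) with col z = c, w (i, z) x) := by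
  obtain ⟨g1, hg1, hle1⟩ := GTmem.sup (κ := ℤ × ℤ) D.hL D.d_pos D.d_le1 (g := g0) hg0
  have hq : ∀ i z, g1 i * D.q i ≤ 1 → g0 (i, z) * D.q i ≤ 1 := fun i z hi =>
    (mul_le_mul_of_nonneg_right (hle1 i z) (D.q_pos i).le).trans hi
  refine ⟨g1, hg1, hq, fun i x hx => ?_, fun r => ?_⟩
  · refine ContDiff.contDiffWithinAt ?_
    exact ContDiff.sum fun z _ => hs (i, z) (hq i z hx.2)
  · obtain ⟨g, hg, hb⟩ := h.2 r
    obtain ⟨g2, hg2, hle2⟩ := GTmem.sup (κ := ℤ × ℤ) D.hL D.d_pos D.d_le1 (g := g) hg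
    refine ⟨g2, hg2, fun i x hx => ?_⟩
    have hρ := CS2_rho_pos hC0 D i
    have hW' := hW i
    have he : 0 < (D.e i)⁻¹ := inv_pos.mpr (D.e_pos i)
    have hg2i : 1 ≤ g2 i := hg2.1 i
    have hzero : ∀ z, 95 / 100 * D.ρ i ≤ ‖x - cen (D.ρ i) z‖ → w (i, z) =ᶠ[𝓝 x] fun _ => 0 := by
      intro z hz
      exact CS2_zero (h0 (i, z) (hq i z hx.2)) (by linarith)
    by_cases hex : ∃ z0 ∈ (cells (D.ρ i)).filter (fun z => col z = c),
        ‖x - cen (D.ρ i) z0‖ < 95 / 100 * D.ρ i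
    · obtain ⟨z0, hz0, hz0x⟩ := hex
      have hz0' := Finset.mem_filter.mp hz0
      have hall : ∀ z ∈ (cells (D.ρ i)).filter (fun z => col z = c), z ≠ z0 →
          w (i, z) =ᶠ[𝓝 x] fun _ => 0 := by
        intro z hz hne
        exact hzero z (CS2_disj hC0 D c i x hz0'.2 (Finset.mem_filter.mp hz).2 (Ne.symm hne)
          hz0x).le
      have hev : (fun y => ∑ z ∈ cells (D.ρ i) with col z = c, w (i, z) y) =ᶠ[𝓝 x] w (i, z0) := by
        have h3 : ∀ᶠ y in 𝓝 x, ∀ z ∈ (cells (D.ρ i)).filter (fun z => col z = c), z ≠ z0 →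
            w (i, z) y = 0 := by
          rw [Filter.eventually_all_finset]
          intro z hz
          by_cases hne : z = z0
          · exact Filter.Eventually.of_forall fun y hy => absurd hne hy
          · filter_upwards [hall z hz hne] with y hy _
            exact hy
        filter_upwards [h3] with y hy
        exact Finset.sum_eq_single_of_mem z0 hz0 fun z hz hne => hy z hz hne
      have h4 : iteratedFDeriv ℝ r
          (fun y => ∑ z ∈ cells (D.ρ i) with col z = c, w (i, z) y) x =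
          iteratedFDeriv ℝ r (w (i, z0)) x := (hev.iteratedFDeriv ℝ r).eq_of_nhds
      have h5 := hb (i, z0) x ⟨?_, hq i z0 hx.2⟩
      · refine (le_of_eq (congrArg norm h4)).trans (h5.trans ?_)
        have h6 : g (i, z0) ≤ g2 i := hle2 i z0
        have h7 : 0 ≤ ((D.e i)⁻¹) ^ r := pow_nonneg he.le r
        exact mul_le_mul_of_nonneg_right (mul_le_mul_of_nonneg_right h6 hW') h7
      · have h8 : x ∈ Metric.ball (cen (D.ρ i) z0) (2 * D.ρ i) := by
          rw [Metric.mem_ball, dist_eq_norm]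
          linarith
        have h9 : D.cellU c (i, z0) = Metric.ball (cen (D.ρ i) z0) (2 * D.ρ i) := by
          unfold ColH.cellU
          exact if_pos hz0'
        exact (Set.ext_iff.mp h9 x).mpr h8
    · have hev : (fun y => ∑ z ∈ cells (D.ρ i) with col z = c, w (i, z) y) =ᶠ[𝓝 x] fun _ => 0 := by
        have h3 : ∀ᶠ y in 𝓝 x, ∀ z ∈ (cells (D.ρ i)).filter (fun z => col z = c),
            w (i, z) y = 0 := by
          rw [Filter.eventually_all_finset]
          intro z hz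
          refine hzero z ?_
          by_contra hlt
          exact hex ⟨z, hz, not_le.mp hlt⟩
        filter_upwards [h3] with y hy
        exact Finset.sum_eq_zero hy
      have h4 : iteratedFDeriv ℝ r
          (fun y => ∑ z ∈ cells (D.ρ i) with col z = c, w (i, z) y) x = 0 := by
        rw [(hev.iteratedFDeriv ℝ r).eq_of_nhds, iteratedFDeriv_fun_zero, Pi.zero_apply]
      refine (le_of_eq ((congrArg norm h4).trans norm_zero)).trans ?_
      exact mul_nonneg (mul_nonneg (by linarith) hW') (pow_nonneg he.le r)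

/-- at a point, at most one cell of a given colour is active: the quadratic expression of the sum -/
theorem cell_disjoint {C0 m0 P : ℕ} (hC0 : 20 ≤ C0) {ι : Type} (D : ColH C0 m0 P ι)
    (c : Bool × Bool) (i : ι) (x : E2) {z z' : ℤ × ℤ} (hz : col z = c) (hz' : col z' = c)
    (hne : z ≠ z') (h : ‖x - cen (D.ρ i) z‖ < 95 / 100 * D.ρ i) :
    95 / 100 * D.ρ i < ‖x - cen (D.ρ i) z'‖ :=
  CS2_disj hC0 D c i x hz hz' hne h

end P205F
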