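import Vale.Agent.Lib.P205F.CS1
import Vale.Agent.Lib.P205F.CS2
import Vale.Agent.Lib.P205F.C2D

/-! # P205F module CS: the colour step -/

open scoped ContDiff Topology
open Set

namespace P205F

private theorem CS_rho_pos {C0 m0 P : ℕ} (hC0 : 20 ≤ C0) {ι : Type} (D : ColH C0 m0 P ι)
    (i : ι) : 0 < D.ρ i := by
  unfold ColH.ρ nu
  have h1 : (0 : ℝ) < C0 := by
    have h2 : 0 < C0 := by omega
    exact_mod_cast h2
  have h2 : (0 : ℝ) < D.Lam i := by linarith [D.hL i]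
  positivity

private theorem CS_cellc {ρ : ℝ} (hρ : 0 < ρ) (z : ℤ × ℤ) (x : E2) {a : ℝ}
    (h : a * ρ ≤ ‖x - cen ρ z‖) : a ≤ ‖cellc ρ z x‖ := by
  unfold cellc
  rw [norm_smul, norm_inv, Real.norm_of_nonneg hρ.le, inv_mul_eq_div, le_div_iff₀ hρ]
  exact h

private theorem CS_kap_out (PF : CellFun) {C0 m0 P : ℕ} (hC0 : 20 ≤ C0) {ι : Type}
    (D : ColH C0 m0 P ι) (c : Bool × Bool) (p : ι × (ℤ × ℤ)) {x : E2}
    (h : 9 / 10 * D.ρ p.1 < ‖x - cen (D.ρ p.1) p.2‖) : x ∉ tsupport (D.cellKap PF c p) := by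
  have hρ := CS_rho_pos hC0 D p.1
  have h1 : Function.support (D.cellKap PF c p) ⊆
      {y | ‖y - cen (D.ρ p.1) p.2‖ ≤ 9 / 10 * D.ρ p.1} := by
    intro y hy
    by_contra hcon
    apply hy
    have hcon' : 9 / 10 * D.ρ p.1 < ‖y - cen (D.ρ p.1) p.2‖ := not_le.1 hcon
    unfold ColH.cellKap
    split_ifs
    · rw [PF.κ_supp _ (CS_cellc hρ _ _ hcon'.le), mul_zero]
    · rfl
  have h2 : IsClosed {y : E2 | ‖y - cen (D.ρ p.1) p.2‖ ≤ 9 / 10 * D.ρ p.1} :=
    isClosed_le (by fun_prop) continuous_const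
  intro hx
  exact absurd h (not_lt.2 ((closure_minimal h1 h2) hx))

private theorem CS_kap_sub (PF : CellFun) {C0 m0 P : ℕ} {ι : Type}
    (D : ColH C0 m0 P ι) (c : Bool × Bool) (p : ι × (ℤ × ℤ)) :
    tsupport (D.cellKap PF c p) ⊆ tsupport (D.kap p.1) := by
  apply closure_mono
  intro y hy
  by_contra h
  apply hy
  have h' : D.kap p.1 y = 0 := Function.notMem_support.1 h
  unfold ColH.cellKap
  split_ifs
  · rw [h', zero_mul]
  · rfl

private theorem CS_bdry {V : Type} [NormedAddCommGroup V] [NormedSpace ℝ V] {f : E2 → V}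
    (hf : Continuous f) {a : E2} {r : ℝ} (hr : 0 < r) (h : ∀ y, r < ‖y - a‖ → f y = 0) {x : E2}
    (hx : r ≤ ‖x - a‖) : f x = 0 := by
  have h2 : Continuous (fun t : ℝ => f (a + t • (x - a))) := hf.comp (by fun_prop)
  have h3 := h2.tendsto 1
  have h4 : a + (1 : ℝ) • (x - a) = x := by
    rw [one_smul]
    abel
  rw [h4] at h3
  have h1 : Filter.Tendsto (fun t : ℝ => f (a + t • (x - a))) (𝓝[>] 1) (𝓝 (f x)) :=
    h3.mono_left nhdsWithin_le_nhds
  have h5 : (fun t : ℝ => f (a + t • (x - a))) =ᶠ[𝓝[>] 1] fun _ => 0 := by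
    filter_upwards [self_mem_nhdsWithin] with t ht
    apply h
    have ht' : 1 < t := ht
    rw [add_sub_cancel_left, norm_smul, Real.norm_of_nonneg (by linarith)]
    nlinarith
  exact tendsto_nhds_unique (h1.congr' h5) tendsto_const_nhds

private theorem CS_sub {C0 m0 P : ℕ} {ι : Type} (D : ColH C0 m0 P ι) {V : Type}
    [NormedAddCommGroup V] [NormedSpace ℝ V] {g g' : ι → ℝ}
    (h : ∀ i, g' i * D.q i ≤ 1 → g i * D.q i ≤ 1) {W : ι → E2 → ℝ} {u : ι → E2 → V}
    (hu : Bd (D.S' g) W u) : Bd (D.S' g') W u := by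
  refine ⟨fun i => (hu.1 i).mono fun x hx => ⟨hx.1, h i hx.2⟩, fun r => ?_⟩
  obtain ⟨f, hf, h1⟩ := hu.2 r
  exact ⟨f, hf, fun i x hx => h1 i x ⟨hx.1, h i hx.2⟩⟩

theorem colourStep (PF : CellFun) : ∃ C0 m0 : ℕ, 20 ≤ C0 ∧ ∀ P : ℕ, 1 ≤ P → ∀ (ι : Type)
    (D : ColH C0 m0 P ι), D.Bds → ∀ c : Bool × Bool,
      ∃ g0 ∈ D.S.G.mem, ∃ w : ι → E2 → V4, ∃ er : ι → E2 → T2,
        Bd (D.S' g0) (fun i _ => Real.sqrt (D.δ i) * D.e i) w ∧
        Bd (D.S' g0) (fun i _ => D.δ i * Real.sqrt (D.δ i) / D.e i) er ∧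
        ∀ i, g0 i * D.q i ≤ 1 → ContDiff ℝ ∞ (w i) ∧ ContDiff ℝ ∞ (er i) ∧
          (∀ x, x ∉ tsupport (D.kap i) → w i x = 0 ∧ er i x = 0) ∧
          (∀ x k m, er i x k m = er i x m k) ∧
          ∀ x ∈ Metric.ball (0 : E2) (29 / 10), ∀ k m,
            met (fun y => D.Fm i y + w i y) x k m = met (D.Fm i) x k m
              + colFun PF (D.ρ i) c x * D.psi i x ^ 2 * D.Hm i x k m + er i x k m := by
  classical
  obtain ⟨C0, m0, hC0, hcell⟩ := exists_cell PF
  refine ⟨C0, m0, hC0, fun P hP ι D hD c => ?_⟩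
  obtain ⟨C, hq, hδ, hF, hH, hchi, hkap⟩ := hcell P ι D hD c
  obtain ⟨g0, hg0, w, er, bw, ber, hmain⟩ := C.main 2 P P hP
  have hρ := fun i => CS_rho_pos hC0 D i
  have hgood : ∀ p, g0 p * D.q p.1 ≤ 1 → C.good g0 p := fun p hp => by
    unfold Cell2.good
    rw [hq]
    exact hp
  have he : ∀ p, C.e p = D.e p.1 := fun p => by
    unfold Cell2.e ColH.e
    rw [hq]
    rfl
  have hqP : ∀ p, C.q p ^ P = C.δ p := fun p => by
    rw [hq, hδ]
    exact D.q_pow p.1
  -- facts on the small quantities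
  have s0 : ∀ i, 0 < D.δ i := D.d_pos
  have s2 : ∀ i, Real.sqrt (D.δ i) * Real.sqrt (D.δ i) = D.δ i := fun i =>
    Real.mul_self_sqrt (s0 i).le
  have s1 : ∀ i, Real.sqrt (D.δ i) ≤ 1 := fun i => by
    rw [Real.sqrt_le_left zero_le_one, one_pow]
    exact D.d_le1 i
  have sp : ∀ i, 0 ≤ Real.sqrt (D.δ i) := fun i => Real.sqrt_nonneg _
  have ds : ∀ i, D.δ i ≤ Real.sqrt (D.δ i) := fun i => by
    have h := mul_le_mul_of_nonneg_left (s1 i) (sp i)
    rwa [s2, mul_one] at h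
  -- the bounds in the setting of the cells
  have bw' : Bd (((D.cellS c).restrict (fun p => g0 p * D.q p.1 ≤ 1)).rescale (fun p => D.e p.1)
      (fun p => D.e_pos p.1) (fun p => D.e_le_one p.1))
      (fun p _ => (fun i => Real.sqrt (D.δ i) * D.e i) p.1) w := by
    refine ⟨fun p => (bw.1 p).mono fun x hx => ⟨hx.1, hgood p hx.2⟩, fun r => ?_⟩
    obtain ⟨g, hg, h1⟩ := bw.2 r
    refine ⟨g, hg, fun p x hx => ?_⟩
    have h2 : ‖iteratedFDeriv ℝ r (w p) x‖ ≤
        g p * (Real.sqrt (C.δ p) * C.e p) * (C.e p)⁻¹ ^ r := h1 p x ⟨hx.1, hgood p hx.2⟩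
    rw [hδ, he] at h2
    exact h2
  have hX : ∀ i, 0 ≤ D.δ i * Real.sqrt (D.δ i) / D.e i := fun i =>
    div_nonneg (mul_nonneg (s0 i).le (sp i)) (D.e_pos i).le
  have ber4 : Bd (C.S' g0) (fun p _ => C.δ p * Real.sqrt (C.δ p) / C.e p) er := by
    refine ber.mono ((C.S' g0).G.const 4 (by norm_num)) fun p x _ => ?_
    have h1 : Real.sqrt (C.δ p) * C.q p ^ P + C.δ p * C.q p ^ (P + 1)
        + C.δ p * Real.sqrt (C.δ p) / C.e p + C.δ p ^ 2 ≤
        4 * (C.δ p * Real.sqrt (C.δ p) / C.e p) := by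
      rw [pow_succ, hqP, hδ, he, hq]
      have a1 := s0 p.1
      have a2 := sp p.1
      have a3 := ds p.1
      have a4 := D.e_pos p.1
      have a5 := D.e_le_one p.1
      have a6 := D.q_pos p.1
      have a7 := (D.q_lt p.1).le
      have b1 : D.δ p.1 * Real.sqrt (D.δ p.1) ≤ D.δ p.1 * Real.sqrt (D.δ p.1) / D.e p.1 := by
        rw [le_div_iff₀ a4]
        exact mul_le_of_le_one_right (mul_nonneg a1.le a2) a5
      have b2 : D.δ p.1 * D.δ p.1 ≤ D.δ p.1 * Real.sqrt (D.δ p.1) :=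
        mul_le_mul_of_nonneg_left a3 a1.le
      have b3 : D.δ p.1 * (D.δ p.1 * D.q p.1) ≤ D.δ p.1 * D.δ p.1 :=
        mul_le_mul_of_nonneg_left (mul_le_of_le_one_right a1.le a7) a1.le
      have b4 : Real.sqrt (D.δ p.1) * D.δ p.1 = D.δ p.1 * Real.sqrt (D.δ p.1) := mul_comm _ _
      rw [b4, sq]
      linarith
    exact h1
  have ber' : Bd (((D.cellS c).restrict (fun p => g0 p * D.q p.1 ≤ 1)).rescale (fun p => D.e p.1)
      (fun p => D.e_pos p.1) (fun p => D.e_le_one p.1))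
      (fun p _ => (fun i => D.δ i * Real.sqrt (D.δ i) / D.e i) p.1) er := by
    refine ⟨fun p => (ber4.1 p).mono fun x hx => ⟨hx.1, hgood p hx.2⟩, fun r => ?_⟩
    obtain ⟨g, hg, h1⟩ := ber4.2 r
    refine ⟨g, hg, fun p x hx => ?_⟩
    have h2 : ‖iteratedFDeriv ℝ r (er p) x‖ ≤
        g p * (C.δ p * Real.sqrt (C.δ p) / C.e p) * (C.e p)⁻¹ ^ r :=
      h1 p x ⟨hx.1, hgood p hx.2⟩
    rw [hδ, he] at h2
    exact h2
  -- the supports
  have hout : ∀ p, g0 p * D.q p.1 ≤ 1 → ∀ y, 9 / 10 * D.ρ p.1 < ‖y - cen (D.ρ p.1) p.2‖ →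
      w p y = 0 ∧ er p y = 0 := by
    intro p hp y hy
    refine (hmain p (hgood p hp)).2.2.1 y ?_
    rw [hkap]
    exact CS_kap_out PF hC0 D c p hy
  have h0w : ∀ p, g0 p * D.q p.1 ≤ 1 → ∀ x, 9 / 10 * D.ρ p.1 ≤ ‖x - cen (D.ρ p.1) p.2‖ →
      w p x = 0 := fun p hp x hx =>
    CS_bdry (hmain p (hgood p hp)).1.continuous (mul_pos (by norm_num) (hρ p.1))
      (fun y hy => (hout p hp y hy).1) hx
  have h0e : ∀ p, g0 p * D.q p.1 ≤ 1 → ∀ x, 9 / 10 * D.ρ p.1 ≤ ‖x - cen (D.ρ p.1) p.2‖ →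
      er p x = 0 := fun p hp x hx =>
    CS_bdry (hmain p (hgood p hp)).2.1.continuous (mul_pos (by norm_num) (hρ p.1))
      (fun y hy => (hout p hp y hy).2) hx
  obtain ⟨g1, hg1, hg1', bsw⟩ := cell_sum hC0 D c g0 hg0 (fun i => Real.sqrt (D.δ i) * D.e i)
    (fun i => mul_nonneg (sp i) (D.e_pos i).le) w bw' h0w
    (fun p hp => (hmain p (hgood p hp)).1)
  obtain ⟨g2, hg2, hg2', bse⟩ := cell_sum hC0 D c g0 hg0
    (fun i => D.δ i * Real.sqrt (D.δ i) / D.e i) hX er ber' h0e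
    (fun p hp => (hmain p (hgood p hp)).2.1)
  have g1one := fun i => D.S.G.one_le g1 hg1 i
  have g2one := fun i => D.S.G.one_le g2 hg2 i
  have hgi1 : ∀ i, g1 i * g2 i * D.q i ≤ 1 → g1 i * D.q i ≤ 1 := fun i hi => by
    have h1 : g1 i * 1 ≤ g1 i * g2 i :=
      mul_le_mul_of_nonneg_left (g2one i) (by linarith [g1one i])
    have h2 := mul_le_mul_of_nonneg_right h1 (D.q_pos i).le
    rw [mul_one] at h2
    exact h2.trans hi
  have hgi2 : ∀ i, g1 i * g2 i * D.q i ≤ 1 → g2 i * D.q i ≤ 1 := fun i hi => by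
    have h1 : 1 * g2 i ≤ g1 i * g2 i :=
      mul_le_mul_of_nonneg_right (g1one i) (by linarith [g2one i])
    have h2 := mul_le_mul_of_nonneg_right h1 (D.q_pos i).le
    rw [one_mul] at h2
    exact h2.trans hi
  refine ⟨fun i => g1 i * g2 i, D.S.G.mul g1 hg1 g2 hg2,
    fun i x => ∑ z ∈ cells (D.ρ i) with col z = c, w (i, z) x,
    fun i x => ∑ z ∈ cells (D.ρ i) with col z = c, er (i, z) x,
    CS_sub D hgi1 bsw, CS_sub D hgi2 bse, ?_⟩
  intro i hi
  have hgz : ∀ z, g0 (i, z) * D.q i ≤ 1 := fun z => hg1' i z (hgi1 i hi)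
  have hm := fun z => hmain (i, z) (hgood (i, z) (hgz z))
  refine ⟨ContDiff.sum fun z _ => (hm z).1, ContDiff.sum fun z _ => (hm z).2.1, ?_, ?_, ?_⟩
  · intro x hx
    have h1 : ∀ z, w (i, z) x = 0 ∧ er (i, z) x = 0 := fun z => by
      refine (hm z).2.2.1 x fun h2 => hx ?_
      rw [hkap] at h2
      exact CS_kap_sub PF D c (i, z) h2
    exact ⟨Finset.sum_eq_zero fun z _ => (h1 z).1, Finset.sum_eq_zero fun z _ => (h1 z).2⟩
  · intro x k m
    simp only [Finset.sum_apply]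
    exact Finset.sum_congr rfl fun z _ => (hm z).2.2.2.1 x k m
  · intro x hx k m
    -- inactive cells
    have hnear : ∀ z, 9 / 10 * D.ρ i < ‖x - cen (D.ρ i) z‖ →
        (fun y => w (i, z) y) =ᶠ[𝓝 x] fun _ => 0 := by
      intro z hz
      have hopen : IsOpen {y : E2 | 9 / 10 * D.ρ i < ‖y - cen (D.ρ i) z‖} :=
        isOpen_lt continuous_const (by fun_prop)
      filter_upwards [hopen.mem_nhds hz] with y hy
      exact (hout (i, z) (hgz z) y hy).1
    have hpsi : ∀ z, 9 / 10 * D.ρ i < ‖x - cen (D.ρ i) z‖ → PF.ψ (cellc (D.ρ i) z x) = 0 := by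
      intro z hz
      refine PF.supp _ (CS_cellc (hρ i) z x ?_)
      have := hρ i
      linarith
    have hact : ∀ z ∈ (cells (D.ρ i)).filter (fun z => col z = c),
        ∀ T : Finset (ℤ × ℤ), (∀ z' ∈ T, z' ≠ z → 9 / 10 * D.ρ i < ‖x - cen (D.ρ i) z'‖) →
        (fun y => ∑ z' ∈ T.erase z, w (i, z') y) =ᶠ[𝓝 x] fun _ => 0 := by
      intro z _ T hT
      have h1 : ∀ᶠ y in 𝓝 x, ∀ z' ∈ T.erase z, w (i, z') y = 0 := by
        rw [Filter.eventually_all_finset]
        intro z' hz'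
        rw [Finset.mem_erase] at hz'
        exact hnear z' (hT z' hz'.2 hz'.1)
      filter_upwards [h1] with y hy
      exact Finset.sum_eq_zero hy
    by_cases hA : ∃ z0 ∈ (cells (D.ρ i)).filter (fun z => col z = c),
        ‖x - cen (D.ρ i) z0‖ < 95 / 100 * D.ρ i
    · obtain ⟨z0, hz0, hx0⟩ := hA
      have hz0' := Finset.mem_filter.1 hz0
      have hdis : ∀ z' ∈ (cells (D.ρ i)).filter (fun z => col z = c), z' ≠ z0 →
          9 / 10 * D.ρ i < ‖x - cen (D.ρ i) z'‖ := by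
        intro z' hz' hne
        have h1 := cell_disjoint hC0 D c i x hz0'.2 (Finset.mem_filter.1 hz').2 hne.symm hx0
        have := hρ i
        linarith
      -- the sum near `x`
      have hsum : (fun y => D.Fm i y + ∑ z ∈ cells (D.ρ i) with col z = c, w (i, z) y) =ᶠ[𝓝 x]
          fun y => D.Fm i y + w (i, z0) y := by
        filter_upwards [hact z0 hz0 _ hdis] with y hy
        rw [← Finset.add_sum_erase _ _ hz0, hy, add_zero]
      have hmet : met (fun y => D.Fm i y + ∑ z ∈ cells (D.ρ i) with col z = c, w (i, z) y) x k m =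
          met (fun y => D.Fm i y + w (i, z0) y) x k m := by
        unfold met pd
        rw [hsum.fderiv_eq]
      have hxU : x ∈ (D.cellS c).U (i, z0) := by
        have h1 : x ∈ Metric.ball (cen (D.ρ i) z0) (2 * D.ρ i) := by
          rw [mem_ball_iff_norm]
          have := hρ i
          linarith
        change x ∈ D.cellU c (i, z0)
        unfold ColH.cellU
        rw [if_pos hz0']
        exact h1
      have hid := (hm z0).2.2.2.2 x hxU k m
      rw [hF, hH, hchi] at hid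
      have hchi' : D.cellChi PF c (i, z0) x = D.psi i x * PF.ψ (cellc (D.ρ i) z0 x) := by
        unfold ColH.cellChi
        rw [if_pos hz0']
      have hcol : colFun PF (D.ρ i) c x = PF.ψ (cellc (D.ρ i) z0 x) ^ 2 := by
        unfold colFun
        refine Finset.sum_eq_single_of_mem z0 hz0 fun z' hz' hne => ?_
        rw [hpsi z' (hdis z' hz' hne)]
        ring
      have her : (∑ z ∈ cells (D.ρ i) with col z = c, er (i, z) x) k m = er (i, z0) x k m := by
        rw [Finset.sum_eq_single_of_mem z0 hz0 fun z' hz' hne =>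
          (hout (i, z') (hgz z') x (hdis z' hz' hne)).2]
      have hid' : met (fun y => D.Fm i y + w (i, z0) y) x k m = met (D.Fm i) x k m
        + D.cellChi PF c (i, z0) x ^ 2 * D.Hm i x k m + er (i, z0) x k m := hid
      beta_reduce
      rw [hmet, hid', hchi', hcol, her]
      ring
    · push Not at hA
      have hdis : ∀ z' ∈ (cells (D.ρ i)).filter (fun z => col z = c),
          9 / 10 * D.ρ i < ‖x - cen (D.ρ i) z'‖ := by
        intro z' hz'
        have h1 := hA z' hz'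
        have := hρ i
        linarith
      have hsum : (fun y => D.Fm i y + ∑ z ∈ cells (D.ρ i) with col z = c, w (i, z) y) =ᶠ[𝓝 x]
          D.Fm i := by
        have h1 : ∀ᶠ y in 𝓝 x, ∀ z' ∈ (cells (D.ρ i)).filter (fun z => col z = c),
            w (i, z') y = 0 := by
          rw [Filter.eventually_all_finset]
          intro z' hz'
          exact hnear z' (hdis z' hz')
        filter_upwards [h1] with y hy
        rw [Finset.sum_eq_zero hy, add_zero]
      have hmet : met (fun y => D.Fm i y + ∑ z ∈ cells (D.ρ i) with col z = c, w (i, z) y) x k m =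
          met (D.Fm i) x k m := by
        unfold met pd
        rw [hsum.fderiv_eq]
      have hcol : colFun PF (D.ρ i) c x = 0 := by
        unfold colFun
        refine Finset.sum_eq_zero fun z' hz' => ?_
        rw [hpsi z' (hdis z' hz')]
        ring
      have her : (∑ z ∈ cells (D.ρ i) with col z = c, er (i, z) x) k m = 0 := by
        rw [Finset.sum_eq_zero fun z' hz' => (hout (i, z') (hgz z') x (hdis z' hz')).2]
        rfl
      beta_reduce
      rw [hmet, hcol, her]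
      ring

end P205F
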