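import Vale.Agent.Lib.P205F.SelA

/-! # P205F module SelB: frequencies and stability -/

open scoped ContDiff Topology
open Set

namespace P205F

theorem SelB_inner {x y x' y' : V4} {M : ℝ} (hx : ‖x‖ ≤ M) (hy' : ‖y'‖ ≤ M) :
    |inner ℝ x' y' - inner ℝ x y| ≤ M * (‖x' - x‖ + ‖y' - y‖) := by
  have e : inner ℝ x' y' - inner ℝ x y = inner ℝ (x' - x) y' + inner ℝ x (y' - y) := by
    rw [inner_sub_left, inner_sub_right]; ring
  rw [e]
  have h1 : |inner ℝ (x' - x) y'| ≤ ‖x' - x‖ * M :=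
    (abs_real_inner_le_norm _ _).trans (mul_le_mul_of_nonneg_left hy' (norm_nonneg _))
  have h2 : |inner ℝ x (y' - y)| ≤ M * ‖y' - y‖ :=
    (abs_real_inner_le_norm _ _).trans (mul_le_mul_of_nonneg_right hx (norm_nonneg _))
  calc |inner ℝ (x' - x) y' + inner ℝ x (y' - y)|
      ≤ |inner ℝ (x' - x) y'| + |inner ℝ x (y' - y)| := abs_add_le _ _
    _ ≤ M * (‖x' - x‖ + ‖y' - y‖) := by linarith

theorem SelB_inner_le {x y : V4} {M : ℝ} (hx : ‖x‖ ≤ M) (hy : ‖y‖ ≤ M) :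
    |inner ℝ x y| ≤ M ^ 2 := by
  have h := abs_real_inner_le_norm x y
  have h2 : ‖x‖ * ‖y‖ ≤ M * M := mul_le_mul hx hy (norm_nonneg _) ((norm_nonneg _).trans hx)
  calc _ ≤ _ := h
    _ ≤ M * M := h2
    _ = M ^ 2 := by ring

theorem SelB_prod3 {p q r p' q' r' A d : ℝ} (hp : |p| ≤ A) (hq : |q| ≤ A)
    (hq' : |q'| ≤ A) (hr' : |r'| ≤ A) (h1 : |p' - p| ≤ d) (h2 : |q' - q| ≤ d)
    (h3 : |r' - r| ≤ d) : |p' * q' * r' - p * q * r| ≤ 3 * A ^ 2 * d := by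
  have hA : 0 ≤ A := (abs_nonneg _).trans hp
  have hd : 0 ≤ d := (abs_nonneg _).trans h1
  have e : p' * q' * r' - p * q * r =
      (p' - p) * (q' * r') + p * ((q' - q) * r') + p * (q * (r' - r)) := by ring
  have a1 : |(p' - p) * (q' * r')| ≤ d * (A * A) := by
    rw [abs_mul, abs_mul]
    exact mul_le_mul h1 (mul_le_mul hq' hr' (abs_nonneg _) hA) (by positivity) hd
  have a2 : |p * ((q' - q) * r')| ≤ A * (d * A) := by
    rw [abs_mul, abs_mul]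
    exact mul_le_mul hp (mul_le_mul h2 hr' (abs_nonneg _) hd) (by positivity) hA
  have a3 : |p * (q * (r' - r))| ≤ A * (A * d) := by
    rw [abs_mul, abs_mul]
    exact mul_le_mul hp (mul_le_mul hq h3 (abs_nonneg _) hA) (by positivity) hA
  rw [e]
  have t1 := abs_add_le ((p' - p) * (q' * r') + p * ((q' - q) * r')) (p * (q * (r' - r)))
  have t2 := abs_add_le ((p' - p) * (q' * r')) (p * ((q' - q) * r'))
  nlinarith [t1, t2, a1, a2, a3]

theorem SelB_poly {p q r u v w p' q' r' u' v' w' A d : ℝ} (hp : |p| ≤ A) (hq : |q| ≤ A)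
    (hu : |u| ≤ A) (hv : |v| ≤ A) (hw : |w| ≤ A) (hq' : |q'| ≤ A)
    (hr' : |r'| ≤ A) (hu' : |u'| ≤ A) (hv' : |v'| ≤ A) (hw' : |w'| ≤ A) (dp : |p' - p| ≤ d)
    (dq : |q' - q| ≤ d) (dr : |r' - r| ≤ d) (du : |u' - u| ≤ d) (dv : |v' - v| ≤ d)
    (dw : |w' - w| ≤ d) :
    |(p' * (q' * r' - v' ^ 2) - u' * (u' * r' - v' * w') + w' * (u' * v' - q' * w')) -
      (p * (q * r - v ^ 2) - u * (u * r - v * w) + w * (u * v - q * w))| ≤ 18 * A ^ 2 * d := by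
  have T1 := SelB_prod3 hp hq hq' hr' dp dq dr
  have T2 := SelB_prod3 hp hv hv' hv' dp dv dv
  have T3 := SelB_prod3 hu hu hu' hr' du du dr
  have T4 := SelB_prod3 hu hv hv' hw' du dv dw
  have T5 := SelB_prod3 hw hq hq' hw' dw dq dw
  rw [abs_le] at T1 T2 T3 T4 T5 ⊢
  obtain ⟨l1, u1⟩ := T1
  obtain ⟨l2, u2⟩ := T2
  obtain ⟨l3, u3⟩ := T3
  obtain ⟨l4, u4⟩ := T4
  obtain ⟨l5, u5⟩ := T5
  have e : (p' * (q' * r' - v' ^ 2) - u' * (u' * r' - v' * w') + w' * (u' * v' - q' * w')) -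
      (p * (q * r - v ^ 2) - u * (u * r - v * w) + w * (u * v - q * w)) =
      (p' * q' * r' - p * q * r) - (p' * v' * v' - p * v * v) - (u' * u' * r' - u * u * r) +
      2 * (u' * v' * w' - u * v * w) - (w' * q' * w' - w * q * w) := by ring
  rw [e]
  constructor <;> linarith

theorem SelB_gram {a b c a' b' c' : V4} {M : ℝ} (ha : ‖a‖ ≤ M) (hb : ‖b‖ ≤ M) (hc : ‖c‖ ≤ M)
    (ha' : ‖a'‖ ≤ M) (hb' : ‖b'‖ ≤ M) (hc' : ‖c'‖ ≤ M) :
    |gram3 a' b' c' - gram3 a b c| ≤ 36 * M ^ 5 * (‖a' - a‖ + ‖b' - b‖ + ‖c' - c‖) := by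
  have hM : 0 ≤ M := (norm_nonneg _).trans ha
  have na := norm_nonneg (a' - a)
  have nb := norm_nonneg (b' - b)
  have nc := norm_nonneg (c' - c)
  have hMδ : ∀ s : ℝ, s ≤ 2 * (‖a' - a‖ + ‖b' - b‖ + ‖c' - c‖) →
      M * s ≤ 2 * M * (‖a' - a‖ + ‖b' - b‖ + ‖c' - c‖) := fun s hs => by
    have := mul_le_mul_of_nonneg_left hs hM
    linarith
  have daa := (SelB_inner (x' := a') (y := a) ha ha').trans (hMδ _ (by linarith))
  have dbb := (SelB_inner (x' := b') (y := b) hb hb').trans (hMδ _ (by linarith))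
  have dcc := (SelB_inner (x' := c') (y := c) hc hc').trans (hMδ _ (by linarith))
  have dab := (SelB_inner (x' := a') (y := b) ha hb').trans (hMδ _ (by linarith))
  have dbc := (SelB_inner (x' := b') (y := c) hb hc').trans (hMδ _ (by linarith))
  have dac := (SelB_inner (x' := a') (y := c) ha hc').trans (hMδ _ (by linarith))
  have h := SelB_poly (SelB_inner_le ha ha) (SelB_inner_le hb hb)
    (SelB_inner_le ha hb) (SelB_inner_le hb hc) (SelB_inner_le ha hc)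
    (SelB_inner_le hb' hb') (SelB_inner_le hc' hc') (SelB_inner_le ha' hb')
    (SelB_inner_le hb' hc') (SelB_inner_le ha' hc') daa dbb dcc dab dbc dac
  refine le_trans (le_of_eq ?_) (h.trans (le_of_eq ?_))
  · unfold gram3
    rfl
  · ring

theorem SelB_Qv_sub {Q Q' : Fin 2 → Fin 2 → V4} {v v' : E2} {K N d e : ℝ}
    (hQ : ∀ i j, ‖Q i j‖ ≤ K) (hQ' : ∀ i j, ‖Q' i j - Q i j‖ ≤ d) (hv : ∀ i, |co v i| ≤ N)
    (hv' : ∀ i, |co v' i| ≤ N) (hvv : ∀ i, |co v' i - co v i| ≤ e) :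
    ‖Qv Q' v' - Qv Q v‖ ≤ 4 * (2 * N * e * K + N * N * d) := by
  have hN : 0 ≤ N := (abs_nonneg _).trans (hv 0)
  have hK : 0 ≤ K := (norm_nonneg _).trans (hQ 0 0)
  have he : 0 ≤ e := (abs_nonneg _).trans (hvv 0)
  have hd : 0 ≤ d := (norm_nonneg _).trans (hQ' 0 0)
  have key : ∀ i j, ‖(co v' i * co v' j) • Q' i j - (co v i * co v j) • Q i j‖ ≤
      2 * N * e * K + N * N * d := by
    intro i j
    have e1 : (co v' i * co v' j) • Q' i j - (co v i * co v j) • Q i j =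
        ((co v' i - co v i) * co v' j + co v i * (co v' j - co v j)) • Q i j +
          (co v' i * co v' j) • (Q' i j - Q i j) := by
      rw [smul_sub]
      module
    rw [e1]
    refine (norm_add_le _ _).trans (add_le_add ?_ ?_)
    · rw [norm_smul, Real.norm_eq_abs]
      have b1 : |(co v' i - co v i) * co v' j + co v i * (co v' j - co v j)| ≤ 2 * N * e := by
        have b2 : |(co v' i - co v i) * co v' j| ≤ e * N := by
          rw [abs_mul]; exact mul_le_mul (hvv i) (hv' j) (abs_nonneg _) he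
        have b3 : |co v i * (co v' j - co v j)| ≤ N * e := by
          rw [abs_mul]; exact mul_le_mul (hv i) (hvv j) (abs_nonneg _) hN
        have b4 := abs_add_le ((co v' i - co v i) * co v' j) (co v i * (co v' j - co v j))
        linarith
      exact mul_le_mul b1 (hQ i j) (norm_nonneg _) (by positivity)
    · rw [norm_smul, Real.norm_eq_abs, abs_mul]
      exact mul_le_mul (mul_le_mul (hv' i) (hv' j) (abs_nonneg _) hN) (hQ' i j) (norm_nonneg _)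
        (by positivity)
  have e2 : Qv Q' v' - Qv Q v =
      ∑ i, ∑ j, ((co v' i * co v' j) • Q' i j - (co v i * co v j) • Q i j) := by
    simp only [Qv, Finset.sum_sub_distrib]
  rw [e2, Fin.sum_univ_two, Fin.sum_univ_two, Fin.sum_univ_two]
  have n1 := norm_add_le ((co v' 0 * co v' 0) • Q' 0 0 - (co v 0 * co v 0) • Q 0 0 +
    ((co v' 0 * co v' 1) • Q' 0 1 - (co v 0 * co v 1) • Q 0 1))
    ((co v' 1 * co v' 0) • Q' 1 0 - (co v 1 * co v 0) • Q 1 0 +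
    ((co v' 1 * co v' 1) • Q' 1 1 - (co v 1 * co v 1) • Q 1 1))
  have n2 := norm_add_le ((co v' 0 * co v' 0) • Q' 0 0 - (co v 0 * co v 0) • Q 0 0)
    ((co v' 0 * co v' 1) • Q' 0 1 - (co v 0 * co v 1) • Q 0 1)
  have n3 := norm_add_le ((co v' 1 * co v' 0) • Q' 1 0 - (co v 1 * co v 0) • Q 1 0)
    ((co v' 1 * co v' 1) • Q' 1 1 - (co v 1 * co v 1) • Q 1 1)
  linarith [key 0 0, key 0 1, key 1 0, key 1 1]

theorem SelB_Qv_le {Q : Fin 2 → Fin 2 → V4} {v : E2} {K N : ℝ} (hQ : ∀ i j, ‖Q i j‖ ≤ K)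
    (hv : ∀ i, |co v i| ≤ N) : ‖Qv Q v‖ ≤ 4 * (N * N * K) := by
  have hN : 0 ≤ N := (abs_nonneg _).trans (hv 0)
  have hK : 0 ≤ K := (norm_nonneg _).trans (hQ 0 0)
  have key : ∀ i j, ‖(co v i * co v j) • Q i j‖ ≤ N * N * K := by
    intro i j
    rw [norm_smul, Real.norm_eq_abs, abs_mul]
    exact mul_le_mul (mul_le_mul (hv i) (hv j) (abs_nonneg _) hN) (hQ i j) (norm_nonneg _)
      (by positivity)
  rw [Qv, Fin.sum_univ_two, Fin.sum_univ_two, Fin.sum_univ_two]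
  have n1 := norm_add_le ((co v 0 * co v 0) • Q 0 0 + (co v 0 * co v 1) • Q 0 1)
    ((co v 1 * co v 0) • Q 1 0 + (co v 1 * co v 1) • Q 1 1)
  have n2 := norm_add_le ((co v 0 * co v 0) • Q 0 0) ((co v 0 * co v 1) • Q 0 1)
  have n3 := norm_add_le ((co v 1 * co v 0) • Q 1 0) ((co v 1 * co v 1) • Q 1 1)
  linarith [key 0 0, key 0 1, key 1 0, key 1 1]

theorem SelB_co_perp {v : E2} {N : ℝ} (hv : ‖v‖ ≤ N) (i : Fin 2) : |co (perp v) i| ≤ N := by
  have h1 : |v.1| ≤ ‖v‖ := norm_fst_le v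
  have h2 : |v.2| ≤ ‖v‖ := norm_snd_le v
  fin_cases i
  · change |(-v.2)| ≤ N
    rw [abs_neg]; linarith
  · change |v.1| ≤ N
    linarith

theorem SelB_perp_sub (v w : E2) (i : Fin 2) :
    co (perp v) i - co (perp w) i = co (perp (v - w)) i := by
  fin_cases i
  · change -v.2 - -w.2 = -(v.2 - w.2); ring
  · change v.1 - w.1 = v.1 - w.1; rfl

theorem SelB_Qv_smul (Q : Fin 2 → Fin 2 → V4) (s : ℝ) (v : E2) :
    Qv Q (perp (s • v)) = (s ^ 2) • Qv Q (perp v) := by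
  have h : ∀ i, co (perp (s • v)) i = s * co (perp v) i := by
    intro i
    fin_cases i
    · change -(s * v.2) = s * -v.2; ring
    · change s * v.1 = s * v.1; rfl
  simp only [Qv, h, Finset.smul_sum, smul_smul]
  refine Finset.sum_congr rfl fun i _ => Finset.sum_congr rfl fun j _ => ?_
  congr 1
  ring

theorem SelB_nsq_smul (s : ℝ) (v : E2) : nsq (s • v) = s ^ 2 * nsq v := by
  change (s * v.1) ^ 2 + (s * v.2) ^ 2 = s ^ 2 * (v.1 ^ 2 + v.2 ^ 2)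
  ring

/-- a small perturbation of a good covector -/
theorem SelB_pert {K e : ℝ} (hK : 1 ≤ K) {a b : V4} {Q : Fin 2 → Fin 2 → V4} {v w : E2}
    (ha : ‖a‖ ≤ K) (hb : ‖b‖ ≤ K) (hQ : ∀ i j, ‖Q i j‖ ≤ K) (hv : ‖v‖ ≤ K) (hw : ‖w‖ ≤ K)
    (h1 : 1 ≤ K * nsq v) (h2 : 1 ≤ K * gram3 a b (Qv Q (perp v)))
    (he : |e| * (72 * 16 ^ 6 * K ^ 19) ≤ 1) :
    ‖v + e • w‖ ≤ 2 * K ∧ 1 ≤ 2 * K * nsq (v + e • w) ∧
      1 ≤ 2 * K * gram3 a b (Qv Q (perp (v + e • w))) := by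
  have hK0 : 0 < K := by linarith
  have he0 := abs_nonneg e
  have hK3 : K ^ 3 ≤ K ^ 19 := pow_le_pow_right₀ hK (by norm_num)
  have hK19 : 1 ≤ K ^ 19 := one_le_pow₀ hK
  have he1 : |e| ≤ 1 := by nlinarith
  have hes : |e| * (12 * K ^ 3) ≤ 1 := by
    refine le_trans ?_ he
    apply mul_le_mul_of_nonneg_left _ he0
    nlinarith
  have hew : ‖e • w‖ ≤ |e| * K := by
    rw [norm_smul, Real.norm_eq_abs]
    exact mul_le_mul_of_nonneg_left hw he0
  have hvw : ‖v + e • w‖ ≤ 2 * K := by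
    have := norm_add_le v (e • w)
    nlinarith
  refine ⟨hvw, ?_, ?_⟩
  · have v1 : |v.1| ≤ K := (norm_fst_le v).trans hv
    have v2 : |v.2| ≤ K := (norm_snd_le v).trans hv
    have w1 : |w.1| ≤ K := (norm_fst_le w).trans hw
    have w2 : |w.2| ≤ K := (norm_snd_le w).trans hw
    have m1 : |v.1 * w.1| ≤ K * K := by
      rw [abs_mul]; exact mul_le_mul v1 w1 (abs_nonneg _) hK0.le
    have m2 : |v.2 * w.2| ≤ K * K := by
      rw [abs_mul]; exact mul_le_mul v2 w2 (abs_nonneg _) hK0.le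
    have m3 : |e * (v.1 * w.1 + v.2 * w.2)| ≤ |e| * (2 * (K * K)) := by
      rw [abs_mul]
      apply mul_le_mul_of_nonneg_left _ he0
      have := abs_add_le (v.1 * w.1) (v.2 * w.2)
      linarith
    have m4 := neg_abs_le (e * (v.1 * w.1 + v.2 * w.2))
    have e1 : nsq (v + e • w) = nsq v + 2 * (e * (v.1 * w.1 + v.2 * w.2)) +
        e ^ 2 * nsq w := by
      change (v.1 + e * w.1) ^ 2 + (v.2 + e * w.2) ^ 2 =
        v.1 ^ 2 + v.2 ^ 2 + 2 * (e * (v.1 * w.1 + v.2 * w.2)) + e ^ 2 * (w.1 ^ 2 + w.2 ^ 2)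
      ring
    have e2 : 0 ≤ e ^ 2 * nsq w := by
      apply mul_nonneg (sq_nonneg _)
      change 0 ≤ w.1 ^ 2 + w.2 ^ 2
      positivity
    have e3 : nsq v - 4 * (|e| * K ^ 2) ≤ nsq (v + e • w) := by
      rw [e1]; nlinarith
    have e4 : 2 * K * (nsq v - 4 * (|e| * K ^ 2)) ≤ 2 * K * nsq (v + e • w) :=
      mul_le_mul_of_nonneg_left e3 (by positivity)
    have e5 : 2 * K * (nsq v - 4 * (|e| * K ^ 2)) = 2 * (K * nsq v) - 8 * (|e| * K ^ 3) := by ring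
    rw [e5] at e4
    nlinarith
  · have cv := SelB_co_perp (hv.trans (show K ≤ 2 * K by linarith))
    have cvw := SelB_co_perp hvw
    have cd : ∀ i, |co (perp (v + e • w)) i - co (perp v) i| ≤ |e| * K := by
      intro i
      rw [SelB_perp_sub, add_sub_cancel_left]
      exact SelB_co_perp hew i
    have q0 := SelB_Qv_sub (d := 0) hQ (Q' := Q) (fun i j => by rw [sub_self, norm_zero]) cv cvw cd
    have q1 := SelB_Qv_le hQ cv
    have q2 := SelB_Qv_le hQ cvw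
    have hKM : K ≤ 16 * K ^ 3 := by nlinarith [pow_pos hK0 2, pow_pos hK0 3]
    have q1' : ‖Qv Q (perp v)‖ ≤ 16 * K ^ 3 := q1.trans (le_of_eq (by ring))
    have q2' : ‖Qv Q (perp (v + e • w))‖ ≤ 16 * K ^ 3 := q2.trans (le_of_eq (by ring))
    have g := SelB_gram (ha.trans hKM) (hb.trans hKM) q1' (ha.trans hKM) (hb.trans hKM) q2'
    rw [sub_self, sub_self, norm_zero, zero_add, zero_add] at g
    have q3 : ‖Qv Q (perp (v + e • w)) - Qv Q (perp v)‖ ≤ 16 * (|e| * K ^ 3) :=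
      q0.trans (le_of_eq (by ring))
    have g2 : |gram3 a b (Qv Q (perp (v + e • w))) - gram3 a b (Qv Q (perp v))| ≤
        36 * 16 ^ 6 * (|e| * K ^ 18) := by
      refine g.trans ((mul_le_mul_of_nonneg_left q3 (by positivity)).trans (le_of_eq (by ring)))
    have g3 := neg_abs_le (gram3 a b (Qv Q (perp (v + e • w))) - gram3 a b (Qv Q (perp v)))
    generalize gram3 a b (Qv Q (perp (v + e • w))) = G' at g2 g3 ⊢
    generalize gram3 a b (Qv Q (perp v)) = G at g2 g3 h2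
    have g4 : G - 36 * 16 ^ 6 * (|e| * K ^ 18) ≤ G' := by linarith
    have g5 := mul_le_mul_of_nonneg_left g4 (show 0 ≤ 2 * K by positivity)
    have g6 : 2 * K * (G - 36 * 16 ^ 6 * (|e| * K ^ 18)) =
        2 * (K * G) - |e| * (72 * 16 ^ 6 * K ^ 19) := by ring
    rw [g6] at g5
    linarith

/-- a covector which is good with constants depending on `K`, `B` only -/
def SelB_Base (K B : ℝ) (a b : V4) (Q : Fin 2 → Fin 2 → V4) (ζ : E2) : Prop :=
  ‖ζ‖ ≤ 4 * B ^ 2 * K ∧ 1 ≤ 2 * K * nsq ζ ∧ 1 ≤ 2 * K * gram3 a b (Qv Q (perp ζ))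

theorem SelB_base_smul {K B s : ℝ} (hs : 1 ≤ s) (hsB : s ≤ 2 * B ^ 2)
    {a b : V4} {Q : Fin 2 → Fin 2 → V4} {ζ : E2}
    (h : ‖ζ‖ ≤ 2 * K ∧ 1 ≤ 2 * K * nsq ζ ∧ 1 ≤ 2 * K * gram3 a b (Qv Q (perp ζ))) :
    SelB_Base K B a b Q (s • ζ) := by
  obtain ⟨h1, h2, h3⟩ := h
  have hs0 : 0 ≤ s := by linarith
  have hs2 : 1 ≤ s ^ 2 := one_le_pow₀ hs
  refine ⟨?_, ?_, ?_⟩
  · rw [norm_smul, Real.norm_eq_abs, abs_of_nonneg hs0]
    calc s * ‖ζ‖ ≤ (2 * B ^ 2) * (2 * K) := mul_le_mul hsB h1 (norm_nonneg _) (by positivity)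
      _ = 4 * B ^ 2 * K := by ring
  · rw [SelB_nsq_smul]
    nlinarith
  · rw [SelB_Qv_smul, gram3_smul]
    have hs4 : 1 ≤ (s ^ 2) ^ 2 := one_le_pow₀ hs2
    nlinarith

theorem SelB_base_neg {K B : ℝ} {a b : V4} {Q : Fin 2 → Fin 2 → V4} {ζ : E2}
    (h : SelB_Base K B a b Q ζ) : SelB_Base K B a b Q (-ζ) := by
  obtain ⟨h1, h2, h3⟩ := h
  refine ⟨by rwa [norm_neg], ?_, ?_⟩
  · have := SelB_nsq_smul (-1) ζ
    rw [neg_one_smul, neg_one_sq, one_mul] at this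
    rwa [this]
  · have := SelB_Qv_smul Q (-1) ζ
    rw [neg_one_smul, neg_one_sq, one_smul] at this
    rwa [this]

theorem SelB_num {K B : ℝ} (hK : 1 ≤ K) (hB : 1 ≤ B) :
    4 * B ^ 2 * K ≤ 128 * B ^ 4 * K ^ 3 ∧ 2 * K ≤ 128 * B ^ 4 * K ^ 3 ∧
    2 + 64 * B ^ 4 * K ^ 2 ≤ 128 * B ^ 4 * K ^ 3 ∧ 1 ≤ 128 * B ^ 4 * K ^ 3 := by
  have hK0 : 0 < K := by linarith
  have hB0 : 0 < B := by linarith
  have hB4 : 1 ≤ B ^ 4 := one_le_pow₀ hB
  have hK3 : 1 ≤ K ^ 3 := one_le_pow₀ hK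
  have i1 : B ^ 2 ≤ B ^ 4 := pow_le_pow_right₀ hB (by norm_num)
  have i2 : K ≤ K ^ 3 := le_self_pow₀ hK (by norm_num)
  have i3 : K ^ 2 ≤ K ^ 3 := pow_le_pow_right₀ hK (by norm_num)
  have j1 : B ^ 2 * K ≤ B ^ 4 * K ^ 3 := mul_le_mul i1 i2 hK0.le (by positivity)
  have j2 : 1 * K ≤ B ^ 4 * K ^ 3 := mul_le_mul hB4 i2 hK0.le (by positivity)
  have j3 : B ^ 4 * K ^ 2 ≤ B ^ 4 * K ^ 3 := mul_le_mul_of_nonneg_left i3 (by positivity)
  have j4 : 1 * 1 ≤ B ^ 4 * K ^ 3 := mul_le_mul hB4 hK3 (by norm_num) (by positivity)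
  have hT : 128 * B ^ 4 * K ^ 3 = 128 * (B ^ 4 * K ^ 3) := by ring
  have hS : 64 * B ^ 4 * K ^ 2 = 64 * (B ^ 4 * K ^ 2) := by ring
  have hR : 4 * B ^ 2 * K = 4 * (B ^ 2 * K) := by ring
  rw [hT, hS, hR]
  refine ⟨?_, ?_, ?_, ?_⟩ <;> linarith

/-- stability of good covectors -/
theorem SelB_stable {K B : ℝ} (hK : 1 ≤ K) (hB : 1 ≤ B) {a b : V4} {Q : Fin 2 → Fin 2 → V4}
    {ζ : E2} (ha : ‖a‖ ≤ K) (hb : ‖b‖ ≤ K) (hQ : ∀ i j, ‖Q i j‖ ≤ K)
    (h : SelB_Base K B a b Q ζ) {g : ℝ} (hg : g = 144 * K * (128 * B ^ 4 * K ^ 3) ^ 6)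
    {a' b' : V4} {Q' : Fin 2 → Fin 2 → V4} (ha' : g * ‖a' - a‖ ≤ 1) (hb' : g * ‖b' - b‖ ≤ 1)
    (hQ' : ∀ i j, g * ‖Q' i j - Q i j‖ ≤ 1) : ND0 g a' b' Q' ζ := by
  have hK0 : 0 < K := by linarith
  have hB0 : 0 < B := by linarith
  obtain ⟨m1, m2, m3, m4⟩ := SelB_num hK hB
  set M : ℝ := 128 * B ^ 4 * K ^ 3 with hM
  have hM0 : 0 < M := by linarith
  have hM6 : 1 ≤ M ^ 6 := one_le_pow₀ m4
  have hMle : M ≤ M ^ 6 := le_self_pow₀ m4 (by norm_num)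
  have hg1 : 144 * K ≤ g := by
    rw [hg]; exact le_mul_of_one_le_right (by positivity) hM6
  have hgM : M ≤ g := by
    rw [hg]; exact hMle.trans (le_mul_of_one_le_left (by positivity) (by linarith))
  have hg0 : 0 < g := by linarith
  have hinv : g⁻¹ ≤ 1 := inv_le_one_of_one_le₀ (by linarith)
  have hinv0 : 0 < g⁻¹ := inv_pos.2 hg0
  have conv : ∀ {t : ℝ}, g * t ≤ 1 → t ≤ g⁻¹ := fun {t} ht => by
    rw [← one_div, le_div_iff₀ hg0]; linarith
  have ea := conv ha'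
  have eb := conv hb'
  have eQ := fun i j => conv (hQ' i j)
  obtain ⟨z1, z2, z3⟩ := h
  refine ⟨z1.trans (m1.trans hgM), ?_, ?_⟩
  · have hn : 0 < nsq ζ := by
      by_contra hneg
      push Not at hneg
      have := mul_nonpos_of_nonneg_of_nonpos (show 0 ≤ 2 * K by linarith) hneg
      linarith
    exact z2.trans (mul_le_mul_of_nonneg_right (by linarith) hn.le)
  · have cv := SelB_co_perp z1
    have na' : ‖a'‖ ≤ 2 * K := by
      have := norm_add_le (a' - a) a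
      rw [sub_add_cancel] at this
      linarith
    have nb' : ‖b'‖ ≤ 2 * K := by
      have := norm_add_le (b' - b) b
      rw [sub_add_cancel] at this
      linarith
    have nQ' : ∀ i j, ‖Q' i j‖ ≤ 2 * K := by
      intro i j
      have := norm_add_le (Q' i j - Q i j) (Q i j)
      rw [sub_add_cancel] at this
      linarith [eQ i j, hQ i j]
    have q0 := SelB_Qv_sub (Q' := Q') (e := 0) hQ eQ cv cv
      (fun i => by rw [sub_self, abs_zero])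
    have q1 := SelB_Qv_le (fun i j => (hQ i j).trans (show K ≤ 2 * K by linarith)) cv
    have q2 := SelB_Qv_le nQ' cv
    have q1' : ‖Qv Q (perp ζ)‖ ≤ M := q1.trans (le_of_eq (by rw [hM]; ring))
    have q2' : ‖Qv Q' (perp ζ)‖ ≤ M := q2.trans (le_of_eq (by rw [hM]; ring))
    have q0' : ‖Qv Q' (perp ζ) - Qv Q (perp ζ)‖ ≤ 64 * B ^ 4 * K ^ 2 * g⁻¹ :=
      q0.trans (le_of_eq (by ring))
    have gr := SelB_gram (show ‖a‖ ≤ M by linarith) (show ‖b‖ ≤ M by linarith) q1'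
      (na'.trans m2) (nb'.trans m2) q2'
    have sum_le : ‖a' - a‖ + ‖b' - b‖ + ‖Qv Q' (perp ζ) - Qv Q (perp ζ)‖ ≤ M * g⁻¹ := by
      have i7 := mul_le_mul_of_nonneg_right m3 hinv0.le
      rw [add_mul] at i7
      linarith
    have gr2 : |gram3 a' b' (Qv Q' (perp ζ)) - gram3 a b (Qv Q (perp ζ))| ≤
        36 * M ^ 6 * g⁻¹ := by
      refine gr.trans ((mul_le_mul_of_nonneg_left sum_le (by positivity)).trans
        (le_of_eq (by ring)))
    have gr3 := neg_abs_le (gram3 a' b' (Qv Q' (perp ζ)) - gram3 a b (Qv Q (perp ζ)))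
    generalize gram3 a' b' (Qv Q' (perp ζ)) = G' at gr2 gr3 ⊢
    generalize gram3 a b (Qv Q (perp ζ)) = G at gr2 gr3 z3
    have gr4 : G - 36 * M ^ 6 * g⁻¹ ≤ G' := by linarith
    have gr5 : 4 * K * (36 * M ^ 6 * g⁻¹) = 1 := by
      have : 4 * K * (36 * M ^ 6 * g⁻¹) = (144 * K * M ^ 6) * g⁻¹ := by ring
      rw [this, ← hg, mul_inv_cancel₀ hg0.ne']
    have gr6 : 1 ≤ 4 * K * G' := by
      have := mul_le_mul_of_nonneg_left gr4 (show 0 ≤ 4 * K by positivity)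
      rw [mul_sub, gr5] at this
      linarith
    have G0 : 0 < G' := by
      by_contra hneg
      push Not at hneg
      have := mul_nonpos_of_nonneg_of_nonpos (show 0 ≤ 4 * K by linarith) hneg
      linarith
    exact gr6.trans (mul_le_mul_of_nonneg_right (by linarith) G0.le)

theorem SelB_core {K B : ℝ} (hK : 1 ≤ K) (hB : B = 72 * 16 ^ 6 * K ^ 19) {a b : V4}
    {Q : Fin 2 → Fin 2 → V4} (ha : ‖a‖ ≤ K) (hb : ‖b‖ ≤ K) (hQ : ∀ i j, ‖Q i j‖ ≤ K)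
    {om : Fin 3 → E2} (hom : ∀ j, ‖om j‖ ≤ K) (h1 : ∀ j, 1 ≤ K * nsq (om j))
    (h2 : ∀ j, 1 ≤ K * gram3 a b (Qv Q (perp (om j)))) :
    (∀ j : Fin 3, ∀ s : ℝ, 1 ≤ s → s ≤ 2 * B ^ 2 → SelB_Base K B a b Q (s • om j)) ∧
    (∀ j j' : Fin 3, j' < j → ∀ σ : ℝ, |σ| = 1 →
      SelB_Base K B a b Q (B ^ (j : ℕ) • om j + (σ * B ^ (j' : ℕ)) • om j')) := by
  have hK0 : 0 < K := by linarith
  have hK19 : 1 ≤ K ^ 19 := one_le_pow₀ hK
  have hB1 : 1 ≤ B := by rw [hB]; nlinarith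
  have hB0 : 0 < B := by linarith
  constructor
  · intro j s hs hs2
    have := SelB_pert (e := 0) hK ha hb hQ (hom j) (hom j) (h1 j) (h2 j)
      (by rw [abs_zero, zero_mul]; norm_num)
    rw [zero_smul, add_zero] at this
    exact SelB_base_smul hs hs2 this
  · intro j j' hjj σ hσ
    have hlt : (j' : ℕ) < (j : ℕ) := hjj
    have hj3 : (j : ℕ) ≤ 2 := by omega
    have hpow : B ^ (j' : ℕ) * B ≤ B ^ (j : ℕ) := by
      rw [← pow_succ]
      exact pow_le_pow_right₀ hB1 hlt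
    have hpj : 0 < B ^ (j : ℕ) := pow_pos hB0 _
    have hpj' : 0 < B ^ (j' : ℕ) := pow_pos hB0 _
    have he : |σ * B ^ (j' : ℕ) / B ^ (j : ℕ)| * (72 * 16 ^ 6 * K ^ 19) ≤ 1 := by
      rw [← hB, abs_div, abs_mul, hσ, one_mul, abs_of_pos hpj, abs_of_pos hpj', div_mul_eq_mul_div,
        div_le_one hpj]
      exact hpow
    have h := SelB_pert hK ha hb hQ (hom j) (hom j') (h1 j) (h2 j) he
    have h' := SelB_base_smul (B := B) (s := B ^ (j : ℕ)) (one_le_pow₀ hB1) (by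
      have : B ^ (j : ℕ) ≤ B ^ 2 := pow_le_pow_right₀ hB1 hj3
      nlinarith [pow_pos hB0 2]) h
    have e : B ^ (j : ℕ) • (om j + (σ * B ^ (j' : ℕ) / B ^ (j : ℕ)) • om j') =
        B ^ (j : ℕ) • om j + (σ * B ^ (j' : ℕ)) • om j' := by
      rw [smul_add, smul_smul, mul_div_cancel₀ _ hpj.ne']
    rwa [e] at h'

theorem SelB_main {K B g : ℝ} (hK : 1 ≤ K) (hB : B = 72 * 16 ^ 6 * K ^ 19)
    (hg : g = 144 * K * (128 * B ^ 4 * K ^ 3) ^ 6) {a b : V4}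
    {Q : Fin 2 → Fin 2 → V4} {gs : T2} (ha : ‖a‖ ≤ K) (hb : ‖b‖ ≤ K) (hQ : ∀ i j, ‖Q i j‖ ≤ K)
    {om : Fin 3 → E2} {cof : Fin 3 → (T2 →L[ℝ] ℝ)} (hom : ∀ j, ‖om j‖ ≤ K)
    (hcof : ∀ j, ‖cof j‖ ≤ K)
    (heq : ∀ h : T2, h 0 1 = h 1 0 → ∀ k l, h k l = ∑ j, cof j h * (co (om j) k * co (om j) l))
    (h1 : ∀ j, 1 ≤ K * nsq (om j))
    (h2 : ∀ j, 1 ≤ K * gram3 a b (Qv Q (perp (om j)))) (h3 : ∀ j, 1 ≤ K * cof j gs) :
    SelOK g a b Q gs om cof (fun j => B ^ (j : ℕ)) := by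
  have hK0 : 0 < K := by linarith
  have hK19 : 1 ≤ K ^ 19 := one_le_pow₀ hK
  have hB1 : 1 ≤ B := by rw [hB]; nlinarith
  have hB0 : 0 < B := by linarith
  have hB4 : 1 ≤ B ^ 4 := one_le_pow₀ hB1
  have hB24 : B ^ 2 ≤ B ^ 4 := pow_le_pow_right₀ hB1 (by norm_num)
  have hK3 : 1 ≤ K ^ 3 := one_le_pow₀ hK
  have hM1 : B ^ 4 ≤ 128 * B ^ 4 * K ^ 3 := by nlinarith
  have hM1' : K ^ 3 ≤ 128 * B ^ 4 * K ^ 3 := by nlinarith
  have hMM : 1 ≤ 128 * B ^ 4 * K ^ 3 := by linarith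
  have hM6 : 128 * B ^ 4 * K ^ 3 ≤ (128 * B ^ 4 * K ^ 3) ^ 6 := le_self_pow₀ hMM (by norm_num)
  have hKg : 144 * K ≤ g := by rw [hg]; nlinarith
  have hBg : B ^ 2 ≤ g := by rw [hg]; nlinarith
  have hK3g : 144 * K ^ 3 ≤ g := by rw [hg]; nlinarith
  have hg0 : 0 < g := by linarith
  obtain ⟨c1, c2⟩ := SelB_core hK hB ha hb hQ hom h1 h2
  have hfle : ∀ j : Fin 3, B ^ (j : ℕ) ≤ B ^ 2 := fun j =>
    pow_le_pow_right₀ hB1 (by omega)
  refine ⟨fun j => (hom j).trans (by linarith), fun j => (hcof j).trans (by linarith), heq,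
    fun j => one_le_pow₀ hB1, fun j => (hfle j).trans hBg, ?_⟩
  intro a' b' Q' gs' ea eb eQ eg
  have st : ∀ ζ, SelB_Base K B a b Q ζ → ND0 g a' b' Q' ζ := fun ζ hζ =>
    SelB_stable hK hB1 ha hb hQ hζ hg ea eb eQ
  refine ⟨?_, ?_, ?_, ?_⟩
  · intro j
    exact st _ (c1 j _ (one_le_pow₀ hB1) (by nlinarith [hfle j, pow_pos hB0 2]))
  · intro j j'
    rcases lt_trichotomy j j' with hlt | rfl | hlt
    · have := c2 j' j hlt 1 abs_one
      rw [one_mul] at this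
      have h := st _ this
      rwa [add_comm] at h
    · have := c1 j (2 * B ^ (j : ℕ)) (by linarith [one_le_pow₀ (n := (j : ℕ)) hB1])
        (by linarith [hfle j])
      have h := st _ this
      rwa [two_mul, add_smul] at h
    · have := c2 j j' hlt 1 abs_one
      rw [one_mul] at this
      exact st _ this
  · intro j j' hne
    rcases lt_or_gt_of_ne hne with hlt | hlt
    · have := SelB_base_neg (c2 j' j hlt (-1) (by rw [abs_neg, abs_one]))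
      have h := st _ this
      have e : -(B ^ (j' : ℕ) • om j' + (-1 * B ^ (j : ℕ)) • om j) =
          B ^ (j : ℕ) • om j - B ^ (j' : ℕ) • om j' := by
        module
      rwa [e] at h
    · have := c2 j j' hlt (-1) (by rw [abs_neg, abs_one])
      have h := st _ this
      have e : B ^ (j : ℕ) • om j + (-1 * B ^ (j' : ℕ)) • om j' =
          B ^ (j : ℕ) • om j - B ^ (j' : ℕ) • om j' := by
        module
      rwa [e] at h
  · intro j
    have hgs : ‖gs' - gs‖ ≤ g⁻¹ := by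
      rw [pi_norm_le_iff_of_nonneg (inv_nonneg.2 hg0.le)]
      intro i
      rw [pi_norm_le_iff_of_nonneg (inv_nonneg.2 hg0.le)]
      intro l
      rw [Pi.sub_apply, Pi.sub_apply, Real.norm_eq_abs, ← one_div, le_div_iff₀ hg0]
      linarith [eg i l]
    have hc : ‖cof j (gs' - gs)‖ ≤ K * g⁻¹ :=
      ((cof j).le_opNorm _).trans (mul_le_mul (hcof j) hgs (norm_nonneg _) hK0.le)
    rw [Real.norm_eq_abs, map_sub] at hc
    have hc2 := neg_abs_le (cof j gs' - cof j gs)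
    have hc3 : cof j gs - K * g⁻¹ ≤ cof j gs' := by linarith
    have hc4 := mul_le_mul_of_nonneg_left hc3 hg0.le
    have hc5 : g * (cof j gs - K * g⁻¹) = g * cof j gs - K := by
      rw [mul_sub, mul_left_comm, mul_inv_cancel₀ hg0.ne', mul_one]
    rw [hc5] at hc4
    refine le_trans ?_ hc4
    have hpos : 0 < cof j gs := by
      by_contra hneg
      push Not at hneg
      nlinarith [h3 j]
    have : 144 * K * cof j gs ≤ g * cof j gs := mul_le_mul_of_nonneg_right hKg hpos.le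
    have h5 : 144 * K ^ 3 * cof j gs ≤ g * cof j gs := mul_le_mul_of_nonneg_right hK3g hpos.le
    have h6 : 144 * K ^ 2 * 1 ≤ 144 * K ^ 2 * (K * cof j gs) :=
      mul_le_mul_of_nonneg_left (h3 j) (by positivity)
    nlinarith

theorem selection : ∃ C m : ℕ, 1 ≤ C ∧ ∀ Lam : ℝ, 1 ≤ Lam → ∀ (a b : V4)
    (Q : Fin 2 → Fin 2 → V4) (gs : T2), JetOK Lam a b Q gs → ∃ om : Fin 3 → E2,
      ∃ cof : Fin 3 → (T2 →L[ℝ] ℝ), ∃ fr : Fin 3 → ℝ,
        SelOK (C * Lam ^ m) a b Q gs om cof fr := by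
  obtain ⟨C0, m0, hC0, h⟩ := selA
  refine ⟨144 * 128 ^ 6 * (72 * 16 ^ 6) ^ 24 * C0 ^ 475, (m0 + 1) * 475, ?_, ?_⟩
  · exact Nat.mul_pos (by positivity) (pow_pos hC0 _)
  · intro Lam hLam a b Q gs hJ
    obtain ⟨om, cof, o1, o2, o3, o4, o5, o6⟩ := h Lam hLam a b Q gs hJ
    have hC0' : (1 : ℝ) ≤ C0 := by exact_mod_cast hC0
    have hLam0 : 0 < Lam := by linarith
    have hLm : 1 ≤ Lam ^ m0 := one_le_pow₀ hLam
    have hLm1 : Lam ^ m0 ≤ Lam ^ (m0 + 1) := pow_le_pow_right₀ hLam (by omega)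
    have hL1 : Lam ≤ Lam ^ (m0 + 1) := le_self_pow₀ hLam (by omega)
    have hLp : 1 ≤ Lam ^ (m0 + 1) := one_le_pow₀ hLam
    set K : ℝ := C0 * Lam ^ (m0 + 1) with hKdef
    have hK1 : 1 ≤ K := by rw [hKdef]; nlinarith
    have hle : (C0 : ℝ) * Lam ^ m0 ≤ K := by
      rw [hKdef]; exact mul_le_mul_of_nonneg_left hLm1 (by linarith)
    have hLK : Lam ≤ K := by
      rw [hKdef]; nlinarith
    have mono : ∀ {t : ℝ}, 1 ≤ C0 * Lam ^ m0 * t → 1 ≤ K * t := by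
      intro t ht
      have hpos : 0 < (C0 : ℝ) * Lam ^ m0 := by positivity
      have ht0 : 0 < t := by
        by_contra hneg
        push Not at hneg
        nlinarith
      exact ht.trans (mul_le_mul_of_nonneg_right hle ht0.le)
    have main := SelB_main (gs := gs) hK1 rfl rfl (hJ.ha.trans hLK) (hJ.hb.trans hLK)
      (fun i j => (hJ.hQ i j).trans hLK) (fun j => (o1 j).trans hle) (fun j => (o2 j).trans hle)
      o3 (fun j => mono (o4 j)) (fun j => mono (o5 j)) (fun j => mono (o6 j))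
    refine ⟨om, cof, fun j => (72 * 16 ^ 6 * K ^ 19) ^ (j : ℕ), ?_⟩
    have e : (((144 * 128 ^ 6 * (72 * 16 ^ 6) ^ 24 * C0 ^ 475 : ℕ) : ℝ)) *
        Lam ^ ((m0 + 1) * 475) =
        144 * K * (128 * (72 * 16 ^ 6 * K ^ 19) ^ 4 * K ^ 3) ^ 6 := by
      have e1 : Lam ^ ((m0 + 1) * 475) = (Lam ^ (m0 + 1)) ^ 475 := pow_mul _ _ _
      rw [e1, hKdef]
      simp only [Nat.cast_mul, Nat.cast_pow, Nat.cast_ofNat]
      generalize Lam ^ (m0 + 1) = L
      generalize (C0 : ℝ) = c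
      have e2 : ∀ x y : ℝ, 144 * x ^ 6 * y ^ 24 * c ^ 475 * L ^ 475 =
          144 * (c * L) * (x * (y * (c * L) ^ 19) ^ 4 * (c * L) ^ 3) ^ 6 := by
        intro x y
        ring
      exact e2 128 (72 * 16 ^ 6)
    rw [e]
    exact main

end P205F
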