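import Mathlib
import Vale.Agent.Lib.P205F.ColDefs
import Vale.Agent.Lib.P205F.KB
import Vale.Agent.Lib.P205F.KD
import Vale.Agent.Lib.P205F.SelB

/-! # P205F module CS1: the cell data of a colour -/

open scoped ContDiff Topology
open Set

namespace P205F

section analysis

variable {V : Type} [NormedAddCommGroup V] [NormedSpace ℝ V]

private theorem CS1_pd (i : Fin 2) (u : E2 → V) (x : E2) :
    pd i u x = iteratedFDeriv ℝ 1 u x (fun _ => bv i) := by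
  rw [iteratedFDeriv_one_apply]; rfl

private theorem CS1_pd2 {U : Set E2} (hU : IsOpen U) {u : E2 → V} (hu : ContDiffOn ℝ ∞ u U)
    (i j : Fin 2) {x : E2} (hx : x ∈ U) :
    pd i (pd j u) x = iteratedFDeriv ℝ 2 u x ![bv i, bv j] := by
  rw [iteratedFDeriv_two_apply]
  exact TA_second hU hu (bv j) (bv i) hx

private theorem CS1_norm1 (T : ContinuousMultilinearMap ℝ (fun _ : Fin 1 => E2) V) (i : Fin 2) :
    ‖T (fun _ => bv i)‖ ≤ ‖T‖ := by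
  refine (T.le_opNorm _).trans ?_
  simpa using mul_le_mul_of_nonneg_left (norm_bv_le i) (norm_nonneg T)

private theorem CS1_norm2 (T : ContinuousMultilinearMap ℝ (fun _ : Fin 2 => E2) V)
    (i j : Fin 2) : ‖T ![bv i, bv j]‖ ≤ ‖T‖ := by
  refine (T.le_opNorm _).trans ?_
  rw [Fin.prod_univ_two]
  have h1 : ‖bv i‖ * ‖bv j‖ ≤ 1 * 1 :=
    mul_le_mul (norm_bv_le i) (norm_bv_le j) (norm_nonneg _) zero_le_one
  have h2 := mul_le_mul_of_nonneg_left h1 (norm_nonneg T)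
  simpa using h2

private theorem CS1_mvt {u : E2 → V} (hu : ContDiffOn ℝ ∞ u (Metric.ball 0 4)) (n : ℕ) {L : ℝ}
    (h : ∀ x ∈ Metric.closedBall (0 : E2) 3, ‖iteratedFDeriv ℝ (n + 1) u x‖ ≤ L) {x y : E2}
    (hx : x ∈ Metric.closedBall (0 : E2) 3) (hy : y ∈ Metric.closedBall (0 : E2) 3) :
    ‖iteratedFDeriv ℝ n u x - iteratedFDeriv ℝ n u y‖ ≤ L * ‖x - y‖ := by
  have hsub : Metric.closedBall (0 : E2) 3 ⊆ Metric.ball 0 4 :=
    Metric.closedBall_subset_ball (by norm_num)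
  refine Convex.norm_image_sub_le_of_norm_fderiv_le (𝕜 := ℝ) (f := iteratedFDeriv ℝ n u)
    (s := Metric.closedBall (0 : E2) 3) (fun z hz => ?_) (fun z hz => ?_)
    (convex_closedBall _ _) hy hx
  · have h1 : ContDiffAt ℝ ∞ u z := hu.contDiffAt (Metric.isOpen_ball.mem_nhds (hsub hz))
    exact h1.differentiableAt_iteratedFDeriv (by exact_mod_cast ENat.natCast_lt_top n)
  · rw [norm_fderiv_iteratedFDeriv]
    exact h z hz

private theorem CS1_jet1 {F0 Fm : E2 → V} (hF0 : ContDiffOn ℝ ∞ F0 (Metric.ball 0 4))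
    (hFm : ContDiffOn ℝ ∞ Fm (Metric.ball 0 (29 / 10))) {L ν : ℝ}
    (h3 : ∀ r ≤ 3, ∀ x ∈ Metric.closedBall (0 : E2) 3, ‖iteratedFDeriv ℝ r F0 x‖ ≤ L)
    (hc : ∀ r ≤ 2, ∀ x ∈ Metric.ball (0 : E2) (29 / 10),
      ‖iteratedFDeriv ℝ r (fun y => Fm y - F0 y) x‖ ≤ ν) {x y : E2}
    (hx : x ∈ Metric.ball (0 : E2) (29 / 10)) (hy : y ∈ Metric.closedBall (0 : E2) 3)
    (i : Fin 2) : ‖pd i Fm x - pd i F0 y‖ ≤ ν + L * ‖x - y‖ := by
  have hx3 : x ∈ Metric.closedBall (0 : E2) 3 :=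
    Metric.ball_subset_closedBall (Metric.ball_subset_ball (by norm_num) hx)
  have hx4 : x ∈ Metric.ball (0 : E2) 4 := Metric.ball_subset_ball (by norm_num) hx
  have hFmx : ContDiffAt ℝ ∞ Fm x := hFm.contDiffAt (Metric.isOpen_ball.mem_nhds hx)
  have hF0x : ContDiffAt ℝ ∞ F0 x := hF0.contDiffAt (Metric.isOpen_ball.mem_nhds hx4)
  have e1 : iteratedFDeriv ℝ 1 (fun y => Fm y - F0 y) x
      = iteratedFDeriv ℝ 1 Fm x - iteratedFDeriv ℝ 1 F0 x :=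
    iteratedFDeriv_sub_apply (hFmx.of_le (by exact_mod_cast le_top))
      (hF0x.of_le (by exact_mod_cast le_top))
  have h1 : ‖iteratedFDeriv ℝ 1 Fm x - iteratedFDeriv ℝ 1 F0 x‖ ≤ ν := by
    rw [← e1]; exact hc 1 (by norm_num) x hx
  have h2 : ‖iteratedFDeriv ℝ 1 F0 x - iteratedFDeriv ℝ 1 F0 y‖ ≤ L * ‖x - y‖ :=
    CS1_mvt hF0 1 (fun z hz => h3 2 (by norm_num) z hz) hx3 hy
  have h4 : pd i Fm x - pd i F0 y = (iteratedFDeriv ℝ 1 Fm x - iteratedFDeriv ℝ 1 F0 x)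
      (fun _ => bv i) + (iteratedFDeriv ℝ 1 F0 x - iteratedFDeriv ℝ 1 F0 y) (fun _ => bv i) := by
    rw [CS1_pd, CS1_pd, sub_apply, sub_apply]
    abel
  rw [h4]
  refine (norm_add_le _ _).trans (add_le_add ?_ ?_)
  · exact (CS1_norm1 _ i).trans h1
  · exact (CS1_norm1 _ i).trans h2

private theorem CS1_jet2 {F0 Fm : E2 → V} (hF0 : ContDiffOn ℝ ∞ F0 (Metric.ball 0 4))
    (hFm : ContDiffOn ℝ ∞ Fm (Metric.ball 0 (29 / 10))) {L ν : ℝ}
    (h3 : ∀ r ≤ 3, ∀ x ∈ Metric.closedBall (0 : E2) 3, ‖iteratedFDeriv ℝ r F0 x‖ ≤ L)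
    (hc : ∀ r ≤ 2, ∀ x ∈ Metric.ball (0 : E2) (29 / 10),
      ‖iteratedFDeriv ℝ r (fun y => Fm y - F0 y) x‖ ≤ ν) {x y : E2}
    (hx : x ∈ Metric.ball (0 : E2) (29 / 10)) (hy : y ∈ Metric.closedBall (0 : E2) 3)
    (i j : Fin 2) : ‖pd i (pd j Fm) x - pd i (pd j F0) y‖ ≤ ν + L * ‖x - y‖ := by
  have hx3 : x ∈ Metric.closedBall (0 : E2) 3 :=
    Metric.ball_subset_closedBall (Metric.ball_subset_ball (by norm_num) hx)
  have hx4 : x ∈ Metric.ball (0 : E2) 4 := Metric.ball_subset_ball (by norm_num) hx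
  have hy4 : y ∈ Metric.ball (0 : E2) 4 := Metric.closedBall_subset_ball (by norm_num) hy
  have hFmx : ContDiffAt ℝ ∞ Fm x := hFm.contDiffAt (Metric.isOpen_ball.mem_nhds hx)
  have hF0x : ContDiffAt ℝ ∞ F0 x := hF0.contDiffAt (Metric.isOpen_ball.mem_nhds hx4)
  have h2i : (2 : WithTop ℕ∞) ≤ ∞ := by norm_cast
  have e1 : iteratedFDeriv ℝ 2 (fun y => Fm y - F0 y) x
      = iteratedFDeriv ℝ 2 Fm x - iteratedFDeriv ℝ 2 F0 x :=
    iteratedFDeriv_sub_apply (hFmx.of_le h2i) (hF0x.of_le h2i)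
  have h1 : ‖iteratedFDeriv ℝ 2 Fm x - iteratedFDeriv ℝ 2 F0 x‖ ≤ ν := by
    rw [← e1]; exact hc 2 le_rfl x hx
  have h2 : ‖iteratedFDeriv ℝ 2 F0 x - iteratedFDeriv ℝ 2 F0 y‖ ≤ L * ‖x - y‖ :=
    CS1_mvt hF0 2 (fun z hz => h3 3 le_rfl z hz) hx3 hy
  have h4 : pd i (pd j Fm) x - pd i (pd j F0) y
      = (iteratedFDeriv ℝ 2 Fm x - iteratedFDeriv ℝ 2 F0 x) ![bv i, bv j]
        + (iteratedFDeriv ℝ 2 F0 x - iteratedFDeriv ℝ 2 F0 y) ![bv i, bv j] := by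
    rw [CS1_pd2 Metric.isOpen_ball hFm i j hx, CS1_pd2 Metric.isOpen_ball hF0 i j hy4,
      sub_apply, sub_apply]
    abel
  rw [h4]
  refine (norm_add_le _ _).trans (add_le_add ?_ ?_)
  · exact (CS1_norm2 _ i j).trans h1
  · exact (CS1_norm2 _ i j).trans h2

private theorem CS1_gst {gst : E2 → T2} (hg : ContDiffOn ℝ ∞ gst (Metric.ball 0 4)) {L : ℝ}
    (h1 : ∀ r ≤ 1, ∀ x ∈ Metric.closedBall (0 : E2) 3, ‖iteratedFDeriv ℝ r gst x‖ ≤ L) {x y : E2}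
    (hx : x ∈ Metric.closedBall (0 : E2) 3) (hy : y ∈ Metric.closedBall (0 : E2) 3)
    (k l : Fin 2) : |gst x k l - gst y k l| ≤ L * ‖x - y‖ := by
  have h2 := CS1_mvt hg 0 (fun z hz => h1 1 le_rfl z hz) hx hy
  have h3 : ‖gst x - gst y‖ = ‖iteratedFDeriv ℝ 0 gst x - iteratedFDeriv ℝ 0 gst y‖ := by
    rw [iteratedFDeriv_zero_eq_comp]
    simp only [Function.comp_apply]
    rw [← map_sub, LinearIsometryEquiv.norm_map]
  have h4 : ‖(gst x - gst y) k l‖ ≤ ‖gst x - gst y‖ :=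
    (norm_le_pi_norm ((gst x - gst y) k) l).trans (norm_le_pi_norm (gst x - gst y) k)
  rw [Real.norm_eq_abs] at h4
  calc |gst x k l - gst y k l| ≤ ‖gst x - gst y‖ := h4
    _ = ‖iteratedFDeriv ℝ 0 gst x - iteratedFDeriv ℝ 0 gst y‖ := h3
    _ ≤ L * ‖x - y‖ := h2

end analysis

section cells

variable {C0 m0 P : ℕ} {ι : Type} (D : ColH C0 m0 P ι)

private theorem CS1_den (h20 : 20 ≤ C0) (i : ι) : 20 ≤ (C0 : ℝ) * D.Lam i ^ m0 := by
  have h1 : (20 : ℝ) ≤ C0 := by exact_mod_cast h20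
  have h2 : 1 ≤ D.Lam i ^ m0 := one_le_pow₀ (D.hL i)
  nlinarith

private theorem CS1_rho_pos (h20 : 20 ≤ C0) (i : ι) : 0 < D.ρ i := by
  have h1 := CS1_den D h20 i
  have h2 : D.ρ i = ((C0 : ℝ) * D.Lam i ^ m0)⁻¹ := rfl
  rw [h2]
  exact inv_pos.2 (by linarith)

private theorem CS1_rho_le (h20 : 20 ≤ C0) (i : ι) : D.ρ i ≤ 1 / 20 := by
  have h1 := CS1_den D h20 i
  have h2 : D.ρ i = ((C0 : ℝ) * D.Lam i ^ m0)⁻¹ := rfl
  rw [h2, one_div]
  exact inv_anti₀ (by norm_num) h1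

private theorem CS1_mem {c : Bool × Bool} {p : ι × (ℤ × ℤ)} {x : E2} (hx : x ∈ D.cellU c p) :
    (p.2 ∈ cells (D.ρ p.1) ∧ col p.2 = c) ∧ ‖x - cen (D.ρ p.1) p.2‖ < 2 * D.ρ p.1 := by
  unfold ColH.cellU at hx
  split_ifs at hx with h
  · rw [mem_ball_iff_norm] at hx
    exact ⟨h, hx⟩
  · exact absurd hx (Set.notMem_empty x)

private theorem CS1_cells {ρ : ℝ} {z : ℤ × ℤ} (h : z ∈ cells ρ) : ‖cen ρ z‖ ≤ 28 / 10 :=
  (Finset.mem_filter.1 h).2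

private theorem CS1_sub (h20 : 20 ≤ C0) (c : Bool × Bool) (p : ι × (ℤ × ℤ)) :
    D.cellU c p ⊆ Metric.ball 0 (29 / 10) := by
  intro x hx
  obtain ⟨⟨h1, _⟩, h2⟩ := CS1_mem D hx
  have h3 := CS1_cells h1
  have h4 := CS1_rho_le D h20 p.1
  rw [mem_ball_zero_iff]
  calc ‖x‖ = ‖(x - cen (D.ρ p.1) p.2) + cen (D.ρ p.1) p.2‖ := by rw [sub_add_cancel]
    _ ≤ ‖x - cen (D.ρ p.1) p.2‖ + ‖cen (D.ρ p.1) p.2‖ := norm_add_le _ _
    _ < 29 / 10 := by linarith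

private theorem CS1_growth {g : ι → ℝ} (hg : g ∈ D.S.G.mem) (c : Bool × Bool) :
    (fun p : ι × (ℤ × ℤ) => g p.1) ∈ (D.cellS c).G.mem := by
  have hg' : GTmem D.Lam D.δ g := hg
  refine ⟨fun p => hg'.1 p.1, fun e he => ?_⟩
  obtain ⟨K, hK⟩ := hg'.2 e he
  exact ⟨K, fun p => hK p.1⟩

private theorem CS1_pull (h20 : 20 ≤ C0) {V : Type} [NormedAddCommGroup V] [NormedSpace ℝ V]
    {W : ι → E2 → ℝ} {u : ι → E2 → V} (h : Bd D.S W u) (c : Bool × Bool) :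
    Bd (D.cellS c) (fun p => W p.1) (fun p => u p.1) := by
  refine ⟨fun p => (h.1 p.1).mono (CS1_sub D h20 c p), fun r => ?_⟩
  obtain ⟨g, hg, h1⟩ := h.2 r
  exact ⟨_, CS1_growth D hg c, fun p x hx => h1 p.1 x (CS1_sub D h20 c p hx)⟩

private theorem CS1_rhoInv (h20 : 20 ≤ C0) (c : Bool × Bool) :
    (fun p : ι × (ℤ × ℤ) => (D.ρ p.1)⁻¹) ∈ (D.cellS c).G.mem := by
  have h1 : GTmem (fun p : ι × (ℤ × ℤ) => D.Lam p.1) (fun p => D.δ p.1)
      (fun p => (C0 : ℝ) * D.Lam p.1 ^ m0) :=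
    GTmem.mul (fun p : ι × (ℤ × ℤ) => D.hL p.1) (fun p => D.d_pos p.1) (fun p => D.d_le1 p.1)
      (GTmem.const (fun p : ι × (ℤ × ℤ) => D.hL p.1) (fun p => D.d_pos p.1)
        (fun p => D.d_le1 p.1) C0 (by exact_mod_cast (le_trans (by norm_num) h20 : 1 ≤ C0)))
      (GTmem.lam (fun p : ι × (ℤ × ℤ) => D.hL p.1) (fun p => D.d_pos p.1)
        (fun p => D.d_le1 p.1) m0)
  have h2 : (fun p : ι × (ℤ × ℤ) => (D.ρ p.1)⁻¹) = fun p => (C0 : ℝ) * D.Lam p.1 ^ m0 := by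
    funext p
    have h3 : D.ρ p.1 = ((C0 : ℝ) * D.Lam p.1 ^ m0)⁻¹ := rfl
    rw [h3, inv_inv]
  rw [h2]
  exact h1

private theorem CS1_cellc_norm {ρ : ℝ} (hρ : 0 < ρ) (z : ℤ × ℤ) (x : E2) :
    ‖cellc ρ z x‖ = ρ⁻¹ * ‖x - cen ρ z‖ := by
  unfold cellc
  rw [norm_smul, norm_inv, Real.norm_of_nonneg hρ.le]

private theorem CS1_cellc_deriv (ρ : ℝ) (z : ℤ × ℤ) (x : E2) :
    HasFDerivAt (cellc ρ z) (ρ⁻¹ • ContinuousLinearMap.id ℝ E2) x :=
  ((hasFDerivAt_id x).sub_const (cen ρ z)).const_smul ρ⁻¹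

private theorem CS1_cellc_smooth (ρ : ℝ) (z : ℤ × ℤ) : ContDiff ℝ ∞ (cellc ρ z) :=
  (contDiff_id.sub contDiff_const).const_smul ρ⁻¹

private theorem CS1_cellcBd (h20 : 20 ≤ C0) (c : Bool × Bool) :
    Bd (D.cellS c) (fun _ _ => 1) (fun p x => cellc (D.ρ p.1) p.2 x) := by
  refine Bd.of_fderiv ((D.cellS c).G.const 2 (by norm_num)) (fun p x hx => ?_)
    (fun p x _ => (CS1_cellc_deriv _ _ x).differentiableAt.differentiableWithinAt) ?_
  · have hρ := CS1_rho_pos D h20 p.1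
    obtain ⟨_, h2⟩ := CS1_mem D hx
    rw [CS1_cellc_norm hρ, mul_one]
    calc (D.ρ p.1)⁻¹ * ‖x - cen (D.ρ p.1) p.2‖ ≤ (D.ρ p.1)⁻¹ * (2 * D.ρ p.1) :=
          mul_le_mul_of_nonneg_left h2.le (inv_pos.2 hρ).le
      _ = 2 := by field_simp
  · have h1 : Bd (D.cellS c) (fun _ _ => 1)
        (fun p (_ : E2) => (D.ρ p.1)⁻¹ • ContinuousLinearMap.id ℝ E2) := by
      refine Bd.const (CS1_rhoInv D h20 c) _ (fun p => ?_)
      rw [norm_smul, norm_inv, Real.norm_of_nonneg (CS1_rho_pos D h20 p.1).le]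
      exact mul_le_of_le_one_right (inv_pos.2 (CS1_rho_pos D h20 p.1)).le
        ContinuousLinearMap.norm_id_le
    refine (Bd.mono ((D.cellS c).G.const 1 le_rfl) h1 (fun p x _ => ?_)).congr
      (fun p x _ => (CS1_cellc_deriv _ _ x).fderiv)
    rw [one_mul, one_mul]
    exact (one_le_inv₀ ((D.cellS c).s_pos p)).2 ((D.cellS c).s_le p)

private theorem CS1_cellBd (h20 : 20 ≤ C0) {f : E2 → ℝ} (hf : ContDiff ℝ ∞ f)
    (c : Bool × Bool) :
    Bd (D.cellS c) (fun _ _ => 1) (fun p x => f (cellc (D.ρ p.1) p.2 x)) := by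
  refine Bd.comp isOpen_univ hf.contDiffOn (isCompact_closedBall (0 : E2) 2) (subset_univ _)
    (CS1_cellcBd D h20 c) (fun p x hx => ?_)
  have hρ := CS1_rho_pos D h20 p.1
  obtain ⟨_, h2⟩ := CS1_mem D hx
  rw [mem_closedBall_zero_iff, CS1_cellc_norm hρ]
  calc (D.ρ p.1)⁻¹ * ‖x - cen (D.ρ p.1) p.2‖ ≤ (D.ρ p.1)⁻¹ * (2 * D.ρ p.1) :=
        mul_le_mul_of_nonneg_left h2.le (inv_pos.2 hρ).le
    _ = 2 := by field_simp

/-- the flat cutoffs of the cells -/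
private theorem CS1_flat (h20 : 20 ≤ C0) (hB : D.Bds) (PF : CellFun) (c : Bool × Bool) :
    FlatFam (D.cellS c) (D.cellChi PF c) := by
  intro n hn
  obtain ⟨θ, hθ, hθ2⟩ := hB.flat n hn
  obtain ⟨φ, hφ, hφ2⟩ := PF.flat n hn
  refine ⟨fun p x => θ p.1 x * φ (cellc (D.ρ p.1) p.2 x), ?_, fun p x hx => ⟨?_, ?_⟩⟩
  · simpa using (CS1_pull D h20 hθ c).mul (CS1_cellBd D h20 hφ c)
  · exact mul_nonneg (hθ2 p.1 x (CS1_sub D h20 c p hx)).1 (hφ2 _).1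
  · obtain ⟨hc, _⟩ := CS1_mem D hx
    unfold ColH.cellChi
    rw [if_pos hc, mul_pow, (hθ2 p.1 x (CS1_sub D h20 c p hx)).2, (hφ2 _).2]

private theorem CS1_kap (h20 : 20 ≤ C0) (hB : D.Bds) (PF : CellFun) (c : Bool × Bool) :
    Bd (D.cellS c) (fun _ _ => 1) (D.cellKap PF c) := by
  have h1 : Bd (D.cellS c) (fun _ _ => 1)
      (fun p x => D.kap p.1 x * PF.κ (cellc (D.ρ p.1) p.2 x)) := by
    simpa using (CS1_pull D h20 hB.kap c).mul (CS1_cellBd D h20 PF.κ_sm c)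
  refine h1.congr fun p x hx => ?_
  obtain ⟨hc, _⟩ := CS1_mem D hx
  unfold ColH.cellKap
  rw [if_pos hc]

private theorem CS1_kap_sm (PF : CellFun) (c : Bool × Bool) (p : ι × (ℤ × ℤ)) :
    ContDiff ℝ ∞ (D.cellKap PF c p) := by
  by_cases hc : p.2 ∈ cells (D.ρ p.1) ∧ col p.2 = c
  · have h1 : D.cellKap PF c p = fun x => D.kap p.1 x * PF.κ (cellc (D.ρ p.1) p.2 x) := by
      funext x
      unfold ColH.cellKap
      rw [if_pos hc]
    rw [h1]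
    exact (D.kap_sm p.1).mul (PF.κ_sm.comp (CS1_cellc_smooth _ _))
  · have h1 : D.cellKap PF c p = fun _ => 0 := by
      funext x
      unfold ColH.cellKap
      rw [if_neg hc]
    rw [h1]
    exact contDiff_const

private theorem CS1_tsupp {f : E2 → ℝ} {a : ℝ} (hf : ∀ x, a ≤ ‖x‖ → f x = 0) (ρ : ℝ)
    (z : ℤ × ℤ) : tsupport (fun x => f (cellc ρ z x)) ⊆ {x | ‖cellc ρ z x‖ ≤ a} := by
  refine closure_minimal (fun x hx => ?_)
    (isClosed_le (CS1_cellc_smooth ρ z).continuous.norm continuous_const)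
  rw [Set.mem_ofPred_eq]
  by_contra hcon
  exact hx (hf _ (not_le.1 hcon).le)

private theorem CS1_kap_supp (h20 : 20 ≤ C0) (PF : CellFun) (c : Bool × Bool)
    (p : ι × (ℤ × ℤ)) : tsupport (D.cellKap PF c p) ⊆ (D.cellS c).U p := by
  have hρ := CS1_rho_pos D h20 p.1
  by_cases hc : p.2 ∈ cells (D.ρ p.1) ∧ col p.2 = c
  · have h1 : D.cellKap PF c p = fun x => D.kap p.1 x * PF.κ (cellc (D.ρ p.1) p.2 x) := by
      funext x
      unfold ColH.cellKap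
      rw [if_pos hc]
    intro x hx
    rw [h1] at hx
    have h2 : x ∈ tsupport (fun x => PF.κ (cellc (D.ρ p.1) p.2 x)) :=
      tsupport_mul_subset_right hx
    have h3 := CS1_tsupp PF.κ_supp (D.ρ p.1) p.2 h2
    rw [Set.mem_ofPred_eq, CS1_cellc_norm hρ] at h3
    show x ∈ D.cellU c p
    unfold ColH.cellU
    rw [if_pos hc, mem_ball_iff_norm]
    calc ‖x - cen (D.ρ p.1) p.2‖ = D.ρ p.1 * ((D.ρ p.1)⁻¹ * ‖x - cen (D.ρ p.1) p.2‖) := by
          field_simp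
      _ ≤ D.ρ p.1 * (9 / 10) := mul_le_mul_of_nonneg_left h3 hρ.le
      _ < 2 * D.ρ p.1 := by linarith
  · have h1 : D.cellKap PF c p = fun _ => 0 := by
      funext x
      unfold ColH.cellKap
      rw [if_neg hc]
    rw [h1]
    have h2 : tsupport (fun _ : E2 => (0 : ℝ)) = ∅ := by
      rw [tsupport_eq_empty_iff]
      rfl
    rw [h2]
    exact Set.empty_subset _

private theorem CS1_kap_one (PF : CellFun) (c : Bool × Bool)
    (p : ι × (ℤ × ℤ)) : ∀ x ∈ tsupport (D.cellChi PF c p), D.cellKap PF c p =ᶠ[𝓝 x] fun _ => 1 := by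
  by_cases hc : p.2 ∈ cells (D.ρ p.1) ∧ col p.2 = c
  · have h1 : D.cellKap PF c p = fun x => D.kap p.1 x * PF.κ (cellc (D.ρ p.1) p.2 x) := by
      funext x
      unfold ColH.cellKap
      rw [if_pos hc]
    have h2 : D.cellChi PF c p = fun x => D.psi p.1 x * PF.ψ (cellc (D.ρ p.1) p.2 x) := by
      funext x
      unfold ColH.cellChi
      rw [if_pos hc]
    intro x hx
    rw [h2] at hx
    have h3 : x ∈ tsupport (D.psi p.1) := tsupport_mul_subset_left hx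
    have h4 : x ∈ tsupport (fun x => PF.ψ (cellc (D.ρ p.1) p.2 x)) :=
      tsupport_mul_subset_right hx
    have h5 := CS1_tsupp PF.supp (D.ρ p.1) p.2 h4
    rw [Set.mem_ofPred_eq] at h5
    have h6 : ∀ᶠ y in 𝓝 x, ‖cellc (D.ρ p.1) p.2 y‖ < 8 / 10 :=
      (CS1_cellc_smooth (D.ρ p.1) p.2).continuous.norm.continuousAt.eventually_lt
        continuousAt_const (by linarith)
    rw [h1]
    filter_upwards [h6, D.kap_one p.1 x h3] with y hy1 hy2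
    rw [hy2, PF.κ_one _ hy1.le, mul_one]
  · intro x hx
    exfalso
    have h2 : D.cellChi PF c p = fun _ => 0 := by
      funext x
      unfold ColH.cellChi
      rw [if_neg hc]
    rw [h2] at hx
    have h3 : tsupport (fun _ : E2 => (0 : ℝ)) = ∅ := by
      rw [tsupport_eq_empty_iff]
      rfl
    rw [h3] at hx
    exact hx

end cells

theorem exists_cell (PF : CellFun) : ∃ C0 m0 : ℕ, 20 ≤ C0 ∧ ∀ (P : ℕ) (ι : Type)
    (D : ColH C0 m0 P ι), D.Bds → ∀ c : Bool × Bool,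
      ∃ C : Cell2 (ι × (ℤ × ℤ)) (D.cellS c), (∀ p, C.q p = D.q p.1) ∧ (∀ p, C.δ p = D.δ p.1) ∧
        (∀ p, C.F p = D.Fm p.1) ∧ (∀ p, C.H p = D.Hm p.1) ∧ (∀ p, C.chi p = D.cellChi PF c p) ∧
        ∀ p, C.kap p = D.cellKap PF c p := by
  obtain ⟨Cs, ms, hCs, hsel⟩ := selection
  refine ⟨20 * Cs, ms + 1, by omega, ?_⟩
  intro P ι D hB c
  have h20 : 20 ≤ 20 * Cs := by omega
  have hCs' : (1 : ℝ) ≤ Cs := by exact_mod_cast hCs
  have hctr : ∀ p : ι × (ℤ × ℤ), ∃ y : E2, y ∈ Metric.closedBall (0 : E2) 3 ∧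
      (p.2 ∈ cells (D.ρ p.1) → y = cen (D.ρ p.1) p.2) := by
    intro p
    by_cases hp : p.2 ∈ cells (D.ρ p.1)
    · refine ⟨cen (D.ρ p.1) p.2, ?_, fun _ => rfl⟩
      rw [mem_closedBall_zero_iff]
      exact (CS1_cells hp).trans (by norm_num)
    · exact ⟨0, by simp, fun h => absurd h hp⟩
  choose ctr hctr3 hctrc using hctr
  have hs : ∀ p : ι × (ℤ × ℤ), ∃ om : Fin 3 → E2, ∃ cof : Fin 3 → (T2 →L[ℝ] ℝ),
      ∃ fr : Fin 3 → ℝ, SelOK (Cs * D.Lam p.1 ^ ms) (pd 0 (D.F0 p.1) (ctr p))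
        (pd 1 (D.F0 p.1) (ctr p)) (jet2 (D.F0 p.1) (ctr p)) (D.gst p.1 (ctr p)) om cof fr :=
    fun p => hsel (D.Lam p.1) (D.hL p.1) _ _ _ _ ((D.ok p.1).jet _ (hctr3 p))
  choose om cof fr hS using hs
  have hg1 : ∀ i, 1 ≤ (Cs : ℝ) * D.Lam i ^ ms := fun i => by
    have h1 := one_le_pow₀ (n := ms) (D.hL i)
    nlinarith
  have hgmem : (fun p : ι × (ℤ × ℤ) => (Cs : ℝ) * D.Lam p.1 ^ ms) ∈ (D.cellS c).G.mem :=
    GTmem.mul (fun p : ι × (ℤ × ℤ) => D.hL p.1) (fun p => D.d_pos p.1) (fun p => D.d_le1 p.1)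
      (GTmem.const (fun p : ι × (ℤ × ℤ) => D.hL p.1) (fun p => D.d_pos p.1)
        (fun p => D.d_le1 p.1) Cs hCs')
      (GTmem.lam (fun p : ι × (ℤ × ℤ) => D.hL p.1) (fun p => D.d_pos p.1)
        (fun p => D.d_le1 p.1) ms)
  have h0 : ∀ p : ι × (ℤ × ℤ), (∀ j, ND0 (Cs * D.Lam p.1 ^ ms) (pd 0 (D.F0 p.1) (ctr p))
        (pd 1 (D.F0 p.1) (ctr p)) (jet2 (D.F0 p.1) (ctr p)) (fr p j • om p j)) ∧
      (∀ j j', ND0 (Cs * D.Lam p.1 ^ ms) (pd 0 (D.F0 p.1) (ctr p))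
        (pd 1 (D.F0 p.1) (ctr p)) (jet2 (D.F0 p.1) (ctr p)) (fr p j • om p j + fr p j' • om p j')) ∧
      (∀ j j', j ≠ j' → ND0 (Cs * D.Lam p.1 ^ ms) (pd 0 (D.F0 p.1) (ctr p))
        (pd 1 (D.F0 p.1) (ctr p)) (jet2 (D.F0 p.1) (ctr p))
        (fr p j • om p j - fr p j' • om p j')) := by
    intro p
    have h1 := (hS p).stable (pd 0 (D.F0 p.1) (ctr p)) (pd 1 (D.F0 p.1) (ctr p))
      (jet2 (D.F0 p.1) (ctr p)) (D.gst p.1 (ctr p)) (by simp) (by simp) (by simp) (by simp)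
    exact ⟨h1.1, h1.2.1, h1.2.2.1⟩
  have key : ∀ p : ι × (ℤ × ℤ), ∀ x ∈ (D.cellS c).U p,
      (∀ j, ND0 (Cs * D.Lam p.1 ^ ms) (pd 0 (D.Fm p.1) x)
        (pd 1 (D.Fm p.1) x) (jet2 (D.Fm p.1) x) (fr p j • om p j)) ∧
      (∀ j j', ND0 (Cs * D.Lam p.1 ^ ms) (pd 0 (D.Fm p.1) x)
        (pd 1 (D.Fm p.1) x) (jet2 (D.Fm p.1) x) (fr p j • om p j + fr p j' • om p j')) ∧
      (∀ j j', j ≠ j' → ND0 (Cs * D.Lam p.1 ^ ms) (pd 0 (D.Fm p.1) x)
        (pd 1 (D.Fm p.1) x) (jet2 (D.Fm p.1) x) (fr p j • om p j - fr p j' • om p j')) ∧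
      ∀ j, D.δ p.1 ≤ Cs * D.Lam p.1 ^ ms * cof p j (D.Hm p.1 x) := by
    intro p x hx
    have hρ := CS1_rho_pos D h20 p.1
    have hx29 : x ∈ Metric.ball (0 : E2) (29 / 10) := CS1_sub D h20 c p hx
    have hx3 : x ∈ Metric.closedBall (0 : E2) 3 :=
      Metric.ball_subset_closedBall (Metric.ball_subset_ball (by norm_num) hx29)
    obtain ⟨⟨hcell, _⟩, hdist⟩ := CS1_mem D hx
    have hL := D.hL p.1
    have hL0 : 0 < D.Lam p.1 := by linarith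
    have hδ := D.d_pos p.1
    have hd : ‖x - ctr p‖ ≤ 2 * D.ρ p.1 := by
      rw [hctrc p hcell]
      exact hdist.le
    have hνρ : nu (20 * Cs) (ms + 1) (D.Lam p.1) = D.ρ p.1 := rfl
    have hsmall : Cs * D.Lam p.1 ^ ms * (D.ρ p.1 + D.Lam p.1 * ‖x - ctr p‖) ≤ 1 := by
      have e1 : D.ρ p.1 = (20 * (Cs * D.Lam p.1 ^ ms) * D.Lam p.1)⁻¹ := by
        show (((20 * Cs : ℕ) : ℝ) * D.Lam p.1 ^ (ms + 1))⁻¹ = _
        push_cast
        rw [pow_succ]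
        ring_nf
      have h1 := hg1 p.1
      have h2 : D.ρ p.1 + D.Lam p.1 * ‖x - ctr p‖ ≤ 3 * D.Lam p.1 * D.ρ p.1 := by
        have h3 : D.Lam p.1 * ‖x - ctr p‖ ≤ D.Lam p.1 * (2 * D.ρ p.1) :=
          mul_le_mul_of_nonneg_left hd hL0.le
        nlinarith
      have h4 : (0 : ℝ) < Cs * D.Lam p.1 ^ ms := by linarith
      calc Cs * D.Lam p.1 ^ ms * (D.ρ p.1 + D.Lam p.1 * ‖x - ctr p‖)
          ≤ Cs * D.Lam p.1 ^ ms * (3 * D.Lam p.1 * D.ρ p.1) :=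
            mul_le_mul_of_nonneg_left h2 h4.le
        _ = 3 / 20 := by
            rw [e1]
            field_simp
        _ ≤ 1 := by norm_num
    have hsc : ∀ t : ℝ, t ≤ D.ρ p.1 + D.Lam p.1 * ‖x - ctr p‖ →
        Cs * D.Lam p.1 ^ ms * t ≤ 1 := fun t ht =>
      (mul_le_mul_of_nonneg_left ht (by linarith [hg1 p.1])).trans hsmall
    have h1 := (hS p).stable (pd 0 (D.Fm p.1) x) (pd 1 (D.Fm p.1) x)
      (jet2 (D.Fm p.1) x) (fun k l => D.Hm p.1 x k l / D.δ p.1)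
      (hsc _ (CS1_jet1 (D.smF p.1) (D.Fm_sm p.1) (D.ok p.1).F3 (D.close p.1) hx29 (hctr3 p) 0))
      (hsc _ (CS1_jet1 (D.smF p.1) (D.Fm_sm p.1) (D.ok p.1).F3 (D.close p.1) hx29 (hctr3 p) 1))
      (fun k l => hsc _ (CS1_jet2 (D.smF p.1) (D.Fm_sm p.1) (D.ok p.1).F3 (D.close p.1) hx29
        (hctr3 p) k l))
      (fun k l => hsc _ (by
        have h2 := D.Hm_close p.1 x hx29 k l
        have h3 := CS1_gst (D.smg p.1) (D.ok p.1).g1 hx3 (hctr3 p) k l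
        have h4 : |D.Hm p.1 x k l / D.δ p.1 - D.gst p.1 x k l| ≤ D.ρ p.1 := by
          have e2 : D.Hm p.1 x k l / D.δ p.1 - D.gst p.1 x k l
              = (D.Hm p.1 x k l - D.δ p.1 * D.gst p.1 x k l) / D.δ p.1 := by
            field_simp
          rw [e2, abs_div, abs_of_pos hδ, div_le_iff₀ hδ]
          exact h2
        calc |D.Hm p.1 x k l / D.δ p.1 - D.gst p.1 (ctr p) k l|
            = |(D.Hm p.1 x k l / D.δ p.1 - D.gst p.1 x k l)
                + (D.gst p.1 x k l - D.gst p.1 (ctr p) k l)| := by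
              congr 1
              ring
          _ ≤ |D.Hm p.1 x k l / D.δ p.1 - D.gst p.1 x k l|
                + |D.gst p.1 x k l - D.gst p.1 (ctr p) k l| := abs_add_le _ _
          _ ≤ D.ρ p.1 + D.Lam p.1 * ‖x - ctr p‖ := add_le_add h4 h3))
    refine ⟨h1.1, h1.2.1, h1.2.2.1, fun j => ?_⟩
    have h5 := h1.2.2.2 j
    have e3 : (fun k l => D.Hm p.1 x k l / D.δ p.1) = (D.δ p.1)⁻¹ • D.Hm p.1 x := by
      funext k l
      simp [div_eq_inv_mul]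
    rw [e3, map_smul, smul_eq_mul] at h5
    calc D.δ p.1 = D.δ p.1 * 1 := (mul_one _).symm
      _ ≤ D.δ p.1 * (Cs * D.Lam p.1 ^ ms * ((D.δ p.1)⁻¹ * cof p j (D.Hm p.1 x))) :=
          mul_le_mul_of_nonneg_left h5 hδ.le
      _ = Cs * D.Lam p.1 ^ ms * cof p j (D.Hm p.1 x) := by
          field_simp
  have hQ : ∀ p : ι × (ℤ × ℤ), ∀ x ∈ (D.cellS c).U p, ∀ v : E2,
      Qv (jet2 (D.Fm p.1) x) v = ddv v (D.Fm p.1) x := fun p x hx v =>
    (ddv_eq_sum Metric.isOpen_ball (D.Fm_sm p.1) v (CS1_sub D h20 c p hx)).symm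
  have hND : ∀ (p : ι × (ℤ × ℤ)) (ζ : E2), ND0 (Cs * D.Lam p.1 ^ ms)
      (pd 0 (D.F0 p.1) (ctr p)) (pd 1 (D.F0 p.1) (ctr p)) (jet2 (D.F0 p.1) (ctr p)) ζ →
      (∀ x ∈ (D.cellS c).U p, ND0 (Cs * D.Lam p.1 ^ ms) (pd 0 (D.Fm p.1) x)
        (pd 1 (D.Fm p.1) x) (jet2 (D.Fm p.1) x) ζ) →
      NonDeg (D.cellS c) (fun p => (Cs : ℝ) * D.Lam p.1 ^ ms) (fun p => D.Fm p.1) p ζ := by
    intro p ζ h1 h2
    refine ⟨h1.1, h1.2.1, fun x hx => ?_⟩
    have h3 := (h2 x hx).2.2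
    rw [hQ p x hx] at h3
    exact h3
  exact ⟨{ q := fun p => D.q p.1
           δ := fun p => D.δ p.1
           g := fun p => Cs * D.Lam p.1 ^ ms
           F := fun p => D.Fm p.1
           om := om
           cof := cof
           fr := fr
           H := fun p => D.Hm p.1
           chi := D.cellChi PF c
           kap := D.cellKap PF c
           hg := hgmem
           q_pos := fun p => D.q_pos p.1
           q_lt := fun p => D.q_lt p.1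
           d_pos := fun p => D.d_pos p.1
           d_growth := fun f hf h => GTmem.closure (Lam := fun p : ι × (ℤ × ℤ) => D.Lam p.1)
             (δ := fun p => D.δ p.1) (fun p => D.hL p.1) (fun p => D.d_pos p.1)
             (fun p => D.d_le1 p.1) f hf h
           d_le := fun p => D.d_le p.1
           smF := fun p => (D.Fm_sm p.1).mono (CS1_sub D h20 c p)
           F1 := CS1_pull D h20 hB.F1 c
           F2 := CS1_pull D h20 hB.F2 c
           om_le := fun p j => (hS p).om_le j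
           cof_le := fun p j => (hS p).cof_le j
           cof_eq := fun p h hh k l => (hS p).cof_eq h hh k l
           fr_ge := fun p j => (hS p).fr_ge j
           fr_le := fun p j => (hS p).fr_le j
           nd1 := fun p j => hND p _ ((h0 p).1 j) fun x hx => (key p x hx).1 j
           ndp := fun p j j' => hND p _ ((h0 p).2.1 j j') fun x hx => (key p x hx).2.1 j j'
           ndm := fun p j j' hj => hND p _ ((h0 p).2.2 j j' hj)
             fun x hx => (key p x hx).2.2.1 j j' hj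
           H_sym := fun p x _ => D.Hm_sym p.1 x
           H_bd := CS1_pull D h20 hB.H c
           H_pos := fun p j x hx => (key p x hx).2.2.2 j
           chi_flat := CS1_flat D h20 hB PF c
           kap_sm := CS1_kap_sm D PF c
           kap_bd := CS1_kap D h20 hB PF c
           kap_supp := CS1_kap_supp D h20 PF c
           kap_one := CS1_kap_one D PF c },
    fun _ => rfl, fun _ => rfl, fun _ => rfl, fun _ => rfl, fun _ => rfl, fun _ => rfl⟩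

end P205F
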