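import Vale.Agent.Lib.P205F.StDefs

/-! # P205F module Cut: existence of the sequence of cutoffs -/

open scoped ContDiff Topology
open Set

namespace P205F

/-- the derivatives of a smooth function which vanishes off a ball are bounded -/
private theorem Cut_bdd {θ : E2 → ℝ} (h : ContDiff ℝ ∞ θ) (h0 : ∀ x, 2 ≤ ‖x‖ → θ x = 0) (r : ℕ) :
    ∃ C : ℝ, ∀ x, ‖iteratedFDeriv ℝ r θ x‖ ≤ C := by
  have hc : Continuous (iteratedFDeriv ℝ r θ) :=
    h.continuous_iteratedFDeriv (by exact_mod_cast le_top)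
  obtain ⟨C, hC⟩ := (isCompact_closedBall (0 : E2) 2).exists_bound_of_continuousOn
    hc.continuousOn
  refine ⟨max C 0, fun x => ?_⟩
  rcases le_or_gt ‖x‖ 2 with hx | hx
  · exact (hC x (by simpa using hx)).trans (le_max_left _ _)
  · have he : θ =ᶠ[𝓝 x] fun _ => (0 : ℝ) := by
      have h1 : {y : E2 | 2 < ‖y‖} ∈ 𝓝 x :=
        (isOpen_lt continuous_const continuous_norm).mem_nhds hx
      filter_upwards [h1] with y hy
      exact h0 y (le_of_lt hy)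
    rw [(he.iteratedFDeriv ℝ r).eq_of_nhds]
    have h2 : iteratedFDeriv ℝ r (fun _ : E2 => (0 : ℝ)) x = 0 := by
      have := iteratedFDeriv_fun_zero (𝕜 := ℝ) (E := E2) (F := ℝ) (n := r)
      exact congrFun this x
    rw [h2, norm_zero]
    exact le_max_right _ _

theorem exists_cutSeq (φ : E2 → ℝ) (h : Flat1 φ) (h1 : ∀ x, φ x ≤ 1)
    (hs : ∀ x, 2 ≤ ‖x‖ → φ x = 0) : ∃ cs : CutSeq, cs.psi 0 = φ := by
  classical
  obtain ⟨psi, kap, root, C, H⟩ := exists_cutoffs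
  choose θ hθs hθp using h
  have hθ0 : ∀ n (hn : 1 ≤ n) x, 2 ≤ ‖x‖ → θ n hn x = 0 := by
    intro n hn x hx
    have h2 := (hθp n hn x).2
    rw [hs x hx] at h2
    exact pow_eq_zero_iff (by omega) |>.1 h2
  have hex : ∀ n r : ℕ, ∃ c : ℝ, ∀ hn : 1 ≤ n, ∀ x, ‖iteratedFDeriv ℝ r (θ n hn) x‖ ≤ c := by
    intro n r
    by_cases hn : 1 ≤ n
    · obtain ⟨c, hc⟩ := Cut_bdd (hθs n hn) (hθ0 n hn) r
      exact ⟨c, fun _ => hc⟩
    · exact ⟨0, fun h => absurd h hn⟩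
  choose c hc using hex
  let root' : ℕ → ℕ → E2 → ℝ := fun k n =>
    if hn : 1 ≤ n then (if k = 0 then θ n hn else root k n) else fun _ => 0
  have r0 : ∀ n (hn : 1 ≤ n), root' 0 n = θ n hn := by
    intro n hn
    simp only [root', dif_pos hn, if_true]
  have rk : ∀ k n, 1 ≤ n → k ≠ 0 → root' k n = root k n := by
    intro k n hn hk
    simp only [root', dif_pos hn, if_neg hk]
  let psi' : ℕ → E2 → ℝ := fun k => if k = 0 then φ else psi k
  have p0 : psi' 0 = φ := by simp only [psi', if_true]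
  have pk : ∀ k, k ≠ 0 → psi' k = psi k := by
    intro k hk
    simp only [psi', if_neg hk]
  have hrad : rad 0 = 2 := by
    unfold rad
    norm_num
  refine ⟨⟨psi', kap, root', fun n r => max (C n r) (c n r), ?_, ?_, ?_, fun k => (H k).2.2.2.1,
    fun k => (H k).2.2.2.2.1, fun k => (H k).2.2.2.2.2.1, fun k => (H k).2.2.2.2.2.2.1, ?_, ?_, ?_,
    ?_⟩, p0⟩
  · intro k x
    rcases eq_or_ne k 0 with rfl | hk
    · rw [p0]
      have h2 := hθp 1 le_rfl x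
      rw [pow_one] at h2
      exact ⟨h2.2 ▸ h2.1, h1 x⟩
    · rw [pk k hk]
      exact (H k).1 x
  · intro k hk x hx
    rw [pk k (by omega)]
    exact (H k).2.1 x hx
  · intro k x hx
    rcases eq_or_ne k 0 with rfl | hk
    · rw [p0]
      refine hs x ?_
      rw [hrad] at hx
      have h2 : (0 : ℝ) ≤ (1 / 2) ^ 0 / 16 := by positivity
      linarith
    · rw [pk k hk]
      exact (H k).2.2.1 x hx
  · intro k r x
    refine ((H k).2.2.2.2.2.2.2.1 r x).trans ?_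
    exact mul_le_mul_of_nonneg_right (le_max_left _ _) (by positivity)
  · intro k n hn
    rcases eq_or_ne k 0 with rfl | hk
    · rw [r0 n hn]
      exact hθs n hn
    · rw [rk k n hn hk]
      exact ((H k).2.2.2.2.2.2.2.2 n hn).1
  · intro k n hn x
    rcases eq_or_ne k 0 with rfl | hk
    · rw [r0 n hn, p0]
      exact hθp n hn x
    · rw [rk k n hn hk, pk k hk]
      exact ((H k).2.2.2.2.2.2.2.2 n hn).2.1 x
  · intro k n hn r x
    rcases eq_or_ne k 0 with rfl | hk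
    · rw [r0 n hn, pow_zero, one_pow, mul_one]
      exact (hc n r hn x).trans (le_max_right _ _)
    · rw [rk k n hn hk]
      refine (((H k).2.2.2.2.2.2.2.2 n hn).2.2 r x).trans ?_
      exact mul_le_mul_of_nonneg_right (le_max_left _ _) (by positivity)

theorem qd_pos {P : ℕ} {δ : ℝ} (h : 0 < δ) : 0 < qd P δ := Real.rpow_pos_of_pos h _

theorem qd_pow {P : ℕ} (hP : 1 ≤ P) {δ : ℝ} (h : 0 < δ) : qd P δ ^ P = δ := by
  unfold qd
  rw [one_div]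
  exact Real.rpow_inv_natCast_pow h.le (by omega)

theorem qd_lt {P : ℕ} (hP : 1 ≤ P) {δ : ℝ} (h : 0 < δ) (h1 : δ < 1) : qd P δ < 1 := by
  have hP' : (0 : ℝ) < P := by exact_mod_cast hP
  exact Real.rpow_lt_one h.le h1 (by positivity)

theorem qd_rpow {P : ℕ} {δ : ℝ} (h : 0 < δ) (n : ℕ) : qd P δ ^ n = δ ^ ((n : ℝ) / P) := by
  unfold qd
  rw [← Real.rpow_natCast, ← Real.rpow_mul h.le]
  congr 1
  ring

/-- the exponential beats linear functions -/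
private theorem Cut_exp (r : ℕ) {c : ℝ} (hc : 0 < c) :
    ∃ B : ℕ, ∀ k : ℕ, (k : ℝ) * r ≤ c * (5 / 4 : ℝ) ^ k + B := by
  have h1 : Filter.Tendsto (fun n : ℕ => (n : ℝ) ^ 1 / (5 / 4 : ℝ) ^ n) Filter.atTop (𝓝 0) :=
    tendsto_pow_const_div_const_pow_of_one_lt 1 (by norm_num)
  have hr : (0 : ℝ) < (r : ℝ) + 1 := by positivity
  have h2 := h1.eventually (gt_mem_nhds (show (0 : ℝ) < c / (r + 1) by positivity))
  obtain ⟨N, hN⟩ := Filter.eventually_atTop.1 h2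
  refine ⟨N * r, fun k => ?_⟩
  have h5 : (0 : ℝ) < (5 / 4 : ℝ) ^ k := by positivity
  have hr0 : (0 : ℝ) ≤ r := Nat.cast_nonneg r
  rcases le_total N k with hk | hk
  · have h3 := hN k hk
    rw [pow_one, div_lt_div_iff₀ h5 hr] at h3
    have hk0 : (0 : ℝ) ≤ k := Nat.cast_nonneg k
    have h4 : (0 : ℝ) ≤ ((N * r : ℕ) : ℝ) := Nat.cast_nonneg _
    nlinarith
  · have h3 : (k : ℝ) ≤ N := by exact_mod_cast hk
    push_cast
    have h4 : (k : ℝ) * r ≤ N * r := mul_le_mul_of_nonneg_right h3 hr0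
    have h6 : 0 < c * (5 / 4 : ℝ) ^ k := mul_pos hc h5
    linarith

/-- the weights `(2 ^ k) ^ r` are in the growth class -/
private theorem Cut_growth {C0 m0 P Ct : ℕ} (D : ColH C0 m0 P (StIdx C0 m0 P Ct))
    (h2 : ∀ i, D.δ i = i.δ) (K : ℝ) (hK : 1 ≤ K) (r : ℕ) :
    GTmem D.Lam D.δ (fun i => K * ((2 : ℝ) ^ i.k) ^ r) := by
  refine ⟨fun i => ?_, fun c hc => ?_⟩
  · have h3 : (1 : ℝ) ≤ ((2 : ℝ) ^ i.k) ^ r := one_le_pow₀ (one_le_pow₀ (by norm_num))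
    nlinarith
  · obtain ⟨B, hB⟩ := Cut_exp r hc
    refine ⟨⌈K * (2 : ℝ) ^ B⌉₊, fun i => ?_⟩
    have hd0 := D.d_pos i
    have hKB : 0 ≤ K * (2 : ℝ) ^ B := by positivity
    have e1 : ((2 : ℝ) ^ i.k) ^ r ≤ (2 : ℝ) ^ B * (D.δ i) ^ (-c) := by
      have e2 : ((2 : ℝ) ^ i.k) ^ r = (2 : ℝ) ^ ((i.k : ℝ) * r) := by
        rw [← pow_mul, ← Real.rpow_natCast]
        push_cast
        rfl
      have e3 : (2 : ℝ) ^ ((i.k : ℝ) * r) ≤ (2 : ℝ) ^ (c * (5 / 4 : ℝ) ^ i.k + B) :=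
        Real.rpow_le_rpow_of_exponent_le (by norm_num) (hB i.k)
      have e4 : (2 : ℝ) ^ (c * (5 / 4 : ℝ) ^ i.k + B) =
          (2 : ℝ) ^ B * (2 : ℝ) ^ (c * (5 / 4 : ℝ) ^ i.k) := by
        rw [Real.rpow_add (by norm_num), Real.rpow_natCast, mul_comm]
      have e5 : (2 : ℝ) ^ (c * (5 / 4 : ℝ) ^ i.k) ≤ (D.δ i) ^ (-c) := by
        have h3 : D.δ i ≤ (1 / 2 : ℝ) ^ ((5 / 4 : ℝ) ^ i.k) := by
          rw [h2 i]
          exact i.st.d1
        have h4 := Real.rpow_le_rpow_of_nonpos hd0 h3 (by linarith : -c ≤ 0)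
        refine le_trans (le_of_eq ?_) h4
        rw [← Real.rpow_mul (by norm_num : (0 : ℝ) ≤ 1 / 2), one_div, Real.inv_rpow (by norm_num),
          ← Real.rpow_neg (by norm_num)]
        congr 1
        ring
      rw [e2]
      refine e3.trans ?_
      rw [e4]
      exact mul_le_mul_of_nonneg_left e5 (by positivity)
    have hLam : (1 : ℝ) ≤ D.Lam i ^ ⌈K * (2 : ℝ) ^ B⌉₊ := one_le_pow₀ (D.hL i)
    have hdc : 0 ≤ (D.δ i) ^ (-c) := Real.rpow_nonneg hd0.le _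
    calc K * ((2 : ℝ) ^ i.k) ^ r ≤ K * ((2 : ℝ) ^ B * (D.δ i) ^ (-c)) :=
          mul_le_mul_of_nonneg_left e1 (by linarith)
      _ = (K * (2 : ℝ) ^ B) * 1 * (D.δ i) ^ (-c) := by ring
      _ ≤ ⌈K * (2 : ℝ) ^ B⌉₊ * D.Lam i ^ ⌈K * (2 : ℝ) ^ B⌉₊ * (D.δ i) ^ (-c) := by
          refine mul_le_mul_of_nonneg_right ?_ hdc
          exact mul_le_mul (Nat.le_ceil _) hLam zero_le_one (Nat.cast_nonneg _)

private theorem Cut_bd {C0 m0 P Ct : ℕ} (D : ColH C0 m0 P (StIdx C0 m0 P Ct))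
    (h2 : ∀ i, D.δ i = i.δ) (u : StIdx C0 m0 P Ct → E2 → ℝ) (hu : ∀ i, ContDiff ℝ ∞ (u i))
    (C : ℕ → ℝ) (hb : ∀ i r x, ‖iteratedFDeriv ℝ r (u i) x‖ ≤ C r * ((2 : ℝ) ^ i.k) ^ r) :
    Bd D.S (fun _ _ => 1) u := by
  refine ⟨fun i => (hu i).contDiffOn, fun r => ?_⟩
  refine ⟨_, Cut_growth D h2 (max 1 (C r)) (le_max_left _ _) r, fun i x _ => ?_⟩
  have h3 : (1 : ℝ) ≤ (D.S.s i)⁻¹ ^ r :=
    one_le_pow₀ ((one_le_inv₀ (D.S.s_pos i)).2 (D.S.s_le i))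
  have h4 : 0 ≤ max 1 (C r) * ((2 : ℝ) ^ i.k) ^ r := by positivity
  calc ‖iteratedFDeriv ℝ r (u i) x‖ ≤ C r * ((2 : ℝ) ^ i.k) ^ r := hb i r x
    _ ≤ max 1 (C r) * ((2 : ℝ) ^ i.k) ^ r :=
        mul_le_mul_of_nonneg_right (le_max_right _ _) (by positivity)
    _ = max 1 (C r) * ((2 : ℝ) ^ i.k) ^ r * 1 * 1 := by ring
    _ ≤ max 1 (C r) * ((2 : ℝ) ^ i.k) ^ r * 1 * (D.S.s i)⁻¹ ^ r :=
        mul_le_mul_of_nonneg_left h3 (by linarith)

/-- the cutoffs are flat families, in the growth class, for the states -/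
theorem cut_flat (cs : CutSeq) {C0 m0 P Ct : ℕ} (D : ColH C0 m0 P (StIdx C0 m0 P Ct))
    (h1 : ∀ i, D.Lam i = i.Lam) (h2 : ∀ i, D.δ i = i.δ) (h3 : ∀ i, D.psi i = cs.psi i.k)
    (h4 : ∀ i, D.kap i = cs.kap i.k) :
    FlatFam D.S D.psi ∧ Bd D.S (fun _ _ => 1) D.kap := by
  have _ := h1
  refine ⟨fun n hn => ⟨fun i => cs.root i.k n, ?_, fun i x _ => ?_⟩, ?_⟩
  · exact Cut_bd D h2 _ (fun i => cs.root_sm i.k n hn) (cs.C n)
      fun i r x => cs.root_bd i.k n hn r x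
  · rw [h3 i]
    exact cs.root_pow i.k n hn x
  · have h5 : D.kap = fun i => cs.kap i.k := funext h4
    rw [h5]
    exact Cut_bd D h2 _ (fun i => cs.kap_sm i.k) (cs.C 0) fun i r x => cs.kap_bd i.k r x

end P205F
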