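import Vale.Agent.Lib.P205F.GDefs

/-! # P205F module FlA: flat functions of one variable -/

open scoped ContDiff Topology
open Set

namespace P205F

/-- the `n`-th root of the smooth transition function -/
private noncomputable def FlA_tau (n : ℕ) (x : ℝ) : ℝ :=
  expNegInvGlue (n * x) * (expNegInvGlue x + expNegInvGlue (1 - x)) ^ (-((n : ℝ)⁻¹))

private theorem FlA_pow {n : ℕ} (hn : 1 ≤ n) (x : ℝ) :
    FlA_tau n x ^ n = Real.smoothTransition x := by
  have hn0 : (n : ℝ) ≠ 0 := by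
    have : (1 : ℝ) ≤ n := by exact_mod_cast hn
    linarith
  have hd := Real.smoothTransition.pos_denom x
  unfold FlA_tau
  rw [mul_pow, Real.rpow_neg hd.le, inv_pow, Real.rpow_inv_natCast_pow hd.le (by omega)]
  unfold Real.smoothTransition
  rw [div_eq_mul_inv]
  congr 1
  rcases le_or_gt x 0 with hx | hx
  · rw [expNegInvGlue.zero_of_nonpos hx,
      expNegInvGlue.zero_of_nonpos (mul_nonpos_of_nonneg_of_nonpos (Nat.cast_nonneg n) hx),
      zero_pow (by omega)]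
  · have h1 : (0 : ℝ) < n := lt_of_le_of_ne (Nat.cast_nonneg n) hn0.symm
    have h2 : 0 < (n : ℝ) * x := mul_pos h1 hx
    unfold expNegInvGlue
    rw [if_neg (not_le.mpr h2), if_neg (not_le.mpr hx), ← Real.exp_nat_mul]
    congr 1
    field_simp

private theorem FlA_nonneg (n : ℕ) (x : ℝ) : 0 ≤ FlA_tau n x :=
  mul_nonneg (expNegInvGlue.nonneg _)
    (Real.rpow_nonneg (Real.smoothTransition.pos_denom x).le _)

private theorem FlA_one (x : ℝ) : FlA_tau 1 x = Real.smoothTransition x := by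
  have := FlA_pow le_rfl x
  rwa [pow_one] at this

private theorem FlA_contDiff (n : ℕ) : ContDiff ℝ ∞ (FlA_tau n) := by
  have h0 : ContDiff ℝ ∞ expNegInvGlue := expNegInvGlue.contDiff
  have h1 : ContDiff ℝ ∞ (fun x : ℝ => expNegInvGlue (n * x)) :=
    h0.comp (contDiff_const.mul contDiff_id)
  have h2 : ContDiff ℝ ∞ (fun x : ℝ => expNegInvGlue x + expNegInvGlue (1 - x)) :=
    h0.add (h0.comp (contDiff_const.sub contDiff_id))
  exact h1.mul (h2.rpow_const_of_ne fun x => (Real.smoothTransition.pos_denom x).ne')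

/-- derivatives of constants -/
private theorem FlA_const (r : ℕ) (c : ℝ) (hc : |c| ≤ 1) {f : ℝ → ℝ} {x : ℝ}
    (hf : f =ᶠ[nhds x] fun _ => c) : ‖iteratedFDeriv ℝ r f x‖ ≤ 1 := by
  rw [(hf.iteratedFDeriv ℝ r).eq_of_nhds]
  rcases Nat.eq_zero_or_pos r with hr | hr
  · subst hr
    rw [norm_iteratedFDeriv_zero, Real.norm_eq_abs]
    exact hc
  · rw [iteratedFDeriv_const_of_ne (Nat.pos_iff_ne_zero.mp hr), Pi.zero_apply, norm_zero]
    exact zero_le_one

/-- a smooth transition function together with all its roots: `τ n` is the `n`-th root of `τ 1` -/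
theorem exists_transition : ∃ τ : ℕ → ℝ → ℝ, ∀ n, 1 ≤ n → ContDiff ℝ ∞ (τ n) ∧
    (∀ x, 0 ≤ τ n x ∧ τ n x ≤ 1) ∧ (∀ x ≤ 0, τ n x = 0) ∧ (∀ x, 0 < x → 0 < τ n x) ∧
    (∀ x, 1 ≤ x → τ n x = 1) ∧ (∀ x, τ n x ^ n = τ 1 x) ∧
    ∀ r : ℕ, ∃ C : ℝ, ∀ x, ‖iteratedFDeriv ℝ r (τ n) x‖ ≤ C := by
  refine ⟨FlA_tau, fun n hn => ?_⟩
  have hn0 : n ≠ 0 := by omega
  have hzero : ∀ x ≤ 0, FlA_tau n x = 0 := by
    intro x hx
    have h1 := FlA_pow hn x
    rw [Real.smoothTransition.zero_of_nonpos hx] at h1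
    exact pow_eq_zero_iff hn0 |>.mp h1
  have hone : ∀ x, 1 ≤ x → FlA_tau n x = 1 := by
    intro x hx
    have h1 := FlA_pow hn x
    rw [Real.smoothTransition.one_of_one_le hx] at h1
    exact (pow_eq_one_iff_of_nonneg (FlA_nonneg n x) hn0).mp h1
  refine ⟨FlA_contDiff n, fun x => ⟨FlA_nonneg n x, ?_⟩, hzero, fun x hx => ?_, hone,
    fun x => ?_, fun r => ?_⟩
  · have h1 := FlA_pow hn x
    have h2 := Real.smoothTransition.le_one x
    rw [← h1] at h2
    exact (pow_le_one_iff_of_nonneg (FlA_nonneg n x) hn0).mp h2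
  · refine lt_of_le_of_ne (FlA_nonneg n x) fun h => ?_
    have h1 := FlA_pow hn x
    rw [← h, zero_pow hn0] at h1
    exact (Real.smoothTransition.pos_of_pos hx).ne h1
  · rw [FlA_pow hn, FlA_one]
  · have hc : Continuous (iteratedFDeriv ℝ r (FlA_tau n)) :=
      (FlA_contDiff n).continuous_iteratedFDeriv (by exact_mod_cast le_top)
    obtain ⟨C, hC⟩ := isCompact_Icc.exists_bound_of_continuousOn
      (s := Icc (0 : ℝ) 1) hc.continuousOn
    refine ⟨max C 1, fun x => ?_⟩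
    rcases lt_or_ge x 0 with hx | hx
    · refine (FlA_const r 0 (by simp) ?_).trans (le_max_right _ _)
      filter_upwards [Iio_mem_nhds hx] with y hy
      exact hzero y (le_of_lt hy)
    · rcases lt_or_ge 1 x with hx1 | hx1
      · refine (FlA_const r 1 (by simp) ?_).trans (le_max_right _ _)
        filter_upwards [Ioi_mem_nhds hx1] with y hy
        exact hone y (le_of_lt hy)
      · exact (hC x ⟨hx, hx1⟩).trans (le_max_left _ _)

/-- products of flat functions -/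
theorem Flat1.mul {χ χ' : E2 → ℝ} (h : Flat1 χ) (h' : Flat1 χ') :
    Flat1 (fun x => χ x * χ' x) := by
  intro n hn
  obtain ⟨θ, h1, h2⟩ := h n hn
  obtain ⟨θ', h1', h2'⟩ := h' n hn
  refine ⟨fun x => θ x * θ' x, h1.mul h1', fun x => ⟨mul_nonneg (h2 x).1 (h2' x).1, ?_⟩⟩
  rw [mul_pow, (h2 x).2, (h2' x).2]

/-- composition with smooth maps -/
theorem Flat1.comp {χ : E2 → ℝ} (h : Flat1 χ) {f : E2 → E2} (hf : ContDiff ℝ ∞ f) :
    Flat1 (fun x => χ (f x)) := by
  intro n hn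
  obtain ⟨θ, h1, h2⟩ := h n hn
  exact ⟨fun x => θ (f x), h1.comp hf, fun x => h2 (f x)⟩

/-- positive smooth functions are flat -/
theorem Flat1.of_pos {χ : E2 → ℝ} (h : ContDiff ℝ ∞ χ) (h0 : ∀ x, 0 < χ x) : Flat1 χ := by
  intro n hn
  exact ⟨fun x => χ x ^ ((n : ℝ)⁻¹), h.rpow_const_of_ne fun x => (h0 x).ne', fun x =>
    ⟨Real.rpow_nonneg (h0 x).le _, Real.rpow_inv_natCast_pow (h0 x).le (by omega)⟩⟩

theorem Flat1.nonneg {χ : E2 → ℝ} (h : Flat1 χ) (x : E2) : 0 ≤ χ x := by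
  obtain ⟨θ, _, h2⟩ := h 1 le_rfl
  rw [← (h2 x).2, pow_one]
  exact (h2 x).1

theorem Flat1.contDiff {χ : E2 → ℝ} (h : Flat1 χ) : ContDiff ℝ ∞ χ := by
  obtain ⟨θ, h1, h2⟩ := h 1 le_rfl
  have h3 : χ = θ := by
    funext x
    rw [← (h2 x).2, pow_one]
  rw [h3]
  exact h1

end P205F
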