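import Vale.Agent.Lib.P205F.FlA

/-! # P205F module FlB: the cell partition, the sequence of cutoffs -/

open scoped ContDiff Topology
open Set

namespace P205F

/-! ### one-variable partition -/

/-- the one-variable data: `R n` is the `n`-th root of `ψ` -/
private theorem FlB_one : ∃ (ψ : ℝ → ℝ) (R : ℕ → ℝ → ℝ), (∀ t, 7 / 10 ≤ |t| → ψ t = 0) ∧
    (∀ u, 0 ≤ u → u < 1 → ψ u ^ 2 + ψ (u - 1) ^ 2 = 1) ∧
    ∀ n, 1 ≤ n → ContDiff ℝ ∞ (R n) ∧ ∀ t, 0 ≤ R n t ∧ R n t ^ n = ψ t := by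
  obtain ⟨τ, hτ⟩ := exists_transition
  set σ : ℕ → ℝ → ℝ := fun n t => τ n (t + 7 / 10) * τ n (7 / 10 - t) with hσ
  have hσs : ∀ n, 1 ≤ n → ContDiff ℝ ∞ (σ n) := fun n hn =>
    ((hτ n hn).1.comp (by fun_prop)).mul ((hτ n hn).1.comp (by fun_prop))
  have hσ0 : ∀ n, 1 ≤ n → ∀ t, 0 ≤ σ n t := fun n hn t =>
    mul_nonneg ((hτ n hn).2.1 _).1 ((hτ n hn).2.1 _).1
  have hσp : ∀ n, 1 ≤ n → ∀ t, σ n t ^ n = σ 1 t := by
    intro n hn t
    simp only [hσ]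
    rw [mul_pow, (hτ n hn).2.2.2.2.2.1, (hτ n hn).2.2.2.2.2.1]
  have h1 := hτ 1 le_rfl
  have hpos : ∀ t, |t| < 7 / 10 → 0 < σ 1 t := by
    intro t ht
    rw [abs_lt] at ht
    exact mul_pos (h1.2.2.2.1 _ (by linarith)) (h1.2.2.2.1 _ (by linarith))
  have hzero : ∀ t, 7 / 10 ≤ |t| → σ 1 t = 0 := by
    intro t ht
    simp only [hσ]
    rcases le_abs.1 ht with h | h
    · rw [h1.2.2.1 (7 / 10 - t) (by linarith), mul_zero]
    · rw [h1.2.2.1 (t + 7 / 10) (by linarith), zero_mul]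
  set B : ℝ → ℝ := fun t => σ 1 t ^ 2 + σ 1 (t - 1) ^ 2 + σ 1 (t + 1) ^ 2 + τ 1 (t - 1) +
    τ 1 (-t - 1) with hB
  have hBs : ContDiff ℝ ∞ B := by
    have e0 := hσs 1 le_rfl
    have e1 : ContDiff ℝ ∞ (fun t : ℝ => σ 1 (t - 1)) := e0.comp (by fun_prop)
    have e2 : ContDiff ℝ ∞ (fun t : ℝ => σ 1 (t + 1)) := e0.comp (by fun_prop)
    have e3 : ContDiff ℝ ∞ (fun t : ℝ => τ 1 (t - 1)) := h1.1.comp (by fun_prop)
    have e4 : ContDiff ℝ ∞ (fun t : ℝ => τ 1 (-t - 1)) := h1.1.comp (by fun_prop)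
    exact ((((e0.pow 2).add (e1.pow 2)).add (e2.pow 2)).add e3).add e4
  have hBpos : ∀ t, 0 < B t := by
    intro t
    have a1 := sq_nonneg (σ 1 t)
    have a2 := sq_nonneg (σ 1 (t - 1))
    have a3 := sq_nonneg (σ 1 (t + 1))
    have a4 := (h1.2.1 (t - 1)).1
    have a5 := (h1.2.1 (-t - 1)).1
    simp only [hB]
    rcases lt_or_ge (1 : ℝ) t with h | h
    · have := h1.2.2.2.1 (t - 1) (by linarith)
      linarith
    rcases lt_or_ge t (-1) with h' | h'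
    · have := h1.2.2.2.1 (-t - 1) (by linarith)
      linarith
    rcases lt_or_ge |t| (7 / 10) with h2 | h2
    · have := pow_pos (hpos t h2) 2
      linarith
    rcases le_abs.1 h2 with h3 | h3
    · have := pow_pos (hpos (t - 1) (abs_lt.2 ⟨by linarith, by linarith⟩)) 2
      linarith
    · have := pow_pos (hpos (t + 1) (abs_lt.2 ⟨by linarith, by linarith⟩)) 2
      linarith
  refine ⟨fun t => σ 1 t * B t ^ (-(1 / 2) : ℝ), fun n t => σ n t * B t ^ (-(1 / (2 * n)) : ℝ),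
    ?_, ?_, ?_⟩
  · intro t ht
    simp only
    rw [hzero t ht, zero_mul]
  · intro u hu0 hu1
    have e1 : B u = σ 1 u ^ 2 + σ 1 (u - 1) ^ 2 := by
      simp only [hB]
      rw [hzero (u + 1) (by rw [abs_of_nonneg (by linarith)]; linarith),
        h1.2.2.1 (u - 1) (by linarith), h1.2.2.1 (-u - 1) (by linarith)]
      ring
    have e2 : B (u - 1) = σ 1 u ^ 2 + σ 1 (u - 1) ^ 2 := by
      simp only [hB]
      rw [hzero (u - 1 - 1) (by rw [abs_of_nonpos (by linarith)]; linarith),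
        h1.2.2.1 (u - 1 - 1) (by linarith), h1.2.2.1 (-(u - 1) - 1) (by linarith),
        sub_add_cancel]
      ring
    have e3 : ∀ t, (σ 1 t * B t ^ (-(1 / 2) : ℝ)) ^ 2 = σ 1 t ^ 2 * (B t)⁻¹ := by
      intro t
      have e0 : (-(1 / 2) : ℝ) * ((2 : ℕ) : ℝ) = -1 := by norm_num
      rw [mul_pow, ← Real.rpow_natCast (B t ^ (-(1 / 2) : ℝ)), ← Real.rpow_mul (hBpos t).le, e0,
        Real.rpow_neg_one]
    simp only
    rw [e3, e3, e2, ← e1, ← add_mul, ← e1]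
    exact mul_inv_cancel₀ (hBpos u).ne'
  · intro n hn
    refine ⟨(hσs n hn).mul (hBs.rpow_const_of_ne fun t => (hBpos t).ne'), fun t => ⟨?_, ?_⟩⟩
    · exact mul_nonneg (hσ0 n hn t) (Real.rpow_nonneg (hBpos t).le _)
    · simp only
      rw [mul_pow, hσp n hn, ← Real.rpow_natCast (B t ^ (-(1 / (2 * n)) : ℝ)),
        ← Real.rpow_mul (hBpos t).le]
      congr 2
      have hn' : (n : ℝ) ≠ 0 := by
        have : 0 < n := hn
        positivity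
      field_simp

theorem exists_cellFun : Nonempty CellFun := by
  obtain ⟨τ, hτ⟩ := exists_transition
  obtain ⟨ψ, R, hψ0, hψ1, hR⟩ := FlB_one
  have h1 := hτ 1 le_rfl
  have hsupp : ∀ x : E2, 7 / 10 ≤ ‖x‖ → ψ x.1 * ψ x.2 = 0 := by
    intro x hx
    rw [Prod.norm_def, le_max_iff, Real.norm_eq_abs, Real.norm_eq_abs] at hx
    rcases hx with h | h
    · rw [hψ0 _ h, zero_mul]
    · rw [hψ0 _ h, mul_zero]
  set k1 : ℝ → ℝ := fun t => τ 1 ((9 / 10 - t) * 10) * τ 1 ((9 / 10 + t) * 10) with hk1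
  have hk1s : ContDiff ℝ ∞ k1 := (h1.1.comp (by fun_prop)).mul (h1.1.comp (by fun_prop))
  have hk10 : ∀ t, 9 / 10 ≤ |t| → k1 t = 0 := by
    intro t ht
    simp only [hk1]
    rcases le_abs.1 ht with h | h
    · rw [h1.2.2.1 ((9 / 10 - t) * 10) (by linarith), zero_mul]
    · rw [h1.2.2.1 ((9 / 10 + t) * 10) (by linarith), mul_zero]
  have hk11 : ∀ t, |t| ≤ 8 / 10 → k1 t = 1 := by
    intro t ht
    rw [abs_le] at ht
    simp only [hk1]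
    rw [h1.2.2.2.2.1 ((9 / 10 - t) * 10) (by linarith),
      h1.2.2.2.2.1 ((9 / 10 + t) * 10) (by linarith), one_mul]
  refine ⟨⟨fun x => ψ x.1 * ψ x.2, fun x => k1 x.1 * k1 x.2, ?_, ?_, hsupp, ?_, ?_, ?_⟩⟩
  · intro n hn
    obtain ⟨hs, hr⟩ := hR n hn
    refine ⟨fun x => R n x.1 * R n x.2, (hs.comp contDiff_fst).mul (hs.comp contDiff_snd),
      fun x => ⟨mul_nonneg (hr _).1 (hr _).1, ?_⟩⟩
    rw [mul_pow, (hr x.1).2, (hr x.2).2]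
  · exact (hk1s.comp contDiff_fst).mul (hk1s.comp contDiff_snd)
  · intro x hx
    rw [Prod.norm_def, le_max_iff, Real.norm_eq_abs, Real.norm_eq_abs] at hx
    rcases hx with h | h
    · rw [hk10 _ h, zero_mul]
    · rw [hk10 _ h, mul_zero]
  · intro x hx
    rw [Prod.norm_def, max_le_iff, Real.norm_eq_abs, Real.norm_eq_abs] at hx
    rw [hk11 _ hx.1, hk11 _ hx.2, one_mul]
  · intro x Z hZ
    have hfl : ∀ (t : ℝ) (m : ℤ), m ∉ ({⌊t⌋, ⌊t⌋ + 1} : Finset ℤ) → ψ (t - m) = 0 := by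
      intro t m hm
      rw [Finset.mem_insert, Finset.mem_singleton, not_or] at hm
      apply hψ0
      have h2 := Int.floor_le t
      have h3 := Int.lt_floor_add_one t
      rcases lt_or_gt_of_ne hm.1 with h4 | h4
      · have h5 : m + 1 ≤ ⌊t⌋ := h4
        have h6 : (m : ℝ) + 1 ≤ ⌊t⌋ := by exact_mod_cast h5
        rw [abs_of_nonneg (by linarith)]
        linarith
      · have h5 : ⌊t⌋ + 2 ≤ m := by omega
        have h6 : (⌊t⌋ : ℝ) + 2 ≤ m := by exact_mod_cast h5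
        rw [abs_of_nonpos (by linarith)]
        linarith
    have hsum : ∀ t : ℝ, ∑ m ∈ ({⌊t⌋, ⌊t⌋ + 1} : Finset ℤ), ψ (t - m) ^ 2 = 1 := by
      intro t
      rw [Finset.sum_pair (by omega)]
      have h2 := Int.floor_le t
      have h3 := Int.lt_floor_add_one t
      have h4 := hψ1 (t - ⌊t⌋) (by linarith) (by linarith)
      rw [← h4]
      push_cast
      congr 3
      ring
    set Z0 : Finset (ℤ × ℤ) := ({⌊x.1⌋, ⌊x.1⌋ + 1} : Finset ℤ) ×ˢ ({⌊x.2⌋, ⌊x.2⌋ + 1} : Finset ℤ)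
      with hZ0
    have hA : ∀ z : ℤ × ℤ, z ∉ Z0 → ψ (x.1 - z.1) * ψ (x.2 - z.2) = 0 := by
      intro z hz
      rw [hZ0, Finset.mem_product, not_and_or] at hz
      rcases hz with h | h
      · rw [hfl x.1 z.1 h, zero_mul]
      · rw [hfl x.2 z.2 h, mul_zero]
    have hBz : ∀ z : ℤ × ℤ, z ∉ Z → ψ (x.1 - z.1) * ψ (x.2 - z.2) = 0 := by
      intro z hz
      have h2 : 7 / 10 ≤ ‖x - ((z.1 : ℝ), (z.2 : ℝ))‖ := by
        by_contra hcon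
        exact hz (hZ z (not_le.1 hcon))
      exact hsupp _ h2
    change ∑ z ∈ Z, (ψ (x.1 - z.1) * ψ (x.2 - z.2)) ^ 2 = 1
    rw [Finset.sum_subset (Finset.subset_union_left : Z ⊆ Z ∪ Z0) fun z _ hz => by
        rw [hBz z hz]
        norm_num,
      ← Finset.sum_subset (Finset.subset_union_right : Z0 ⊆ Z ∪ Z0) fun z _ hz => by
        rw [hA z hz]
        norm_num]
    rw [hZ0, Finset.sum_product]
    have h5 : ∀ a ∈ ({⌊x.1⌋, ⌊x.1⌋ + 1} : Finset ℤ),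
        ∑ b ∈ ({⌊x.2⌋, ⌊x.2⌋ + 1} : Finset ℤ), (ψ (x.1 - a) * ψ (x.2 - b)) ^ 2 =
          ψ (x.1 - a) ^ 2 := by
      intro a _
      simp only [mul_pow]
      rw [← Finset.mul_sum, hsum x.2, mul_one]
    rw [Finset.sum_congr rfl h5]
    exact hsum x.1

/-! ### cutoffs -/

/-- families with derivatives of order `r` bounded by a constant times `(2 ^ k) ^ r` -/
def FlB_fam (f : ℕ → E2 → ℝ) : Prop :=
  (∀ k, ContDiff ℝ ∞ (f k)) ∧ ∀ r : ℕ, ∃ C : ℝ, 0 ≤ C ∧ ∀ k x,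
    ‖iteratedFDeriv ℝ r (f k) x‖ ≤ C * ((2 : ℝ) ^ k) ^ r

theorem FlB_fam.mul {f g : ℕ → E2 → ℝ} (hf : FlB_fam f) (hg : FlB_fam g) :
    FlB_fam (fun k x => f k x * g k x) := by
  refine ⟨fun k => (hf.1 k).mul (hg.1 k), fun r => ?_⟩
  choose C hC0 hC using hf.2
  choose D hD0 hD using hg.2
  refine ⟨∑ i ∈ Finset.range (r + 1), (r.choose i : ℝ) * C i * D (r - i),
    Finset.sum_nonneg fun i _ => mul_nonneg (mul_nonneg (Nat.cast_nonneg _) (hC0 i)) (hD0 _),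
    fun k x => ?_⟩
  have h1 := norm_iteratedFDeriv_mul_le (N := ∞) (n := r) (hf.1 k) (hg.1 k) x
    (by exact_mod_cast le_top)
  refine h1.trans ?_
  rw [Finset.sum_mul]
  refine Finset.sum_le_sum fun i hi => ?_
  have hi' : i ≤ r := by
    rw [Finset.mem_range] at hi
    omega
  have e : ((2 : ℝ) ^ k) ^ r = ((2 : ℝ) ^ k) ^ i * ((2 : ℝ) ^ k) ^ (r - i) := by
    rw [← pow_add, Nat.add_sub_cancel' hi']
  calc (r.choose i : ℝ) * ‖iteratedFDeriv ℝ i (f k) x‖ * ‖iteratedFDeriv ℝ (r - i) (g k) x‖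
      ≤ (r.choose i : ℝ) * (C i * ((2 : ℝ) ^ k) ^ i) * (D (r - i) * ((2 : ℝ) ^ k) ^ (r - i)) := by
        refine mul_le_mul (mul_le_mul_of_nonneg_left (hC i k x) (Nat.cast_nonneg _))
          (hD (r - i) k x) (norm_nonneg _) ?_
        have := hC0 i
        positivity
    _ = (r.choose i : ℝ) * C i * D (r - i) * ((2 : ℝ) ^ k) ^ r := by
        rw [e]
        ring

theorem FlB_basic {φ : ℝ → ℝ} (hφ : ContDiff ℝ ∞ φ)
    (hb : ∀ r : ℕ, ∃ C : ℝ, ∀ x, ‖iteratedFDeriv ℝ r φ x‖ ≤ C) (c : ℕ → ℝ) (l : ℝ)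
    (L : E2 →L[ℝ] ℝ) (hL : ‖L‖ ≤ 1) :
    FlB_fam (fun k x => φ (c k + (l * 2 ^ k) * L x)) := by
  have hs : ∀ k, ContDiff ℝ ∞ (fun y : ℝ => φ (c k + y)) := fun k => hφ.comp (by fun_prop)
  refine ⟨fun k => ?_, fun r => ?_⟩
  · exact (hs k).comp (((l * 2 ^ k) • L).contDiff)
  · obtain ⟨C, hC⟩ := hb r
    have hC0 : 0 ≤ C := (norm_nonneg _).trans (hC 0)
    refine ⟨C * |l| ^ r, mul_nonneg hC0 (pow_nonneg (abs_nonneg _) _), fun k x => ?_⟩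
    have h1 := ((l * 2 ^ k) • L).iteratedFDeriv_comp_right (hs k) x (i := r)
      (by exact_mod_cast le_top)
    have h2 : ((fun y : ℝ => φ (c k + y)) ∘ ((l * 2 ^ k) • L : E2 →L[ℝ] ℝ)) =
        fun x => φ (c k + (l * 2 ^ k) * L x) := rfl
    rw [h2] at h1
    rw [h1]
    refine (ContinuousMultilinearMap.norm_compContinuousLinearMap_le _ _).trans ?_
    rw [Finset.prod_const, Finset.card_univ, Fintype.card_fin, iteratedFDeriv_comp_add_left]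
    have h3 : ‖((l * 2 ^ k) • L : E2 →L[ℝ] ℝ)‖ ≤ |l| * 2 ^ k := by
      rw [norm_smul, Real.norm_eq_abs, abs_mul, abs_of_pos (by positivity : (0 : ℝ) < 2 ^ k)]
      calc |l| * 2 ^ k * ‖L‖ ≤ |l| * 2 ^ k * 1 :=
            mul_le_mul_of_nonneg_left hL (by positivity)
        _ = |l| * 2 ^ k := mul_one _
    calc ‖iteratedFDeriv ℝ r φ (c k + ((l * 2 ^ k) • L) x)‖ * ‖((l * 2 ^ k) • L : E2 →L[ℝ] ℝ)‖ ^ r
        ≤ C * (|l| * 2 ^ k) ^ r := by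
          refine mul_le_mul (hC _) (pow_le_pow_left₀ (norm_nonneg _) h3 r)
            (pow_nonneg (norm_nonneg _) _) hC0
      _ = C * |l| ^ r * ((2 : ℝ) ^ k) ^ r := by
          rw [mul_pow]
          ring

/-- radii `5/2 - 2 ^ (-k-1)`: from `2` to `5/2` -/
noncomputable def rad (k : ℕ) : ℝ := 5 / 2 - (1 / 2) ^ (k + 1)

/-- product cutoff with outer radius `o k` and slope `l * 2 ^ k` -/
noncomputable def FlB_cut (φ : ℝ → ℝ) (o : ℕ → ℝ) (l : ℝ) (k : ℕ) (x : E2) : ℝ :=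
  (φ ((o k - x.1) * (l * 2 ^ k)) * φ ((o k + x.1) * (l * 2 ^ k))) *
    (φ ((o k - x.2) * (l * 2 ^ k)) * φ ((o k + x.2) * (l * 2 ^ k)))

theorem FlB_cut_fam {φ : ℝ → ℝ} (hφ : ContDiff ℝ ∞ φ)
    (hb : ∀ r : ℕ, ∃ C : ℝ, ∀ x, ‖iteratedFDeriv ℝ r φ x‖ ≤ C) (o : ℕ → ℝ) (l : ℝ) :
    FlB_fam (FlB_cut φ o l) := by
  have h1 : ∀ L : E2 →L[ℝ] ℝ, ‖L‖ ≤ 1 →
      FlB_fam (fun k x => φ ((o k - L x) * (l * 2 ^ k)) * φ ((o k + L x) * (l * 2 ^ k))) := by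
    intro L hL
    have a1 := FlB_basic hφ hb (fun k => o k * (l * 2 ^ k)) (-l) L hL
    have a2 := FlB_basic hφ hb (fun k => o k * (l * 2 ^ k)) l L hL
    have a3 := a1.mul a2
    have e : (fun (k : ℕ) (x : E2) => φ ((o k - L x) * (l * 2 ^ k)) *
        φ ((o k + L x) * (l * 2 ^ k))) = fun k x => φ (o k * (l * 2 ^ k) + (-l * 2 ^ k) * L x) *
        φ (o k * (l * 2 ^ k) + (l * 2 ^ k) * L x) := by
      funext k x
      congr 2 <;> ring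
    rw [e]
    exact a3
  exact (h1 (ContinuousLinearMap.fst ℝ ℝ ℝ) (ContinuousLinearMap.norm_fst_le _ _ _)).mul
    (h1 (ContinuousLinearMap.snd ℝ ℝ ℝ) (ContinuousLinearMap.norm_snd_le _ _ _))

theorem FlB_cut_zero {φ : ℝ → ℝ} (h0 : ∀ x ≤ 0, φ x = 0) {o : ℕ → ℝ} {l : ℝ} (hl : 0 < l) {k : ℕ}
    {x : E2} (hx : o k ≤ ‖x‖) : FlB_cut φ o l k x = 0 := by
  have hl' : 0 ≤ l * 2 ^ k := by positivity
  rw [Prod.norm_def, le_max_iff, Real.norm_eq_abs, Real.norm_eq_abs] at hx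
  unfold FlB_cut
  rcases hx with h | h
  · rcases le_abs.1 h with h' | h'
    · rw [h0 ((o k - x.1) * (l * 2 ^ k)) (mul_nonpos_of_nonpos_of_nonneg (by linarith) hl')]
      ring
    · rw [h0 ((o k + x.1) * (l * 2 ^ k)) (mul_nonpos_of_nonpos_of_nonneg (by linarith) hl')]
      ring
  · rcases le_abs.1 h with h' | h'
    · rw [h0 ((o k - x.2) * (l * 2 ^ k)) (mul_nonpos_of_nonpos_of_nonneg (by linarith) hl')]
      ring
    · rw [h0 ((o k + x.2) * (l * 2 ^ k)) (mul_nonpos_of_nonpos_of_nonneg (by linarith) hl')]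
      ring

theorem FlB_cut_one {φ : ℝ → ℝ} (h1 : ∀ x, 1 ≤ x → φ x = 1) {o : ℕ → ℝ} {l : ℝ} (hl : 0 < l) {k : ℕ}
    {r : ℝ} (hr : r + l⁻¹ * (1 / 2) ^ k ≤ o k) {x : E2} (hx : ‖x‖ ≤ r) :
    FlB_cut φ o l k x = 1 := by
  have hl' : 0 < l * 2 ^ k := by positivity
  have key : ∀ y : ℝ, l⁻¹ * (1 / 2) ^ k ≤ y → φ (y * (l * 2 ^ k)) = 1 := by
    intro y hy
    apply h1
    calc (1 : ℝ) = l⁻¹ * (1 / 2) ^ k * (l * 2 ^ k) := by
          have e1 : ((1 : ℝ) / 2) ^ k * 2 ^ k = 1 := by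
            rw [← mul_pow]
            norm_num
          calc (1 : ℝ) = (l⁻¹ * l) * (((1 : ℝ) / 2) ^ k * 2 ^ k) := by
                rw [e1, inv_mul_cancel₀ hl.ne', one_mul]
            _ = _ := by ring
      _ ≤ y * (l * 2 ^ k) := mul_le_mul_of_nonneg_right hy hl'.le
  rw [Prod.norm_def, max_le_iff, Real.norm_eq_abs, Real.norm_eq_abs, abs_le, abs_le] at hx
  unfold FlB_cut
  rw [key _ (by linarith [hx.1.2]), key _ (by linarith [hx.1.1]), key _ (by linarith [hx.2.2]),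
    key _ (by linarith [hx.2.1])]
  norm_num

theorem FlB_cut_mem {φ : ℝ → ℝ} (h : ∀ x, 0 ≤ φ x ∧ φ x ≤ 1) (o : ℕ → ℝ) (l : ℝ) (k : ℕ) (x : E2) :
    0 ≤ FlB_cut φ o l k x ∧ FlB_cut φ o l k x ≤ 1 := by
  unfold FlB_cut
  have h1 := h ((o k - x.1) * (l * 2 ^ k))
  have h2 := h ((o k + x.1) * (l * 2 ^ k))
  have h3 := h ((o k - x.2) * (l * 2 ^ k))
  have h4 := h ((o k + x.2) * (l * 2 ^ k))
  exact ⟨mul_nonneg (mul_nonneg h1.1 h2.1) (mul_nonneg h3.1 h4.1),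
    mul_le_one₀ (mul_le_one₀ h1.2 h2.1 h2.2) (mul_nonneg h3.1 h4.1) (mul_le_one₀ h3.2 h4.1 h4.2)⟩

/-- the sequence of flat cutoffs and of ordinary cutoffs: `psi k = 1` on the ball of radius
`rad k`, supported in the ball of radius `rad k + 2 ^ (-k) / 16`; `kap k = 1` on the ball of radius
`rad k + 2 ^ (-k) / 12`, supported in the ball of radius `rad k + 2 ^ (-k) / 8 < rad (k + 1)` -/
theorem exists_cutoffs : ∃ (psi kap : ℕ → E2 → ℝ) (root : ℕ → ℕ → E2 → ℝ) (C : ℕ → ℕ → ℝ),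
    ∀ k : ℕ, (∀ x, 0 ≤ psi k x ∧ psi k x ≤ 1) ∧ (∀ x, ‖x‖ ≤ rad k → psi k x = 1) ∧
      (∀ x, rad k + (1 / 2) ^ k / 16 ≤ ‖x‖ → psi k x = 0) ∧
      (∀ x, 0 ≤ kap k x ∧ kap k x ≤ 1) ∧ (∀ x, ‖x‖ ≤ rad k + (1 / 2) ^ k / 12 → kap k x = 1) ∧
      (∀ x, rad k + (1 / 2) ^ k / 8 ≤ ‖x‖ → kap k x = 0) ∧
      ContDiff ℝ ∞ (kap k) ∧
      (∀ r x, ‖iteratedFDeriv ℝ r (kap k) x‖ ≤ C 0 r * ((2 : ℝ) ^ k) ^ r) ∧
      ∀ n, 1 ≤ n → ContDiff ℝ ∞ (root k n) ∧ (∀ x, 0 ≤ root k n x ∧ root k n x ^ n = psi k x) ∧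
        ∀ r x, ‖iteratedFDeriv ℝ r (root k n) x‖ ≤ C n r * ((2 : ℝ) ^ k) ^ r := by
  obtain ⟨τ, hτ⟩ := exists_transition
  have h1 := hτ 1 le_rfl
  set o : ℕ → ℝ := fun k => rad k + (1 / 2) ^ k / 16 with ho
  set o' : ℕ → ℝ := fun k => rad k + (1 / 2) ^ k / 8 with ho'
  have hkap := FlB_cut_fam h1.1 h1.2.2.2.2.2.2 o' 24
  have hroot : ∀ n, 1 ≤ n → FlB_fam (FlB_cut (τ n) o 16) := fun n hn =>
    FlB_cut_fam (hτ n hn).1 (hτ n hn).2.2.2.2.2.2 o 16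
  have hex : ∀ n r : ℕ, ∃ C : ℝ, (n = 0 → ∀ k x,
      ‖iteratedFDeriv ℝ r (FlB_cut (τ 1) o' 24 k) x‖ ≤ C * ((2 : ℝ) ^ k) ^ r) ∧
      (1 ≤ n → ∀ k x, ‖iteratedFDeriv ℝ r (FlB_cut (τ n) o 16 k) x‖ ≤ C * ((2 : ℝ) ^ k) ^ r) := by
    intro n r
    rcases Nat.eq_zero_or_pos n with hn | hn
    · obtain ⟨C, _, hC⟩ := hkap.2 r
      exact ⟨C, fun _ => hC, fun h => by omega⟩
    · obtain ⟨C, _, hC⟩ := (hroot n hn).2 r
      exact ⟨C, fun h => by omega, fun _ => hC⟩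
  choose C hC0 hC1 using hex
  refine ⟨FlB_cut (τ 1) o 16, FlB_cut (τ 1) o' 24, fun k n => FlB_cut (τ n) o 16 k, C, fun k =>
    ⟨FlB_cut_mem h1.2.1 o 16 k, fun x hx => FlB_cut_one h1.2.2.2.2.1 (by norm_num)
      (r := rad k) ?_ hx, fun x hx => FlB_cut_zero h1.2.2.1 (by norm_num) hx,
      FlB_cut_mem h1.2.1 o' 24 k, fun x hx => FlB_cut_one h1.2.2.2.2.1 (by norm_num)
      (r := rad k + (1 / 2) ^ k / 12) ?_ hx, fun x hx => FlB_cut_zero h1.2.2.1 (by norm_num) hx,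
      hkap.1 k, fun r x => hC0 0 r rfl k x, fun n hn => ⟨(hroot n hn).1 k, fun x => ⟨?_, ?_⟩,
        fun r x => hC1 n r hn k x⟩⟩⟩
  · simp only [ho]
    norm_num
    linarith
  · simp only [ho']
    norm_num
    linarith
  · exact (FlB_cut_mem (hτ n hn).2.1 o 16 k x).1
  · have hp := (hτ n hn).2.2.2.2.2.1
    unfold FlB_cut
    rw [mul_pow, mul_pow, mul_pow, hp, hp, hp, hp]

end P205F
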