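import Mathlib

/-!
# P205F: smooth dependence of a scalar ODE on the initial value

`exists_smooth_flow`: the local flow of `y' = f (t, y)`, `f` smooth on the plane, is smooth jointly
in time and the initial value.  The derivative in the initial value is
`exp (∫₀ᵗ f_y (s, η (s, y)) ds)`, and smoothness follows by a bootstrap.
-/

open scoped ContDiff
open Set

namespace P205F

/-- continuity of the primitive in the first variable, on open rectangles -/
theorem FlowA_cont {a : ℝ} {J : Set ℝ} (hJ : IsOpen J) {g : ℝ × ℝ → ℝ}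
    (hg : ContinuousOn g (Ioo (-a) a ×ˢ J)) :
    ContinuousOn (fun p : ℝ × ℝ => ∫ s in (0 : ℝ)..p.1, g (s, p.2)) (Ioo (-a) a ×ˢ J) := by
  rintro ⟨t, y⟩ ⟨ht, hy⟩
  apply ContinuousAt.continuousWithinAt
  have ht' : |t| < a := abs_lt.2 ht
  obtain ⟨b, hb1, hb2⟩ := exists_between ht'
  have hb0 : 0 < b := lt_of_le_of_lt (abs_nonneg t) hb1
  obtain ⟨δ, hδ, hδJ⟩ := Metric.nhds_basis_closedBall.mem_iff.1 (hJ.mem_nhds hy)
  set G : ℝ → ℝ → ℝ := fun z s => g (max (-b) (min b s), max (y - δ) (min (y + δ) z)) with hG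
  have hGc : Continuous (Function.uncurry G) := by
    have h1 : Continuous (fun p : ℝ × ℝ =>
        ((max (-b) (min b p.2), max (y - δ) (min (y + δ) p.1)) : ℝ × ℝ)) := by fun_prop
    refine hg.comp_continuous h1 ?_
    rintro ⟨z, s⟩
    refine ⟨⟨?_, ?_⟩, hδJ ?_⟩
    · exact lt_of_lt_of_le (by linarith) (le_max_left _ _)
    · exact lt_of_le_of_lt (max_le (by linarith) (min_le_left _ _)) hb2
    · rw [Real.closedBall_eq_Icc]
      exact ⟨le_max_left _ _, max_le (by linarith) (min_le_left _ _)⟩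
  have hP : Continuous (fun p : ℝ × ℝ => ∫ s in (0 : ℝ)..p.2, G p.1 s) :=
    intervalIntegral.continuous_parametric_primitive_of_continuous hGc
  have hP2 : Continuous (fun p : ℝ × ℝ => ∫ s in (0 : ℝ)..p.1, G p.2 s) :=
    hP.comp continuous_swap
  refine hP2.continuousAt.congr ?_
  have hU : Ioo (-b) b ×ˢ Ioo (y - δ) (y + δ) ∈ nhds (t, y) :=
    prod_mem_nhds (Ioo_mem_nhds (abs_lt.1 hb1).1 (abs_lt.1 hb1).2)
      (Ioo_mem_nhds (by linarith) (by linarith))
  filter_upwards [hU]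
  rintro ⟨u, z⟩ ⟨hu, hz⟩
  apply intervalIntegral.integral_congr
  intro s hs
  have hs1 : |s| ≤ |u| := by
    have := abs_sub_left_of_mem_uIcc hs
    simpa using this
  have hu1 : |u| < b := abs_lt.2 hu
  have hs2 : |s| < b := lt_of_le_of_lt hs1 hu1
  rw [abs_lt] at hs2
  simp only [hG]
  rw [min_eq_right hs2.2.le, max_eq_right hs2.1.le, min_eq_right hz.2.le, max_eq_right hz.1.le]

/-- the primitive is differentiable in the parameter -/
theorem FlowA_deriv {a : ℝ} {J : Set ℝ} (hJ : IsOpen J) {g gy : ℝ × ℝ → ℝ}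
    (hg : ContinuousOn g (Ioo (-a) a ×ˢ J)) (hgy : ContinuousOn gy (Ioo (-a) a ×ˢ J))
    (hd : ∀ t ∈ Ioo (-a) a, ∀ y ∈ J, HasDerivAt (fun z => g (t, z)) (gy (t, y)) y)
    {t : ℝ} (ht : t ∈ Ioo (-a) a) {y : ℝ} (hy : y ∈ J) :
    HasDerivAt (fun z => ∫ s in (0 : ℝ)..t, g (s, z)) (∫ s in (0 : ℝ)..t, gy (s, y)) y := by
  have ht' : |t| < a := abs_lt.2 ht
  have hI : uIcc 0 t ⊆ Ioo (-a) a := by
    intro s hs
    have h1 := abs_sub_left_of_mem_uIcc hs
    have h2 : |s| ≤ |t| := by simpa using h1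
    exact abs_lt.1 (lt_of_le_of_lt h2 ht')
  obtain ⟨δ, hδ, hδJ⟩ := Metric.nhds_basis_closedBall.mem_iff.1 (hJ.mem_nhds hy)
  have hK : IsCompact (uIcc 0 t ×ˢ Metric.closedBall y δ) :=
    isCompact_uIcc.prod (isCompact_closedBall y δ)
  have hKs : uIcc 0 t ×ˢ Metric.closedBall y δ ⊆ Ioo (-a) a ×ˢ J := prod_mono hI hδJ
  obtain ⟨C, hC⟩ := hK.exists_bound_of_continuousOn (hgy.mono hKs)
  have hcs : ∀ h : ℝ × ℝ → ℝ, ContinuousOn h (Ioo (-a) a ×ˢ J) → ∀ z ∈ J,
      ContinuousOn (fun s => h (s, z)) (uIcc 0 t) := by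
    intro h hh z hz
    refine hh.comp (by fun_prop) ?_
    intro s hs
    exact ⟨hI hs, hz⟩
  refine (intervalIntegral.hasDerivAt_integral_of_dominated_loc_of_deriv_le
    (F := fun z s => g (s, z)) (F' := fun z s => gy (s, z)) (bound := fun _ => C)
    (s := Metric.closedBall y δ) (Metric.closedBall_mem_nhds y hδ) ?_ ?_ ?_ ?_ ?_ ?_).2
  · filter_upwards [hJ.mem_nhds hy] with z hz
    exact ((hcs g hg z hz).mono uIoc_subset_uIcc).aestronglyMeasurable measurableSet_uIoc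
  · exact (hcs g hg y hy).intervalIntegrable
  · exact ((hcs gy hgy y hy).mono uIoc_subset_uIcc).aestronglyMeasurable measurableSet_uIoc
  · refine Filter.Eventually.of_forall fun s hs z hz => hC (s, z) ⟨uIoc_subset_uIcc hs, hz⟩
  · exact intervalIntegrable_const
  · refine Filter.Eventually.of_forall fun s hs z hz => hd s (hI (uIoc_subset_uIcc hs)) z (hδJ hz)

/-- partial derivatives of class `C^k` on an open set give a function of class `C^(k+1)` -/
theorem FlowA_succ {U : Set (ℝ × ℝ)} (hU : IsOpen U) {F F1 F2 : ℝ × ℝ → ℝ} {k : ℕ}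
    (h1 : ∀ p ∈ U, HasDerivAt (fun s => F (s, p.2)) (F1 p) p.1)
    (h2 : ∀ p ∈ U, HasDerivAt (fun s => F (p.1, s)) (F2 p) p.2)
    (c1 : ContDiffOn ℝ k F1 U) (c2 : ContDiffOn ℝ k F2 U) : ContDiffOn ℝ (k + 1) F U := by
  have hF : ∀ p ∈ U, HasFDerivAt F
      ((ContinuousLinearMap.toSpanSingleton ℝ (F1 p)).coprod
        (ContinuousLinearMap.toSpanSingleton ℝ (F2 p))) p := by
    intro p hp
    have hU' : U ∈ nhds p := hU.mem_nhds hp
    have k1 : ContinuousAt (fun q : ℝ × ℝ => ContinuousLinearMap.toSpanSingleton ℝ (F1 q)) p := by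
      have := (c1.continuousOn.continuousAt hU')
      exact (ContinuousLinearMap.toSpanSingletonCLE
        (𝕜 := ℝ) (E := ℝ)).continuous.continuousAt.comp this
    have k2 : ContinuousAt (fun q : ℝ × ℝ => ContinuousLinearMap.toSpanSingleton ℝ (F2 q)) p := by
      have := (c2.continuousOn.continuousAt hU')
      exact (ContinuousLinearMap.toSpanSingletonCLE
        (𝕜 := ℝ) (E := ℝ)).continuous.continuousAt.comp this
    have := hasStrictFDerivAt_uncurry_coprod (𝕜 := ℝ) (u := p) (f := fun x y => F (x, y))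
      (f₁ := fun x y => ContinuousLinearMap.toSpanSingleton ℝ (F1 (x, y)))
      (f₂ := fun x y => ContinuousLinearMap.toSpanSingleton ℝ (F2 (x, y)))
      (by filter_upwards [hU'] with v hv using (h1 v hv).hasFDerivAt)
      (by filter_upwards [hU'] with v hv using (h2 v hv).hasFDerivAt) k1 k2
    exact this.hasFDerivAt
  rw [contDiffOn_succ_iff_fderiv_of_isOpen hU]
  refine ⟨fun p hp => (hF p hp).differentiableAt.differentiableWithinAt, by simp, ?_⟩
  have hc : ContDiffOn ℝ k (fun p : ℝ × ℝ => (F1 p) • ContinuousLinearMap.fst ℝ ℝ ℝ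
      + (F2 p) • ContinuousLinearMap.snd ℝ ℝ ℝ) U :=
    (c1.smul contDiffOn_const).add (c2.smul contDiffOn_const)
  refine hc.congr fun p hp => ?_
  rw [(hF p hp).fderiv]
  ext <;> simp

/-- the primitive in the first variable of a `C^k` function is `C^k` -/
theorem FlowA_prim {a : ℝ} {J : Set ℝ} (hJ : IsOpen J) (k : ℕ) : ∀ g : ℝ × ℝ → ℝ,
    ContDiffOn ℝ k g (Ioo (-a) a ×ˢ J) →
    ContDiffOn ℝ k (fun p : ℝ × ℝ => ∫ s in (0 : ℝ)..p.1, g (s, p.2)) (Ioo (-a) a ×ˢ J) := by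
  induction k with
  | zero =>
    intro g hg
    simp only [Nat.cast_zero] at hg ⊢
    rw [contDiffOn_zero] at hg ⊢
    exact FlowA_cont hJ hg
  | succ k ih =>
    intro g hg
    have hU : IsOpen (Ioo (-a) a ×ˢ J) := isOpen_Ioo.prod hJ
    have hg' := hg
    simp only [Nat.cast_succ] at hg' ⊢
    rw [contDiffOn_succ_iff_fderiv_of_isOpen hU] at hg'
    obtain ⟨hd, -, hc⟩ := hg'
    have hgk : ContDiffOn ℝ k g (Ioo (-a) a ×ˢ J) := hg.of_le (by norm_cast; omega)
    have hgy : ContDiffOn ℝ k (fun p => fderiv ℝ g p (0, 1)) (Ioo (-a) a ×ˢ J) :=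
      hc.clm_apply contDiffOn_const
    refine FlowA_succ hU (F1 := g)
      (F2 := fun p : ℝ × ℝ => ∫ s in (0 : ℝ)..p.1, fderiv ℝ g (s, p.2) (0, 1)) ?_ ?_ hgk (ih _ hgy)
    · rintro ⟨t, y⟩ ⟨ht, hy⟩
      have hct : ContinuousOn (fun s => g (s, y)) (Ioo (-a) a) :=
        hg.continuousOn.comp (by fun_prop) fun s hs => ⟨hs, hy⟩
      have ht' : |t| < a := abs_lt.2 ht
      have hI : uIcc 0 t ⊆ Ioo (-a) a := by
        intro s hs
        have h1 := abs_sub_left_of_mem_uIcc hs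
        have h2 : |s| ≤ |t| := by simpa using h1
        exact abs_lt.1 (lt_of_le_of_lt h2 ht')
      exact intervalIntegral.integral_hasDerivAt_right (hct.mono hI).intervalIntegrable
        (hct.stronglyMeasurableAtFilter isOpen_Ioo t ht)
        (hct.continuousAt (isOpen_Ioo.mem_nhds ht))
    · rintro ⟨t, y⟩ ⟨ht, hy⟩
      refine FlowA_deriv hJ (g := g) (gy := fun p => fderiv ℝ g p (0, 1)) hg.continuousOn
        hgy.continuousOn ?_ ht hy
      intro s hs z hz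
      have h1 : HasFDerivAt g (fderiv ℝ g (s, z)) (s, z) :=
        ((hd (s, z) ⟨hs, hz⟩).differentiableAt (hU.mem_nhds ⟨hs, hz⟩)).hasFDerivAt
      have h2 : HasDerivAt (fun w : ℝ => ((s, w) : ℝ × ℝ)) (0, 1) z :=
        (hasDerivAt_const z s).prodMk (hasDerivAt_id z)
      exact h1.comp_hasDerivAt z h2

/-- the difference quotient of `f` in the second variable -/
noncomputable def FlowA_q (f : ℝ × ℝ → ℝ) (s x y : ℝ) : ℝ :=
  ∫ u in (0 : ℝ)..1, fderiv ℝ f (s, x + u * (y - x)) (0, 1)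

theorem FlowA_q_cont {f : ℝ × ℝ → ℝ} (hf : ContDiff ℝ ∞ f) :
    Continuous (fun p : ℝ × ℝ × ℝ => FlowA_q f p.1 p.2.1 p.2.2) := by
  have h1 : Continuous (fderiv ℝ f) := hf.continuous_fderiv (by simp)
  unfold FlowA_q
  apply intervalIntegral.continuous_parametric_intervalIntegral_of_continuous'
  have h2 : Continuous (fun p : (ℝ × ℝ × ℝ) × ℝ =>
      ((p.1.1, p.1.2.1 + p.2 * (p.1.2.2 - p.1.2.1)) : ℝ × ℝ)) := by fun_prop
  exact (h1.comp h2).clm_apply continuous_const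

theorem FlowA_q_self {f : ℝ × ℝ → ℝ} (s x : ℝ) :
    FlowA_q f s x x = fderiv ℝ f (s, x) (0, 1) := by
  simp [FlowA_q]

theorem FlowA_q_mul {f : ℝ × ℝ → ℝ} (hf : ContDiff ℝ ∞ f) (s x y : ℝ) :
    f (s, y) - f (s, x) = (y - x) * FlowA_q f s x y := by
  have h1 : Continuous (fderiv ℝ f) := hf.continuous_fderiv (by simp)
  have h2 : ∀ u : ℝ, HasDerivAt (fun u : ℝ => f (s, x + u * (y - x)))
      ((y - x) * fderiv ℝ f (s, x + u * (y - x)) (0, 1)) u := by
    intro u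
    have h3 : HasFDerivAt f (fderiv ℝ f (s, x + u * (y - x))) (s, x + u * (y - x)) :=
      ((hf.differentiable (by simp)) _).hasFDerivAt
    have h4 : HasDerivAt (fun u : ℝ => ((s, x + u * (y - x)) : ℝ × ℝ)) (0, y - x) u := by
      refine (hasDerivAt_const u s).prodMk ?_
      simpa using ((hasDerivAt_id u).mul_const (y - x)).const_add x
    have h5 := h3.comp_hasDerivAt u h4
    have h6 : ((0, y - x) : ℝ × ℝ) = (y - x) • ((0, 1) : ℝ × ℝ) := by simp
    rw [h6, map_smul, smul_eq_mul] at h5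
    exact h5
  have h7 : Continuous (fun u : ℝ => (y - x) * fderiv ℝ f (s, x + u * (y - x)) (0, 1)) := by
    have h8 : Continuous (fun u : ℝ => ((s, x + u * (y - x)) : ℝ × ℝ)) := by fun_prop
    exact continuous_const.mul ((h1.comp h8).clm_apply continuous_const)
  have h9 := intervalIntegral.integral_eq_sub_of_hasDerivAt (a := 0) (b := 1)
    (fun u _ => h2 u) (h7.intervalIntegrable 0 1)
  rw [intervalIntegral.integral_const_mul] at h9
  rw [FlowA_q, h9]
  simp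

/-- the derivative of the flow in the initial value -/
theorem FlowA_eta_y {f : ℝ × ℝ → ℝ} (hf : ContDiff ℝ ∞ f) {a : ℝ} (ha : 0 < a) {J : Set ℝ}
    (hJ : IsOpen J) {η : ℝ × ℝ → ℝ} (hη : ContinuousOn η (Ioo (-a) a ×ˢ J))
    (h0 : ∀ y ∈ J, η (0, y) = y)
    (hd : ∀ t ∈ Ioo (-a) a, ∀ y ∈ J, HasDerivAt (fun s => η (s, y)) (f (t, η (t, y))) t)
    {t : ℝ} (ht : t ∈ Ioo (-a) a) {y : ℝ} (hy : y ∈ J) :
    HasDerivAt (fun z => η (t, z))
      (Real.exp (∫ s in (0 : ℝ)..t, fderiv ℝ f (s, η (s, y)) (0, 1))) y := by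
  set w : ℝ × ℝ → ℝ := fun p => FlowA_q f p.1 (η (p.1, y)) (η p) with hw
  have hwc : ContinuousOn w (Ioo (-a) a ×ˢ J) := by
    have h1 : ContinuousOn (fun p : ℝ × ℝ => η (p.1, y)) (Ioo (-a) a ×ˢ J) :=
      hη.comp (by fun_prop) fun p hp => ⟨hp.1, hy⟩
    exact (FlowA_q_cont hf).comp_continuousOn
      (continuous_fst.continuousOn.prodMk (h1.prodMk hη))
  set W : ℝ × ℝ → ℝ := fun p => ∫ s in (0 : ℝ)..p.1, w (s, p.2) with hW
  have hWc : ContinuousOn W (Ioo (-a) a ×ˢ J) := FlowA_cont hJ hwc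
  have h00 : (0 : ℝ) ∈ Ioo (-a) a := ⟨by linarith, ha⟩
  have key : ∀ z ∈ J, η (t, z) - η (t, y) = (z - y) * Real.exp (W (t, z)) := by
    intro z hz
    have hWd : ∀ u ∈ Ioo (-a) a, HasDerivAt (fun s => W (s, z)) (w (u, z)) u := by
      intro u hu
      have hct : ContinuousOn (fun s => w (s, z)) (Ioo (-a) a) :=
        hwc.comp (by fun_prop) fun s hs => ⟨hs, hz⟩
      have hu' : |u| < a := abs_lt.2 hu
      have hI : uIcc 0 u ⊆ Ioo (-a) a := by
        intro s hs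
        have h1 := abs_sub_left_of_mem_uIcc hs
        have h2 : |s| ≤ |u| := by simpa using h1
        exact abs_lt.1 (lt_of_le_of_lt h2 hu')
      exact intervalIntegral.integral_hasDerivAt_right (hct.mono hI).intervalIntegrable
        (hct.stronglyMeasurableAtFilter isOpen_Ioo u hu)
        (hct.continuousAt (isOpen_Ioo.mem_nhds hu))
    have hD : ∀ u ∈ Ioo (-a) a, HasDerivAt
        (fun s => (η (s, z) - η (s, y)) * Real.exp (-(W (s, z)))) 0 u := by
      intro u hu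
      have h1 := ((hd u hu z hz).sub (hd u hu y hy)).mul (hWd u hu).neg.exp
      have h2 : f (u, η (u, z)) - f (u, η (u, y)) = (η (u, z) - η (u, y)) * w (u, z) :=
        FlowA_q_mul hf u (η (u, y)) (η (u, z))
      have h3 : (f (u, η (u, z)) - f (u, η (u, y))) * Real.exp (-(W (u, z)))
          + (η (u, z) - η (u, y)) * (Real.exp (-(W (u, z))) * -w (u, z)) = 0 := by
        rw [h2]
        ring
      exact h1.congr_deriv h3
    have hconst := isOpen_Ioo.is_const_of_deriv_eq_zero isPreconnected_Ioo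
      (fun u hu => (hD u hu).differentiableAt.differentiableWithinAt)
      (fun u hu => (hD u hu).deriv) ht h00
    have hW0 : W (0, z) = 0 := by simp [hW]
    rw [h0 z hz, h0 y hy, hW0, neg_zero, Real.exp_zero, mul_one, Real.exp_neg] at hconst
    rw [← hconst, mul_assoc, inv_mul_cancel₀ (Real.exp_ne_zero _), mul_one]
  have hWt : ContinuousAt (fun z => Real.exp (W (t, z))) y := by
    have h1 : ContinuousAt W (t, y) :=
      hWc.continuousAt ((isOpen_Ioo.prod hJ).mem_nhds ⟨ht, hy⟩)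
    have h2 : ContinuousAt (fun z => W (t, z)) y :=
      ContinuousAt.comp (f := fun z : ℝ => ((t, z) : ℝ × ℝ)) h1 (by fun_prop)
    exact h2.rexp
  have hval : (∫ s in (0 : ℝ)..t, fderiv ℝ f (s, η (s, y)) (0, 1)) = W (t, y) := by
    simp only [hW, hw, FlowA_q_self]
  rw [hval, hasDerivAt_iff_tendsto_slope]
  have h3 : Filter.Tendsto (fun z => Real.exp (W (t, z))) (nhdsWithin y {y}ᶜ)
      (nhds (Real.exp (W (t, y)))) := hWt.tendsto.mono_left nhdsWithin_le_nhds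
  refine h3.congr' ?_
  filter_upwards [self_mem_nhdsWithin, nhdsWithin_le_nhds (hJ.mem_nhds hy)] with z hz hzJ
  have hzy : z - y ≠ 0 := sub_ne_zero.2 hz
  rw [slope_def_field, key z hzJ, mul_div_assoc, mul_comm, div_mul_cancel₀ _ hzy]

/-- a continuous flow on an open rectangle is smooth -/
theorem FlowA_smooth {f : ℝ × ℝ → ℝ} (hf : ContDiff ℝ ∞ f) {a : ℝ} (ha : 0 < a) {J : Set ℝ}
    (hJ : IsOpen J) {η : ℝ × ℝ → ℝ} (hη : ContinuousOn η (Ioo (-a) a ×ˢ J))
    (h0 : ∀ y ∈ J, η (0, y) = y)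
    (hd : ∀ t ∈ Ioo (-a) a, ∀ y ∈ J, HasDerivAt (fun s => η (s, y)) (f (t, η (t, y))) t) :
    ContDiffOn ℝ ∞ η (Ioo (-a) a ×ˢ J) := by
  rw [contDiffOn_infty]
  intro k
  induction k with
  | zero =>
    simp only [Nat.cast_zero]
    rw [contDiffOn_zero]
    exact hη
  | succ k ih =>
    simp only [Nat.cast_succ]
    have hpair : ContDiffOn ℝ k (fun p : ℝ × ℝ => ((p.1, η p) : ℝ × ℝ)) (Ioo (-a) a ×ˢ J) :=
      contDiff_fst.contDiffOn.prodMk ih
    have hfk : ContDiff ℝ k f := hf.of_le (by exact_mod_cast le_top)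
    have hf' : ContDiff ℝ ∞ (fun p => fderiv ℝ f p (0, 1)) :=
      (hf.fderiv_right (by simp)).clm_apply contDiff_const
    have hfk' : ContDiff ℝ k (fun p => fderiv ℝ f p (0, 1)) :=
      hf'.of_le (by exact_mod_cast le_top)
    have hg : ContDiffOn ℝ k (fun p : ℝ × ℝ => fderiv ℝ f (p.1, η p) (0, 1))
        (Ioo (-a) a ×ˢ J) := hfk'.comp_contDiffOn hpair
    refine FlowA_succ (isOpen_Ioo.prod hJ) (F1 := fun p => f (p.1, η p))
      (F2 := fun p : ℝ × ℝ =>
        Real.exp (∫ s in (0 : ℝ)..p.1, fderiv ℝ f (s, η (s, p.2)) (0, 1))) ?_ ?_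
      (hfk.comp_contDiffOn hpair) ((FlowA_prim hJ k _ hg).exp)
    · rintro ⟨t, y⟩ ⟨ht, hy⟩
      exact hd t ht y hy
    · rintro ⟨t, y⟩ ⟨ht, hy⟩
      exact FlowA_eta_y hf ha hJ hη h0 hd ht hy

theorem exists_smooth_flow (f : ℝ × ℝ → ℝ) (hf : ContDiff ℝ ∞ f) (y₀ : ℝ) :
    ∃ ε : ℝ, 0 < ε ∧ ∃ η : ℝ × ℝ → ℝ, ContDiffOn ℝ ∞ η (Ioo (-ε) ε ×ˢ Ioo (y₀ - ε) (y₀ + ε)) ∧
      (∀ y ∈ Ioo (y₀ - ε) (y₀ + ε), η (0, y) = y) ∧
      ∀ t ∈ Ioo (-ε) ε, ∀ y ∈ Ioo (y₀ - ε) (y₀ + ε),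
        HasDerivAt (fun s => η (s, y)) (f (t, η (t, y))) t := by
  have hf1 : ContDiffAt ℝ 1 f (0, y₀) := (hf.of_le (by exact_mod_cast le_top)).contDiffAt
  obtain ⟨K, s, hs, hK⟩ := hf1.exists_lipschitzOnWith
  obtain ⟨δ, hδ, hδs⟩ := Metric.nhds_basis_closedBall.mem_iff.1 hs
  have hmem : ∀ t ∈ Icc (-δ) δ, ∀ y ∈ Metric.closedBall y₀ δ, ((t, y) : ℝ × ℝ) ∈ s := by
    intro t ht y hy
    apply hδs
    rw [Metric.mem_closedBall, Prod.dist_eq]
    refine max_le ?_ hy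
    rw [Real.dist_eq, sub_zero]
    exact abs_le.2 ht
  obtain ⟨C, hC⟩ := (isCompact_Icc.prod (isCompact_closedBall y₀ δ)).exists_bound_of_continuousOn
    (s := Icc (-δ) δ ×ˢ Metric.closedBall y₀ δ) hf.continuous.continuousOn
  set L : NNReal := ⟨|C| + 1, by positivity⟩ with hL
  have hLv : (L : ℝ) = |C| + 1 := rfl
  have hL0 : (0 : ℝ) < (L : ℝ) := by
    rw [hLv]
    positivity
  have hCL : C ≤ (L : ℝ) := by
    rw [hLv]
    exact (le_abs_self C).trans (by linarith)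
  set T : ℝ := min δ (δ / 2 / L) with hT
  have hT0 : 0 < T := lt_min hδ (by positivity)
  have hTδ : T ≤ δ := min_le_left _ _
  have hTL : (L : ℝ) * T ≤ δ / 2 := by
    have h1 : T ≤ δ / 2 / L := min_le_right _ _
    calc (L : ℝ) * T ≤ L * (δ / 2 / L) := by gcongr
      _ = δ / 2 := by field_simp
  set A : NNReal := ⟨δ, hδ.le⟩ with hA
  set r : NNReal := ⟨δ / 2, by positivity⟩ with hr
  have hsub : Icc (-T) T ⊆ Icc (-δ) δ := Icc_subset_Icc (by linarith) hTδ
  have hPL : IsPicardLindelof (fun t y => f (t, y)) (tmin := -T) (tmax := T)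
      ⟨0, by constructor <;> linarith⟩ y₀ A r L K := by
    refine ⟨?_, ?_, ?_, ?_⟩
    · intro t ht
      refine LipschitzOnWith.of_dist_le_mul fun y hy z hz => ?_
      have h1 := hK.dist_le_mul (t, y) (hmem t (hsub ht) y hy) (t, z) (hmem t (hsub ht) z hz)
      refine h1.trans (le_of_eq ?_)
      rw [Prod.dist_eq]
      simp
    · intro y _
      have : Continuous (fun t => f (t, y)) := hf.continuous.comp (by fun_prop)
      exact this.continuousOn
    · intro t ht y hy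
      exact (hC (t, y) ⟨hsub ht, hy⟩).trans hCL
    · simp only [sub_zero, zero_sub, neg_neg, max_self]
      have hAv : (A : ℝ) = δ := rfl
      have hrv : (r : ℝ) = δ / 2 := rfl
      have h1 : ((A : ℝ) - (r : ℝ)) = δ / 2 := by
        rw [hAv, hrv]
        ring
      rw [h1]
      exact hTL
  obtain ⟨α, hα, hαc⟩ := hPL.exists_forall_mem_closedBall_eq_hasDerivWithinAt_continuousOn
  set ε : ℝ := min T (δ / 2) with hε
  have hε0 : 0 < ε := lt_min hT0 (by positivity)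
  have hεT : ε ≤ T := min_le_left _ _
  have hεr : ε ≤ δ / 2 := min_le_right _ _
  have hball : ∀ y ∈ Ioo (y₀ - ε) (y₀ + ε), y ∈ Metric.closedBall y₀ (r : ℝ) := by
    intro y hy
    rw [Real.closedBall_eq_Icc]
    have h1 : (r : ℝ) = δ / 2 := rfl
    rw [h1]
    exact ⟨by linarith [hy.1], by linarith [hy.2]⟩
  have htime : ∀ t ∈ Ioo (-ε) ε, t ∈ Ioo (-T) T := by
    intro t ht
    exact ⟨by linarith [ht.1], by linarith [ht.2]⟩
  set η : ℝ × ℝ → ℝ := fun p => α (p.2, p.1) with hη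
  have hηc : ContinuousOn η (Ioo (-ε) ε ×ˢ Ioo (y₀ - ε) (y₀ + ε)) := by
    refine hαc.comp (f := fun p : ℝ × ℝ => ((p.2, p.1) : ℝ × ℝ)) (by fun_prop) ?_
    rintro ⟨t, y⟩ ⟨ht, hy⟩
    exact ⟨hball y hy, Ioo_subset_Icc_self (htime t ht)⟩
  have hη0 : ∀ y ∈ Ioo (y₀ - ε) (y₀ + ε), η (0, y) = y := fun y hy => (hα y (hball y hy)).1
  have hηd : ∀ t ∈ Ioo (-ε) ε, ∀ y ∈ Ioo (y₀ - ε) (y₀ + ε),
      HasDerivAt (fun s => η (s, y)) (f (t, η (t, y))) t := by
    intro t ht y hy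
    have h1 := (hα y (hball y hy)).2 t (Ioo_subset_Icc_self (htime t ht))
    exact h1.hasDerivAt (Icc_mem_nhds (htime t ht).1 (htime t ht).2)
  exact ⟨ε, hε0, η, FlowA_smooth hf hε0 isOpen_Ioo hηc hη0 hηd, hη0, hηd⟩

end P205F
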