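import Vale.Agent.Lib.P205F.GDefs

/-! # P205F module GTm: the growth class of part T -/

open scoped ContDiff Topology
open Set

namespace P205F

private theorem GTm_neg {d c : ℝ} (h0 : 0 < d) (h1 : d ≤ 1) (hc : 0 < c) : 1 ≤ d ^ (-c) :=
  Real.one_le_rpow_of_pos_of_le_one_of_nonpos h0 h1 (by linarith)

theorem GTmem.const {ι : Type} {Lam δ : ι → ℝ} (hL : ∀ i, 1 ≤ Lam i) (h0 : ∀ i, 0 < δ i)
    (h1 : ∀ i, δ i ≤ 1) (c : ℝ) (hc : 1 ≤ c) : GTmem Lam δ (fun _ => c) := by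
  refine ⟨fun _ => hc, fun d hd => ⟨⌈c⌉₊, fun i => ?_⟩⟩
  have h2 : c ≤ (⌈c⌉₊ : ℝ) := Nat.le_ceil c
  have h3 : 1 ≤ Lam i ^ ⌈c⌉₊ := one_le_pow₀ (hL i)
  have h4 := GTm_neg (h0 i) (h1 i) hd
  calc c ≤ (⌈c⌉₊ : ℝ) := h2
    _ = ⌈c⌉₊ * 1 * 1 := by ring
    _ ≤ ⌈c⌉₊ * Lam i ^ ⌈c⌉₊ * (δ i) ^ (-d) := by
        have h5 : (0 : ℝ) ≤ ⌈c⌉₊ := by positivity
        exact mul_le_mul (mul_le_mul_of_nonneg_left h3 h5) h4 zero_le_one
          (mul_nonneg h5 (by linarith))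

theorem GTmem.lam {ι : Type} {Lam δ : ι → ℝ} (hL : ∀ i, 1 ≤ Lam i) (h0 : ∀ i, 0 < δ i)
    (h1 : ∀ i, δ i ≤ 1) (m : ℕ) : GTmem Lam δ (fun i => Lam i ^ m) := by
  refine ⟨fun i => one_le_pow₀ (hL i), fun d hd => ⟨m + 1, fun i => ?_⟩⟩
  have h4 := GTm_neg (h0 i) (h1 i) hd
  have h5 : Lam i ^ m ≤ Lam i ^ (m + 1) := pow_le_pow_right₀ (hL i) (Nat.le_succ m)
  have h6 : (0 : ℝ) ≤ Lam i ^ (m + 1) := pow_nonneg (by linarith [hL i]) _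
  have h7 : (1 : ℝ) ≤ ((m + 1 : ℕ) : ℝ) := by
    push_cast
    have : (0 : ℝ) ≤ m := by positivity
    linarith
  calc Lam i ^ m ≤ Lam i ^ (m + 1) := h5
    _ = 1 * Lam i ^ (m + 1) * 1 := by ring
    _ ≤ ((m + 1 : ℕ) : ℝ) * Lam i ^ (m + 1) * (δ i) ^ (-d) :=
        mul_le_mul (mul_le_mul_of_nonneg_right h7 h6) h4 zero_le_one
          (mul_nonneg (by linarith) h6)

theorem GTmem.mul {ι : Type} {Lam δ : ι → ℝ} (hL : ∀ i, 1 ≤ Lam i) (h0 : ∀ i, 0 < δ i)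
    (h1 : ∀ i, δ i ≤ 1) {f g : ι → ℝ} (hf : GTmem Lam δ f) (hg : GTmem Lam δ g) :
    GTmem Lam δ (fun i => f i * g i) := by
  refine ⟨fun i => ?_, fun c hc => ?_⟩
  · have h2 := hf.1 i
    have h3 := hg.1 i
    nlinarith
  · obtain ⟨C, hC⟩ := hf.2 (c / 2) (by linarith)
    obtain ⟨D, hD⟩ := hg.2 (c / 2) (by linarith)
    refine ⟨C * D + C + D, fun i => ?_⟩
    have hLi := hL i
    have hδ := h0 i
    have e1 : (δ i) ^ (-(c / 2)) * (δ i) ^ (-(c / 2)) = (δ i) ^ (-c) := by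
      rw [← Real.rpow_add hδ]
      congr 1
      ring
    have p1 : (0 : ℝ) ≤ (δ i) ^ (-c) := Real.rpow_nonneg hδ.le _
    have p2 : (0 : ℝ) ≤ Lam i ^ (C + D) := pow_nonneg (by linarith) _
    have e2 : Lam i ^ (C + D) ≤ Lam i ^ (C * D + C + D) :=
      pow_le_pow_right₀ hLi (by nlinarith [Nat.zero_le (C * D)])
    have e3 : (C : ℝ) * D ≤ ((C * D + C + D : ℕ) : ℝ) := by
      push_cast
      have a1 : (0 : ℝ) ≤ C := by positivity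
      have a2 : (0 : ℝ) ≤ D := by positivity
      linarith
    have a3 : (0 : ℝ) ≤ (C : ℝ) * D := by positivity
    calc f i * g i ≤ (C * Lam i ^ C * (δ i) ^ (-(c / 2))) * (D * Lam i ^ D * (δ i) ^ (-(c / 2))) :=
          mul_le_mul (hC i) (hD i) (by linarith [hg.1 i]) (le_trans (by linarith [hf.1 i]) (hC i))
      _ = ((C : ℝ) * D) * Lam i ^ (C + D) * ((δ i) ^ (-(c / 2)) * (δ i) ^ (-(c / 2))) := by
          rw [pow_add]; ring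
      _ = ((C : ℝ) * D) * Lam i ^ (C + D) * (δ i) ^ (-c) := by rw [e1]
      _ ≤ ((C * D + C + D : ℕ) : ℝ) * Lam i ^ (C * D + C + D) * (δ i) ^ (-c) :=
          mul_le_mul_of_nonneg_right (mul_le_mul e3 e2 p2 (a3.trans e3)) p1

theorem GTmem.down {ι : Type} {Lam δ : ι → ℝ} {f g : ι → ℝ} (hg : GTmem Lam δ g)
    (h1 : ∀ i, 1 ≤ f i) (h : ∀ i, f i ≤ g i) : GTmem Lam δ f := by
  refine ⟨h1, fun c hc => ?_⟩
  obtain ⟨C, hC⟩ := hg.2 c hc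
  exact ⟨C, fun i => (h i).trans (hC i)⟩

/-- the growth class -/
def GT {ι : Type} (Lam δ : ι → ℝ) (hL : ∀ i, 1 ≤ Lam i) (h0 : ∀ i, 0 < δ i)
    (h1 : ∀ i, δ i ≤ 1) : Growth ι where
  mem := {g | GTmem Lam δ g}
  one_le := fun _ hg i => hg.1 i
  const := fun c hc => GTmem.const hL h0 h1 c hc
  mul := fun _ hf _ hg => GTmem.mul hL h0 h1 hf hg
  down := fun _ hg _ h1 h => GTmem.down hg h1 h

/-- small powers of `δ` beat the growth class -/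
theorem GTmem.beats {ι : Type} {Lam δ : ι → ℝ} (hL : ∀ i, 1 ≤ Lam i) (h0 : ∀ i, 0 < δ i)
    (h1 : ∀ i, δ i ≤ 1) {g : ι → ℝ} (hg : GTmem Lam δ g) {a : ℝ} (ha : 0 < a) :
    ∃ C : ℕ, ∀ i, C * Lam i ^ C * δ i ≤ 1 → g i * (δ i) ^ a ≤ 1 := by
  obtain ⟨C, hC⟩ := hg.2 (a / 2) (by linarith)
  refine ⟨⌈2 * C / a⌉₊ + ⌈(C : ℝ) ^ (2 / a)⌉₊ + 1, fun i hi => ?_⟩
  set D : ℕ := ⌈2 * C / a⌉₊ + ⌈(C : ℝ) ^ (2 / a)⌉₊ + 1 with hD
  have hLi := hL i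
  have hL0 : 0 < Lam i := by linarith
  have hδ := h0 i
  have c0 : (0 : ℝ) ≤ C := by positivity
  have d1 : 2 * C / a ≤ D := by
    have h2 := Nat.le_ceil (2 * (C : ℝ) / a)
    rw [hD]
    push_cast
    have : (0 : ℝ) ≤ (⌈(C : ℝ) ^ (2 / a)⌉₊ : ℝ) := by positivity
    linarith
  have d2 : (C : ℝ) ^ (2 / a) ≤ D := by
    have h2 := Nat.le_ceil ((C : ℝ) ^ (2 / a))
    rw [hD]
    push_cast
    have : (0 : ℝ) ≤ (⌈2 * (C : ℝ) / a⌉₊ : ℝ) := by positivity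
    linarith
  have d0 : (0 : ℝ) ≤ D := by positivity
  have d3 : (C : ℝ) ≤ (D : ℝ) ^ (a / 2) := by
    have h2 : ((C : ℝ) ^ (2 / a)) ^ (a / 2) = C := by
      rw [← Real.rpow_mul c0]
      have : 2 / a * (a / 2) = 1 := by field_simp
      rw [this, Real.rpow_one]
    calc (C : ℝ) = ((C : ℝ) ^ (2 / a)) ^ (a / 2) := h2.symm
      _ ≤ (D : ℝ) ^ (a / 2) := Real.rpow_le_rpow (Real.rpow_nonneg c0 _) d2 (by linarith)
  have d4 : Lam i ^ C ≤ (Lam i ^ D) ^ (a / 2) := by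
    rw [← Real.rpow_natCast, ← Real.rpow_natCast, ← Real.rpow_mul hL0.le]
    refine Real.rpow_le_rpow_of_exponent_le hLi ?_
    rw [div_le_iff₀ ha] at d1
    linarith
  have p1 : (0 : ℝ) ≤ Lam i ^ D := pow_nonneg hL0.le _
  have d5 : (C : ℝ) * Lam i ^ C ≤ (D * Lam i ^ D) ^ (a / 2) := by
    rw [Real.mul_rpow d0 p1]
    exact mul_le_mul d3 d4 (pow_nonneg hL0.le _) (Real.rpow_nonneg d0 _)
  have d6 : (D * Lam i ^ D) ^ (a / 2) * (δ i) ^ (a / 2) ≤ 1 := by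
    rw [← Real.mul_rpow (mul_nonneg d0 p1) hδ.le]
    exact Real.rpow_le_one (mul_nonneg (mul_nonneg d0 p1) hδ.le) hi (by linarith)
  have e1 : (δ i) ^ (-(a / 2)) * (δ i) ^ a = (δ i) ^ (a / 2) := by
    rw [← Real.rpow_add hδ]
    congr 1
    ring
  calc g i * (δ i) ^ a ≤ (C * Lam i ^ C * (δ i) ^ (-(a / 2))) * (δ i) ^ a :=
        mul_le_mul_of_nonneg_right (hC i) (Real.rpow_nonneg hδ.le _)
    _ = C * Lam i ^ C * (δ i) ^ (a / 2) := by rw [mul_assoc, e1]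
    _ ≤ (D * Lam i ^ D) ^ (a / 2) * (δ i) ^ (a / 2) :=
        mul_le_mul_of_nonneg_right d5 (Real.rpow_nonneg hδ.le _)
    _ ≤ 1 := d6

/-- closure under arbitrarily small negative powers of `δ` -/
theorem GTmem.closure {ι : Type} {Lam δ : ι → ℝ} (hL : ∀ i, 1 ≤ Lam i) (h0 : ∀ i, 0 < δ i)
    (h1 : ∀ i, δ i ≤ 1) (f : ι → ℝ) (hf : ∀ i, 1 ≤ f i)
    (h : ∀ c : ℝ, 0 < c → ∃ g' : ι → ℝ, GTmem Lam δ g' ∧ ∀ i, f i ≤ g' i * (δ i) ^ (-c)) :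
    GTmem Lam δ f := by
  have _ := hL
  have _ := h1
  refine ⟨hf, fun c hc => ?_⟩
  obtain ⟨g', hg', hfg⟩ := h (c / 2) (by linarith)
  obtain ⟨C, hC⟩ := hg'.2 (c / 2) (by linarith)
  refine ⟨C, fun i => ?_⟩
  have hδ := h0 i
  have e1 : (δ i) ^ (-(c / 2)) * (δ i) ^ (-(c / 2)) = (δ i) ^ (-c) := by
    rw [← Real.rpow_add hδ]
    congr 1
    ring
  calc f i ≤ g' i * (δ i) ^ (-(c / 2)) := hfg i
    _ ≤ (C * Lam i ^ C * (δ i) ^ (-(c / 2))) * (δ i) ^ (-(c / 2)) :=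
        mul_le_mul_of_nonneg_right (hC i) (Real.rpow_nonneg hδ.le _)
    _ = C * Lam i ^ C * (δ i) ^ (-c) := by rw [mul_assoc, e1]

/-- supremum over a second index -/
theorem GTmem.sup {ι κ : Type} {Lam δ : ι → ℝ} (hL : ∀ i, 1 ≤ Lam i) (h0 : ∀ i, 0 < δ i)
    (h1 : ∀ i, δ i ≤ 1) {g : ι × κ → ℝ}
    (hg : GTmem (fun p : ι × κ => Lam p.1) (fun p => δ p.1) g) [Nonempty κ] :
    ∃ g' : ι → ℝ, GTmem Lam δ g' ∧ ∀ i k, g (i, k) ≤ g' i := by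
  have _ := hL
  have _ := h0
  have _ := h1
  have hb : ∀ i, BddAbove (Set.range fun k => g (i, k)) := by
    intro i
    obtain ⟨C, hC⟩ := hg.2 1 one_pos
    refine ⟨C * Lam i ^ C * (δ i) ^ (-1 : ℝ), ?_⟩
    rintro _ ⟨k, rfl⟩
    exact hC (i, k)
  have hle : ∀ i k, g (i, k) ≤ sSup (Set.range fun k => g (i, k)) := fun i k =>
    le_csSup (hb i) ⟨k, rfl⟩
  refine ⟨fun i => sSup (Set.range fun k => g (i, k)), ⟨fun i => ?_, fun c hc => ?_⟩, hle⟩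
  · obtain ⟨k⟩ := ‹Nonempty κ›
    exact (hg.1 (i, k)).trans (hle i k)
  · obtain ⟨C, hC⟩ := hg.2 c hc
    refine ⟨C, fun i => ?_⟩
    refine csSup_le (Set.range_nonempty _) ?_
    rintro _ ⟨k, rfl⟩
    exact hC (i, k)

end P205F
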