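import Vale.Agent.Lib.P205F.KA

/-! # P205F module KA2: components, derivatives, recursion, change of scale -/

open scoped ContDiff
open Set

namespace P205F

variable {ι E V V' V'' : Type} [NormedAddCommGroup E] [NormedSpace ℝ E] [NormedAddCommGroup V]
  [NormedSpace ℝ V] [NormedAddCommGroup V'] [NormedSpace ℝ V'] [NormedAddCommGroup V'']
  [NormedSpace ℝ V''] {S : Setting ι E} {W W' : ι → E → ℝ} {u v : ι → E → V}

/-- components -/
theorem Bd.pi {n : Type} [Fintype n] [Nonempty n] {F : n → Type} [∀ k, NormedAddCommGroup (F k)]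
    [∀ k, NormedSpace ℝ (F k)] {f : ι → E → (∀ k, F k)} :
    Bd S W f ↔ ∀ k, Bd S W (fun i x => f i x k) := by
  classical
  constructor
  · intro h k
    exact h.clm (ContinuousLinearMap.proj (R := ℝ) (φ := F) k)
  · intro h
    have hW : ∀ i, ∀ x ∈ S.U i, 0 ≤ W i x := fun i x hx =>
      (h (Classical.arbitrary n)).nonneg i hx
    have h1 := Bd.sum (S := S) (W := W) (Finset.univ : Finset n) (f := fun k i x =>
      ContinuousLinearMap.single ℝ F k (f i x k)) hW
      (fun k _ => (h k).clm (ContinuousLinearMap.single ℝ F k))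
    refine h1.congr fun i x _ => ?_
    funext k
    rw [Finset.sum_apply]
    rw [Finset.sum_eq_single k]
    · simp
    · intro j _ hj
      simp [hj.symm]
    · intro hk; exact absurd (Finset.mem_univ k) hk

theorem Bd.prodMk {f : ι → E → V} {g : ι → E → V'} (hf : Bd S W f) (hg : Bd S W g) :
    Bd S W (fun i x => (f i x, g i x)) := by
  have h1 := (hf.clm (ContinuousLinearMap.inl ℝ V V')).add (hg.clm (ContinuousLinearMap.inr ℝ V V'))
  refine h1.congr fun i x _ => ?_
  simp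

/-- the derivative -/
theorem Bd.fderiv (hu : Bd S W u) :
    Bd S (fun i x => W i x * (S.s i)⁻¹) (fun i x => fderiv ℝ (u i) x) := by
  refine ⟨fun i => ?_, fun r => ?_⟩
  · exact (hu.1 i).fderiv_of_isOpen (S.isOpen i) (by norm_cast)
  · obtain ⟨g, hg, h⟩ := hu.2 (r + 1)
    refine ⟨g, hg, fun i x hx => ?_⟩
    rw [norm_iteratedFDeriv_fderiv]
    refine (h i x hx).trans (le_of_eq ?_)
    rw [pow_succ]; ring

/-- the derivative loses a factor of the scale: the converse direction (recursion for `Bd`) -/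
theorem Bd.of_fderiv {g : ι → ℝ} (hg : g ∈ S.G.mem)
    (h0 : ∀ i, ∀ x ∈ S.U i, ‖u i x‖ ≤ g i * W i x)
    (hd : ∀ i, DifferentiableOn ℝ (u i) (S.U i))
    (h1 : Bd S (fun i x => W i x * (S.s i)⁻¹) (fun i x => _root_.fderiv ℝ (u i) x)) :
    Bd S W u := by
  refine ⟨fun i => ?_, fun r => ?_⟩
  · rw [contDiffOn_infty_iff_fderiv_of_isOpen (S.isOpen i)]
    exact ⟨hd i, h1.1 i⟩
  · cases r with
    | zero =>
      refine ⟨g, hg, fun i x hx => ?_⟩
      simpa using h0 i x hx
    | succ r =>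
      obtain ⟨g', hg', h⟩ := h1.2 r
      refine ⟨g', hg', fun i x hx => ?_⟩
      rw [← norm_iteratedFDeriv_fderiv]
      refine (h i x hx).trans (le_of_eq ?_)
      rw [pow_succ]; ring

/-- smaller scales -/
theorem Bd.rescale (e : ι → ℝ) (h0 : ∀ i, 0 < e i) (h1 : ∀ i, e i ≤ 1) (hes : ∀ i, e i ≤ S.s i)
    (hu : Bd S W u) : Bd (S.rescale e h0 h1) W u := by
  refine ⟨hu.1, fun r => ?_⟩
  obtain ⟨g, hg, h⟩ := hu.2 r
  refine ⟨g, hg, fun i x hx => (h i x hx).trans ?_⟩
  have hW : 0 ≤ W i x := hu.nonneg i hx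
  have hg1 : 0 ≤ g i := le_trans zero_le_one (S.G.one_le g hg i)
  refine mul_le_mul_of_nonneg_left ?_ (mul_nonneg hg1 hW)
  have h2 : (S.s i)⁻¹ ≤ (e i)⁻¹ := inv_anti₀ (h0 i) (hes i)
  exact pow_le_pow_left₀ (inv_nonneg.2 (S.s_pos i).le) h2 r

end P205F
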