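import Mathlib
import Vale.Agent.Lib.P205F.MD1

/-! # P205F module MT1: push forward of functions of the plane -/

noncomputable section

open scoped Manifold ContDiff Topology RealInnerProductSpace
open Set

namespace P205F

set_option maxSynthPendingDepth 3

variable {M : Type} [TopologicalSpace M] [ChartedSpace E2 M]
variable {V : Type} [NormedAddCommGroup V] [NormedSpace ℝ V]

open Classical in
/-- push forward of a function of the plane by a chart (zero outside the chart) -/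
def pushM (φ : OpenPartialHomeomorph M E2) (u : E2 → V) (p : M) : V :=
  if p ∈ φ.source then u (φ p) else 0

theorem pushM_symm {φ : OpenPartialHomeomorph M E2} (u : E2 → V) {x : E2} (hx : x ∈ φ.target) :
    pushM φ u (φ.symm x) = u x := by
  rw [pushM, if_pos (φ.map_target hx), φ.right_inv hx]

theorem pushM_zero {φ : OpenPartialHomeomorph M E2} {u : E2 → V}
    (hu : ∀ x, 5 / 2 ≤ ‖x‖ → u x = 0) {p : M}
    (hp : ¬ (p ∈ φ.source ∧ φ p ∈ Metric.ball (0 : E2) (5 / 2))) : pushM φ u p = 0 := by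
  unfold pushM
  split_ifs with h
  · apply hu
    by_contra hc
    push Not at hc
    exact hp ⟨h, by rwa [mem_ball_zero_iff]⟩
  · rfl

/-- the image of the closed ball of radius `5/2` -/
private theorem MT1_closed [T2Space M] {φ : OpenPartialHomeomorph M E2}
    (h4 : Metric.closedBall (0 : E2) 4 ⊆ φ.target) :
    IsClosed (φ.symm '' Metric.closedBall (0 : E2) (5 / 2)) := by
  have hsub : Metric.closedBall (0 : E2) (5 / 2) ⊆ φ.target :=
    (Metric.closedBall_subset_closedBall (by norm_num)).trans h4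
  exact ((isCompact_closedBall (0 : E2) (5 / 2)).image_of_continuousOn
    (φ.continuousOn_symm.mono hsub)).isClosed

private theorem MT1_mem {φ : OpenPartialHomeomorph M E2}
    (h4 : Metric.closedBall (0 : E2) 4 ⊆ φ.target) {p : M} :
    p ∈ φ.symm '' Metric.closedBall (0 : E2) (5 / 2) ↔
      (p ∈ φ.source ∧ φ p ∈ Metric.closedBall (0 : E2) (5 / 2)) := by
  have hsub : Metric.closedBall (0 : E2) (5 / 2) ⊆ φ.target :=
    (Metric.closedBall_subset_closedBall (by norm_num)).trans h4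
  constructor
  · rintro ⟨x, hx, rfl⟩
    exact ⟨φ.map_target (hsub hx), by rwa [φ.right_inv (hsub hx)]⟩
  · rintro ⟨h1, h2⟩
    exact ⟨φ p, h2, φ.left_inv h1⟩

private theorem MT1_zero {φ : OpenPartialHomeomorph M E2}
    (h4 : Metric.closedBall (0 : E2) 4 ⊆ φ.target)
    {u : E2 → V} (hu : ∀ x, 5 / 2 ≤ ‖x‖ → u x = 0) {q : M}
    (hq : q ∉ φ.symm '' Metric.closedBall (0 : E2) (5 / 2)) : pushM φ u q = 0 := by
  apply pushM_zero hu
  rintro ⟨h1, h2⟩
  exact hq ((MT1_mem h4).2 ⟨h1, Metric.ball_subset_closedBall h2⟩)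

/-- near a point which is not in the image of the closed ball of radius `5/2` -/
theorem pushM_zero_nhds [T2Space M] {φ : OpenPartialHomeomorph M E2} (h4 : Metric.closedBall (0 : E2) 4 ⊆ φ.target)
    {u : E2 → V} (hu : ∀ x, 5 / 2 ≤ ‖x‖ → u x = 0) {p : M}
    (hp : ¬ (p ∈ φ.source ∧ φ p ∈ Metric.closedBall (0 : E2) (5 / 2))) :
    ∀ᶠ q in 𝓝 p, pushM φ u q = 0 := by
  have hp' : p ∈ (φ.symm '' Metric.closedBall (0 : E2) (5 / 2))ᶜ :=
    fun h => hp ((MT1_mem h4).1 h)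
  filter_upwards [(MT1_closed h4).isOpen_compl.mem_nhds hp'] with q hq
  exact MT1_zero h4 hu hq

variable [IsManifold 𝓘(ℝ, E2) ∞ M]

theorem pushM_sm [T2Space M] {φ : OpenPartialHomeomorph M E2} (hφ : φ ∈ ATL M)
    (h4 : Metric.closedBall (0 : E2) 4 ⊆ φ.target) {u : E2 → V} (hu : ContDiff ℝ ∞ u)
    (hs : ∀ x, 5 / 2 ≤ ‖x‖ → u x = 0) : Sm (pushM φ u) := by
  apply sm_of_loc
  intro p
  by_cases hp : p ∈ φ.source ∧ φ p ∈ Metric.closedBall (0 : E2) (5 / 2)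
  · refine ⟨φ, hφ, hp.1, ?_⟩
    refine hu.contDiffAt.congr_of_eventuallyEq ?_
    filter_upwards [φ.open_target.mem_nhds (φ.map_source hp.1)] with x hx
    exact pushM_symm u hx
  · refine ⟨chartAt E2 p, chart_mem_ATL p, mem_chart_source E2 p, ?_⟩
    have h1 : Filter.Tendsto (chartAt E2 p).symm (𝓝 (chartAt E2 p p)) (𝓝 p) := by
      have h2 := ((chartAt E2 p).continuousAt_symm (mem_chart_target E2 p)).tendsto
      rwa [(chartAt E2 p).left_inv (mem_chart_source E2 p)] at h2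
    refine (contDiffAt_const (c := (0 : V))).congr_of_eventuallyEq ?_
    filter_upwards [h1.eventually (pushM_zero_nhds h4 hs hp)] with x hx
    exact hx

/-- local version of `push_bd` -/
private theorem MT1_local [T2Space M] (𝒜 : FinAtlas M) (k l : Fin 𝒜.n) (V : Type)
    [NormedAddCommGroup V] [NormedSpace ℝ V] (r : ℕ) {x0 : E2}
    (hx0 : x0 ∈ (𝒜.φ l).target) :
    ∃ N ∈ 𝓝 x0, ∃ C : ℝ, 0 < C ∧ ∀ (u : E2 → V) (η : ℝ), ContDiff ℝ ∞ u →
      (∀ x, 5 / 2 ≤ ‖x‖ → u x = 0) → 0 ≤ η → (∀ j ≤ r, ∀ x, ‖iteratedFDeriv ℝ j u x‖ ≤ η) →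
      ∀ x ∈ N, ∀ j ≤ r,
        ‖iteratedFDeriv ℝ j (pushM (𝒜.φ k) u ∘ (𝒜.φ l).symm) x‖ ≤ C * η := by
  set φ := 𝒜.φ l with hφ
  set ψ := 𝒜.φ k with hψ
  by_cases hc : φ.symm x0 ∈ ψ.symm '' Metric.closedBall (0 : E2) (5 / 2)
  · have hc1 : φ.symm x0 ∈ ψ.source := ((MT1_mem (𝒜.target k)).1 hc).1
    set τ : E2 → E2 := ψ ∘ φ.symm with hτ
    set T : Set E2 := φ.target ∩ φ.symm ⁻¹' ψ.source with hT
    have hTo : IsOpen T := φ.isOpen_inter_preimage_symm ψ.open_source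
    have hτT : ContDiffOn ℝ ∞ τ T := ATL_trans (𝒜.mem l) (𝒜.mem k)
    have hx0T : x0 ∈ T := ⟨hx0, hc1⟩
    obtain ⟨ρ, hρ, hρT⟩ := Metric.nhds_basis_closedBall.mem_iff.1 (hTo.mem_nhds hx0T)
    have hb : ∀ i : ℕ, ∃ D : ℝ, ∀ x ∈ Metric.closedBall x0 ρ,
        ‖iteratedFDerivWithin ℝ i τ T x‖ ≤ D := by
      intro i
      have h1 : ContinuousOn (iteratedFDerivWithin ℝ i τ T) T :=
        hτT.continuousOn_iteratedFDerivWithin (by exact_mod_cast le_top) hTo.uniqueDiffOn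
      exact (isCompact_closedBall x0 ρ).exists_bound_of_continuousOn (h1.mono hρT)
    choose D hD using hb
    set D1 : ℝ := 1 + ∑ i ∈ Finset.range (r + 1), |D i| with hD1
    have hD1' : 1 ≤ D1 := by
      rw [hD1]
      have : 0 ≤ ∑ i ∈ Finset.range (r + 1), |D i| := Finset.sum_nonneg fun i _ => abs_nonneg _
      linarith
    have hDle : ∀ i ≤ r, D i ≤ D1 := by
      intro i hi
      have h1 : |D i| ≤ ∑ i ∈ Finset.range (r + 1), |D i| :=
        Finset.single_le_sum (f := fun i => |D i|) (fun i _ => abs_nonneg _)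
          (Finset.mem_range.2 (by omega))
      have := le_abs_self (D i)
      linarith
    refine ⟨Metric.closedBall x0 ρ, Metric.closedBall_mem_nhds x0 hρ,
      (r.factorial : ℝ) * D1 ^ r, by positivity, ?_⟩
    intro u η hu _ hη hb x hx j hj
    have hxT : x ∈ T := hρT hx
    have heq : EqOn (pushM ψ u ∘ φ.symm) (u ∘ τ) T := by
      intro y hy
      have hy2 : φ.symm y ∈ ψ.source := hy.2
      change pushM ψ u (φ.symm y) = u (ψ (φ.symm y))
      rw [pushM, if_pos hy2]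
    have h1 : iteratedFDeriv ℝ j (pushM ψ u ∘ φ.symm) x
        = iteratedFDerivWithin ℝ j (u ∘ τ) T x := by
      rw [← iteratedFDerivWithin_of_isOpen j hTo hxT]
      exact iteratedFDerivWithin_congr heq hxT j
    rw [h1]
    have hη' : ∀ i ≤ j, ‖iteratedFDerivWithin ℝ i u univ (τ x)‖ ≤ η := by
      intro i hi
      rw [iteratedFDerivWithin_univ]
      exact hb i (hi.trans hj) _
    have hDi : ∀ i, 1 ≤ i → i ≤ j → ‖iteratedFDerivWithin ℝ i τ T x‖ ≤ D1 ^ i := by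
      intro i hi1 hij
      refine ((hD i x hx).trans (hDle i (hij.trans hj))).trans ?_
      exact le_self_pow₀ hD1' (by omega)
    have h2 := norm_iteratedFDerivWithin_comp_le (n := j) (N := ∞) hu.contDiffOn hτT
      (by exact_mod_cast le_top) uniqueDiffOn_univ hTo.uniqueDiffOn (mapsTo_univ _ _) hxT hη' hDi
    refine h2.trans ?_
    have h3 : (j.factorial : ℝ) ≤ r.factorial := by exact_mod_cast Nat.factorial_le hj
    have h4 : D1 ^ j ≤ D1 ^ r := pow_le_pow_right₀ hD1' hj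
    have h5 : (0 : ℝ) ≤ D1 ^ j := by positivity
    calc (j.factorial : ℝ) * η * D1 ^ j = ((j.factorial : ℝ) * D1 ^ j) * η := by ring
      _ ≤ ((r.factorial : ℝ) * D1 ^ r) * η :=
          mul_le_mul_of_nonneg_right (mul_le_mul h3 h4 h5 (by positivity)) hη
  · have hNo : IsOpen (φ.target ∩ φ.symm ⁻¹' (ψ.symm '' Metric.closedBall (0 : E2) (5 / 2))ᶜ) :=
      φ.isOpen_inter_preimage_symm (MT1_closed (𝒜.target k)).isOpen_compl
    refine ⟨_, hNo.mem_nhds ⟨hx0, hc⟩, 1, one_pos, ?_⟩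
    intro u η _ hs hη _ x hx j _
    have h0 : (pushM ψ u ∘ φ.symm) =ᶠ[𝓝 x] fun _ => (0 : V) := by
      filter_upwards [hNo.mem_nhds hx] with y hy
      exact MT1_zero (𝒜.target k) hs hy.2
    have h1 := (h0.iteratedFDeriv ℝ j).eq_of_nhds
    rw [h1, one_mul]
    have h2 : iteratedFDeriv ℝ j (fun _ : E2 => (0 : V)) x = 0 := by
      rw [iteratedFDeriv_fun_zero]
      rfl
    rw [h2, norm_zero]
    exact hη

private theorem MT1_pair [T2Space M] (𝒜 : FinAtlas M) (k l : Fin 𝒜.n) (V : Type)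
    [NormedAddCommGroup V] [NormedSpace ℝ V] (r : ℕ) :
    ∃ C : ℝ, 0 < C ∧ ∀ (u : E2 → V) (η : ℝ), ContDiff ℝ ∞ u →
      (∀ x, 5 / 2 ≤ ‖x‖ → u x = 0) → 0 ≤ η → (∀ j ≤ r, ∀ x, ‖iteratedFDeriv ℝ j u x‖ ≤ η) →
      ∀ x ∈ Metric.closedBall (0 : E2) 3, ∀ j ≤ r,
        ‖iteratedFDeriv ℝ j (pushM (𝒜.φ k) u ∘ (𝒜.φ l).symm) x‖ ≤ C * η := by
  have hsub : Metric.closedBall (0 : E2) 3 ⊆ (𝒜.φ l).target :=
    (Metric.closedBall_subset_closedBall (by norm_num)).trans (𝒜.target l)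
  refine (isCompact_closedBall (0 : E2) 3).induction_on
    (p := fun s => ∃ C : ℝ, 0 < C ∧ ∀ (u : E2 → V) (η : ℝ), ContDiff ℝ ∞ u →
      (∀ x, 5 / 2 ≤ ‖x‖ → u x = 0) → 0 ≤ η → (∀ j ≤ r, ∀ x, ‖iteratedFDeriv ℝ j u x‖ ≤ η) →
      ∀ x ∈ s, ∀ j ≤ r,
        ‖iteratedFDeriv ℝ j (pushM (𝒜.φ k) u ∘ (𝒜.φ l).symm) x‖ ≤ C * η) ?_ ?_ ?_ ?_
  · exact ⟨1, one_pos, fun u η _ _ _ _ x hx => absurd hx (notMem_empty x)⟩
  · rintro s t hst ⟨C, hC, h⟩
    exact ⟨C, hC, fun u η hu hs hη hb x hx => h u η hu hs hη hb x (hst hx)⟩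
  · rintro s t ⟨C, hC, h⟩ ⟨C', hC', h'⟩
    refine ⟨max C C', lt_max_of_lt_left hC, fun u η hu hs hη hb x hx j hj => ?_⟩
    rcases hx with hx | hx
    · exact (h u η hu hs hη hb x hx j hj).trans
        (mul_le_mul_of_nonneg_right (le_max_left _ _) hη)
    · exact (h' u η hu hs hη hb x hx j hj).trans
        (mul_le_mul_of_nonneg_right (le_max_right _ _) hη)
  · intro x hx
    obtain ⟨N, hN, C, hC, h⟩ := MT1_local 𝒜 k l V r (hsub hx)
    exact ⟨N, mem_nhdsWithin_of_mem_nhds hN, C, hC, h⟩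

/-- transfer of norms from a chart to the others -/
theorem push_bd [T2Space M] (𝒜 : FinAtlas M) (V : Type) [NormedAddCommGroup V]
    [NormedSpace ℝ V] (r : ℕ) :
    ∃ C : ℝ, 1 ≤ C ∧ ∀ (k l : Fin 𝒜.n) (u : E2 → V) (η : ℝ), ContDiff ℝ ∞ u →
      (∀ x, 5 / 2 ≤ ‖x‖ → u x = 0) → 0 ≤ η → (∀ j ≤ r, ∀ x, ‖iteratedFDeriv ℝ j u x‖ ≤ η) →
      ∀ x ∈ Metric.closedBall (0 : E2) 3, ∀ j ≤ r,
        ‖iteratedFDeriv ℝ j (pushM (𝒜.φ k) u ∘ (𝒜.φ l).symm) x‖ ≤ C * η := by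
  choose C hC h using fun k l => MT1_pair 𝒜 k l V r
  have hle : ∀ k l, C k l ≤ 1 + ∑ k, ∑ l, C k l := by
    intro k l
    have h1 : C k l ≤ ∑ l, C k l :=
      Finset.single_le_sum (f := fun l => C k l) (fun i _ => (hC k i).le) (Finset.mem_univ l)
    have h2 : ∑ l, C k l ≤ ∑ k, ∑ l, C k l :=
      Finset.single_le_sum (f := fun k => ∑ l, C k l)
        (fun i _ => Finset.sum_nonneg fun j _ => (hC i j).le) (Finset.mem_univ k)
    linarith
  refine ⟨1 + ∑ k, ∑ l, C k l, ?_, ?_⟩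
  · have : 0 ≤ ∑ k, ∑ l, C k l :=
      Finset.sum_nonneg fun i _ => Finset.sum_nonneg fun j _ => (hC i j).le
    linarith
  · intro k l u η hu hs hη hb x hx j hj
    exact (h k l u η hu hs hη hb x hx j hj).trans (mul_le_mul_of_nonneg_right (hle k l) hη)

end P205F
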