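import Vale.Agent.Lib.P205F.MT1
import Vale.Agent.Lib.P205F.FlB

/-! # P205F module MT2: flat partition of unity of a finite atlas -/

noncomputable section

open scoped Manifold ContDiff Topology RealInnerProductSpace
open Set

namespace P205F

set_option maxSynthPendingDepth 3

/-- a flat bump function -/
theorem exists_flatBump : ∃ χ : E2 → ℝ, Flat1 χ ∧ (∀ x, 0 ≤ χ x ∧ χ x ≤ 1) ∧
    (∀ x, ‖x‖ ≤ 1 → χ x = 1) ∧ ∀ x, 19 / 10 ≤ ‖x‖ → χ x = 0 := by
  obtain ⟨psi, kap, root, C, h⟩ := exists_cutoffs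
  obtain ⟨h1, h2, h3, -, -, -, -, -, h4⟩ := h 1
  have hn : ∀ x : E2, ‖(3 / 2 : ℝ) • x‖ = 3 / 2 * ‖x‖ := fun x => by
    rw [norm_smul, Real.norm_of_nonneg (by norm_num)]
  refine ⟨fun x => psi 1 ((3 / 2 : ℝ) • x), ?_, fun x => h1 _, fun x hx => ?_, fun x hx => ?_⟩
  · intro n hn
    obtain ⟨a1, a2, -⟩ := h4 n hn
    exact ⟨fun x => root 1 n ((3 / 2 : ℝ) • x), a1.comp (contDiff_const_smul _), fun x => a2 _⟩
  · apply h2
    rw [hn]
    unfold rad
    norm_num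
    linarith
  · apply h3
    rw [hn]
    unfold rad
    norm_num
    linarith

variable {M : Type} [TopologicalSpace M] [ChartedSpace E2 M] [IsManifold 𝓘(ℝ, E2) ∞ M]

theorem exists_part [T2Space M] (𝒜 : FinAtlas M) :
    ∃ χ : Fin 𝒜.n → E2 → ℝ, (∀ k, Flat1 (χ k)) ∧ (∀ k x, χ k x ≤ 1) ∧
      (∀ k x, 2 ≤ ‖x‖ → χ k x = 0) ∧ ∀ p : M, ∑ k, pushM (𝒜.φ k) (χ k) p ^ 2 = 1 := by
  obtain ⟨χ, hfl, h01, hone, hzero⟩ := exists_flatBump
  obtain ⟨χs, hχs, hχs'⟩ := hfl 1 le_rfl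
  have hχe : χs = χ := by
    funext x
    have := (hχs' x).2
    rwa [pow_one] at this
  rw [hχe] at hχs
  -- the sum of the squares
  set S : M → ℝ := fun p => ∑ j, pushM (𝒜.φ j) χ p ^ 2 with hS
  have hpos : ∀ p, 0 < S p := by
    intro p
    obtain ⟨k, hk1, hk2⟩ := 𝒜.cover p
    have h1 : pushM (𝒜.φ k) χ p = 1 := by
      unfold pushM
      rw [if_pos hk1]
      apply hone
      have := mem_ball_zero_iff.1 hk2
      exact this.le
    have h2 : pushM (𝒜.φ k) χ p ^ 2 ≤ S p :=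
      Finset.single_le_sum (f := fun j => pushM (𝒜.φ j) χ p ^ 2) (fun j _ => sq_nonneg _)
        (Finset.mem_univ k)
    rw [h1] at h2
    linarith
  have hSm : ∀ k, ContDiffOn ℝ ∞ (fun x => S ((𝒜.φ k).symm x)) (𝒜.φ k).target := by
    intro k
    refine ContDiffOn.sum fun j _ => ?_
    have h1 := (pushM_sm (𝒜.mem j) (𝒜.target j) hχs (fun x hx => hzero x (by linarith))).loc
      (𝒜.mem k)
    exact h1.pow 2
  -- negative powers of `S`
  have hrp : ∀ n : ℕ, 1 ≤ n → ∀ p, (S p ^ (-(1 / (2 * n)) : ℝ)) ^ n = S p ^ (-(1 / 2) : ℝ) := by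
    intro n hn p
    rw [← Real.rpow_natCast, ← Real.rpow_mul (hpos p).le]
    congr 1
    have hn' : (n : ℝ) ≠ 0 := by
      have : 0 < n := hn
      positivity
    field_simp
  have hsq : ∀ p, (S p ^ (-(1 / 2) : ℝ)) ^ 2 = (S p)⁻¹ := by
    intro p
    have e0 : (-(1 / 2) : ℝ) * ((2 : ℕ) : ℝ) = -1 := by norm_num
    rw [← Real.rpow_natCast, ← Real.rpow_mul (hpos p).le, e0, Real.rpow_neg_one]
  refine ⟨fun k x => χ x * S ((𝒜.φ k).symm x) ^ (-(1 / 2) : ℝ), fun k n hn => ?_, fun k x => ?_,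
    fun k x hx => ?_, fun p => ?_⟩
  · obtain ⟨θ, hθ, hθ'⟩ := hfl n hn
    have hθ0 : ∀ x : E2, 19 / 10 ≤ ‖x‖ → θ x = 0 := by
      intro x hx
      have h1 := (hθ' x).2
      rw [hzero x hx] at h1
      exact (pow_eq_zero_iff (by omega)).1 h1
    refine ⟨fun x => θ x * S ((𝒜.φ k).symm x) ^ (-(1 / (2 * n)) : ℝ), ?_, fun x => ⟨?_, ?_⟩⟩
    · rw [contDiff_iff_contDiffAt]
      intro x
      rcases lt_or_ge ‖x‖ 2 with hx | hx
      · have hxt : x ∈ (𝒜.φ k).target := 𝒜.target k (by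
          rw [mem_closedBall_zero_iff]
          linarith)
        have h1 := (hSm k).contDiffAt ((𝒜.φ k).open_target.mem_nhds hxt)
        exact hθ.contDiffAt.mul (h1.rpow_const_of_ne (hpos _).ne')
      · have h1 : (fun x => θ x * S ((𝒜.φ k).symm x) ^ (-(1 / (2 * n)) : ℝ)) =ᶠ[𝓝 x]
            fun _ => 0 := by
          have h2 : {y : E2 | 19 / 10 < ‖y‖} ∈ 𝓝 x :=
            (isOpen_lt continuous_const continuous_norm).mem_nhds (by
              show (19 / 10 : ℝ) < ‖x‖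
              linarith)
          filter_upwards [h2] with y hy
          have hy' : (19 / 10 : ℝ) < ‖y‖ := hy
          rw [hθ0 y hy'.le, zero_mul]
        exact contDiffAt_const.congr_of_eventuallyEq h1
    · exact mul_nonneg (hθ' x).1 (Real.rpow_nonneg (hpos _).le _)
    · rw [mul_pow, (hθ' x).2, hrp n hn]
  · show χ x * S ((𝒜.φ k).symm x) ^ (-(1 / 2) : ℝ) ≤ 1
    rcases lt_or_ge ‖x‖ 2 with hx | hx
    · have hxt : x ∈ (𝒜.φ k).target := 𝒜.target k (by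
        rw [mem_closedBall_zero_iff]
        linarith)
      have h1 : χ x ^ 2 ≤ S ((𝒜.φ k).symm x) := by
        have h2 : pushM (𝒜.φ k) χ ((𝒜.φ k).symm x) ^ 2 ≤ S ((𝒜.φ k).symm x) :=
          Finset.single_le_sum (f := fun j => pushM (𝒜.φ j) χ ((𝒜.φ k).symm x) ^ 2)
            (fun j _ => sq_nonneg _) (Finset.mem_univ k)
        rwa [pushM_symm χ hxt] at h2
      have h3 : (χ x * S ((𝒜.φ k).symm x) ^ (-(1 / 2) : ℝ)) ^ 2 ≤ 1 := by
        rw [mul_pow, hsq, ← div_eq_mul_inv, div_le_one (hpos _)]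
        exact h1
      exact (sq_le_one_iff₀ (mul_nonneg (h01 x).1 (Real.rpow_nonneg (hpos _).le _))).1 h3
    · rw [hzero x (by linarith), zero_mul]
      exact zero_le_one
  · show χ x * S ((𝒜.φ k).symm x) ^ (-(1 / 2) : ℝ) = 0
    rw [hzero x (by linarith), zero_mul]
  · have h1 : ∀ k, pushM (𝒜.φ k) (fun x => χ x * S ((𝒜.φ k).symm x) ^ (-(1 / 2) : ℝ)) p ^ 2 =
        pushM (𝒜.φ k) χ p ^ 2 * (S p)⁻¹ := by
      intro k
      unfold pushM
      by_cases hp : p ∈ (𝒜.φ k).source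
      · rw [if_pos hp, if_pos hp]
        show (χ ((𝒜.φ k) p) * S ((𝒜.φ k).symm ((𝒜.φ k) p)) ^ (-(1 / 2) : ℝ)) ^ 2 = _
        rw [(𝒜.φ k).left_inv hp, mul_pow, hsq]
      · rw [if_neg hp, if_neg hp]
        ring
    rw [Finset.sum_congr rfl fun k _ => h1 k, ← Finset.sum_mul]
    exact mul_inv_cancel₀ (hpos p).ne'

end P205F
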