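import Vale.Agent.Lib.P205F.TDefs

/-! # P205F module Mol: mollification of order `R` in the plane -/

open scoped ContDiff Topology
open Set

namespace P205F

/-- a fixed smooth bump function on the plane with integral one -/
noncomputable def rhoB : ContDiffBump (0 : E2) := ⟨1 / 2, 1, by norm_num, by norm_num⟩

/-- the mollification -/
noncomputable def cv {V : Type} [NormedAddCommGroup V] [NormedSpace ℝ V] (s : ℝ) (u : E2 → V)
    (x : E2) : V := ∫ y, rhoB.normed MeasureTheory.volume y • u (x - s • y)

/-- `1 - mollification` -/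
noncomputable def df {V : Type} [NormedAddCommGroup V] [NormedSpace ℝ V] (s : ℝ) (u : E2 → V)
    (x : E2) : V := u x - cv s u x

/-- the mollification of order `R` -/
noncomputable def mol {V : Type} [NormedAddCommGroup V] [NormedSpace ℝ V] (R : ℕ) (s : ℝ)
    (u : E2 → V) (x : E2) : V := u x - (df s)^[R] u x

section aux

variable {V : Type} [NormedAddCommGroup V] [NormedSpace ℝ V]

theorem Mol_rho_cont : Continuous (rhoB.normed MeasureTheory.volume : E2 → ℝ) :=
  rhoB.continuous_normed

theorem Mol_rho_nonneg (y : E2) : 0 ≤ rhoB.normed MeasureTheory.volume y :=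
  rhoB.nonneg_normed y

theorem Mol_rho_compact : HasCompactSupport (rhoB.normed MeasureTheory.volume : E2 → ℝ) :=
  rhoB.hasCompactSupport_normed

theorem Mol_rho_int : MeasureTheory.Integrable (rhoB.normed MeasureTheory.volume : E2 → ℝ) :=
  rhoB.integrable_normed

theorem Mol_rho_integral : ∫ y : E2, rhoB.normed MeasureTheory.volume y = 1 :=
  rhoB.integral_normed

theorem Mol_rho_zero {y : E2} (hy : y ∉ Metric.closedBall (0 : E2) 1) :
    rhoB.normed MeasureTheory.volume y = 0 := by
  by_contra h
  apply hy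
  have h1 : y ∈ Function.support (rhoB.normed MeasureTheory.volume : E2 → ℝ) := h
  rw [rhoB.support_normed_eq] at h1
  exact Metric.ball_subset_closedBall h1

theorem Mol_cont {u : E2 → V} (hu : Continuous u) (s : ℝ) (x : E2) :
    Continuous fun y : E2 => rhoB.normed MeasureTheory.volume y • u (x - s • y) :=
  Mol_rho_cont.smul (hu.comp (by fun_prop))

theorem Mol_integrable {u : E2 → V} (hu : Continuous u) (s : ℝ) (x : E2) :
    MeasureTheory.Integrable fun y : E2 => rhoB.normed MeasureTheory.volume y • u (x - s • y) :=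
  (Mol_cont hu s x).integrable_of_hasCompactSupport Mol_rho_compact.smul_right

/-- the sup bound -/
theorem Mol_norm_le {u : E2 → V} (s : ℝ) {K : ℝ} (h : ∀ x, ‖u x‖ ≤ K) (x : E2) :
    ‖cv s u x‖ ≤ K := by
  have h1 : ‖cv s u x‖ ≤ ∫ y : E2, rhoB.normed MeasureTheory.volume y * K := by
    refine MeasureTheory.norm_integral_le_of_norm_le (Mol_rho_int.mul_const K) ?_
    refine Filter.Eventually.of_forall fun y => ?_
    rw [norm_smul, Real.norm_eq_abs, abs_of_nonneg (Mol_rho_nonneg y)]
    exact mul_le_mul_of_nonneg_left (h _) (Mol_rho_nonneg y)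
  rw [MeasureTheory.integral_mul_const, Mol_rho_integral, one_mul] at h1
  exact h1

omit [NormedSpace ℝ V] in
/-- a continuous compactly supported function is bounded -/
theorem Mol_bdd {u : E2 → V} (hu : Continuous u) (hc : HasCompactSupport u) :
    ∃ K : ℝ, ∀ x, ‖u x‖ ≤ K := by
  obtain ⟨K, hK⟩ := hc.exists_bound_of_continuous hu
  exact ⟨K, hK⟩

/-- differentiation under the integral -/
theorem Mol_hasFDerivAt {u : E2 → V} (hu : ContDiff ℝ 1 u) (hc : HasCompactSupport u) (s : ℝ)
    (x : E2) : HasFDerivAt (cv s u) (cv s (fderiv ℝ u) x) x := by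
  have hf : Continuous (fderiv ℝ u) := hu.continuous_fderiv one_ne_zero
  obtain ⟨K, hK⟩ := Mol_bdd hf (hc.fderiv (𝕜 := ℝ))
  refine hasFDerivAt_integral_of_dominated_of_fderiv_le (𝕜 := ℝ) (s := univ)
    (bound := fun y => rhoB.normed MeasureTheory.volume y * K)
    (F' := fun x y => rhoB.normed MeasureTheory.volume y • fderiv ℝ u (x - s • y))
    Filter.univ_mem ?_ (Mol_integrable hu.continuous s x) ?_ ?_ (Mol_rho_int.mul_const K) ?_
  · exact Filter.Eventually.of_forall fun z => (Mol_cont hu.continuous s z).aestronglyMeasurable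
  · exact (Mol_cont hf s x).aestronglyMeasurable
  · refine Filter.Eventually.of_forall fun y z _ => ?_
    rw [norm_smul, Real.norm_eq_abs, abs_of_nonneg (Mol_rho_nonneg y)]
    exact mul_le_mul_of_nonneg_left (hK _) (Mol_rho_nonneg y)
  · refine Filter.Eventually.of_forall fun y z _ => ?_
    have h1 : HasFDerivAt u (fderiv ℝ u (z - s • y)) (z - s • y) :=
      ((hu.differentiable one_ne_zero) _).hasFDerivAt
    have h2 : HasFDerivAt (fun z : E2 => z - s • y) (ContinuousLinearMap.id ℝ E2) z :=
      (hasFDerivAt_id z).sub_const _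
    have h3 := (h1.comp z h2).const_smul (rhoB.normed MeasureTheory.volume y)
    rw [ContinuousLinearMap.comp_id] at h3
    exact h3

theorem Mol_fderiv {u : E2 → V} (hu : ContDiff ℝ ∞ u) (hc : HasCompactSupport u) (s : ℝ) :
    fderiv ℝ (cv s u) = cv s (fderiv ℝ u) :=
  funext fun x => (Mol_hasFDerivAt (hu.of_le (by exact_mod_cast le_top)) hc s x).fderiv

end aux

theorem Mol_contDiff_nat (n : ℕ) : ∀ (V : Type) [NormedAddCommGroup V] [NormedSpace ℝ V]
    (s : ℝ) (u : E2 → V), ContDiff ℝ ∞ u → HasCompactSupport u → ContDiff ℝ n (cv s u) := by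
  induction n with
  | zero =>
    intro V _ _ s u hu hc
    have h1 : ContDiff ℝ 1 u := hu.of_le (by exact_mod_cast le_top)
    have h2 : Continuous (cv s u) := by
      rw [continuous_iff_continuousAt]
      exact fun x => (Mol_hasFDerivAt h1 hc s x).continuousAt
    exact_mod_cast contDiff_zero.2 h2
  | succ n ih =>
    intro V _ _ s u hu hc
    have h1 : ContDiff ℝ 1 u := hu.of_le (by exact_mod_cast le_top)
    have h2 : ContDiff ℝ ((n : WithTop ℕ∞) + 1) (cv s u) := by
      rw [contDiff_succ_iff_fderiv]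
      refine ⟨fun x => (Mol_hasFDerivAt h1 hc s x).differentiableAt, ?_, ?_⟩
      · intro h
        exact absurd h (by simp)
      · rw [Mol_fderiv hu hc s]
        exact ih _ s _ (hu.fderiv_right (by simp)) (hc.fderiv (𝕜 := ℝ))
    exact_mod_cast h2

section aux2

variable {V : Type} [NormedAddCommGroup V] [NormedSpace ℝ V]

theorem Mol_contDiff {u : E2 → V} (s : ℝ) (hu : ContDiff ℝ ∞ u) (hc : HasCompactSupport u) :
    ContDiff ℝ ∞ (cv s u) :=
  contDiff_infty.2 fun n => Mol_contDiff_nat n V s u hu hc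

theorem Mol_compact {u : E2 → V} (s : ℝ) (hc : HasCompactSupport u) :
    HasCompactSupport (cv s u) := by
  have hK : IsCompact ((fun p : E2 × E2 => p.1 + s • p.2) '' (tsupport u ×ˢ
      Metric.closedBall (0 : E2) 1)) := by
    refine (IsCompact.prod hc (isCompact_closedBall _ _)).image ?_
    fun_prop
  refine HasCompactSupport.intro hK fun x hx => ?_
  have h1 : ∀ y : E2, rhoB.normed MeasureTheory.volume y • u (x - s • y) = 0 := by
    intro y
    by_cases hy : y ∈ Metric.closedBall (0 : E2) 1
    · have h2 : u (x - s • y) = 0 := by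
        by_contra h3
        apply hx
        refine ⟨(x - s • y, y), ⟨subset_tsupport u h3, hy⟩, ?_⟩
        simp
      rw [h2, smul_zero]
    · rw [Mol_rho_zero hy, zero_smul]
  unfold cv
  simp only [h1, MeasureTheory.integral_zero]

theorem Mol_df {u : E2 → V} (s : ℝ) (hu : ContDiff ℝ ∞ u) (hc : HasCompactSupport u) :
    ContDiff ℝ ∞ (df s u) ∧ HasCompactSupport (df s u) := by
  refine ⟨hu.sub (Mol_contDiff s hu hc), ?_⟩
  exact HasCompactSupport.sub hc (Mol_compact s hc)

theorem Mol_iter (R : ℕ) {u : E2 → V} (s : ℝ) (hu : ContDiff ℝ ∞ u) (hc : HasCompactSupport u) :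
    ContDiff ℝ ∞ ((df s)^[R] u) ∧ HasCompactSupport ((df s)^[R] u) := by
  induction R with
  | zero => exact ⟨hu, hc⟩
  | succ R ih =>
    rw [Function.iterate_succ_apply']
    exact Mol_df s ih.1 ih.2

end aux2

variable {V V' : Type} [NormedAddCommGroup V] [NormedSpace ℝ V] [CompleteSpace V]
  [NormedAddCommGroup V'] [NormedSpace ℝ V'] [CompleteSpace V']

theorem Mol_cv_clm (s : ℝ) (L : V →L[ℝ] V') {u : E2 → V} (hu : Continuous u) :
    cv s (fun x => L (u x)) = fun x => L (cv s u x) := by
  funext x
  unfold cv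
  rw [← ContinuousLinearMap.integral_comp_comm L (Mol_integrable hu s x)]
  refine MeasureTheory.integral_congr_ae (Filter.Eventually.of_forall fun y => ?_)
  exact (L.map_smul _ _).symm

theorem Mol_iter_clm (R : ℕ) (s : ℝ) (L : V →L[ℝ] V') {u : E2 → V} (hu : ContDiff ℝ ∞ u)
    (hc : HasCompactSupport u) :
    (df s)^[R] (fun x => L (u x)) = fun x => L ((df s)^[R] u x) := by
  induction R with
  | zero => rfl
  | succ R ih =>
    rw [Function.iterate_succ_apply', Function.iterate_succ_apply', ih]
    have h := (Mol_iter R s hu hc).1.continuous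
    generalize (df s)^[R] u = w at h
    funext x
    change L (w x) - cv s (fun x => L (w x)) x = L (w x - cv s w x)
    rw [Mol_cv_clm s L h, map_sub]

theorem mol_clm (R : ℕ) (s : ℝ) (L : V →L[ℝ] V') {u : E2 → V} (hu : ContDiff ℝ ∞ u)
    (hc : HasCompactSupport u) : mol R s (fun x => L (u x)) = fun x => L (mol R s u x) := by
  funext x
  unfold mol
  rw [Mol_iter_clm R s L hu hc, map_sub]

theorem mol_smooth (R : ℕ) (s : ℝ) {u : E2 → V} (hu : ContDiff ℝ ∞ u)
    (hc : HasCompactSupport u) : ContDiff ℝ ∞ (mol R s u) :=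
  hu.sub (Mol_iter R s hu hc).1

theorem mol_compact (R : ℕ) (s : ℝ) {u : E2 → V} (hu : ContDiff ℝ ∞ u)
    (hc : HasCompactSupport u) : HasCompactSupport (mol R s u) :=
  HasCompactSupport.sub hc (Mol_iter R s hu hc).2

end P205F
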