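import Vale.Agent.Lib.P205F.TA
import Vale.Agent.Lib.P205F.GDefs

/-! # P205F module SelA: selection of three good directions -/

open scoped ContDiff Topology
open Set

namespace P205F

/-! ### the slopes: fifteen different numbers, in five triples -/

private noncomputable def SelA_t (k : Fin 5) (j : Fin 3) : ℝ :=
  ![-(2 + ((k : ℕ) : ℝ)), ((k : ℕ) : ℝ) / 100, 2 + ((k : ℕ) : ℝ)] j

private theorem SelA_k (k : Fin 5) : (0 : ℝ) ≤ ((k : ℕ) : ℝ) ∧ ((k : ℕ) : ℝ) ≤ 4 := by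
  refine ⟨Nat.cast_nonneg _, ?_⟩
  have h : (k : ℕ) ≤ 4 := by omega
  exact_mod_cast h

private theorem SelA_t0 (k : Fin 5) : SelA_t k 0 = -(2 + ((k : ℕ) : ℝ)) := rfl
private theorem SelA_t1 (k : Fin 5) : SelA_t k 1 = ((k : ℕ) : ℝ) / 100 := rfl
private theorem SelA_t2 (k : Fin 5) : SelA_t k 2 = 2 + ((k : ℕ) : ℝ) := rfl

private theorem SelA_t_eq {k k' : Fin 5} {j j' : Fin 3} (h : SelA_t k j = SelA_t k' j') :
    k = k' := by
  obtain ⟨a1, a2⟩ := SelA_k k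
  obtain ⟨b1, b2⟩ := SelA_k k'
  have key : ((k : ℕ) : ℝ) = ((k' : ℕ) : ℝ) → k = k' := by
    intro h
    apply Fin.ext
    exact_mod_cast h
  have hj : j = 0 ∨ j = 1 ∨ j = 2 := by omega
  have hj' : j' = 0 ∨ j' = 1 ∨ j' = 2 := by omega
  rcases hj with rfl | rfl | rfl <;> rcases hj' with rfl | rfl | rfl <;>
    simp only [SelA_t0, SelA_t1, SelA_t2] at h
  · exact key (by linarith)
  · exfalso; linarith
  · exfalso; linarith
  · exfalso; linarith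
  · exact key (by linarith)
  · exfalso; linarith
  · exfalso; linarith
  · exfalso; linarith
  · exact key (by linarith)

private theorem SelA_abs (k : Fin 5) (j : Fin 3) : |SelA_t k j| ≤ 6 := by
  obtain ⟨a1, a2⟩ := SelA_k k
  have hj : j = 0 ∨ j = 1 ∨ j = 2 := by omega
  rcases hj with rfl | rfl | rfl <;> simp only [SelA_t0, SelA_t1, SelA_t2] <;>
    rw [abs_le] <;> constructor <;> linarith

/-- the value of the quartic form with coefficients `c` at `(1, t)` -/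
private noncomputable def SelA_q (c : Fin 5 → ℝ) (t : ℝ) : ℝ := ∑ i : Fin 5, t ^ (i : ℕ) * c i

private theorem SelA_q_smul (r : ℝ) (c : Fin 5 → ℝ) (t : ℝ) :
    SelA_q (r • c) t = r * SelA_q c t := by
  unfold SelA_q
  rw [Finset.mul_sum]
  refine Finset.sum_congr rfl fun i _ => ?_
  simp only [Pi.smul_apply, smul_eq_mul]
  ring

private theorem SelA_q_cont (t : ℝ) : Continuous fun c : Fin 5 → ℝ => SelA_q c t := by
  unfold SelA_q
  fun_prop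

private noncomputable def SelA_mn (c : Fin 5 → ℝ) (k : Fin 5) : ℝ :=
  min (min |SelA_q c (SelA_t k 0)| |SelA_q c (SelA_t k 1)|) |SelA_q c (SelA_t k 2)|

private theorem SelA_mn_nonneg (c : Fin 5 → ℝ) (k : Fin 5) : 0 ≤ SelA_mn c k :=
  le_min (le_min (abs_nonneg _) (abs_nonneg _)) (abs_nonneg _)

private theorem SelA_mn_le (c : Fin 5 → ℝ) (k : Fin 5) (j : Fin 3) :
    SelA_mn c k ≤ |SelA_q c (SelA_t k j)| := by
  have hj : j = 0 ∨ j = 1 ∨ j = 2 := by omega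
  rcases hj with rfl | rfl | rfl
  · exact (min_le_left _ _).trans (min_le_left _ _)
  · exact (min_le_left _ _).trans (min_le_right _ _)
  · exact min_le_right _ _

private theorem SelA_mn_zero {c : Fin 5 → ℝ} {k : Fin 5} (h : SelA_mn c k = 0) :
    ∃ j, SelA_q c (SelA_t k j) = 0 := by
  unfold SelA_mn at h
  rcases min_choice (min |SelA_q c (SelA_t k 0)| |SelA_q c (SelA_t k 1)|)
    |SelA_q c (SelA_t k 2)| with h1 | h1
  · rw [h1] at h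
    rcases min_choice |SelA_q c (SelA_t k 0)| |SelA_q c (SelA_t k 1)| with h2 | h2
    · rw [h2] at h
      exact ⟨0, abs_eq_zero.1 h⟩
    · rw [h2] at h
      exact ⟨1, abs_eq_zero.1 h⟩
  · rw [h1] at h
    exact ⟨2, abs_eq_zero.1 h⟩

private theorem SelA_kappa : ∃ κ : ℝ, 0 < κ ∧ ∀ c : Fin 5 → ℝ, ∃ k : Fin 5, ∀ j : Fin 3,
    κ * ‖c‖ ≤ |SelA_q c (SelA_t k j)| := by
  have hcont : Continuous fun c : Fin 5 → ℝ => ∑ k : Fin 5, SelA_mn c k := by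
    refine continuous_finsetSum _ fun k _ => ?_
    unfold SelA_mn
    exact (((SelA_q_cont _).abs).min ((SelA_q_cont _).abs)).min ((SelA_q_cont _).abs)
  have hne : (Metric.sphere (0 : Fin 5 → ℝ) 1).Nonempty := by
    refine ⟨fun _ => 1, ?_⟩
    rw [mem_sphere_zero_iff_norm, pi_norm_const, norm_one]
  obtain ⟨c0, hc0, hmin⟩ := (isCompact_sphere (0 : Fin 5 → ℝ) 1).exists_isMinOn hne
    hcont.continuousOn
  have hc0n : ‖c0‖ = 1 := mem_sphere_zero_iff_norm.1 hc0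
  have hpos : 0 < ∑ k : Fin 5, SelA_mn c0 k := by
    by_contra hcon
    have h0 : ∑ k : Fin 5, SelA_mn c0 k = 0 :=
      le_antisymm (not_lt.1 hcon) (Finset.sum_nonneg fun k _ => SelA_mn_nonneg c0 k)
    rw [Finset.sum_eq_zero_iff_of_nonneg fun k _ => SelA_mn_nonneg c0 k] at h0
    choose J hJ using fun k => SelA_mn_zero (h0 k (Finset.mem_univ k))
    have h1 : c0 = 0 := Matrix.eq_zero_of_forall_index_sum_pow_mul_eq_zero
      (f := fun k => SelA_t k (J k)) (fun k k' h => SelA_t_eq h) hJ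
    rw [h1, norm_zero] at hc0n
    exact zero_ne_one hc0n
  set S := ∑ k : Fin 5, SelA_mn c0 k with hS
  refine ⟨S / 5, by positivity, fun c => ?_⟩
  by_cases hc : c = 0
  · refine ⟨0, fun j => ?_⟩
    rw [hc, norm_zero, mul_zero]
    exact abs_nonneg _
  · have hcn : 0 < ‖c‖ := norm_pos_iff.2 hc
    set c' : Fin 5 → ℝ := ‖c‖⁻¹ • c with hc'
    have hc'n : ‖c'‖ = 1 := by
      rw [hc', norm_smul, norm_inv, norm_norm, inv_mul_cancel₀ hcn.ne']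
    have hcc : c = ‖c‖ • c' := by
      rw [hc', smul_smul, mul_inv_cancel₀ hcn.ne', one_smul]
    have h1 : S ≤ ∑ k : Fin 5, SelA_mn c' k := by
      have h2 := hmin (mem_sphere_zero_iff_norm.2 hc'n)
      exact h2
    have h3 : ∃ k : Fin 5, S / 5 ≤ SelA_mn c' k := by
      by_contra hcon
      push Not at hcon
      have h4 : ∑ k : Fin 5, SelA_mn c' k < ∑ _k : Fin 5, S / 5 :=
        Finset.sum_lt_sum_of_nonempty Finset.univ_nonempty fun k _ => hcon k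
      rw [Finset.sum_const, Finset.card_univ, Fintype.card_fin, nsmul_eq_mul] at h4
      push_cast at h4
      linarith
    obtain ⟨k, hk⟩ := h3
    refine ⟨k, fun j => ?_⟩
    have h5 : SelA_q c (SelA_t k j) = ‖c‖ * SelA_q c' (SelA_t k j) := by
      conv_lhs => rw [hcc]
      exact SelA_q_smul _ _ _
    rw [h5, abs_mul, abs_of_pos hcn, mul_comm]
    exact mul_le_mul_of_nonneg_left (hk.trans (SelA_mn_le c' k j)) hcn.le

/-- the quartic form -/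
private theorem SelA_quartic (a b : V4) (Q : Fin 2 → Fin 2 → V4) (e f : E2) :
    ∃ c : Fin 5 → ℝ, ∀ x y : ℝ, gram3 a b (Qv Q (x • e + y • f)) =
      c 0 * x ^ 4 + c 1 * (x ^ 3 * y) + c 2 * (x ^ 2 * y ^ 2) + c 3 * (x * y ^ 3) +
        c 4 * y ^ 4 := by
  set U : V4 := Qv Q e with hU
  set W : V4 := Qv Q f with hW
  set Z : V4 := ∑ i, ∑ j, (co e i * co f j + co f i * co e j) • Q i j with hZ
  have h1 : ∀ x y : ℝ, Qv Q (x • e + y • f) = x ^ 2 • U + (x * y) • Z + y ^ 2 • W := by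
    intro x y
    rw [hU, hW, hZ]
    unfold Qv
    simp only [Fin.sum_univ_two, co, Prod.fst_add, Prod.snd_add, Prod.smul_fst, Prod.smul_snd,
      smul_eq_mul, if_true, one_ne_zero, if_false]
    module
  let B : V4 → V4 → ℝ := fun w w' =>
    (inner ℝ a a * inner ℝ b b - inner ℝ a b ^ 2) * inner ℝ w w' -
      inner ℝ a a * inner ℝ b w * inner ℝ b w' +
      inner ℝ a b * (inner ℝ a w * inner ℝ b w' + inner ℝ a w' * inner ℝ b w) -
      inner ℝ b b * inner ℝ a w * inner ℝ a w'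
  refine ⟨![B U U, 2 * B U Z, 2 * B U W + B Z Z, 2 * B Z W, B W W], fun x y => ?_⟩
  rw [h1]
  unfold gram3
  simp only [inner_add_left, inner_add_right, inner_smul_left, inner_smul_right,
    RCLike.conj_to_real]
  rw [real_inner_comm U Z, real_inner_comm U W, real_inner_comm Z W]
  simp only [B, Matrix.cons_val_zero, Matrix.cons_val_one, Matrix.cons_val]
  ring

/-! ### algebra of the frame -/

private noncomputable def SelA_ev (v w : E2) : T2 →L[ℝ] ℝ :=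
  ∑ i : Fin 2, ∑ j : Fin 2, (co v i * co w j) •
    ((ContinuousLinearMap.proj (R := ℝ) (φ := fun _ : Fin 2 => ℝ) j).comp
      (ContinuousLinearMap.proj (R := ℝ) (φ := fun _ : Fin 2 => (Fin 2 → ℝ)) i))

private theorem SelA_ev_apply (v w : E2) (h : T2) :
    SelA_ev v w h = v.1 * w.1 * h 0 0 + v.1 * w.2 * h 0 1 + v.2 * w.1 * h 1 0 +
      v.2 * w.2 * h 1 1 := by
  unfold SelA_ev
  simp only [Fin.sum_univ_two, co, if_true, one_ne_zero, if_false]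
  simp only [add_apply, smul_apply, ContinuousLinearMap.comp_apply,
    ContinuousLinearMap.proj_apply, smul_eq_mul]
  ring

private theorem SelA_ev_norm {v w : E2} {M : ℝ} (hv : ‖v‖ ≤ M) (hw : ‖w‖ ≤ M) :
    ‖SelA_ev v w‖ ≤ 4 * M ^ 2 := by
  have hM : 0 ≤ M := (norm_nonneg v).trans hv
  refine ContinuousLinearMap.opNorm_le_bound _ (by positivity) fun h => ?_
  rw [SelA_ev_apply, Real.norm_eq_abs]
  have hh : ∀ i j, |h i j| ≤ ‖h‖ := fun i j => by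
    have h1 := norm_le_pi_norm (h i) j
    have h2 := norm_le_pi_norm h i
    rw [Real.norm_eq_abs] at h1
    exact h1.trans h2
  have hv1 : |v.1| ≤ M := (norm_fst_le v).trans hv
  have hv2 : |v.2| ≤ M := (norm_snd_le v).trans hv
  have hw1 : |w.1| ≤ M := (norm_fst_le w).trans hw
  have hw2 : |w.2| ≤ M := (norm_snd_le w).trans hw
  have key : ∀ (x y : ℝ) (i j : Fin 2), |x| ≤ M → |y| ≤ M → |x * y * h i j| ≤ M ^ 2 * ‖h‖ := by
    intro x y i j hx hy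
    rw [abs_mul, abs_mul]
    have h1 : |x| * |y| ≤ M ^ 2 := by
      rw [pow_two]
      exact mul_le_mul hx hy (abs_nonneg _) hM
    exact mul_le_mul h1 (hh i j) (abs_nonneg _) (by positivity)
  have k1 := key v.1 w.1 0 0 hv1 hw1
  have k2 := key v.1 w.2 0 1 hv1 hw2
  have k3 := key v.2 w.1 1 0 hv2 hw1
  have k4 := key v.2 w.2 1 1 hv2 hw2
  calc |v.1 * w.1 * h 0 0 + v.1 * w.2 * h 0 1 + v.2 * w.1 * h 1 0 + v.2 * w.2 * h 1 1|
      ≤ |v.1 * w.1 * h 0 0| + |v.1 * w.2 * h 0 1| + |v.2 * w.1 * h 1 0| +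
          |v.2 * w.2 * h 1 1| :=
        (abs_add_le _ _).trans (add_le_add ((abs_add_le _ _).trans
          (add_le_add (abs_add_le _ _) le_rfl)) le_rfl)
    _ ≤ 4 * M ^ 2 * ‖h‖ := by linarith

/-- vectors of the frame -/
private noncomputable def SelA_v (B G t : ℝ) : E2 := (1 - t * B, t * G)

private theorem SelA_id {s0 s1 s2 B G : ℝ} (h01 : s0 - s1 ≠ 0) (h02 : s0 - s2 ≠ 0)
    (h12 : s1 - s2 ≠ 0) (hG : G ≠ 0) (h : T2) (hs : h 0 1 = h 1 0) (k l : Fin 2) :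
    h k l = ((s0 - s1) * (s0 - s2) * G ^ 2)⁻¹ *
        SelA_ev (SelA_v B G s1) (SelA_v B G s2) h *
          (co ((SelA_v B G s0).2, -(SelA_v B G s0).1) k *
            co ((SelA_v B G s0).2, -(SelA_v B G s0).1) l) +
      ((s1 - s2) * (s1 - s0) * G ^ 2)⁻¹ *
        SelA_ev (SelA_v B G s2) (SelA_v B G s0) h *
          (co ((SelA_v B G s1).2, -(SelA_v B G s1).1) k *
            co ((SelA_v B G s1).2, -(SelA_v B G s1).1) l) +
      ((s2 - s0) * (s2 - s1) * G ^ 2)⁻¹ *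
        SelA_ev (SelA_v B G s0) (SelA_v B G s1) h *
          (co ((SelA_v B G s2).2, -(SelA_v B G s2).1) k *
            co ((SelA_v B G s2).2, -(SelA_v B G s2).1) l) := by
  have e10 : s1 - s0 = -(s0 - s1) := by ring
  have e20 : s2 - s0 = -(s0 - s2) := by ring
  have e21 : s2 - s1 = -(s1 - s2) := by ring
  rw [e10, e20, e21]
  simp only [SelA_ev_apply, ← hs]
  have hk : k = 0 ∨ k = 1 := by omega
  have hl : l = 0 ∨ l = 1 := by omega
  rcases hk with rfl | rfl <;> rcases hl with rfl | rfl <;>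
    simp only [co, if_true, one_ne_zero, if_false, SelA_v, ← hs] <;>
    field_simp <;> ring

private theorem SelA_sep (k : Fin 5) (j : Fin 3) :
    1 ≤ |SelA_t k j - SelA_t k (j + 1)| ∧ 1 ≤ |SelA_t k j - SelA_t k (j + 2)| := by
  obtain ⟨a1, a2⟩ := SelA_k k
  have hj : j = 0 ∨ j = 1 ∨ j = 2 := by omega
  rcases hj with rfl | rfl | rfl
  · change 1 ≤ |SelA_t k 0 - SelA_t k 1| ∧ 1 ≤ |SelA_t k 0 - SelA_t k 2|
    simp only [SelA_t0, SelA_t1, SelA_t2]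
    constructor <;> rw [le_abs] <;> right <;> linarith
  · change 1 ≤ |SelA_t k 1 - SelA_t k 2| ∧ 1 ≤ |SelA_t k 1 - SelA_t k 0|
    simp only [SelA_t0, SelA_t1, SelA_t2]
    constructor <;> rw [le_abs]
    · right; linarith
    · left; linarith
  · change 1 ≤ |SelA_t k 2 - SelA_t k 0| ∧ 1 ≤ |SelA_t k 2 - SelA_t k 1|
    simp only [SelA_t0, SelA_t1, SelA_t2]
    constructor <;> rw [le_abs] <;> left <;> linarith

private theorem SelA_ratio (k : Fin 5) (j : Fin 3) :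
    1 ≤ 100 * (((SelA_t k j - SelA_t k (j + 1)) * (SelA_t k j - SelA_t k (j + 2)))⁻¹ *
      (1 + SelA_t k (j + 1) * SelA_t k (j + 2))) := by
  obtain ⟨a1, a2⟩ := SelA_k k
  have hj : j = 0 ∨ j = 1 ∨ j = 2 := by omega
  rcases hj with rfl | rfl | rfl
  · change 1 ≤ 100 * (((SelA_t k 0 - SelA_t k 1) * (SelA_t k 0 - SelA_t k 2))⁻¹ *
      (1 + SelA_t k 1 * SelA_t k 2))
    simp only [SelA_t0, SelA_t1, SelA_t2]
    set x : ℝ := ((k : ℕ) : ℝ)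
    have hpos : 0 < (-(2 + x) - x / 100) * (-(2 + x) - (2 + x)) := by
      apply mul_pos_of_neg_of_neg <;> linarith
    rw [← mul_assoc, mul_comm (100 : ℝ), mul_assoc, ← div_eq_inv_mul, le_div_iff₀ hpos]
    nlinarith
  · change 1 ≤ 100 * (((SelA_t k 1 - SelA_t k 2) * (SelA_t k 1 - SelA_t k 0))⁻¹ *
      (1 + SelA_t k 2 * SelA_t k 0))
    simp only [SelA_t0, SelA_t1, SelA_t2]
    set x : ℝ := ((k : ℕ) : ℝ)
    have hpos : 0 < -((x / 100 - (2 + x)) * (x / 100 - -(2 + x))) := by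
      rw [neg_pos]
      apply mul_neg_of_neg_of_pos <;> linarith
    have e : ((x / 100 - (2 + x)) * (x / 100 - -(2 + x)))⁻¹ * (1 + (2 + x) * -(2 + x)) =
        (-((x / 100 - (2 + x)) * (x / 100 - -(2 + x))))⁻¹ * (-(1 + (2 + x) * -(2 + x))) := by
      rw [inv_neg, neg_mul_neg]
    rw [e, ← mul_assoc, mul_comm (100 : ℝ), mul_assoc, ← div_eq_inv_mul, le_div_iff₀ hpos]
    nlinarith
  · change 1 ≤ 100 * (((SelA_t k 2 - SelA_t k 0) * (SelA_t k 2 - SelA_t k 1))⁻¹ *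
      (1 + SelA_t k 0 * SelA_t k 1))
    simp only [SelA_t0, SelA_t1, SelA_t2]
    set x : ℝ := ((k : ℕ) : ℝ)
    have hpos : 0 < (2 + x - -(2 + x)) * (2 + x - x / 100) := by
      apply mul_pos <;> linarith
    rw [← mul_assoc, mul_comm (100 : ℝ), mul_assoc, ← div_eq_inv_mul, le_div_iff₀ hpos]
    nlinarith

/-- the frame -/
private theorem SelA_frame1 {Lam : ℝ} (hL : 1 ≤ Lam) {A g1 g2 : ℝ} (hA2 : |A| ≤ Lam)
    (hg1 : |g1| ≤ Lam) (hg2 : |g2| ≤ Lam)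
    (hpos : ∀ v : E2, nsq v ≤ Lam * (A * v.1 ^ 2 + 2 * g1 * (v.1 * v.2) + g2 * v.2 ^ 2)) :
    ∃ σ D : ℝ, 0 < A ∧ 1 ≤ Lam * A ∧ 0 < σ ∧ σ ^ 2 = D ∧ D = A * g2 - g1 ^ 2 ∧ σ ≤ Lam ∧
      σ⁻¹ ≤ Lam ∧ 1 ≤ Lam ^ 2 * D := by
  have hL0 : 0 < Lam := by linarith
  have hA : 1 ≤ Lam * A := by
    have h := hpos (1, 0)
    simp only [nsq] at h
    linarith
  have hA0 : 0 < A := by
    by_contra hcon
    have := mul_nonneg hL0.le (neg_nonneg.2 (not_lt.1 hcon))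
    linarith
  obtain ⟨D, hDdef⟩ : ∃ D, D = A * g2 - g1 ^ 2 := ⟨_, rfl⟩
  have hD : 1 ≤ Lam ^ 2 * D := by
    have h := hpos (-g1, A)
    simp only [nsq] at h
    have h1 : A * A ≤ A * (Lam * D) := by
      rw [hDdef]
      nlinarith [sq_nonneg g1]
    have h2 : A ≤ Lam * D := le_of_mul_le_mul_left h1 hA0
    have h3 : Lam * A ≤ Lam * (Lam * D) := mul_le_mul_of_nonneg_left h2 hL0.le
    nlinarith
  have hD0 : 0 < D := by
    by_contra hcon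
    have := mul_nonneg (sq_nonneg Lam) (neg_nonneg.2 (not_lt.1 hcon))
    linarith
  have hD2 : D ≤ Lam ^ 2 := by
    have h1 : A * g2 ≤ |A| * |g2| := by
      rw [← abs_mul]
      exact le_abs_self _
    have h2 : |A| * |g2| ≤ Lam * Lam := mul_le_mul hA2 hg2 (abs_nonneg _) hL0.le
    have h3 := sq_nonneg g1
    rw [hDdef]
    nlinarith
  have hσ0 : 0 < Real.sqrt D := Real.sqrt_pos.2 hD0
  have hσ2 : Real.sqrt D ^ 2 = D := Real.sq_sqrt hD0.le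
  obtain ⟨σ, hσdef⟩ : ∃ σ, σ = Real.sqrt D := ⟨_, rfl⟩
  have hσL2 : σ ≤ Lam := by
    rw [hσdef]
    exact Real.sqrt_le_iff.2 ⟨hL0.le, hD2⟩
  rw [← hσdef] at hσ0 hσ2
  have hσL : 1 ≤ Lam * σ := by
    by_contra hcon
    push Not at hcon
    have h1 : 0 < Lam * σ := by positivity
    have h2 : (Lam * σ) ^ 2 < 1 := by nlinarith
    have h3 : (Lam * σ) ^ 2 = Lam ^ 2 * D := by rw [mul_pow, hσ2]
    linarith
  have hσi : σ⁻¹ ≤ Lam := by
    rw [inv_le_iff_one_le_mul₀ hσ0]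
    exact hσL
  exact ⟨σ, D, hA0, hA, hσ0, hσ2, hDdef, hσL2, hσi, hD⟩

/-- the form in the frame -/
private theorem SelA_frame2 {A g1 g2 σ D : ℝ} (hσ0 : 0 < σ) (hσ2 : σ ^ 2 = D)
    (hDdef : D = A * g2 - g1 ^ 2) (s t : ℝ) :
    A * ((1 - s * (g1 * σ⁻¹)) * (1 - t * (g1 * σ⁻¹))) +
      g1 * ((1 - s * (g1 * σ⁻¹)) * (t * (A * σ⁻¹)) + s * (A * σ⁻¹) * (1 - t * (g1 * σ⁻¹))) +
      g2 * ((s * (A * σ⁻¹)) * (t * (A * σ⁻¹))) = A * (1 + s * t) := by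
  obtain ⟨B, hBdef⟩ : ∃ B, B = g1 * σ⁻¹ := ⟨_, rfl⟩
  obtain ⟨G, hGdef⟩ : ∃ G, G = A * σ⁻¹ := ⟨_, rfl⟩
  have hGσ : G * σ = A := by
    rw [hGdef, mul_assoc, inv_mul_cancel₀ hσ0.ne', mul_one]
  have hBσ : B * σ = g1 := by
    rw [hBdef, mul_assoc, inv_mul_cancel₀ hσ0.ne', mul_one]
  rw [← hBdef, ← hGdef]
  have e1 : A * B = g1 * G := by
    rw [hBdef, hGdef]
    ring
  have e2 : g2 * G ^ 2 - g1 * B * G = A := by
    have h1 : (g2 * G ^ 2 - g1 * B * G) * σ ^ 2 = A * σ ^ 2 := by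
      have h2 : (g2 * G ^ 2 - g1 * B * G) * σ ^ 2 = g2 * (G * σ) ^ 2 -
          g1 * (B * σ) * (G * σ) := by ring
      rw [h2, hGσ, hBσ, hσ2, hDdef]
      ring
    exact mul_right_cancel₀ (pow_ne_zero 2 hσ0.ne') h1
  linear_combination (-(s + t) + s * t * B) * e1 + s * t * e2

/-- lower bound of the length of a vector -/
private theorem SelA_len {Lam : ℝ} (hL : 1 ≤ Lam) {A g1 g2 : ℝ} (hA : 1 ≤ Lam * A) (hA0 : 0 < A)
    (hA2 : |A| ≤ Lam) (hg1 : |g1| ≤ Lam) (hg2 : |g2| ≤ Lam) {p q t : ℝ}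
    (h1 : A * (p * p) + g1 * (p * q + q * p) + g2 * (q * q) = A * (1 + t * t)) :
    1 ≤ 2 * Lam ^ 2 * (p ^ 2 + q ^ 2) := by
  have hL0 : 0 < Lam := by linarith
  have h2 : A * (p * p) + g1 * (p * q + q * p) + g2 * (q * q) ≤
      2 * Lam * (p ^ 2 + q ^ 2) := by
    have b1 : A ≤ Lam := (le_abs_self _).trans hA2
    have b2 : g2 ≤ Lam := (le_abs_self _).trans hg2
    obtain ⟨b3, b4⟩ := abs_le.1 hg1
    have c1 : A * (p * p) ≤ Lam * (p * p) := mul_le_mul_of_nonneg_right b1 (mul_self_nonneg p)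
    have c2 : g2 * (q * q) ≤ Lam * (q * q) := mul_le_mul_of_nonneg_right b2 (mul_self_nonneg q)
    have c3 : g1 * (2 * (p * q)) ≤ Lam * (p * p + q * q) := by
      rcases le_total 0 (p * q) with h0 | h0
      · have d1 : g1 * (2 * (p * q)) ≤ Lam * (2 * (p * q)) :=
          mul_le_mul_of_nonneg_right b4 (by linarith)
        have d2 : Lam * (2 * (p * q)) ≤ Lam * (p * p + q * q) :=
          mul_le_mul_of_nonneg_left (by nlinarith [sq_nonneg (p - q)]) hL0.le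
        linarith
      · have d1 : (-g1) * (-(2 * (p * q))) ≤ Lam * (-(2 * (p * q))) :=
          mul_le_mul_of_nonneg_right (by linarith) (by linarith)
        have d2 : Lam * (-(2 * (p * q))) ≤ Lam * (p * p + q * q) :=
          mul_le_mul_of_nonneg_left (by nlinarith [sq_nonneg (p + q)]) hL0.le
        linarith
    nlinarith
  have h3 : A ≤ A * (1 + t * t) := by nlinarith [mul_self_nonneg t]
  have h4 : Lam * A ≤ Lam * (2 * Lam * (p ^ 2 + q ^ 2)) :=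
    mul_le_mul_of_nonneg_left (by linarith) hL0.le
  have h6 : Lam * (2 * Lam * (p ^ 2 + q ^ 2)) = 2 * Lam ^ 2 * (p ^ 2 + q ^ 2) := by ring
  linarith

/-- unit vectors in the frame -/
private theorem SelA_coord {Lam : ℝ} (hL : 1 ≤ Lam) {A g1 σ : ℝ} (hA : 1 ≤ Lam * A)
    (hA0 : 0 < A) (hg1 : |g1| ≤ Lam) (hσ0 : 0 < σ) (hσL2 : σ ≤ Lam) {v : E2}
    (hv : nsq v = 1) : ∃ x y : ℝ, |x| ≤ 2 * Lam ^ 2 ∧ |y| ≤ 2 * Lam ^ 2 ∧
      x • ((1, 0) : E2) + y • ((-(g1 * σ⁻¹), A * σ⁻¹) : E2) = v := by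
  have hL0 : 0 < Lam := by linarith
  have hvv : v.1 ^ 2 + v.2 ^ 2 = 1 := hv
  have hv1' : |v.1| ≤ 1 := by
    rw [abs_le]
    constructor <;> nlinarith [sq_nonneg v.2, sq_nonneg (v.1 + 1), sq_nonneg (v.1 - 1)]
  have hv2' : |v.2| ≤ 1 := by
    rw [abs_le]
    constructor <;> nlinarith [sq_nonneg v.1, sq_nonneg (v.2 + 1), sq_nonneg (v.2 - 1)]
  have hAi : A⁻¹ ≤ Lam := by
    rw [inv_le_iff_one_le_mul₀ hA0]
    exact hA
  have hAi0 : 0 < A⁻¹ := inv_pos.2 hA0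
  have hL1 : (1 : ℝ) ≤ Lam ^ 2 := one_le_pow₀ hL
  refine ⟨v.1 + v.2 * g1 * A⁻¹, v.2 * σ * A⁻¹, ?_, ?_, ?_⟩
  · have h0 : |v.2 * g1 * A⁻¹| ≤ Lam ^ 2 := by
      rw [abs_mul, abs_mul, abs_of_pos hAi0]
      have h1 : |v.2| * |g1| ≤ 1 * Lam := mul_le_mul hv2' hg1 (abs_nonneg _) zero_le_one
      have h2 : |v.2| * |g1| * A⁻¹ ≤ 1 * Lam * Lam := mul_le_mul h1 hAi hAi0.le (by positivity)
      nlinarith
    refine (abs_add_le _ _).trans ?_
    linarith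
  · rw [abs_mul, abs_mul, abs_of_pos hσ0, abs_of_pos hAi0]
    have h1 : |v.2| * σ ≤ 1 * Lam := mul_le_mul hv2' hσL2 hσ0.le zero_le_one
    have h2 : |v.2| * σ * A⁻¹ ≤ 1 * Lam * Lam := mul_le_mul h1 hAi hAi0.le (by positivity)
    nlinarith
  · refine Prod.ext ?_ ?_
    · change (v.1 + v.2 * g1 * A⁻¹) * 1 + v.2 * σ * A⁻¹ * (-(g1 * σ⁻¹)) = v.1
      field_simp
      ring
    · change (v.1 + v.2 * g1 * A⁻¹) * 0 + v.2 * σ * A⁻¹ * (A * σ⁻¹) = v.2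
      field_simp
      ring

private theorem SelA_poly (c : Fin 5 → ℝ) {x y M : ℝ} (hxM : |x| ≤ M) (hyM : |y| ≤ M) :
    c 0 * x ^ 4 + c 1 * (x ^ 3 * y) + c 2 * (x ^ 2 * y ^ 2) + c 3 * (x * y ^ 3) +
      c 4 * y ^ 4 ≤ 5 * (‖c‖ * M ^ 4) := by
  have hM0 : 0 ≤ M := (abs_nonneg _).trans hxM
  have hci : ∀ i, |c i| ≤ ‖c‖ := fun i => norm_le_pi_norm c i
  have key : ∀ (i : Fin 5) (z : ℝ), |z| ≤ M ^ 4 → c i * z ≤ ‖c‖ * M ^ 4 := by
    intro i z hz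
    calc c i * z ≤ |c i * z| := le_abs_self _
      _ = |c i| * |z| := abs_mul _ _
      _ ≤ ‖c‖ * M ^ 4 := mul_le_mul (hci i) hz (abs_nonneg _) (norm_nonneg _)
  have hpx : ∀ n : ℕ, |x ^ n| ≤ M ^ n := fun n => by
    rw [abs_pow]
    exact pow_le_pow_left₀ (abs_nonneg _) hxM n
  have hpy : ∀ n : ℕ, |y ^ n| ≤ M ^ n := fun n => by
    rw [abs_pow]
    exact pow_le_pow_left₀ (abs_nonneg _) hyM n
  have hx1 : |x| ≤ M ^ 1 := by rw [pow_one]; exact hxM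
  have hy1 : |y| ≤ M ^ 1 := by rw [pow_one]; exact hyM
  have hmul : ∀ (p q : ℝ) (m n : ℕ), |p| ≤ M ^ m → |q| ≤ M ^ n → |p * q| ≤ M ^ (m + n) := by
    intro p q m n hp hq
    rw [abs_mul, pow_add]
    exact mul_le_mul hp hq (abs_nonneg _) (pow_nonneg hM0 _)
  have k0 := key 0 (x ^ 4) (hpx 4)
  have k1 := key 1 (x ^ 3 * y) (hmul _ _ 3 1 (hpx 3) hy1)
  have k2 := key 2 (x ^ 2 * y ^ 2) (hmul _ _ 2 2 (hpx 2) (hpy 2))
  have k3 := key 3 (x * y ^ 3) (hmul _ _ 1 3 hx1 (hpy 3))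
  have k4 := key 4 (y ^ 4) (hpy 4)
  linarith

private theorem SelA_v_norm {Lam B G t : ℝ} (hL : 1 ≤ Lam) (hB : |B| ≤ Lam ^ 2) (hG0 : 0 < G)
    (hG2 : G ≤ Lam ^ 2) (ht : |t| ≤ 6) : ‖SelA_v B G t‖ ≤ 7 * Lam ^ 2 := by
  have h1 : |t * B| ≤ 6 * Lam ^ 2 := by
    rw [abs_mul]
    exact mul_le_mul ht hB (abs_nonneg _) (by norm_num)
  have h2 : |t * G| ≤ 6 * Lam ^ 2 := by
    rw [abs_mul, abs_of_pos hG0]
    exact mul_le_mul ht hG2 hG0.le (by norm_num)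
  have h3 : (1 : ℝ) ≤ Lam ^ 2 := one_le_pow₀ hL
  unfold SelA_v
  rw [Prod.norm_def, max_le_iff, Real.norm_eq_abs, Real.norm_eq_abs]
  constructor
  · have h4 : |1 - t * B| ≤ |(1 : ℝ)| + |t * B| := abs_sub _ _
    rw [abs_one] at h4
    linarith
  · linarith

private theorem SelA_cof_norm {Lam x y G : ℝ} (hL : 1 ≤ Lam) (hx : 1 ≤ |x|) (hy : 1 ≤ |y|)
    (hG0 : 0 < G) (hG1 : 1 ≤ Lam ^ 2 * G) {v w : E2} (hv : ‖v‖ ≤ 7 * Lam ^ 2)
    (hw : ‖w‖ ≤ 7 * Lam ^ 2) :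
    ‖(x * y * G ^ 2)⁻¹ • SelA_ev v w‖ ≤ 196 * Lam ^ 8 := by
  have hL0 : 0 < Lam := by linarith
  rw [norm_smul, norm_inv, Real.norm_eq_abs]
  have hab : 1 ≤ |x * y| := by
    rw [abs_mul]
    exact one_le_mul_of_one_le_of_one_le hx hy
  have h1 : |x * y * G ^ 2| = |x * y| * G ^ 2 := by
    rw [abs_mul, abs_of_pos (pow_pos hG0 2)]
  have hpos : 0 < |x * y * G ^ 2| := by
    rw [h1]
    exact mul_pos (by linarith) (pow_pos hG0 2)
  have h2 : |x * y * G ^ 2|⁻¹ ≤ Lam ^ 4 := by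
    rw [inv_le_iff_one_le_mul₀ hpos, h1]
    have h3 : 1 ≤ Lam ^ 4 * G ^ 2 := by
      have h4 : Lam ^ 4 * G ^ 2 = (Lam ^ 2 * G) * (Lam ^ 2 * G) := by ring
      rw [h4]
      exact one_le_mul_of_one_le_of_one_le hG1 hG1
    have h5 : Lam ^ 4 * (|x * y| * G ^ 2) = |x * y| * (Lam ^ 4 * G ^ 2) := by ring
    rw [h5]
    exact one_le_mul_of_one_le_of_one_le hab h3
  have h6 := SelA_ev_norm hv hw
  calc |x * y * G ^ 2|⁻¹ * ‖SelA_ev v w‖
      ≤ Lam ^ 4 * (4 * (7 * Lam ^ 2) ^ 2) := mul_le_mul h2 h6 (norm_nonneg _) (by positivity)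
    _ = 196 * Lam ^ 8 := by ring

/-- everything but the constants -/
private theorem SelA_main {κ : ℝ} (hκ : 0 < κ) (hsel : ∀ c : Fin 5 → ℝ, ∃ k : Fin 5,
      ∀ j : Fin 3, κ * ‖c‖ ≤ |SelA_q c (SelA_t k j)|) {Lam : ℝ} (hL : 1 ≤ Lam) {a b : V4}
    {Q : Fin 2 → Fin 2 → V4} {gs : T2} (H : JetOK Lam a b Q gs) :
    ∃ (k : Fin 5) (B G A : ℝ), |B| ≤ Lam ^ 2 ∧ 0 < G ∧ G ≤ Lam ^ 2 ∧ 1 ≤ Lam ^ 2 * G ∧
      (∀ s t, SelA_ev (SelA_v B G s) (SelA_v B G t) gs = A * (1 + s * t)) ∧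
      (∀ s, 1 ≤ 2 * Lam ^ 2 * nsq (SelA_v B G s)) ∧ 0 < A ∧ 1 ≤ Lam ^ 3 * (A * (G ^ 2)⁻¹) ∧
      ∀ j, 1 ≤ 80 / κ * Lam ^ 9 * gram3 a b (Qv Q (SelA_v B G (SelA_t k j))) := by
  have hL0 : 0 < Lam := by linarith
  obtain ⟨A, hAdef⟩ : ∃ A, A = gs 0 0 := ⟨_, rfl⟩
  obtain ⟨g1, hg1def⟩ : ∃ A, A = gs 0 1 := ⟨_, rfl⟩
  obtain ⟨g2, hg2def⟩ : ∃ A, A = gs 1 1 := ⟨_, rfl⟩
  have hg10 : gs 1 0 = g1 := by rw [hg1def, H.gsym]
  have hA2 : |A| ≤ Lam := by rw [hAdef]; exact H.hg 0 0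
  have hg1 : |g1| ≤ Lam := by rw [hg1def]; exact H.hg 0 1
  have hg2 : |g2| ≤ Lam := by rw [hg2def]; exact H.hg 1 1
  have hform : ∀ v : E2, ∑ i, ∑ j, co v i * co v j * gs i j =
      A * v.1 ^ 2 + 2 * g1 * (v.1 * v.2) + g2 * v.2 ^ 2 := by
    intro v
    simp only [Fin.sum_univ_two, co, if_true, one_ne_zero, if_false]
    rw [hg10, ← hAdef, ← hg1def, ← hg2def]
    ring
  obtain ⟨σ, D, hA0, hA, hσ0, hσ2, hDdef, hσL2, hσi, hD⟩ :=
    SelA_frame1 hL hA2 hg1 hg2 (fun v => by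
      have h := H.gpos v
      rwa [hform] at h)
  have hσi0 : 0 < σ⁻¹ := inv_pos.2 hσ0
  have hB : |g1 * σ⁻¹| ≤ Lam ^ 2 := by
    rw [abs_mul, abs_of_pos hσi0, pow_two]
    exact mul_le_mul hg1 hσi hσi0.le hL0.le
  have hG0 : 0 < A * σ⁻¹ := by positivity
  have hG2 : A * σ⁻¹ ≤ Lam ^ 2 := by
    rw [pow_two]
    exact mul_le_mul ((le_abs_self A).trans hA2) hσi hσi0.le hL0.le
  have hG1 : 1 ≤ Lam ^ 2 * (A * σ⁻¹) := by
    have h1 : 1 ≤ Lam * σ⁻¹ := by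
      rw [← div_eq_mul_inv, le_div_iff₀ hσ0, one_mul]
      exact hσL2
    have h2 : Lam ^ 2 * (A * σ⁻¹) = (Lam * A) * (Lam * σ⁻¹) := by ring
    rw [h2]
    exact one_le_mul_of_one_le_of_one_le hA h1
  have hgs := SelA_frame2 hσ0 hσ2 hDdef
  have hAG : 1 ≤ Lam ^ 3 * (A * ((A * σ⁻¹) ^ 2)⁻¹) := by
    have h3 : A * ((A * σ⁻¹) ^ 2)⁻¹ = D * A⁻¹ := by
      rw [mul_pow, mul_inv, inv_pow, inv_inv, hσ2]
      field_simp
    rw [h3]
    have h4 : 1 ≤ Lam * A⁻¹ := by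
      rw [← div_eq_mul_inv, le_div_iff₀ hA0, one_mul]
      exact (le_abs_self _).trans hA2
    have h5 : Lam ^ 3 * (D * A⁻¹) = (Lam ^ 2 * D) * (Lam * A⁻¹) := by ring
    rw [h5]
    exact one_le_mul_of_one_le_of_one_le hD h4
  obtain ⟨v, hv1, hv2⟩ := H.good
  obtain ⟨x, y, hx, hy, hxy⟩ := SelA_coord hL hA hA0 hg1 hσ0 hσL2 hv1
  obtain ⟨B, hBdef⟩ : ∃ B, B = g1 * σ⁻¹ := ⟨_, rfl⟩
  obtain ⟨G, hGdef⟩ : ∃ G, G = A * σ⁻¹ := ⟨_, rfl⟩
  rw [← hBdef] at hB hxy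
  rw [← hGdef] at hG0 hG2 hG1 hAG hxy
  simp only [← hBdef, ← hGdef] at hgs
  clear hBdef hGdef
  obtain ⟨c, hc⟩ := SelA_quartic a b Q (1, 0) (-B, G)
  obtain ⟨k, hk⟩ := hsel c
  have hP := hc x y
  rw [hxy] at hP
  rw [hP] at hv2
  have hcn : 1 ≤ 80 * Lam ^ 9 * ‖c‖ := by
    have h1 := SelA_poly c hx hy
    have h9 : Lam * (5 * (‖c‖ * (2 * Lam ^ 2) ^ 4)) = 80 * Lam ^ 9 * ‖c‖ := by ring
    rw [← h9]
    exact hv2.trans (mul_le_mul_of_nonneg_left h1 hL0.le)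
  refine ⟨k, B, G, A, hB, hG0, hG2, hG1, ?_, ?_, hA0, hAG, ?_⟩
  · intro s t
    rw [SelA_ev_apply, hg10, ← hAdef, ← hg1def, ← hg2def, ← hgs s t]
    unfold SelA_v
    ring
  · intro s
    exact SelA_len hL hA hA0 hA2 hg1 hg2 (hgs s s)
  · intro j
    have hperp : SelA_v B G (SelA_t k j) =
        (1 : ℝ) • ((1, 0) : E2) + SelA_t k j • ((-B, G) : E2) := by
      unfold SelA_v
      refine Prod.ext ?_ ?_
      · change 1 - SelA_t k j * B = 1 * 1 + SelA_t k j * (-B)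
        ring
      · change SelA_t k j * G = 1 * 0 + SelA_t k j * G
        ring
    have hval : gram3 a b (Qv Q (SelA_v B G (SelA_t k j))) = SelA_q c (SelA_t k j) := by
      rw [hperp, hc]
      unfold SelA_q
      rw [Fin.sum_univ_five]
      have e0 : ((0 : Fin 5) : ℕ) = 0 := rfl
      have e1 : ((1 : Fin 5) : ℕ) = 1 := rfl
      have e2 : ((2 : Fin 5) : ℕ) = 2 := rfl
      have e3 : ((3 : Fin 5) : ℕ) = 3 := rfl
      have e4 : ((4 : Fin 5) : ℕ) = 4 := rfl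
      rw [e0, e1, e2, e3, e4]
      ring
    have hnn := gram3_nonneg a b (Qv Q (SelA_v B G (SelA_t k j)))
    rw [hval] at hnn ⊢
    have h1 := hk j
    rw [abs_of_nonneg hnn] at h1
    have h2 : ‖c‖ ≤ SelA_q c (SelA_t k j) / κ := by
      rw [le_div_iff₀ hκ, mul_comm]
      exact h1
    have h3 : 80 * Lam ^ 9 * ‖c‖ ≤ 80 * Lam ^ 9 * (SelA_q c (SelA_t k j) / κ) :=
      mul_le_mul_of_nonneg_left h2 (by positivity)
    have h4 : 80 * Lam ^ 9 * (SelA_q c (SelA_t k j) / κ) =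
        80 / κ * Lam ^ 9 * SelA_q c (SelA_t k j) := by
      ring
    linarith

theorem selA : ∃ C m : ℕ, 1 ≤ C ∧ ∀ Lam : ℝ, 1 ≤ Lam → ∀ (a b : V4) (Q : Fin 2 → Fin 2 → V4)
    (gs : T2), JetOK Lam a b Q gs → ∃ om : Fin 3 → E2, ∃ cof : Fin 3 → (T2 →L[ℝ] ℝ),
      (∀ j, ‖om j‖ ≤ C * Lam ^ m) ∧ (∀ j, ‖cof j‖ ≤ C * Lam ^ m) ∧
      (∀ h : T2, h 0 1 = h 1 0 → ∀ k l, h k l = ∑ j, cof j h * (co (om j) k * co (om j) l)) ∧
      (∀ j, 1 ≤ C * Lam ^ m * nsq (om j)) ∧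
      (∀ j, 1 ≤ C * Lam ^ m * gram3 a b (Qv Q (perp (om j)))) ∧
      ∀ j, 1 ≤ C * Lam ^ m * cof j gs := by
  obtain ⟨κ, hκ, hsel⟩ := SelA_kappa
  refine ⟨200 + ⌈80 / κ⌉₊, 9, by omega, ?_⟩
  intro Lam hL a b Q gs H
  obtain ⟨C, hC⟩ : ∃ C : ℝ, C = ((200 + ⌈80 / κ⌉₊ : ℕ) : ℝ) := ⟨_, rfl⟩
  have hC200 : (200 : ℝ) ≤ C := by
    rw [hC]
    push_cast
    have : (0 : ℝ) ≤ (⌈80 / κ⌉₊ : ℝ) := Nat.cast_nonneg _
    linarith
  have hCκ : 80 / κ ≤ C := by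
    rw [hC]
    push_cast
    have := Nat.le_ceil (80 / κ)
    linarith
  rw [← hC]
  clear hC
  have hL0 : 0 < Lam := by linarith
  have hLle : ∀ {i j : ℕ}, i ≤ j → Lam ^ i ≤ Lam ^ j := fun h => pow_le_pow_right₀ hL h
  obtain ⟨k, B, G, A, hB, hG0, hG2, hG1, hev, hlen, hA0, hAG, hgr⟩ := SelA_main hκ hsel hL H
  have ht6 := SelA_abs k
  have hsep := SelA_sep k
  have hratio := SelA_ratio k
  obtain ⟨t, htdef⟩ : ∃ t, t = SelA_t k := ⟨_, rfl⟩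
  simp only [← htdef] at ht6 hsep hratio hgr
  have hv7 : ∀ j, ‖SelA_v B G (t j)‖ ≤ 7 * Lam ^ 2 := fun j =>
    SelA_v_norm hL hB hG0 hG2 (ht6 j)
  have hup : ∀ {n : ℕ} {r : ℝ}, r ≤ 200 → n ≤ 9 → r * Lam ^ n ≤ C * Lam ^ 9 := by
    intro n r hr hn
    have h1 : r * Lam ^ n ≤ C * Lam ^ n :=
      mul_le_mul_of_nonneg_right (hr.trans hC200) (by positivity)
    exact h1.trans (mul_le_mul_of_nonneg_left (hLle hn) (by linarith))
  refine ⟨fun j => ((SelA_v B G (t j)).2, -(SelA_v B G (t j)).1),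
    fun j => ((t j - t (j + 1)) * (t j - t (j + 2)) * G ^ 2)⁻¹ •
      SelA_ev (SelA_v B G (t (j + 1))) (SelA_v B G (t (j + 2))), ?_, ?_, ?_, ?_, ?_, ?_⟩
  · intro j
    have h2 : ‖(((SelA_v B G (t j)).2, -(SelA_v B G (t j)).1) : E2)‖ =
        ‖SelA_v B G (t j)‖ := by
      rw [Prod.norm_def, Prod.norm_def, norm_neg, max_comm]
    rw [h2]
    exact (hv7 j).trans (hup (by norm_num) (by norm_num))
  · intro j
    exact (SelA_cof_norm hL (hsep j).1 (hsep j).2 hG0 hG1 (hv7 _) (hv7 _)).trans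
      (hup (by norm_num) (by norm_num))
  · intro h hs k' l'
    rw [Fin.sum_univ_three]
    have hne : ∀ x : ℝ, 1 ≤ |x| → x ≠ 0 := by
      intro x hx h0
      rw [h0, abs_zero] at hx
      linarith
    have h01 : t 0 - t 1 ≠ 0 := hne _ (hsep 0).1
    have h02 : t 0 - t 2 ≠ 0 := hne _ (hsep 0).2
    have h12 : t 1 - t 2 ≠ 0 := hne _ (hsep 1).1
    exact SelA_id h01 h02 h12 hG0.ne' h hs k' l'
  · intro j
    have hns : nsq (((SelA_v B G (t j)).2, -(SelA_v B G (t j)).1) : E2) =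
        nsq (SelA_v B G (t j)) := by
      unfold nsq
      ring
    rw [hns]
    have h5 : 0 ≤ nsq (SelA_v B G (t j)) := by
      unfold nsq
      positivity
    exact (hlen (t j)).trans (mul_le_mul_of_nonneg_right (hup (by norm_num) (by norm_num)) h5)
  · intro j
    have hperp : perp (((SelA_v B G (t j)).2, -(SelA_v B G (t j)).1) : E2) =
        SelA_v B G (t j) := by
      unfold perp
      refine Prod.ext ?_ rfl
      exact neg_neg _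
    rw [hperp]
    have hnn := gram3_nonneg a b (Qv Q (SelA_v B G (t j)))
    exact (hgr j).trans (mul_le_mul_of_nonneg_right
      (mul_le_mul_of_nonneg_right hCκ (by positivity)) hnn)
  · intro j
    have hval : (((t j - t (j + 1)) * (t j - t (j + 2)) * G ^ 2)⁻¹ •
        SelA_ev (SelA_v B G (t (j + 1))) (SelA_v B G (t (j + 2)))) gs =
        (((t j - t (j + 1)) * (t j - t (j + 2)))⁻¹ * (1 + t (j + 1) * t (j + 2))) *
          (A * (G ^ 2)⁻¹) := by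
      rw [smul_apply, hev, smul_eq_mul, mul_inv]
      ring
    rw [hval]
    have h1 := hratio j
    have hw0 : 0 < A * (G ^ 2)⁻¹ := mul_pos hA0 (inv_pos.2 (pow_pos hG0 2))
    obtain ⟨r, hr⟩ : ∃ r, r = ((t j - t (j + 1)) * (t j - t (j + 2)))⁻¹ *
      (1 + t (j + 1) * t (j + 2)) := ⟨_, rfl⟩
    obtain ⟨w, hw⟩ : ∃ w, w = A * (G ^ 2)⁻¹ := ⟨_, rfl⟩
    rw [← hr] at h1 ⊢
    rw [← hw] at hAG hw0 ⊢
    have hr0 : 0 < r := by linarith
    have h3 := one_le_mul_of_one_le_of_one_le h1 hAG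
    have h4 : 100 * r * (Lam ^ 3 * w) = 100 * Lam ^ 3 * (r * w) := by ring
    rw [h4] at h3
    exact h3.trans (mul_le_mul_of_nonneg_right (hup (by norm_num) (by norm_num))
      (mul_pos hr0 hw0).le)

end P205F
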