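import Vale.Agent.Lib.P205F.Cut
import Vale.Agent.Lib.P205F.MolB

/-! # P205F module St1: the colour data of a state -/

open scoped ContDiff Topology
open Set

namespace P205F

/-! ### the cutoff -/

private theorem St1_cb_sm : ContDiff ℝ ∞ (cutB : E2 → ℝ) := cutB.contDiff

private theorem St1_cb_zero {x : E2} (hx : (299 / 100 : ℝ) ≤ ‖x‖) : cutB x = 0 := by
  refine cutB.zero_of_le_dist ?_
  rw [dist_zero_right]
  exact hx

private theorem St1_cb_one {x : E2} (hx : ‖x‖ ≤ (59 / 20 : ℝ)) : cutB x = 1 := by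
  refine cutB.one_of_mem_closedBall ?_
  rw [mem_closedBall_zero_iff]
  exact hx

private theorem St1_ev_zero {V : Type} [NormedAddCommGroup V] [NormedSpace ℝ V] (F : E2 → V)
    {x : E2} (hx : (299 / 100 : ℝ) < ‖x‖) : (fun y => cutB y • F y) =ᶠ[𝓝 x] fun _ => 0 := by
  have h1 : ∀ᶠ y in 𝓝 x, (299 / 100 : ℝ) < ‖y‖ :=
    (continuous_norm.tendsto x).eventually_const_lt hx
  filter_upwards [h1] with y hy
  rw [St1_cb_zero hy.le, zero_smul]

private theorem St1_bounded (j : ℕ) : ∃ K : ℝ, 0 ≤ K ∧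
    ∀ x, ‖iteratedFDeriv ℝ j (cutB : E2 → ℝ) x‖ ≤ K := by
  obtain ⟨K, hK⟩ := (cutB.hasCompactSupport.iteratedFDeriv (𝕜 := ℝ) j).exists_bound_of_continuous
    (St1_cb_sm.continuous_iteratedFDeriv (by exact_mod_cast le_top))
  exact ⟨K, (norm_nonneg _).trans (hK 0), hK⟩

private theorem St1_smooth {V : Type} [NormedAddCommGroup V] [NormedSpace ℝ V] {F : E2 → V}
    (hF : ContDiffOn ℝ ∞ F (Metric.ball 0 4)) :
    ContDiff ℝ ∞ (fun y => cutB y • F y) ∧ HasCompactSupport (fun y => cutB y • F y) := by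
  constructor
  · rw [contDiff_iff_contDiffAt]
    intro x
    by_cases hx : ‖x‖ < 4
    · have h1 : x ∈ Metric.ball (0 : E2) 4 := by
        rw [mem_ball_zero_iff]
        exact hx
      exact St1_cb_sm.contDiffAt.smul (hF.contDiffAt (Metric.isOpen_ball.mem_nhds h1))
    · refine ContDiffAt.congr_of_eventuallyEq (contDiffAt_const (c := (0 : V))) ?_
      exact St1_ev_zero F (by linarith)
  · exact cutB.hasCompactSupport.smul_right

/-- Leibniz -/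
private theorem St1_prod : ∃ c : ℕ → ℝ, (∀ j, 1 ≤ c j) ∧ ∀ (V : Type) [NormedAddCommGroup V]
    [NormedSpace ℝ V] (F : E2 → V) (_ : ContDiffOn ℝ ∞ F (Metric.ball 0 4)) (j : ℕ) (b : ℝ)
    (_ : ∀ l ≤ j, ∀ x ∈ Metric.closedBall (0 : E2) 3, ‖iteratedFDeriv ℝ l F x‖ ≤ b) (x : E2),
    ‖iteratedFDeriv ℝ j (fun y => cutB y • F y) x‖ ≤ c j * b := by
  choose K hK0 hK using St1_bounded
  have hs : ∀ j, 0 ≤ ∑ l ∈ Finset.range (j + 1), ((j.choose l : ℕ) : ℝ) * K l := fun j =>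
    Finset.sum_nonneg fun l _ => mul_nonneg (Nat.cast_nonneg _) (hK0 l)
  refine ⟨fun j => 1 + ∑ l ∈ Finset.range (j + 1), ((j.choose l : ℕ) : ℝ) * K l, fun j => ?_, ?_⟩
  · have := hs j
    linarith
  intro V _ _ F hF j b hb x
  have hb0 : 0 ≤ b := by
    have h1 : (0 : E2) ∈ Metric.closedBall (0 : E2) 3 := by simp
    exact (norm_nonneg _).trans (hb 0 (Nat.zero_le _) 0 h1)
  by_cases hx : ‖x‖ ≤ 3
  · have hx4 : x ∈ Metric.ball (0 : E2) 4 := by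
      rw [mem_ball_zero_iff]
      linarith
    have hx3 : x ∈ Metric.closedBall (0 : E2) 3 := by
      rw [mem_closedBall_zero_iff]
      exact hx
    have h1 := norm_iteratedFDerivWithin_smul_le (St1_cb_sm.contDiffOn (s := Metric.ball 0 4)) hF
      Metric.isOpen_ball.uniqueDiffOn hx4 (n := j) (by exact_mod_cast le_top)
    rw [iteratedFDerivWithin_of_isOpen j Metric.isOpen_ball hx4] at h1
    refine h1.trans ?_
    have h2 : ∀ l ∈ Finset.range (j + 1), ((j.choose l : ℕ) : ℝ) *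
        ‖iteratedFDerivWithin ℝ l (cutB : E2 → ℝ) (Metric.ball 0 4) x‖ *
        ‖iteratedFDerivWithin ℝ (j - l) F (Metric.ball 0 4) x‖ ≤
        ((j.choose l : ℕ) : ℝ) * K l * b := by
      intro l _
      rw [iteratedFDerivWithin_of_isOpen l Metric.isOpen_ball hx4,
        iteratedFDerivWithin_of_isOpen (j - l) Metric.isOpen_ball hx4]
      have h3 := hK l x
      have h4 := hb (j - l) (Nat.sub_le _ _) x hx3
      have h5 := hK0 l
      gcongr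
    refine (Finset.sum_le_sum h2).trans ?_
    rw [← Finset.sum_mul]
    nlinarith [hs j]
  · have h1 := (St1_ev_zero F (x := x) (by linarith)).iteratedFDeriv ℝ j
    rw [h1.eq_of_nhds]
    have h2 : iteratedFDeriv ℝ j (fun _ : E2 => (0 : V)) x = 0 := by
      rw [iteratedFDeriv_fun_zero]
      rfl
    rw [h2, norm_zero]
    nlinarith [hs j]

private theorem St1_pow {q : ℝ} (h0 : 0 < q) (h1 : q ≤ 1) {a b P : ℕ} (h : P + 20 * b ≤ 21 * a) :
    (q ^ 21) ^ a * ((q ^ 20)⁻¹) ^ b ≤ q ^ P := by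
  rw [← pow_mul, inv_pow, ← pow_mul]
  have h2 : q ^ (21 * a) ≤ q ^ (P + 20 * b) := pow_le_pow_of_le_one h0.le h1 h
  rw [← div_eq_mul_inv, div_le_iff₀ (by positivity)]
  rwa [pow_add] at h2

private theorem St1_thr {C0 m0 Ct : ℕ} {Lam δ E : ℝ} (hC0 : 20 ≤ C0) (hE : 4 * C0 * E ≤ Ct)
    (hm : m0 + 1 ≤ Ct) (ht : Ct * Lam ^ Ct * δ ≤ 1) (hL : 1 ≤ Lam) (hd : 0 < δ) :
    E * Lam * δ ≤ nu C0 m0 Lam / 4 := by
  have hC0' : (0 : ℝ) < C0 := by
    have : 0 < C0 := by omega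
    exact_mod_cast this
  have hL0 : 0 < Lam := by linarith
  unfold nu
  rw [inv_eq_one_div, div_div, le_div_iff₀ (by positivity)]
  have h1 : Lam ^ (m0 + 1) ≤ Lam ^ Ct := pow_le_pow_right₀ hL hm
  calc E * Lam * δ * (C0 * Lam ^ m0 * 4) = (4 * C0 * E) * Lam ^ (m0 + 1) * δ := by ring
    _ ≤ Ct * Lam ^ Ct * δ := by gcongr
    _ ≤ 1 := ht

private theorem St1_nu {C0 m0 : ℕ} {Lam : ℝ} (hC0 : 20 ≤ C0) (hL : 1 ≤ Lam) :
    0 < nu C0 m0 Lam ∧ nu C0 m0 Lam ≤ 1 := by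
  have hC0' : (1 : ℝ) ≤ C0 := by
    have : 1 ≤ C0 := by omega
    exact_mod_cast this
  have h2 : 1 ≤ Lam ^ m0 := one_le_pow₀ hL
  have h3 : 1 ≤ C0 * Lam ^ m0 := by nlinarith
  unfold nu
  exact ⟨by positivity, inv_le_one_of_one_le₀ h3⟩

/-! ### mollification -/

private theorem St1_bds {V : Type} [NormedAddCommGroup V] [NormedSpace ℝ V] {R t : ℕ}
    {C c : ℕ → ℝ} (hC1 : ∀ m, 1 ≤ C m) (hc1 : ∀ m, 1 ≤ c m)
    (hC : ∀ s : ℝ, 0 < s → s ≤ 1 → ∀ u : E2 → V, ContDiff ℝ ∞ u →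
      HasCompactSupport u → ∀ K : ℝ,
      (∀ m, m ≤ R → (∀ x, ‖iteratedFDeriv ℝ R u x‖ ≤ K) →
        ∀ x, ‖iteratedFDeriv ℝ m (fun y => u y - mol R s u y) x‖ ≤ C m * s ^ (R - m) * K) ∧
      (∀ m, R ≤ m → (∀ x, ‖iteratedFDeriv ℝ R u x‖ ≤ K) →
        ∀ x, ‖iteratedFDeriv ℝ m (mol R s u) x‖ ≤ C m * (s⁻¹) ^ (m - R) * K) ∧
      (∀ m, (∀ x, ‖iteratedFDeriv ℝ m u x‖ ≤ K) →
        ∀ x, ‖iteratedFDeriv ℝ m (mol R s u) x‖ ≤ C m * K ∧
          ‖iteratedFDeriv ℝ m (fun y => u y - mol R s u y) x‖ ≤ C m * K))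
    (hc : ∀ (V : Type) [NormedAddCommGroup V]
      [NormedSpace ℝ V] (F : E2 → V) (_ : ContDiffOn ℝ ∞ F (Metric.ball 0 4)) (j : ℕ) (b : ℝ)
      (_ : ∀ l ≤ j, ∀ x ∈ Metric.closedBall (0 : E2) 3, ‖iteratedFDeriv ℝ l F x‖ ≤ b) (x : E2),
      ‖iteratedFDeriv ℝ j (fun y => cutB y • F y) x‖ ≤ c j * b)
    (ht : t ≤ R) {F : E2 → V} (hF : ContDiffOn ℝ ∞ F (Metric.ball 0 4)) {X s M : ℝ} (hX : 1 ≤ X)
    (hs : 0 < s) (hs1 : s ≤ 1) (hXs : X ≤ s⁻¹) (hM : 0 ≤ M)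
    (hb : ∀ j ≤ R, ∀ l ≤ j, ∀ x ∈ Metric.closedBall (0 : E2) 3,
      ‖iteratedFDeriv ℝ l F x‖ ≤ M * X ^ (j - t)) :
    (∀ r x, ‖iteratedFDeriv ℝ r (mol R s (fun y => cutB y • F y)) x‖ ≤
      C r * (c r + c R) * M * (s⁻¹) ^ (r - t)) ∧
    (∀ r ≤ R, ∀ x, ‖iteratedFDeriv ℝ r
      (fun y => cutB y • F y - mol R s (fun y => cutB y • F y) y) x‖ ≤
        C r * s ^ (R - r) * (c R * (M * X ^ (R - t)))) := by
  obtain ⟨hu, hu'⟩ := St1_smooth hF
  have hbR := hc V F hF R _ (hb R le_rfl)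
  refine ⟨fun r x => ?_, fun r hr x => ?_⟩
  · have h1 := hC1 r
    have h2 := hc1 r
    have h3 := hc1 R
    have hY1 : 1 ≤ s⁻¹ := hX.trans hXs
    rcases le_or_gt r R with hr | hr
    · have h4 := ((hC s hs hs1 _ hu hu' _).2.2 r (hc V F hF r _ (hb r hr)) x).1
      refine h4.trans ?_
      have h5 : X ^ (r - t) ≤ (s⁻¹) ^ (r - t) := pow_le_pow_left₀ (by linarith) hXs _
      calc C r * (c r * (M * X ^ (r - t))) ≤ C r * ((c r + c R) * (M * (s⁻¹) ^ (r - t))) := by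
            gcongr
            linarith
        _ = _ := by ring
    · have h4 := (hC s hs hs1 _ hu hu' _).2.1 r hr.le hbR x
      refine h4.trans ?_
      have h5 : X ^ (R - t) ≤ (s⁻¹) ^ (R - t) := pow_le_pow_left₀ (by linarith) hXs _
      have h6 : (r - R) + (R - t) = r - t := by omega
      calc C r * (s⁻¹) ^ (r - R) * (c R * (M * X ^ (R - t)))
          ≤ C r * (s⁻¹) ^ (r - R) * ((c r + c R) * (M * (s⁻¹) ^ (R - t))) := by
            gcongr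
            linarith
        _ = C r * (c r + c R) * M * ((s⁻¹) ^ (r - R) * (s⁻¹) ^ (R - t)) := by ring
        _ = _ := by rw [← pow_add, h6]
  · exact (hC s hs hs1 _ hu hu' _).1 r hr hbR x

private theorem St1_lin {V : Type} [NormedAddCommGroup V] [NormedSpace ℝ V] [CompleteSpace V]
    (L : V →L[ℝ] ℝ) {s : ℝ} (hs : s ≠ 0) (j : ℕ) {u : E2 → V} (hu : MolB_Sc u)
    (h : ∀ x, L (u x) = 0) (x : E2) : L ((df s)^[j] u x) = 0 := by
  induction j generalizing u with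
  | zero => exact h x
  | succ j ih =>
    rw [Function.iterate_succ_apply]
    refine ih (MolB_Sc_df hs hu) fun y => ?_
    unfold df
    rw [map_sub, h y, zero_sub, neg_eq_zero]
    unfold cv
    rw [← L.integral_comp_comm (MolB_cv_integrable hu.1.continuous y)]
    simp [h]

private theorem St1_mol_lin {V : Type} [NormedAddCommGroup V] [NormedSpace ℝ V] [CompleteSpace V]
    (L : V →L[ℝ] ℝ) {s : ℝ} (hs : s ≠ 0) (R : ℕ) {u : E2 → V} (hu : MolB_Sc u)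
    (h : ∀ x, L (u x) = 0) (x : E2) : L (mol R s u x) = 0 := by
  unfold mol
  rw [map_sub, h x, St1_lin L hs R hu h x, sub_zero]

private theorem St1_mol_sm {V : Type} [NormedAddCommGroup V] [NormedSpace ℝ V]
    {s : ℝ} (hs : s ≠ 0) (R : ℕ) {u : E2 → V} (hu : MolB_Sc u) : ContDiff ℝ ∞ (mol R s u) :=
  hu.1.sub (MolB_Sc_it hs R hu).1

/-! ### the states -/

private theorem St1_d1 {C0 m0 P Ct : ℕ} (i : StIdx C0 m0 P Ct) : i.δ < 1 := by
  refine i.st.d1.trans_lt ?_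
  exact Real.rpow_lt_one (by norm_num) (by norm_num) (by positivity)

private theorem St1_q {C0 m0 P Ct : ℕ} (hP : 10000 ≤ P) (i : StIdx C0 m0 P Ct) :
    0 < qd P i.δ ∧ qd P i.δ < 1 ∧ qd P i.δ ^ P = i.δ :=
  ⟨qd_pos i.st.d0, qd_lt (by omega) i.st.d0 (St1_d1 i), qd_pow (by omega) i.st.d0⟩

private theorem St1_sub {V : Type} [NormedAddCommGroup V] [NormedSpace ℝ V] {F G : E2 → V}
    (hF : ContDiffOn ℝ ∞ F (Metric.ball 0 4)) (hG : ContDiffOn ℝ ∞ G (Metric.ball 0 4))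
    {x : E2} (hx : x ∈ Metric.ball (0 : E2) 4) (r : ℕ) :
    iteratedFDeriv ℝ r (fun y => F y - G y) x =
      iteratedFDeriv ℝ r F x - iteratedFDeriv ℝ r G x :=
  fun_iteratedFDeriv_sub_apply
    ((hF.contDiffAt (Metric.isOpen_ball.mem_nhds hx)).of_le (by exact_mod_cast le_top))
    ((hG.contDiffAt (Metric.isOpen_ball.mem_nhds hx)).of_le (by exact_mod_cast le_top))

private theorem St1_ball {x : E2} (hx : x ∈ Metric.closedBall (0 : E2) 3) :
    x ∈ Metric.ball (0 : E2) 4 := by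
  rw [mem_closedBall_zero_iff] at hx
  rw [mem_ball_zero_iff]
  linarith

private theorem St1_Fbd {C0 m0 P Ct : ℕ} (hC0 : 20 ≤ C0) (hP : 10000 ≤ P)
    (i : StIdx C0 m0 P Ct) : ∀ j ≤ 2 * P + 1, ∀ l ≤ j, ∀ x ∈ Metric.closedBall (0 : E2) 3,
      ‖iteratedFDeriv ℝ l i.F x‖ ≤ (2 * i.Lam) * ((qd P i.δ ^ 20)⁻¹) ^ (j - 2) := by
  intro j hj l hl x hx
  obtain ⟨q0, q1, -⟩ := St1_q hP i
  have hL := i.st.hL
  have hX : 1 ≤ (qd P i.δ ^ 20)⁻¹ :=
    (one_le_inv₀ (by positivity)).2 (pow_le_one₀ q0.le q1.le)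
  rcases le_or_gt l 2 with hl2 | hl2
  · have h1 := i.st.S1 l hl2 x hx
    have h2 := i.st.ok.F3 l (by omega) x hx
    rw [St1_sub i.st.smF i.st.smF0 (St1_ball hx)] at h1
    have h3 : ‖iteratedFDeriv ℝ l i.F x‖ ≤
        ‖iteratedFDeriv ℝ l i.F x - iteratedFDeriv ℝ l i.F0 x‖ + ‖iteratedFDeriv ℝ l i.F0 x‖ := by
      have := norm_add_le (iteratedFDeriv ℝ l i.F x - iteratedFDeriv ℝ l i.F0 x)
        (iteratedFDeriv ℝ l i.F0 x)
      rwa [sub_add_cancel] at this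
    have h4 := (St1_nu (m0 := m0) hC0 hL).2
    have h5 : 1 ≤ ((qd P i.δ ^ 20)⁻¹) ^ (j - 2) := one_le_pow₀ hX
    nlinarith
  · have h1 := i.st.S2 l (by omega) (hl.trans hj) x hx
    have h2 : ((qd P i.δ ^ 20)⁻¹) ^ (l - 2) ≤ ((qd P i.δ ^ 20)⁻¹) ^ (j - 2) :=
      pow_le_pow_right₀ hX (by omega)
    have h5 : 1 ≤ ((qd P i.δ ^ 20)⁻¹) ^ (j - 2) := one_le_pow₀ hX
    nlinarith

private theorem St1_hsm {C0 m0 P Ct : ℕ} (i : StIdx C0 m0 P Ct) :
    ContDiffOn ℝ ∞ (fun x => i.δ • i.gst x - i.e x) (Metric.ball (0 : E2) 4) :=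
  (i.st.smg.const_smul i.δ).sub i.st.sme

private theorem St1_hbd {C0 m0 P Ct : ℕ} (hC0 : 20 ≤ C0) (hP : 10000 ≤ P)
    (i : StIdx C0 m0 P Ct) : ∀ j ≤ 2 * P, ∀ l ≤ j, ∀ x ∈ Metric.closedBall (0 : E2) 3,
      ‖iteratedFDeriv ℝ l (fun x => i.δ • i.gst x - i.e x) x‖ ≤
        (2 * i.Lam * i.δ) * ((qd P i.δ ^ 20)⁻¹) ^ (j - 0) := by
  intro j hj l hl x hx
  obtain ⟨q0, q1, -⟩ := St1_q hP i
  have hL := i.st.hL
  have hd := i.st.d0
  have hX : 1 ≤ (qd P i.δ ^ 20)⁻¹ :=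
    (one_le_inv₀ (by positivity)).2 (pow_le_one₀ q0.le q1.le)
  have h1 : iteratedFDeriv ℝ l (fun x => i.δ • i.gst x - i.e x) x =
      i.δ • iteratedFDeriv ℝ l i.gst x - iteratedFDeriv ℝ l i.e x := by
    have h2 := St1_sub (F := fun x => i.δ • i.gst x) (i.st.smg.const_smul i.δ) i.st.sme
      (St1_ball hx) l
    rw [h2]
    congr 1
    have h3 : ContDiffAt ℝ l i.gst x :=
      (i.st.smg.contDiffAt (Metric.isOpen_ball.mem_nhds (St1_ball hx))).of_le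
        (by exact_mod_cast le_top)
    exact iteratedFDeriv_const_smul_apply (𝕜 := ℝ) (a := i.δ) h3
  rw [h1]
  have h2 := i.st.S3 l (by omega) x hx
  have h3 : ‖iteratedFDeriv ℝ l i.gst x‖ ≤ i.Lam * ((qd P i.δ ^ 20)⁻¹) ^ l := by
    rcases Nat.eq_zero_or_pos l with h0 | h0
    · subst h0
      have := i.st.ok.g1 0 (by omega) x hx
      simpa using this
    · have := i.st.S4 l h0 (by omega) x hx
      have h5 : 1 ≤ ((qd P i.δ ^ 20)⁻¹) ^ l := one_le_pow₀ hX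
      nlinarith
  have h4 := St1_nu (m0 := m0) hC0 hL
  have h5 : ((qd P i.δ ^ 20)⁻¹) ^ l ≤ ((qd P i.δ ^ 20)⁻¹) ^ (j - 0) :=
    pow_le_pow_right₀ hX (by omega)
  have h6 : 1 ≤ ((qd P i.δ ^ 20)⁻¹) ^ l := one_le_pow₀ hX
  refine (norm_sub_le _ _).trans ?_
  rw [norm_smul, Real.norm_of_nonneg hd.le]
  calc i.δ * ‖iteratedFDeriv ℝ l i.gst x‖ + ‖iteratedFDeriv ℝ l i.e x‖
      ≤ i.δ * (i.Lam * ((qd P i.δ ^ 20)⁻¹) ^ l) +
        nu C0 m0 i.Lam / 4 * i.δ * ((qd P i.δ ^ 20)⁻¹) ^ l := by gcongr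
    _ ≤ i.δ * (i.Lam * ((qd P i.δ ^ 20)⁻¹) ^ l) +
        i.Lam * i.δ * ((qd P i.δ ^ 20)⁻¹) ^ l := by
          have h7 : nu C0 m0 i.Lam / 4 ≤ i.Lam := by linarith
          gcongr
    _ = (2 * i.Lam * i.δ) * ((qd P i.δ ^ 20)⁻¹) ^ l := by ring
    _ ≤ _ := by
          have h8 : 0 ≤ i.Lam := by linarith
          gcongr

/-- bounds for the mollified data (uniform constants) -/
theorem mol_data (C0 m0 P : ℕ) (hC0 : 20 ≤ C0) (hP : 10000 ≤ P) : ∃ (Ct : ℕ) (A : ℕ → ℕ),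
    ∀ i : StIdx C0 m0 P Ct,
      (∀ r, 2 ≤ r → ∀ x, ‖iteratedFDeriv ℝ r (Fmol i) x‖ ≤
        A r * i.Lam * ((qd P i.δ ^ 21)⁻¹) ^ (r - 2)) ∧
      (∀ r, r ≤ 2 → ∀ x, ‖iteratedFDeriv ℝ r (Fmol i) x‖ ≤ A r * i.Lam) ∧
      (∀ r x, ‖iteratedFDeriv ℝ r (Hmol i) x‖ ≤ A r * i.Lam * i.δ * ((qd P i.δ ^ 21)⁻¹) ^ r) ∧
      (∀ r ≤ 2, ∀ x ∈ Metric.ball (0 : E2) (29 / 10),
        ‖iteratedFDeriv ℝ r (fun y => Fmol i y - i.F0 y) x‖ ≤ nu C0 m0 i.Lam / 2) ∧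
      (∀ x ∈ Metric.ball (0 : E2) (29 / 10), ∀ a b,
        |Hmol i x a b - i.δ * i.gst x a b| ≤ nu C0 m0 i.Lam * i.δ) ∧
      ContDiff ℝ ∞ (Fmol i) ∧ ContDiff ℝ ∞ (Hmol i) ∧ ∀ x, Hmol i x 0 1 = Hmol i x 1 0 := by
  obtain ⟨c, hc1, hc⟩ := St1_prod
  obtain ⟨CF, hF1, hF⟩ := mol_bounds V4 (2 * P + 1)
  obtain ⟨CH, hH1, hH⟩ := mol_bounds T2 (2 * P)
  have hc0 : ∀ j, 0 ≤ c j := fun j => by linarith [hc1 j]
  have hF0 : ∀ j, 0 ≤ CF j := fun j => by linarith [hF1 j]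
  have hH0 : ∀ j, 0 ≤ CH j := fun j => by linarith [hH1 j]
  have hC0r : (0 : ℝ) ≤ C0 := by positivity
  obtain ⟨Ct, hCt⟩ : ∃ Ct : ℕ, Ct = ⌈4 * C0 * ((CF 0 + CF 1 + CF 2) * c (2 * P + 1) * 2) +
      4 * C0 * (CH 0 * c (2 * P) * 2)⌉₊ + m0 + 1 := ⟨_, rfl⟩
  have hCt0 : m0 + 1 ≤ Ct := by omega
  have hceil := Nat.le_ceil (4 * C0 * ((CF 0 + CF 1 + CF 2) * c (2 * P + 1) * 2) +
      4 * C0 * (CH 0 * c (2 * P) * 2))
  have hCt1 : 4 * C0 * ((CF 0 + CF 1 + CF 2) * c (2 * P + 1) * 2) +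
      4 * C0 * (CH 0 * c (2 * P) * 2) ≤ Ct := by
    rw [hCt]
    push_cast
    have : (0 : ℝ) ≤ m0 := by positivity
    linarith
  have p1 : 0 ≤ 4 * C0 * ((CF 0 + CF 1 + CF 2) * c (2 * P + 1) * 2) := by
    have := hF0 0; have := hF0 1; have := hF0 2; have := hc0 (2 * P + 1)
    positivity
  have p2 : 0 ≤ 4 * C0 * (CH 0 * c (2 * P) * 2) := by
    have := hH0 0; have := hc0 (2 * P)
    positivity
  refine ⟨Ct, fun r => ⌈CF r * (c r + c (2 * P + 1)) * 2 + CH r * (c r + c (2 * P)) * 2⌉₊,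
    fun i => ?_⟩
  obtain ⟨q0, q1, hqP⟩ := St1_q hP i
  have hL := i.st.hL
  have hd := i.st.d0
  have hX : 1 ≤ (qd P i.δ ^ 20)⁻¹ :=
    (one_le_inv₀ (by positivity)).2 (pow_le_one₀ q0.le q1.le)
  have hs0 : 0 < qd P i.δ ^ 21 := by positivity
  have hs1 : qd P i.δ ^ 21 ≤ 1 := pow_le_one₀ q0.le q1.le
  have hXs : (qd P i.δ ^ 20)⁻¹ ≤ (qd P i.δ ^ 21)⁻¹ :=
    inv_anti₀ hs0 (pow_le_pow_of_le_one q0.le q1.le (by norm_num))
  obtain ⟨hν0, hν1⟩ := St1_nu (m0 := m0) hC0 hL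
  obtain ⟨fA, fB⟩ := St1_bds hF1 hc1 hF hc (t := 2) (by omega) i.st.smF hX hs0 hs1 hXs
    (by linarith) (St1_Fbd hC0 hP i)
  obtain ⟨gA, gB⟩ := St1_bds hH1 hc1 hH hc (t := 0) (by omega) (St1_hsm i) hX hs0 hs1 hXs
    (by positivity) (St1_hbd hC0 hP i)
  have hA : ∀ r, CF r * (c r + c (2 * P + 1)) * 2 + CH r * (c r + c (2 * P)) * 2 ≤
      ((⌈CF r * (c r + c (2 * P + 1)) * 2 + CH r * (c r + c (2 * P)) * 2⌉₊ : ℕ) : ℝ) :=
    fun r => Nat.le_ceil _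
  have hAF : ∀ r, CF r * (c r + c (2 * P + 1)) * 2 ≤
      ((⌈CF r * (c r + c (2 * P + 1)) * 2 + CH r * (c r + c (2 * P)) * 2⌉₊ : ℕ) : ℝ) := by
    intro r
    have h1 : 0 ≤ CH r * (c r + c (2 * P)) * 2 := by
      have := hH0 r; have := hc0 r; have := hc0 (2 * P)
      positivity
    linarith [hA r]
  have hAH : ∀ r, CH r * (c r + c (2 * P)) * 2 ≤
      ((⌈CF r * (c r + c (2 * P + 1)) * 2 + CH r * (c r + c (2 * P)) * 2⌉₊ : ℕ) : ℝ) := by
    intro r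
    have h1 : 0 ≤ CF r * (c r + c (2 * P + 1)) * 2 := by
      have := hF0 r; have := hc0 r; have := hc0 (2 * P + 1)
      positivity
    linarith [hA r]
  have hFall : ∀ r x, ‖iteratedFDeriv ℝ r (Fmol i) x‖ ≤
      ((⌈CF r * (c r + c (2 * P + 1)) * 2 + CH r * (c r + c (2 * P)) * 2⌉₊ : ℕ) : ℝ) * i.Lam *
        ((qd P i.δ ^ 21)⁻¹) ^ (r - 2) := by
    intro r x
    refine (fA r x).trans ?_
    have h1 := hAF r
    have h2 : (0 : ℝ) ≤ i.Lam := by linarith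
    calc CF r * (c r + c (2 * P + 1)) * (2 * i.Lam) * ((qd P i.δ ^ 21)⁻¹) ^ (r - 2)
        = CF r * (c r + c (2 * P + 1)) * 2 * i.Lam * ((qd P i.δ ^ 21)⁻¹) ^ (r - 2) := by ring
      _ ≤ _ := by gcongr
  have hScF := St1_smooth i.st.smF
  have hScH := St1_smooth (St1_hsm i)
  refine ⟨fun r _ x => hFall r x, ?_, ?_, ?_, ?_, ?_, ?_, ?_⟩
  · intro r hr x
    have h1 := hFall r x
    have h2 : r - 2 = 0 := by omega
    rwa [h2, pow_zero, mul_one] at h1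
  · intro r x
    refine (gA r x).trans ?_
    have h1 := hAH r
    have h2 : (0 : ℝ) ≤ i.Lam := by linarith
    calc CH r * (c r + c (2 * P)) * (2 * i.Lam * i.δ) * ((qd P i.δ ^ 21)⁻¹) ^ (r - 0)
        = CH r * (c r + c (2 * P)) * 2 * i.Lam * i.δ * ((qd P i.δ ^ 21)⁻¹) ^ r := by
          rw [Nat.sub_zero]; ring
      _ ≤ _ := by gcongr
  · intro r hr x hx
    have hx' : ‖x‖ < 29 / 10 := by rwa [mem_ball_zero_iff] at hx
    have hx4 : x ∈ Metric.ball (0 : E2) 4 := by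
      rw [mem_ball_zero_iff]
      linarith
    have hx3 : x ∈ Metric.closedBall (0 : E2) 3 := by
      rw [mem_closedBall_zero_iff]
      linarith
    have hev : (fun y => Fmol i y - i.F0 y) =ᶠ[𝓝 x]
        fun y => (i.F y - i.F0 y) - (cutB y • i.F y - Fmol i y) := by
      filter_upwards [Metric.isOpen_ball.mem_nhds hx] with y hy
      rw [mem_ball_zero_iff] at hy
      rw [St1_cb_one (by linarith), one_smul]
      abel
    rw [(hev.iteratedFDeriv ℝ r).eq_of_nhds]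
    have hsm1 : ContDiffAt ℝ r (fun y => i.F y - i.F0 y) x :=
      ((i.st.smF.sub i.st.smF0).contDiffAt (Metric.isOpen_ball.mem_nhds hx4)).of_le
        (by exact_mod_cast le_top)
    have hsm2 : ContDiffAt ℝ r (fun y => cutB y • i.F y - Fmol i y) x :=
      (hScF.1.sub (St1_mol_sm hs0.ne' _ hScF)).contDiffAt.of_le (by exact_mod_cast le_top)
    rw [fun_iteratedFDeriv_sub_apply hsm1 hsm2]
    refine (norm_sub_le _ _).trans ?_
    have h1 := i.st.S1 r hr x hx3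
    have h2 : ‖iteratedFDeriv ℝ r (fun y => cutB y • i.F y - Fmol i y) x‖ ≤
        nu C0 m0 i.Lam / 4 := by
      refine (fB r (by omega) x).trans ?_
      have h3 : (qd P i.δ ^ 21) ^ (2 * P + 1 - r) * ((qd P i.δ ^ 20)⁻¹) ^ (2 * P + 1 - 2) ≤
          i.δ := by
        have h4 := St1_pow q0 q1.le (a := 2 * P + 1 - r) (b := 2 * P + 1 - 2) (P := P) (by omega)
        rwa [hqP] at h4
      have hc2 := hc0 (2 * P + 1)
      have hFr : CF r ≤ CF 0 + CF 1 + CF 2 := by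
        have := hF0 0; have := hF0 1; have := hF0 2
        interval_cases r <;> linarith
      have h5 : 0 ≤ CF 0 + CF 1 + CF 2 := (hF0 r).trans hFr
      have h2L : (0 : ℝ) ≤ i.Lam := by linarith
      calc CF r * (qd P i.δ ^ 21) ^ (2 * P + 1 - r) *
            (c (2 * P + 1) * (2 * i.Lam * ((qd P i.δ ^ 20)⁻¹) ^ (2 * P + 1 - 2)))
          = (CF r * c (2 * P + 1) * 2) * i.Lam * ((qd P i.δ ^ 21) ^ (2 * P + 1 - r) *
            ((qd P i.δ ^ 20)⁻¹) ^ (2 * P + 1 - 2)) := by ring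
        _ ≤ ((CF 0 + CF 1 + CF 2) * c (2 * P + 1) * 2) * i.Lam * i.δ := by gcongr
        _ ≤ nu C0 m0 i.Lam / 4 :=
            St1_thr hC0 (by linarith) hCt0 i.thr hL hd
    linarith
  · intro x hx a b
    have hx' : ‖x‖ < 29 / 10 := by rwa [mem_ball_zero_iff] at hx
    have hx3 : x ∈ Metric.closedBall (0 : E2) 3 := by
      rw [mem_closedBall_zero_iff]
      linarith
    have h1 := gB 0 (Nat.zero_le _) x
    rw [norm_iteratedFDeriv_zero, St1_cb_one (by linarith), one_smul, Nat.sub_zero] at h1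
    have h2 := i.st.S3 0 (Nat.zero_le _) x hx3
    rw [norm_iteratedFDeriv_zero, pow_zero, mul_one] at h2
    have h3 : (qd P i.δ ^ 21) ^ (2 * P) * ((qd P i.δ ^ 20)⁻¹) ^ (2 * P) ≤ i.δ := by
      have h4 := St1_pow q0 q1.le (a := 2 * P) (b := 2 * P) (P := P) (by omega)
      rwa [hqP] at h4
    have hc2 := hc0 (2 * P)
    have hH00 := hH0 0
    have h2L : (0 : ℝ) ≤ i.Lam := by linarith
    have h4 : CH 0 * (qd P i.δ ^ 21) ^ (2 * P) *
        (c (2 * P) * (2 * i.Lam * i.δ * ((qd P i.δ ^ 20)⁻¹) ^ (2 * P))) ≤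
          nu C0 m0 i.Lam / 4 * i.δ := by
      calc CH 0 * (qd P i.δ ^ 21) ^ (2 * P) *
            (c (2 * P) * (2 * i.Lam * i.δ * ((qd P i.δ ^ 20)⁻¹) ^ (2 * P)))
          = ((CH 0 * c (2 * P) * 2) * i.Lam * ((qd P i.δ ^ 21) ^ (2 * P) *
            ((qd P i.δ ^ 20)⁻¹) ^ (2 * P))) * i.δ := by ring
        _ ≤ ((CH 0 * c (2 * P) * 2) * i.Lam * i.δ) * i.δ := by gcongr
        _ ≤ nu C0 m0 i.Lam / 4 * i.δ := by
            refine mul_le_mul_of_nonneg_right ?_ hd.le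
            exact St1_thr hC0 (by linarith) hCt0 i.thr hL hd
    have h5 := h1.trans h4
    have h6 : |(i.δ • i.gst x - i.e x - Hmol i x) a b| ≤
        ‖i.δ • i.gst x - i.e x - Hmol i x‖ := by
      have e1 := norm_le_pi_norm ((i.δ • i.gst x - i.e x - Hmol i x) a) b
      have e2 := norm_le_pi_norm (i.δ • i.gst x - i.e x - Hmol i x) a
      rw [← Real.norm_eq_abs]
      exact e1.trans e2
    have h7 : |i.e x a b| ≤ ‖i.e x‖ := by
      have e1 := norm_le_pi_norm (i.e x a) b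
      have e2 := norm_le_pi_norm (i.e x) a
      rw [← Real.norm_eq_abs]
      exact e1.trans e2
    have h8 : (i.δ • i.gst x - i.e x - Hmol i x) a b =
        i.δ * i.gst x a b - i.e x a b - Hmol i x a b := rfl
    rw [h8] at h6
    have h9 := h6.trans h5
    have h10 := h7.trans h2
    have h11 : Hmol i x a b - i.δ * i.gst x a b =
        -(i.δ * i.gst x a b - i.e x a b - Hmol i x a b) - i.e x a b := by ring
    rw [h11]
    have h12 := abs_sub (-(i.δ * i.gst x a b - i.e x a b - Hmol i x a b)) (i.e x a b)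
    rw [abs_neg] at h12
    have h13 : 0 ≤ nu C0 m0 i.Lam * i.δ := by positivity
    linarith
  · exact St1_mol_sm hs0.ne' _ hScF
  · exact St1_mol_sm hs0.ne' _ hScH
  · intro x
    set L : T2 →L[ℝ] ℝ :=
      (ContinuousLinearMap.proj (R := ℝ) (φ := fun _ : Fin 2 => ℝ) 1).comp
        (ContinuousLinearMap.proj (R := ℝ) (φ := fun _ : Fin 2 => Fin 2 → ℝ) 0) -
      (ContinuousLinearMap.proj (R := ℝ) (φ := fun _ : Fin 2 => ℝ) 0).comp
        (ContinuousLinearMap.proj (R := ℝ) (φ := fun _ : Fin 2 => Fin 2 → ℝ) 1) with hLdef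
    have hLa : ∀ h : T2, L h = h 0 1 - h 1 0 := fun h => rfl
    have h1 := St1_mol_lin L hs0.ne' (2 * P) (u := fun x => cutB x • (i.δ • i.gst x - i.e x))
      hScH (by
        intro y
        rw [hLa]
        by_cases hy : ‖y‖ < 4
        · have hy4 : y ∈ Metric.ball (0 : E2) 4 := by
            rw [mem_ball_zero_iff]
            exact hy
          change cutB y * (i.δ * i.gst y 0 1 - i.e y 0 1) -
            cutB y * (i.δ * i.gst y 1 0 - i.e y 1 0) = 0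
          rw [i.st.gsym y hy4, i.st.esym y hy4, sub_self]
        · rw [St1_cb_zero (x := y) (by linarith), zero_smul]
          simp) x
    rw [hLa] at h1
    exact sub_eq_zero.1 h1

/-! ### the colour data -/

private theorem St1_tsupport {f : E2 → ℝ} {ρ : ℝ} (h : ∀ x, ρ ≤ ‖x‖ → f x = 0) :
    tsupport f ⊆ Metric.closedBall (0 : E2) ρ := by
  refine closure_minimal (fun x hx => ?_) Metric.isClosed_closedBall
  rw [mem_closedBall_zero_iff]
  by_contra hn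
  exact hx (h x (by linarith))

private theorem St1_GT {ι : Type} {Lam δ : ι → ℝ} (hL : ∀ i, 1 ≤ Lam i) (h0 : ∀ i, 0 < δ i)
    (h1 : ∀ i, δ i ≤ 1) (a : ℕ) : (fun i => ((a : ℝ) + 1) * Lam i) ∈ (GT Lam δ hL h0 h1).mem := by
  have h2 := (GT Lam δ hL h0 h1).const ((a : ℝ) + 1) (by linarith [Nat.cast_nonneg (α := ℝ) a])
  have h3 : GTmem Lam δ (fun i => Lam i ^ 1) := GTmem.lam hL h0 h1 1
  have h4 := (GT Lam δ hL h0 h1).mul _ h2 _ h3
  simpa using h4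

/-- the colour data -/
theorem st_col (cs : CutSeq) (C0 m0 P : ℕ) (hC0 : 20 ≤ C0) (hP : 10000 ≤ P) : ∃ (Ct : ℕ)
    (D : ColH C0 m0 P (StIdx C0 m0 P Ct)), D.Bds ∧ ∀ i, D.Lam i = i.Lam ∧ D.δ i = i.δ ∧
      D.q i = qd P i.δ ∧ D.s i = qd P i.δ ^ 21 ∧ D.F0 i = i.F0 ∧ D.Fm i = Fmol i ∧
      D.gst i = i.gst ∧ D.Hm i = Hmol i ∧ D.psi i = cs.psi i.k ∧ D.kap i = cs.kap i.k ∧
      ∀ r ≤ 2, ∀ x ∈ Metric.ball (0 : E2) (29 / 10),
        ‖iteratedFDeriv ℝ r (fun y => D.Fm i y - D.F0 i y) x‖ ≤ nu C0 m0 (D.Lam i) / 2 := by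
  obtain ⟨Ct, A, hA⟩ := mol_data C0 m0 P hC0 hP
  have hk : ∀ k : ℕ, (0 : ℝ) < (1 / 2) ^ k := fun k => by positivity
  have hk1 : ∀ k : ℕ, (1 / 2 : ℝ) ^ k ≤ 1 := fun k => pow_le_one₀ (by norm_num) (by norm_num)
  let D : ColH C0 m0 P (StIdx C0 m0 P Ct) :=
    { Lam := fun i => i.Lam
      δ := fun i => i.δ
      q := fun i => qd P i.δ
      s := fun i => qd P i.δ ^ 21
      F0 := fun i => i.F0
      Fm := fun i => Fmol i
      gst := fun i => i.gst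
      Hm := fun i => Hmol i
      psi := fun i => cs.psi i.k
      kap := fun i => cs.kap i.k
      hL := fun i => i.st.hL
      d_pos := fun i => i.st.d0
      d_le1 := fun i => (St1_d1 i).le
      q_pos := fun i => (St1_q hP i).1
      q_lt := fun i => (St1_q hP i).2.1
      q_pow := fun i => (St1_q hP i).2.2
      s_pos := fun i => pow_pos (St1_q hP i).1 _
      s_le := fun i => pow_le_one₀ (St1_q hP i).1.le (St1_q hP i).2.1.le
      d_le := fun i => by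
        obtain ⟨q0, q1, hqP⟩ := St1_q hP i
        rw [Real.sqrt_le_left (by positivity)]
        have h1 : (qd P i.δ * qd P i.δ ^ 21) ^ 2 = qd P i.δ ^ 44 := by ring
        rw [h1]
        nth_rewrite 1 [← hqP]
        exact pow_le_pow_of_le_one q0.le q1.le (by omega)
      smF := fun i => i.st.smF0
      ok := fun i => i.st.ok
      smg := fun i => i.st.smg
      Fm_sm := fun i => (hA i).2.2.2.2.2.1.contDiffOn
      close := fun i r hr x hx => by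
        have h1 := (hA i).2.2.2.1 r hr x hx
        have h2 := (St1_nu (m0 := m0) hC0 i.st.hL).1
        exact h1.trans (by linarith)
      Hm_sym := fun i => (hA i).2.2.2.2.2.2.2
      Hm_close := fun i => (hA i).2.2.2.2.1
      kap_sm := fun i => cs.kap_sm i.k
      kap_supp := fun i => by
        refine (St1_tsupport (cs.kap_supp i.k)).trans (Metric.closedBall_subset_closedBall ?_)
        unfold rad
        have h1 := hk i.k
        rw [pow_succ]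
        linarith
      kap_one := fun i x hx => by
        have h1 := St1_tsupport (cs.psi_supp i.k) hx
        rw [mem_closedBall_zero_iff] at h1
        have h2 := hk i.k
        have h3 : ‖x‖ < rad i.k + (1 / 2) ^ i.k / 12 := by linarith
        filter_upwards [(continuous_norm.tendsto x).eventually_lt_const h3] with y hy
        exact cs.kap_one i.k y hy.le }
  refine ⟨Ct, D, ?_, fun i => ⟨rfl, rfl, rfl, rfl, rfl, rfl, rfl, rfl, rfl, rfl,
    (hA i).2.2.2.1⟩⟩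
  obtain ⟨hfl, hka⟩ := cut_flat cs D (fun _ => rfl) (fun _ => rfl) (fun _ => rfl) (fun _ => rfl)
  have hY : ∀ i : StIdx C0 m0 P Ct, 1 ≤ (qd P i.δ ^ 21)⁻¹ := fun i =>
    (one_le_inv₀ (pow_pos (St1_q hP i).1 _)).2
      (pow_le_one₀ (St1_q hP i).1.le (St1_q hP i).2.1.le)
  have hF : ∀ (i : StIdx C0 m0 P Ct) (r j : ℕ), r - 2 ≤ j → ∀ x,
      ‖iteratedFDeriv ℝ r (Fmol i) x‖ ≤ (((A r : ℕ) : ℝ) + 1) * i.Lam *
        ((qd P i.δ ^ 21)⁻¹) ^ j := by
    intro i r j hj x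
    have hL := i.st.hL
    have h1 : ‖iteratedFDeriv ℝ r (Fmol i) x‖ ≤
        ((A r : ℕ) : ℝ) * i.Lam * ((qd P i.δ ^ 21)⁻¹) ^ (r - 2) := by
      rcases le_or_gt 2 r with h | h
      · exact (hA i).1 r h x
      · have h2 := (hA i).2.1 r h.le x
        have h3 : r - 2 = 0 := by omega
        rw [h3, pow_zero, mul_one]
        exact h2
    have h4 : ((qd P i.δ ^ 21)⁻¹) ^ (r - 2) ≤ ((qd P i.δ ^ 21)⁻¹) ^ j :=
      pow_le_pow_right₀ (hY i) hj
    have h5 : (0 : ℝ) ≤ i.Lam := by linarith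
    refine h1.trans ?_
    have h6 : (0 : ℝ) ≤ (qd P i.δ ^ 21)⁻¹ := by linarith [hY i]
    gcongr
    linarith
  have hsm : ∀ i : StIdx C0 m0 P Ct, ContDiff ℝ ∞ (Fmol i) := fun i => (hA i).2.2.2.2.2.1
  refine ⟨⟨fun i => ?_, fun r => ?_⟩, ⟨fun i => ?_, fun r => ?_⟩, ⟨fun i => ?_, fun r => ?_⟩,
    hfl, hka⟩
  · exact ((hsm i).fderiv_right (m := ∞) (by simp)).contDiffOn
  · refine ⟨_, St1_GT D.hL D.d_pos D.d_le1 (A (r + 1)), fun i x _ => ?_⟩
    have h1 := hF i (r + 1) r (by omega) x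
    rw [← norm_iteratedFDeriv_fderiv] at h1
    rw [mul_one]
    exact h1
  · exact (((hsm i).fderiv_right (m := ∞) (by simp)).fderiv_right (m := ∞) (by simp)).contDiffOn
  · refine ⟨_, St1_GT D.hL D.d_pos D.d_le1 (A (r + 2)), fun i x _ => ?_⟩
    have h1 := hF i (r + 2) r (by omega) x
    rw [← norm_iteratedFDeriv_fderiv, ← norm_iteratedFDeriv_fderiv] at h1
    rw [mul_one]
    exact h1
  · exact (hA i).2.2.2.2.2.2.1.contDiffOn
  · refine ⟨_, St1_GT D.hL D.d_pos D.d_le1 (A r), fun i x _ => ?_⟩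
    have h1 := (hA i).2.2.1 r x
    refine h1.trans ?_
    have h5 : (0 : ℝ) ≤ i.Lam := by linarith [i.st.hL]
    have h6 : (0 : ℝ) ≤ (qd P i.δ ^ 21)⁻¹ := by linarith [hY i]
    have h7 := i.st.d0
    change _ ≤ (((A r : ℕ) : ℝ) + 1) * i.Lam * i.δ * ((qd P i.δ ^ 21)⁻¹) ^ r
    gcongr
    linarith

end P205F
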