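import Vale.Agent.Lib.P205F.ColDefs
import Vale.Agent.Lib.P205F.FlB
import Vale.Agent.Lib.P205F.Mol

/-!
# P205F: definitions for the stage
-/

open scoped ContDiff Topology
open Set

namespace P205F

/-- the sequence of cutoffs of TL (`psi 0` is the given flat function) -/
structure CutSeq where
  psi : ℕ → E2 → ℝ
  kap : ℕ → E2 → ℝ
  root : ℕ → ℕ → E2 → ℝ
  C : ℕ → ℕ → ℝ
  psi01 : ∀ k x, 0 ≤ psi k x ∧ psi k x ≤ 1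
  psi_one : ∀ k, 1 ≤ k → ∀ x, ‖x‖ ≤ rad k → psi k x = 1
  psi_supp : ∀ k x, rad k + (1 / 2) ^ k / 16 ≤ ‖x‖ → psi k x = 0
  kap01 : ∀ k x, 0 ≤ kap k x ∧ kap k x ≤ 1
  kap_one : ∀ k x, ‖x‖ ≤ rad k + (1 / 2) ^ k / 12 → kap k x = 1
  kap_supp : ∀ k x, rad k + (1 / 2) ^ k / 8 ≤ ‖x‖ → kap k x = 0
  kap_sm : ∀ k, ContDiff ℝ ∞ (kap k)
  kap_bd : ∀ k r x, ‖iteratedFDeriv ℝ r (kap k) x‖ ≤ C 0 r * ((2 : ℝ) ^ k) ^ r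
  root_sm : ∀ k n, 1 ≤ n → ContDiff ℝ ∞ (root k n)
  root_pow : ∀ k n, 1 ≤ n → ∀ x, 0 ≤ root k n x ∧ root k n x ^ n = psi k x
  root_bd : ∀ k n, 1 ≤ n → ∀ r x,
    ‖iteratedFDeriv ℝ r (root k n) x‖ ≤ C n r * ((2 : ℝ) ^ k) ^ r

/-- `δ ^ (1 / P)` -/
noncomputable def qd (P : ℕ) (δ : ℝ) : ℝ := δ ^ ((1 : ℝ) / P)

/-- the state of the iteration -/
structure St (C0 m0 P k : ℕ) (Lam δ : ℝ) (F0 F : E2 → V4) (gst e : E2 → T2) : Prop where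
  hL : 1 ≤ Lam
  d0 : 0 < δ
  d1 : δ ≤ (1 / 2 : ℝ) ^ ((5 / 4 : ℝ) ^ k)
  smF0 : ContDiffOn ℝ ∞ F0 (Metric.ball 0 4)
  smF : ContDiffOn ℝ ∞ F (Metric.ball 0 4)
  smg : ContDiffOn ℝ ∞ gst (Metric.ball 0 4)
  sme : ContDiffOn ℝ ∞ e (Metric.ball 0 4)
  gsym : ∀ x ∈ Metric.ball (0 : E2) 4, gst x 0 1 = gst x 1 0
  esym : ∀ x ∈ Metric.ball (0 : E2) 4, e x 0 1 = e x 1 0
  ok : MapOK Lam (Metric.closedBall 0 3) F0 gst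
  S1 : ∀ r ≤ 2, ∀ x ∈ Metric.closedBall (0 : E2) 3,
    ‖iteratedFDeriv ℝ r (fun y => F y - F0 y) x‖ ≤ nu C0 m0 Lam / 4
  S2 : ∀ r, 3 ≤ r → r ≤ 2 * P + 1 → ∀ x ∈ Metric.closedBall (0 : E2) 3,
    ‖iteratedFDeriv ℝ r F x‖ ≤ ((qd P δ ^ 20)⁻¹) ^ (r - 2)
  S3 : ∀ r ≤ 2 * P, ∀ x ∈ Metric.closedBall (0 : E2) 3,
    ‖iteratedFDeriv ℝ r e x‖ ≤ nu C0 m0 Lam / 4 * δ * ((qd P δ ^ 20)⁻¹) ^ r
  S4 : ∀ r, 1 ≤ r → r ≤ 2 * P + 1 → ∀ x ∈ Metric.closedBall (0 : E2) 3,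
    ‖iteratedFDeriv ℝ r gst x‖ ≤ ((qd P δ ^ 20)⁻¹) ^ r

/-- bounds of all orders up to `r` (with a constant `K`) -/
structure KBd (P r : ℕ) (K δ : ℝ) (F : E2 → V4) (gst e : E2 → T2) : Prop where
  F : ∀ j, 3 ≤ j → j ≤ r + 1 → ∀ x ∈ Metric.closedBall (0 : E2) 3,
    ‖iteratedFDeriv ℝ j F x‖ ≤ K * ((qd P δ ^ 20)⁻¹) ^ (j - 2)
  e : ∀ j, j ≤ r → ∀ x ∈ Metric.closedBall (0 : E2) 3,
    ‖iteratedFDeriv ℝ j e x‖ ≤ K * δ * ((qd P δ ^ 20)⁻¹) ^ j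
  g : ∀ j, 1 ≤ j → j ≤ r → ∀ x ∈ Metric.closedBall (0 : E2) 3,
    ‖iteratedFDeriv ℝ j gst x‖ ≤ K * ((qd P δ ^ 20)⁻¹) ^ j

/-- the output of a stage -/
structure StOut (cs : CutSeq) (Cr : ℕ → ℕ) (P k : ℕ) (Lam δ : ℝ) (F : E2 → V4) (gst e : E2 → T2)
    (w : E2 → V4) (e' : E2 → T2) : Prop where
  w_sm : ContDiff ℝ ∞ w
  e_sm : ContDiff ℝ ∞ e'
  supp : ∀ x, rad k + (1 / 2) ^ k / 8 ≤ ‖x‖ → w x = 0 ∧ e' x = 0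
  e_sym : ∀ x a b, e' x a b = e' x b a
  eq : ∀ x ∈ Metric.ball (0 : E2) 4, ∀ a b, met (fun y => F y + w y) x a b = met F x a b
    + cs.psi k x ^ 2 * (δ * gst x a b - e x a b) + e' x a b
  w_bd : ∀ r x, ‖iteratedFDeriv ℝ r w x‖ ≤
    Cr r * Lam ^ Cr r * δ ^ (49 / 100 : ℝ) * ((qd P δ ^ 25)⁻¹) ^ (r - 1)
  e_bd : ∀ r K, 1 ≤ K → KBd P r K δ F gst e → ∀ x, ‖iteratedFDeriv ℝ r e' x‖ ≤
    Cr r * Lam ^ Cr r * K * δ ^ (11 / 8 : ℝ) * ((qd P δ ^ 25)⁻¹) ^ r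

/-- index type of all the states below a threshold -/
structure StIdx (C0 m0 P Ct : ℕ) where
  k : ℕ
  Lam : ℝ
  δ : ℝ
  F0 : E2 → V4
  F : E2 → V4
  gst : E2 → T2
  e : E2 → T2
  st : St C0 m0 P k Lam δ F0 F gst e
  thr : Ct * Lam ^ Ct * δ ≤ 1

/-- fixed cutoff: one on the closed ball of radius `59/20`, supported in the ball of radius `3` -/
noncomputable def cutB : ContDiffBump (0 : E2) := ⟨59 / 20, 299 / 100, by norm_num, by norm_num⟩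

/-- the mollified map -/
noncomputable def Fmol {C0 m0 P Ct : ℕ} (i : StIdx C0 m0 P Ct) : E2 → V4 :=
  mol (2 * P + 1) (qd P i.δ ^ 21) (fun x => cutB x • i.F x)

/-- the mollified gap -/
noncomputable def Hmol {C0 m0 P Ct : ℕ} (i : StIdx C0 m0 P Ct) : E2 → T2 :=
  mol (2 * P) (qd P i.δ ^ 21) (fun x => cutB x • (i.δ • i.gst x - i.e x))

end P205F
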