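import Vale.Agent.Lib.P205F.TLDefs
import Vale.Agent.Lib.P205F.Cut

/-! # P205F module TLA: numerical lemmas for the iteration -/

open scoped ContDiff Topology
open Set Filter

namespace P205F

theorem dlt_pos {t : ℝ} (h : 0 < t) (k : ℕ) : 0 < dlt t k := Real.rpow_pos_of_pos h _

theorem dlt_zero (t : ℝ) : dlt t 0 = t := by
  unfold dlt
  rw [pow_zero, Real.rpow_one]

theorem dlt_succ {t : ℝ} (h : 0 < t) (k : ℕ) : dlt t (k + 1) = dlt t k ^ (5 / 4 : ℝ) := by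
  unfold dlt
  rw [← Real.rpow_mul h.le, pow_succ]

theorem dlt_le {t : ℝ} (h : 0 < t) (h2 : t ≤ 1 / 2) (k : ℕ) :
    dlt t k ≤ (1 / 2 : ℝ) ^ ((5 / 4 : ℝ) ^ k) :=
  Real.rpow_le_rpow h.le h2 (by positivity)

theorem dlt_anti {t : ℝ} (h : 0 < t) (h2 : t ≤ 1 / 2) : Antitone (dlt t) := by
  refine antitone_nat_of_succ_le fun k => ?_
  unfold dlt
  refine Real.rpow_le_rpow_of_exponent_ge h (by linarith) ?_
  exact pow_le_pow_right₀ (by norm_num) (Nat.le_succ k)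

theorem dlt_le_t {t : ℝ} (h : 0 < t) (h2 : t ≤ 1 / 2) (k : ℕ) : dlt t k ≤ t := by
  have h1 := dlt_anti h h2 (Nat.zero_le k)
  rwa [dlt_zero] at h1

/-- the exponential beats linear functions -/
theorem TLA_exp (r : ℕ) {c : ℝ} (hc : 0 < c) :
    ∃ B : ℕ, ∀ k : ℕ, (k : ℝ) * r ≤ c * (5 / 4 : ℝ) ^ k + B := by
  have h1 : Filter.Tendsto (fun n : ℕ => (n : ℝ) ^ 1 / (5 / 4 : ℝ) ^ n) Filter.atTop (𝓝 0) :=
    tendsto_pow_const_div_const_pow_of_one_lt 1 (by norm_num)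
  have hr : (0 : ℝ) < (r : ℝ) + 1 := by positivity
  have h2 := h1.eventually (gt_mem_nhds (show (0 : ℝ) < c / (r + 1) by positivity))
  obtain ⟨N, hN⟩ := Filter.eventually_atTop.1 h2
  refine ⟨N * r, fun k => ?_⟩
  have h5 : (0 : ℝ) < (5 / 4 : ℝ) ^ k := by positivity
  have hr0 : (0 : ℝ) ≤ r := Nat.cast_nonneg r
  rcases le_total N k with hk | hk
  · have h3 := hN k hk
    rw [pow_one, div_lt_div_iff₀ h5 hr] at h3
    have hk0 : (0 : ℝ) ≤ k := Nat.cast_nonneg k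
    have h4 : (0 : ℝ) ≤ ((N * r : ℕ) : ℝ) := Nat.cast_nonneg _
    nlinarith
  · have h3 : (k : ℝ) ≤ N := by exact_mod_cast hk
    push_cast
    have h4 : (k : ℝ) * r ≤ N * r := mul_le_mul_of_nonneg_right h3 hr0
    have h6 : 0 < c * (5 / 4 : ℝ) ^ k := mul_pos hc h5
    linarith

/-- geometric bound -/
theorem TLA_geo (n : ℕ) {c : ℝ} (hc : 0 < c) : ∃ B : ℝ, 0 < B ∧ ∀ (t : ℝ) (k : ℕ), 0 < t →
    t ≤ 1 / 2 → ((2 : ℝ) ^ k) ^ n * dlt t k ^ c ≤ B * (1 / 2) ^ k := by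
  obtain ⟨B, hB⟩ := TLA_exp (n + 1) hc
  refine ⟨(2 : ℝ) ^ (B : ℝ), by positivity, fun t k h h2 => ?_⟩
  have e1 : dlt t k ^ c ≤ (2 : ℝ) ^ (-(c * (5 / 4 : ℝ) ^ k)) := by
    have h3 := Real.rpow_le_rpow (dlt_pos h k).le (dlt_le h h2 k) hc.le
    refine h3.trans (le_of_eq ?_)
    rw [← Real.rpow_mul (by norm_num : (0 : ℝ) ≤ 1 / 2), one_div, Real.inv_rpow (by norm_num),
      ← Real.rpow_neg (by norm_num)]
    congr 1
    ring
  have e2 : ((2 : ℝ) ^ k) ^ n = (2 : ℝ) ^ ((k : ℝ) * n) := by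
    rw [← pow_mul, ← Real.rpow_natCast]
    push_cast
    rfl
  have e3 : ((1 : ℝ) / 2) ^ k = (2 : ℝ) ^ (-(k : ℝ)) := by
    rw [one_div, inv_pow, Real.rpow_neg (by norm_num), Real.rpow_natCast]
  calc ((2 : ℝ) ^ k) ^ n * dlt t k ^ c
      ≤ (2 : ℝ) ^ ((k : ℝ) * n) * (2 : ℝ) ^ (-(c * (5 / 4 : ℝ) ^ k)) := by
        rw [e2]
        exact mul_le_mul_of_nonneg_left e1 (by positivity)
    _ = (2 : ℝ) ^ ((k : ℝ) * n + -(c * (5 / 4 : ℝ) ^ k)) := by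
        rw [Real.rpow_add (by norm_num)]
    _ ≤ (2 : ℝ) ^ ((B : ℝ) + -(k : ℝ)) := by
        refine Real.rpow_le_rpow_of_exponent_le (by norm_num) ?_
        have h4 := hB k
        push_cast at h4
        linarith
    _ = (2 : ℝ) ^ (B : ℝ) * (1 / 2) ^ k := by
        rw [Real.rpow_add (by norm_num), e3]

/-- constants times powers of two are summable against powers of `dlt t k` -/
theorem dlt_summable {t : ℝ} (h : 0 < t) (h2 : t ≤ 1 / 2) (c : ℝ) (hc : 0 < c) (n : ℕ) :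
    Summable fun k : ℕ => ((2 : ℝ) ^ k) ^ n * dlt t k ^ c := by
  obtain ⟨B, hB, hb⟩ := TLA_geo n hc
  refine Summable.of_nonneg_of_le (fun k => ?_) (fun k => hb t k h h2)
    (summable_geometric_two.mul_left B)
  have := Real.rpow_nonneg (dlt_pos h k).le c
  positivity

/-- any polynomial in `k` is eventually beaten by negative powers of `dlt t k` -/
theorem dlt_beats {t : ℝ} (h : 0 < t) (h2 : t ≤ 1 / 2) (A c : ℝ) (hc : 0 < c) (n : ℕ) :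
    ∀ᶠ k : ℕ in atTop, A * (k + 1 : ℝ) ^ n * dlt t k ^ c ≤ 1 := by
  have h3 := (dlt_summable h h2 c hc n).tendsto_atTop_zero
  have h4 := h3.const_mul |A|
  rw [mul_zero] at h4
  have h5 := h4.eventually (gt_mem_nhds (zero_lt_one (α := ℝ)))
  filter_upwards [h5] with k hk
  have e1 : (k + 1 : ℝ) ^ n ≤ ((2 : ℝ) ^ k) ^ n := by
    refine pow_le_pow_left₀ (by positivity) ?_ n
    have h6 : k + 1 ≤ 2 ^ k := Nat.lt_two_pow_self
    exact_mod_cast h6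
  have e2 : 0 ≤ dlt t k ^ c := Real.rpow_nonneg (dlt_pos h k).le c
  calc A * (k + 1 : ℝ) ^ n * dlt t k ^ c ≤ |A| * (k + 1 : ℝ) ^ n * dlt t k ^ c := by
        refine mul_le_mul_of_nonneg_right ?_ e2
        exact mul_le_mul_of_nonneg_right (le_abs_self A) (by positivity)
    _ ≤ |A| * ((2 : ℝ) ^ k) ^ n * dlt t k ^ c := by
        refine mul_le_mul_of_nonneg_right ?_ e2
        exact mul_le_mul_of_nonneg_left e1 (abs_nonneg A)
    _ = |A| * (((2 : ℝ) ^ k) ^ n * dlt t k ^ c) := by ring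
    _ ≤ 1 := hk.le

/-- uniform bound of the tail sums -/
theorem dlt_tail (n : ℕ) : ∃ A : ℝ, ∀ t : ℝ, 0 < t → t ≤ 1 / 2 →
    (Summable fun k : ℕ => ((2 : ℝ) ^ (k + 1)) ^ n * dlt t (k + 1)) ∧
    ∑' k : ℕ, ((2 : ℝ) ^ (k + 1)) ^ n * dlt t (k + 1) ≤ A * t ^ (5 / 4 : ℝ) := by
  obtain ⟨B, hB, hb⟩ := TLA_geo n (c := 1) one_pos
  refine ⟨(2 : ℝ) ^ (5 / 4 : ℝ) * B, fun t h h2 => ?_⟩
  have key : ∀ k : ℕ, ((2 : ℝ) ^ (k + 1)) ^ n * dlt t (k + 1) ≤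
      t ^ (5 / 4 : ℝ) * ((2 : ℝ) ^ (5 / 4 : ℝ) * B * (1 / 2)) * (1 / 2) ^ k := by
    intro k
    have h3 := hb (1 / 2) (k + 1) (by norm_num) le_rfl
    rw [Real.rpow_one] at h3
    have e0 : (5 / 4 : ℝ) ≤ (5 / 4 : ℝ) ^ (k + 1) := by
      have := pow_le_pow_right₀ (by norm_num : (1 : ℝ) ≤ 5 / 4) (Nat.le_add_left 1 k)
      simpa using this
    have e1 : dlt t (k + 1) = t ^ (5 / 4 : ℝ) * t ^ ((5 / 4 : ℝ) ^ (k + 1) - 5 / 4) := by
      unfold dlt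
      rw [← Real.rpow_add h]
      congr 1
      ring
    have e2 : t ^ ((5 / 4 : ℝ) ^ (k + 1) - 5 / 4) ≤
        (1 / 2 : ℝ) ^ ((5 / 4 : ℝ) ^ (k + 1) - 5 / 4) :=
      Real.rpow_le_rpow h.le h2 (by linarith)
    have e3 : (1 / 2 : ℝ) ^ ((5 / 4 : ℝ) ^ (k + 1) - 5 / 4) =
        (2 : ℝ) ^ (5 / 4 : ℝ) * dlt (1 / 2) (k + 1) := by
      unfold dlt
      rw [sub_eq_add_neg, Real.rpow_add (by norm_num), mul_comm]
      congr 1
      rw [one_div, Real.inv_rpow (by norm_num), ← Real.rpow_neg (by norm_num), neg_neg]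
    have ht : 0 < t ^ (5 / 4 : ℝ) := Real.rpow_pos_of_pos h _
    calc ((2 : ℝ) ^ (k + 1)) ^ n * dlt t (k + 1)
        = t ^ (5 / 4 : ℝ) * (((2 : ℝ) ^ (k + 1)) ^ n * t ^ ((5 / 4 : ℝ) ^ (k + 1) - 5 / 4)) := by
          rw [e1]
          ring
      _ ≤ t ^ (5 / 4 : ℝ) * (((2 : ℝ) ^ (k + 1)) ^ n *
            ((2 : ℝ) ^ (5 / 4 : ℝ) * dlt (1 / 2) (k + 1))) := by
          refine mul_le_mul_of_nonneg_left ?_ ht.le
          refine mul_le_mul_of_nonneg_left ?_ (by positivity)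
          rw [← e3]
          exact e2
      _ = t ^ (5 / 4 : ℝ) * ((2 : ℝ) ^ (5 / 4 : ℝ) *
            (((2 : ℝ) ^ (k + 1)) ^ n * dlt (1 / 2) (k + 1))) := by ring
      _ ≤ t ^ (5 / 4 : ℝ) * ((2 : ℝ) ^ (5 / 4 : ℝ) * (B * (1 / 2) ^ (k + 1))) := by
          refine mul_le_mul_of_nonneg_left ?_ ht.le
          exact mul_le_mul_of_nonneg_left h3 (by positivity)
      _ = t ^ (5 / 4 : ℝ) * ((2 : ℝ) ^ (5 / 4 : ℝ) * B * (1 / 2)) * (1 / 2) ^ k := by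
          rw [pow_succ]
          ring
  have hs0 : Summable fun k : ℕ =>
      t ^ (5 / 4 : ℝ) * ((2 : ℝ) ^ (5 / 4 : ℝ) * B * (1 / 2)) * (1 / 2 : ℝ) ^ k :=
    summable_geometric_two.mul_left _
  have hs : Summable fun k : ℕ => ((2 : ℝ) ^ (k + 1)) ^ n * dlt t (k + 1) := by
    refine Summable.of_nonneg_of_le (fun k => ?_) key hs0
    have := (dlt_pos h (k + 1)).le
    positivity
  refine ⟨hs, (hs.tsum_le_tsum key hs0).trans (le_of_eq ?_)⟩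
  rw [tsum_mul_left, tsum_geometric_two]
  ring

theorem TLA_half {t : ℝ} (h : 0 < t) (h2 : t ≤ (1 / 2) ^ 20) : t ^ (1 / 20 : ℝ) ≤ 1 / 2 := by
  have h3 : t ^ (1 / 20 : ℝ) ≤ ((1 / 2 : ℝ) ^ 20) ^ (1 / 20 : ℝ) :=
    Real.rpow_le_rpow h.le h2 (by norm_num)
  refine h3.trans (le_of_eq ?_)
  rw [← Real.rpow_natCast, ← Real.rpow_mul (by norm_num)]
  norm_num

/-- the sum of the steps -/
theorem ds_le_start {t : ℝ} (h : 0 < t) (h2 : t ≤ (1 / 2) ^ 20) (k : ℕ) :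
    ds t k ≤ t ^ (7 / 20 : ℝ) := by
  have ht1 : t ≤ 1 := h2.trans (by norm_num)
  have hh := TLA_half h h2
  have hp : 0 < t ^ (1 / 20 : ℝ) := Real.rpow_pos_of_pos h _
  have hq : 0 < t ^ (7 / 20 : ℝ) := Real.rpow_pos_of_pos h _
  have key : ∀ j : ℕ, dlt t j ^ (2 / 5 : ℝ) ≤ t ^ (7 / 20 : ℝ) * (1 / 2) * (1 / 2) ^ j := by
    intro j
    have e1 : dlt t j ^ (2 / 5 : ℝ) = t ^ ((5 / 4 : ℝ) ^ j * (2 / 5)) := by
      unfold dlt
      rw [← Real.rpow_mul h.le]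
    have e2 : (7 / 20 : ℝ) + 1 / 20 + 1 / 20 * j ≤ (5 / 4 : ℝ) ^ j * (2 / 5) := by
      have h4 := one_add_mul_le_pow (a := (1 / 4 : ℝ)) (by norm_num) j
      have h5 : (1 + 1 / 4 : ℝ) = 5 / 4 := by norm_num
      rw [h5] at h4
      have hj : (0 : ℝ) ≤ j := Nat.cast_nonneg j
      linarith
    have e3 : t ^ ((7 / 20 : ℝ) + 1 / 20 + 1 / 20 * j) =
        t ^ (7 / 20 : ℝ) * t ^ (1 / 20 : ℝ) * (t ^ (1 / 20 : ℝ)) ^ j := by
      rw [Real.rpow_add h, Real.rpow_add h, Real.rpow_mul h.le, Real.rpow_natCast]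
    calc dlt t j ^ (2 / 5 : ℝ) = t ^ ((5 / 4 : ℝ) ^ j * (2 / 5)) := e1
      _ ≤ t ^ ((7 / 20 : ℝ) + 1 / 20 + 1 / 20 * j) :=
          Real.rpow_le_rpow_of_exponent_ge h ht1 e2
      _ = t ^ (7 / 20 : ℝ) * t ^ (1 / 20 : ℝ) * (t ^ (1 / 20 : ℝ)) ^ j := e3
      _ ≤ t ^ (7 / 20 : ℝ) * (1 / 2) * (1 / 2) ^ j := by
          refine mul_le_mul (mul_le_mul_of_nonneg_left hh hq.le)
            (pow_le_pow_left₀ hp.le hh j) (by positivity) (by positivity)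
  unfold ds
  calc ∑ j ∈ Finset.range k, dlt t j ^ (2 / 5 : ℝ)
      ≤ ∑ j ∈ Finset.range k, t ^ (7 / 20 : ℝ) * (1 / 2) * (1 / 2) ^ j :=
        Finset.sum_le_sum fun j _ => key j
    _ = t ^ (7 / 20 : ℝ) * (1 / 2) * ∑ j ∈ Finset.range k, (1 / 2 : ℝ) ^ j := by
        rw [Finset.mul_sum]
    _ ≤ t ^ (7 / 20 : ℝ) * (1 / 2) * 2 :=
        mul_le_mul_of_nonneg_left (sum_geometric_two_le k) (by positivity)
    _ = t ^ (7 / 20 : ℝ) := by ring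

theorem ds_succ (t : ℝ) (k : ℕ) : ds t (k + 1) = ds t k + dlt t k ^ (2 / 5 : ℝ) := by
  unfold ds
  rw [Finset.sum_range_succ]

theorem qd_dlt {t : ℝ} (h : 0 < t) (P k : ℕ) :
    qd P (dlt t (k + 1)) ^ 20 = qd P (dlt t k) ^ 25 := by
  rw [qd_rpow (dlt_pos h _), qd_rpow (dlt_pos h _), dlt_succ h, ← Real.rpow_mul (dlt_pos h _).le]
  congr 1
  push_cast
  ring

theorem qd_mono {P : ℕ} {δ δ' : ℝ} (h : 0 < δ') (h1 : δ' ≤ δ) : qd P δ' ≤ qd P δ :=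
  Real.rpow_le_rpow h.le h1 (by positivity)

theorem thr_mono {C0 m0 : ℕ} {Cr : ℕ → ℕ → ℕ} {P : ℕ} {Lam δ δ' : ℝ} (hL : 1 ≤ Lam)
    (h : 0 < δ') (h1 : δ' ≤ δ) (T : Thr C0 m0 Cr P Lam δ) : Thr C0 m0 Cr P Lam δ' := by
  have hL0 : 0 ≤ Lam := by linarith
  refine ⟨?_, fun r hr => ?_, ?_⟩
  · exact (mul_le_mul_of_nonneg_left h1 (by positivity)).trans T.t1
  · exact (mul_le_mul_of_nonneg_left (Real.rpow_le_rpow h.le h1 (by norm_num))
      (by positivity)).trans (T.t2 r hr)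
  · refine le_trans ?_ T.t3
    have h3 := pow_le_pow_left₀ (qd_pos h).le (qd_mono (P := P) h h1) 5
    linarith

theorem thr_eventually (C0 m0 : ℕ) (Cr : ℕ → ℕ → ℕ) {P : ℕ} (hP : 1 ≤ P) {Lam t : ℝ}
    (hL : 1 ≤ Lam) (h : 0 < t) (h2 : t ≤ 1 / 2) :
    ∀ᶠ k : ℕ in atTop, Thr C0 m0 Cr P Lam (dlt t k) := by
  have hP' : (0 : ℝ) < P := by exact_mod_cast hP
  have h1 := dlt_beats h h2 (Cr P 0 * Lam ^ Cr P 0) 1 one_pos 0
  have h3 : ∀ᶠ k : ℕ in atTop, ∀ r ∈ Finset.range (2 * P + 2),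
      4 * C0 * Lam ^ m0 * (Cr P r * Lam ^ Cr P r) * (k + 1 : ℝ) ^ 0 *
        dlt t k ^ (1 / 20 : ℝ) ≤ 1 := by
    rw [Filter.eventually_all_finset]
    intro r _
    exact dlt_beats h h2 (4 * C0 * Lam ^ m0 * (Cr P r * Lam ^ Cr P r)) (1 / 20) (by norm_num) 0
  have h4 := dlt_beats h h2 2 ((5 : ℕ) / P) (by positivity) 0
  filter_upwards [h1, h3, h4] with k k1 k3 k4
  refine ⟨?_, fun r hr => ?_, ?_⟩
  · rwa [pow_zero, mul_one, Real.rpow_one] at k1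
  · have k5 := k3 r (Finset.mem_range.2 (by omega))
    rwa [pow_zero, mul_one] at k5
  · rw [qd_rpow (dlt_pos h k)]
    rwa [pow_zero, mul_one] at k4

theorem TLA_Qmono {m m' : ℕ} (hm : m' ≤ m) {Lam t : ℝ} (hL : 1 ≤ Lam) (h : 0 ≤ t) {x : ℝ}
    (hQ : m * Lam ^ m * t ≤ x) : m' * Lam ^ m' * t ≤ x := by
  refine le_trans ?_ hQ
  refine mul_le_mul_of_nonneg_right ?_ h
  have h1 : (m' : ℝ) ≤ m := by exact_mod_cast hm
  exact mul_le_mul h1 (pow_le_pow_right₀ hL hm) (by positivity) (by positivity)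

theorem TLA_small (K : ℕ) {c : ℝ} (hc : 0 < c) : ∃ m : ℕ, ∀ Lam t : ℝ, 1 ≤ Lam → 0 < t →
    m * Lam ^ m * t ≤ 1 → K * Lam ^ K * t ^ c ≤ 1 := by
  obtain ⟨N, hN⟩ := exists_nat_ge (1 / c)
  have hN1 : 1 ≤ (N + 1 : ℝ) * c := by
    rw [div_le_iff₀ hc] at hN
    nlinarith
  refine ⟨K ^ (N + 1) + K * (N + 1) + 1, fun Lam t hL h hQ => ?_⟩
  have hL0 : 0 ≤ Lam := by linarith
  have ht1 : t ≤ 1 := by
    have h1 := TLA_Qmono (m' := 1) (by omega) hL h.le hQ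
    rw [Nat.cast_one, one_mul, pow_one] at h1
    nlinarith
  have h3 : (K * Lam ^ K * t ^ c) ^ (N + 1) ≤ 1 := by
    have e1 : (t ^ c) ^ (N + 1) ≤ t := by
      rw [← Real.rpow_natCast, ← Real.rpow_mul h.le]
      have h4 := Real.rpow_le_rpow_of_exponent_ge h ht1 (z := 1) (y := c * ((N + 1 : ℕ) : ℝ))
        (by push_cast; linarith)
      rwa [Real.rpow_one] at h4
    calc (K * Lam ^ K * t ^ c) ^ (N + 1) = (K : ℝ) ^ (N + 1) * Lam ^ (K * (N + 1)) *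
          (t ^ c) ^ (N + 1) := by rw [mul_pow, mul_pow, ← pow_mul]
      _ ≤ (K : ℝ) ^ (N + 1) * Lam ^ (K * (N + 1)) * t :=
          mul_le_mul_of_nonneg_left e1 (by positivity)
      _ ≤ ((K ^ (N + 1) + K * (N + 1) + 1 : ℕ) : ℝ) *
            Lam ^ (K ^ (N + 1) + K * (N + 1) + 1) * t := by
          refine mul_le_mul_of_nonneg_right ?_ h.le
          refine mul_le_mul ?_ (pow_le_pow_right₀ hL (by omega)) (by positivity) (by positivity)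
          push_cast
          have : (0 : ℝ) ≤ K * (N + 1) := by positivity
          linarith
      _ ≤ 1 := hQ
  have h5 : 0 ≤ K * Lam ^ K * t ^ c := by positivity
  by_contra hcon
  have h6 := one_lt_pow₀ (not_le.1 hcon) (Nat.succ_ne_zero N)
  exact absurd h3 (not_le.2 h6)

theorem TLA_K {a : ℝ} {b K : ℕ} (ha : a ≤ K) (hb : b ≤ K) {Lam x : ℝ} (hL : 1 ≤ Lam)
    (hx : 0 ≤ x) (h : K * Lam ^ K * x ≤ 1) : a * Lam ^ b * x ≤ 1 := by
  have hL0 : 0 ≤ Lam := by linarith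
  refine le_trans (mul_le_mul_of_nonneg_right ?_ hx) h
  calc a * Lam ^ b ≤ K * Lam ^ b := mul_le_mul_of_nonneg_right ha (by positivity)
    _ ≤ K * Lam ^ K := mul_le_mul_of_nonneg_left (pow_le_pow_right₀ hL hb) (by positivity)

/-- the thresholds for the first state -/
theorem thr_start {C0 : ℕ} (m0 : ℕ) (hC0 : 20 ≤ C0) (Cr : ℕ → ℕ → ℕ) {P : ℕ} (hP : 1 ≤ P) : ∃ m : ℕ, ∀ Lam t : ℝ,
    1 ≤ Lam → 0 < t → m * Lam ^ m * t ≤ 1 →
    Thr C0 m0 Cr P Lam t ∧ t ≤ (1 / 2) ^ 20 ∧ t ^ (7 / 20 : ℝ) ≤ nu C0 m0 Lam / 4 ∧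
    t ^ (1 / 10 : ℝ) ≤ nu C0 m0 Lam / 4 ∧ Lam * qd P t ^ 20 ≤ 1 := by
  have hP' : (0 : ℝ) < P := by exact_mod_cast hP
  choose mr hmr using fun r : ℕ => TLA_small (4 * C0 * Cr P r + m0 + Cr P r)
    (c := (1 / 20 : ℝ)) (by norm_num)
  obtain ⟨m1, hm1⟩ := TLA_small 2 (c := ((5 : ℕ) : ℝ) / P) (by positivity)
  obtain ⟨m2, hm2⟩ := TLA_small (4 * C0 + m0) (c := (7 / 20 : ℝ)) (by norm_num)
  obtain ⟨m3, hm3⟩ := TLA_small (4 * C0 + m0) (c := (1 / 10 : ℝ)) (by norm_num)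
  obtain ⟨m4, hm4⟩ := TLA_small 1 (c := ((20 : ℕ) : ℝ) / P) (by positivity)
  obtain ⟨S, hS⟩ : ∃ S : ℕ, S = ∑ r ∈ Finset.range (2 * P + 2), mr r := ⟨_, rfl⟩
  have hSr : ∀ r ∈ Finset.range (2 * P + 2), mr r ≤ S := fun r hr => by
    rw [hS]
    exact Finset.single_le_sum (f := mr) (fun _ _ => Nat.zero_le _) hr
  refine ⟨Cr P 0 + S + m1 + m2 + m3 + m4 + 2 ^ 20, fun Lam t hL h hQ => ?_⟩
  have hL0 : 0 < Lam := by linarith
  have hC0' : (0 : ℝ) < C0 := by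
    have : (20 : ℝ) ≤ C0 := by exact_mod_cast hC0
    linarith
  refine ⟨⟨?_, fun r hr => ?_, ?_⟩, ?_, ?_, ?_, ?_⟩
  · exact TLA_Qmono (by omega) hL h.le hQ
  · have h1 := hmr r Lam t hL h (TLA_Qmono (by
      have := hSr r (Finset.mem_range.2 (by omega))
      omega) hL h.le hQ)
    have h2 := TLA_K (a := 4 * C0 * Cr P r) (b := m0 + Cr P r) (by
      push_cast
      have : (0 : ℝ) ≤ (m0 : ℝ) + Cr P r := by positivity
      linarith) (by omega) hL (Real.rpow_nonneg h.le _) h1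
    rw [pow_add] at h2
    calc 4 * C0 * Lam ^ m0 * (Cr P r * Lam ^ Cr P r) * t ^ (1 / 20 : ℝ) =
        4 * C0 * Cr P r * (Lam ^ m0 * Lam ^ Cr P r) * t ^ (1 / 20 : ℝ) := by ring
      _ ≤ 1 := h2
  · have h1 := hm1 Lam t hL h (TLA_Qmono (by omega) hL h.le hQ)
    have h2 := TLA_K (a := 2) (b := 0) (by norm_num) (by omega) hL (Real.rpow_nonneg h.le _) h1
    rw [pow_zero, mul_one] at h2
    rw [qd_rpow h]
    exact h2
  · have h1 := TLA_Qmono (m' := 2 ^ 20) (by omega) hL h.le hQ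
    have h2 : (1 : ℝ) ≤ Lam ^ (2 ^ 20) := one_le_pow₀ hL
    have h3 : (2 : ℝ) ^ 20 * t ≤ 1 := by
      refine le_trans ?_ h1
      refine mul_le_mul_of_nonneg_right ?_ h.le
      have h4 : ((2 ^ 20 : ℕ) : ℝ) = (2 : ℝ) ^ 20 := by norm_num
      rw [h4]
      exact le_mul_of_one_le_right (by positivity) h2
    rw [one_div, inv_pow]
    rw [← one_div, le_div_iff₀ (by positivity)]
    linarith
  · have h1 := hm2 Lam t hL h (TLA_Qmono (by omega) hL h.le hQ)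
    have h2 := TLA_K (a := 4 * C0) (b := m0) (by
      push_cast
      have : (0 : ℝ) ≤ (m0 : ℝ) := Nat.cast_nonneg m0
      linarith) (by omega) hL (Real.rpow_nonneg h.le _) h1
    unfold nu
    rw [le_div_iff₀ (by norm_num), ← one_div, le_div_iff₀ (by positivity)]
    linarith
  · have h1 := hm3 Lam t hL h (TLA_Qmono (by omega) hL h.le hQ)
    have h2 := TLA_K (a := 4 * C0) (b := m0) (by
      push_cast
      have : (0 : ℝ) ≤ (m0 : ℝ) := Nat.cast_nonneg m0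
      linarith) (by omega) hL (Real.rpow_nonneg h.le _) h1
    unfold nu
    rw [le_div_iff₀ (by norm_num), ← one_div, le_div_iff₀ (by positivity)]
    linarith
  · have h1 := hm4 Lam t hL h (TLA_Qmono (by omega) hL h.le hQ)
    rw [Nat.cast_one, one_mul, pow_one] at h1
    rw [qd_rpow h]
    exact h1

end P205F
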