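import Vale.Agent.Lib.P205F.TLA

/-! # P205F module TLB: the step -/

open scoped ContDiff Topology
open Set Filter

namespace P205F

/-- a state gives the bounds `KBd` with constant one for the orders `≤ 2 P` -/
theorem St.kbd {C0 m0 P k : ℕ} {Lam δ : ℝ} {F0 F : E2 → V4} {gst e : E2 → T2}
    (hC0 : 20 ≤ C0) (h : St C0 m0 P k Lam δ F0 F gst e) {r : ℕ} (hr : r ≤ 2 * P) :
    KBd P r 1 δ F gst e := by
  have hC : (20 : ℝ) ≤ C0 := by exact_mod_cast hC0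
  have hLm : (1 : ℝ) ≤ Lam ^ m0 := one_le_pow₀ h.hL
  have hnu : nu C0 m0 Lam / 4 ≤ 1 := by
    unfold nu
    have h1 : (1 : ℝ) ≤ C0 * Lam ^ m0 := by nlinarith
    have h2 : (C0 * Lam ^ m0 : ℝ)⁻¹ ≤ 1 := inv_le_one_of_one_le₀ h1
    linarith
  have hq : 0 < (qd P δ ^ 20)⁻¹ := inv_pos.2 (pow_pos (qd_pos h.d0) 20)
  refine ⟨fun j hj3 hj x hx => ?_, fun j hj x hx => ?_, fun j hj1 hj x hx => ?_⟩
  · rw [one_mul]
    exact h.S2 j hj3 (by omega) x hx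
  · refine (h.S3 j (by omega) x hx).trans ?_
    have h3 : 0 ≤ δ * ((qd P δ ^ 20)⁻¹) ^ j := mul_nonneg h.d0.le (pow_pos hq j).le
    calc nu C0 m0 Lam / 4 * δ * ((qd P δ ^ 20)⁻¹) ^ j
        = nu C0 m0 Lam / 4 * (δ * ((qd P δ ^ 20)⁻¹) ^ j) := by ring
      _ ≤ 1 * (δ * ((qd P δ ^ 20)⁻¹) ^ j) := mul_le_mul_of_nonneg_right hnu h3
      _ = 1 * δ * ((qd P δ ^ 20)⁻¹) ^ j := by ring
  · rw [one_mul]
    exact h.S4 j hj1 (by omega) x hx

private theorem TLB_cr {C0 m0 : ℕ} {Cr : ℕ → ℕ → ℕ} {P : ℕ} {Lam δ : ℝ} (hC0 : 20 ≤ C0)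
    (hL : 1 ≤ Lam) (h0 : 0 < δ) (T : Thr C0 m0 Cr P Lam δ) {r : ℕ} (hr : r ≤ 2 * P + 1) :
    80 * (Cr P r * Lam ^ Cr P r) * δ ^ (1 / 20 : ℝ) ≤ 1 := by
  have hC : (20 : ℝ) ≤ C0 := by exact_mod_cast hC0
  have hLm : (1 : ℝ) ≤ Lam ^ m0 := one_le_pow₀ hL
  refine le_trans ?_ (T.t2 r hr)
  have h1 : (80 : ℝ) ≤ 4 * C0 * Lam ^ m0 := by nlinarith
  have h2 : (0 : ℝ) ≤ Cr P r * Lam ^ Cr P r := by positivity
  have h3 : 0 ≤ δ ^ (1 / 20 : ℝ) := Real.rpow_nonneg h0.le _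
  exact mul_le_mul_of_nonneg_right (mul_le_mul_of_nonneg_right h1 h2) h3

/-- size of the step -/
theorem step_small {C0 m0 : ℕ} {Cr : ℕ → ℕ → ℕ} {P k : ℕ} {Lam δ : ℝ} {cs : CutSeq}
    {F : E2 → V4} {gst e : E2 → T2} {w : E2 → V4} {e' : E2 → T2} (hC0 : 20 ≤ C0)
    (hP : 10000 ≤ P) (hL : 1 ≤ Lam) (h0 : 0 < δ) (h1 : δ ≤ 1 / 2) (T : Thr C0 m0 Cr P Lam δ)
    (O : StOut cs (Cr P) P k Lam δ F gst e w e') {r : ℕ} (hr : 1000 * r ≤ P) (x : E2) :
    ‖iteratedFDeriv ℝ r w x‖ ≤ δ ^ (2 / 5 : ℝ) := by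
  refine (O.w_bd r x).trans ?_
  have hd1 : δ ≤ 1 := by linarith
  have hX0 : (0 : ℝ) ≤ Cr P r * Lam ^ Cr P r := by positivity
  have hX := TLB_cr hC0 hL h0 T (r := r) (by omega)
  have hs0 : 0 ≤ δ ^ (1 / 20 : ℝ) := Real.rpow_nonneg h0.le _
  have hX1 : (Cr P r * Lam ^ Cr P r : ℝ) * δ ^ (1 / 20 : ℝ) ≤ 1 := by
    have : 0 ≤ (Cr P r * Lam ^ Cr P r : ℝ) * δ ^ (1 / 20 : ℝ) := mul_nonneg hX0 hs0
    nlinarith
  have e1' : δ ^ (49 / 100 : ℝ) = δ ^ (1 / 20 : ℝ) * δ ^ (44 / 100 : ℝ) := by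
    rw [← Real.rpow_add h0]
    norm_num
  have hP0 : (0 : ℝ) < P := by
    have : 0 < P := by omega
    exact_mod_cast this
  have hQ : ((qd P δ ^ 25)⁻¹) ^ (r - 1) ≤ (δ ^ (1 / 40 : ℝ))⁻¹ := by
    rw [inv_pow, ← pow_mul, qd_rpow h0]
    refine inv_anti₀ (Real.rpow_pos_of_pos h0 _) ?_
    refine Real.rpow_le_rpow_of_exponent_ge h0 hd1 ?_
    rw [div_le_iff₀ hP0]
    have h2 : 1000 * (r - 1) ≤ P := by omega
    have h3 : (1000 * ((r - 1 : ℕ) : ℝ)) ≤ P := by exact_mod_cast h2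
    push_cast
    linarith
  have hq0 : 0 ≤ ((qd P δ ^ 25)⁻¹) ^ (r - 1) :=
    (pow_pos (inv_pos.2 (pow_pos (qd_pos h0) 25)) _).le
  calc (Cr P r * Lam ^ Cr P r : ℝ) * δ ^ (49 / 100 : ℝ) * ((qd P δ ^ 25)⁻¹) ^ (r - 1)
      = ((Cr P r * Lam ^ Cr P r : ℝ) * δ ^ (1 / 20 : ℝ)) * δ ^ (44 / 100 : ℝ) *
        ((qd P δ ^ 25)⁻¹) ^ (r - 1) := by rw [e1']; ring
    _ ≤ 1 * δ ^ (44 / 100 : ℝ) * (δ ^ (1 / 40 : ℝ))⁻¹ := by
        refine mul_le_mul (mul_le_mul_of_nonneg_right hX1 (Real.rpow_nonneg h0.le _)) hQ hq0 ?_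
        rw [one_mul]
        exact Real.rpow_nonneg h0.le _
    _ = δ ^ (415 / 1000 : ℝ) := by
        rw [one_mul, ← Real.rpow_neg h0.le, ← Real.rpow_add h0]
        norm_num
    _ ≤ δ ^ (2 / 5 : ℝ) := Real.rpow_le_rpow_of_exponent_ge h0 hd1 (by norm_num)

namespace ItData

variable (I : ItData)

/-- reproduction of the invariant -/
theorem inv_succ {k P : ℕ} {F : E2 → V4} {e : E2 → T2} (h : I.Inv k P F e) {w : E2 → V4}
    {e' : E2 → T2} (O : StOut I.cs (I.Cr P) P k I.Lam (dlt I.t k) F I.gst e w e') :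
    I.Inv (k + 1) P (fun y => F y + w y) e' := by
  have hP0 := h.hP
  have hP00 := I.hP0
  have hP1 : 10000 ≤ P := hP00.trans hP0
  set δ := dlt I.t k with hδ
  have h0 : 0 < δ := dlt_pos I.t_pos k
  have h1 : δ ≤ 1 / 2 := (dlt_le_t I.t_pos I.t_le k).trans I.t_le
  have hd1 : δ ≤ 1 := by linarith
  have h0' : 0 < dlt I.t (k + 1) := dlt_pos I.t_pos (k + 1)
  have hanti : dlt I.t (k + 1) ≤ δ := dlt_anti I.t_pos I.t_le (Nat.le_succ k)
  have hsucc : dlt I.t (k + 1) = δ ^ (5 / 4 : ℝ) := dlt_succ I.t_pos k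
  have hqq : qd P (dlt I.t (k + 1)) ^ 20 = qd P δ ^ 25 := qd_dlt I.t_pos P k
  have hL := I.hLam
  have hq0 : 0 < qd P δ := qd_pos h0
  have hq1 : qd P δ < 1 := qd_lt (by omega) h0 (by linarith)
  have hC : (20 : ℝ) ≤ I.C0 := by exact_mod_cast I.hC0
  have hLm : (1 : ℝ) ≤ I.Lam ^ I.m0 := one_le_pow₀ hL
  have hwat : ∀ (r : ℕ) (x : E2), ContDiffAt ℝ r w x := fun r x =>
    (O.w_sm.contDiffAt).of_le (by exact_mod_cast le_top)
  have near : ∀ r, 1000 * r ≤ I.P0 → ∀ x,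
      ‖iteratedFDeriv ℝ r (fun y => (F y + w y) - I.F0 y) x‖ ≤ ds I.t (k + 1) := by
    intro r hr x
    have e1' : (fun y => (F y + w y) - I.F0 y) = fun y => (F y - I.F0 y) + w y := by
      funext y
      abel
    have h2 : iteratedFDeriv ℝ r (fun y => (F y - I.F0 y) + w y) x =
        iteratedFDeriv ℝ r (fun y => F y - I.F0 y) x + iteratedFDeriv ℝ r w x :=
      iteratedFDeriv_add_apply ((h.dsm.contDiffAt).of_le (by exact_mod_cast le_top)) (hwat r x)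
    rw [e1', h2, ds_succ]
    refine (norm_add_le _ _).trans (add_le_add (h.near r hr x) ?_)
    exact step_small I.hC0 hP1 hL h0 h1 h.thr O (hr.trans hP0) x
  refine ⟨hP0, ?_, thr_mono hL h0' hanti h.thr, ?_, near⟩
  · refine ⟨hL, h0', dlt_le I.t_pos I.t_le (k + 1), h.st.smF0, h.st.smF.add O.w_sm.contDiffOn,
      h.st.smg, O.e_sm.contDiffOn, h.st.gsym, fun x _ => O.e_sym x 0 1, h.st.ok, ?_, ?_, ?_, ?_⟩
    · intro r hr x _
      exact (near r (by omega) x).trans (I.ds_le (k + 1))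
    · intro r hr3 hr x hx
      rw [hqq]
      have hx4 : x ∈ Metric.ball (0 : E2) 4 := by
        rw [Metric.mem_closedBall] at hx
        rw [Metric.mem_ball]
        linarith
      have hFat : ContDiffAt ℝ r F x :=
        (h.st.smF.contDiffAt (Metric.isOpen_ball.mem_nhds hx4)).of_le (by exact_mod_cast le_top)
      have h2 : iteratedFDeriv ℝ r (fun y => F y + w y) x =
          iteratedFDeriv ℝ r F x + iteratedFDeriv ℝ r w x :=
        iteratedFDeriv_add_apply hFat (hwat r x)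
      rw [h2]
      have hA := h.st.S2 r hr3 hr x hx
      have hB := O.w_bd r x
      have hX := TLB_cr I.hC0 hL h0 h.thr (r := r) hr
      set Q := (qd P δ ^ 25)⁻¹ with hQ
      have hQ0 : 0 < Q := inv_pos.2 (pow_pos hq0 25)
      have hA' : ((qd P δ ^ 20)⁻¹) ^ (r - 2) ≤ 1 / 2 * Q ^ (r - 2) := by
        have e1' : (qd P δ ^ 20)⁻¹ = Q * qd P δ ^ 5 := by
          rw [hQ]
          field_simp
        rw [e1', mul_pow, mul_comm]
        refine mul_le_mul_of_nonneg_right ?_ (pow_pos hQ0 _).le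
        have h3 : qd P δ ^ 5 ≤ 1 / 2 := by
          have := h.thr.t3
          linarith
        have h4 : 0 ≤ qd P δ ^ 5 := (pow_pos hq0 5).le
        refine (pow_le_of_le_one h4 (by linarith) (by omega)).trans h3
      have hB' : (I.Cr P r * I.Lam ^ I.Cr P r : ℝ) * δ ^ (49 / 100 : ℝ) * Q ^ (r - 1) ≤
          1 / 2 * Q ^ (r - 2) := by
        have e2' : Q ^ (r - 1) = Q * Q ^ (r - 2) := by
          rw [← pow_succ']
          congr 1
          omega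
        have e3' : δ ^ (49 / 100 : ℝ) = δ ^ (1 / 20 : ℝ) * δ ^ (44 / 100 : ℝ) := by
          rw [← Real.rpow_add h0]
          norm_num
        have hPr : (0 : ℝ) < P := by
          have : 0 < P := by omega
          exact_mod_cast this
        have h3 : δ ^ (44 / 100 : ℝ) * Q ≤ 1 := by
          have h4 : qd P δ ^ 25 = δ ^ ((25 : ℕ) / P : ℝ) := qd_rpow h0 25
          have h5 : δ ^ (44 / 100 : ℝ) ≤ qd P δ ^ 25 := by
            rw [h4]
            refine Real.rpow_le_rpow_of_exponent_ge h0 hd1 ?_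
            rw [div_le_iff₀ hPr]
            have h6 : (10000 : ℝ) ≤ P := by exact_mod_cast hP1
            push_cast
            linarith
          rw [hQ, ← div_eq_mul_inv]
          exact (div_le_one (pow_pos hq0 25)).2 h5
        have hX0 : (0 : ℝ) ≤ (I.Cr P r * I.Lam ^ I.Cr P r : ℝ) * δ ^ (1 / 20 : ℝ) :=
          mul_nonneg (by positivity) (Real.rpow_nonneg h0.le _)
        have h7 : (I.Cr P r * I.Lam ^ I.Cr P r : ℝ) * δ ^ (1 / 20 : ℝ) ≤ 1 / 2 := by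
          linarith
        have h8 : 0 ≤ δ ^ (44 / 100 : ℝ) * Q :=
          mul_nonneg (Real.rpow_nonneg h0.le _) hQ0.le
        calc (I.Cr P r * I.Lam ^ I.Cr P r : ℝ) * δ ^ (49 / 100 : ℝ) * Q ^ (r - 1)
            = ((I.Cr P r * I.Lam ^ I.Cr P r : ℝ) * δ ^ (1 / 20 : ℝ)) *
              (δ ^ (44 / 100 : ℝ) * Q) * Q ^ (r - 2) := by rw [e2', e3']; ring
          _ ≤ (1 / 2 * 1) * Q ^ (r - 2) :=
              mul_le_mul_of_nonneg_right (mul_le_mul h7 h3 h8 (by norm_num)) (pow_pos hQ0 _).le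
          _ = 1 / 2 * Q ^ (r - 2) := by ring
      calc ‖iteratedFDeriv ℝ r F x + iteratedFDeriv ℝ r w x‖
          ≤ ‖iteratedFDeriv ℝ r F x‖ + ‖iteratedFDeriv ℝ r w x‖ := norm_add_le _ _
        _ ≤ 1 / 2 * Q ^ (r - 2) + 1 / 2 * Q ^ (r - 2) :=
            add_le_add (hA.trans hA') (hB.trans hB')
        _ = Q ^ (r - 2) := by ring
    · intro r hr x _
      rw [hqq, hsucc]
      have hX := h.thr.t2 r (by omega)
      refine (O.e_bd r 1 le_rfl (h.st.kbd I.hC0 hr) x).trans ?_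
      have hQ0 : 0 < ((qd P δ ^ 25)⁻¹) ^ r := pow_pos (inv_pos.2 (pow_pos hq0 25)) r
      refine mul_le_mul_of_nonneg_right ?_ hQ0.le
      have hD : (0 : ℝ) < 4 * I.C0 * I.Lam ^ I.m0 := by positivity
      have h3 : nu I.C0 I.m0 I.Lam / 4 = (4 * I.C0 * I.Lam ^ I.m0)⁻¹ := by
        unfold nu
        rw [mul_inv, mul_inv, mul_inv]
        ring
      have h4 : δ ^ (11 / 8 : ℝ) ≤ δ ^ (1 / 20 : ℝ) * δ ^ (5 / 4 : ℝ) := by
        rw [← Real.rpow_add h0]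
        exact Real.rpow_le_rpow_of_exponent_ge h0 hd1 (by norm_num)
      have hX0 : (0 : ℝ) ≤ (I.Cr P r * I.Lam ^ I.Cr P r : ℝ) := by positivity
      have h5 : (I.Cr P r * I.Lam ^ I.Cr P r : ℝ) * δ ^ (1 / 20 : ℝ) ≤
          (4 * I.C0 * I.Lam ^ I.m0)⁻¹ := by
        rw [← one_div, le_div_iff₀ hD]
        refine le_trans (le_of_eq ?_) hX
        ring
      rw [h3, mul_one]
      calc (I.Cr P r * I.Lam ^ I.Cr P r : ℝ) * δ ^ (11 / 8 : ℝ)
          ≤ (I.Cr P r * I.Lam ^ I.Cr P r : ℝ) * (δ ^ (1 / 20 : ℝ) * δ ^ (5 / 4 : ℝ)) :=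
            mul_le_mul_of_nonneg_left h4 hX0
        _ = ((I.Cr P r * I.Lam ^ I.Cr P r : ℝ) * δ ^ (1 / 20 : ℝ)) * δ ^ (5 / 4 : ℝ) := by ring
        _ ≤ (4 * I.C0 * I.Lam ^ I.m0)⁻¹ * δ ^ (5 / 4 : ℝ) :=
            mul_le_mul_of_nonneg_right h5 (Real.rpow_nonneg h0.le _)
    · intro r hr1 hr x hx
      rw [hqq]
      refine (h.st.S4 r hr1 hr x hx).trans ?_
      refine pow_le_pow_left₀ (inv_pos.2 (pow_pos hq0 20)).le ?_ r
      exact inv_anti₀ (pow_pos hq0 25) (pow_le_pow_of_le_one hq0.le hq1.le (by norm_num))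
  · have e1' : (fun y => (F y + w y) - I.F0 y) = fun y => (F y - I.F0 y) + w y := by
      funext y
      abel
    show ContDiff ℝ ∞ (fun y => (F y + w y) - I.F0 y)
    rw [e1']
    exact h.dsm.add O.w_sm

theorem step_exists {k P : ℕ} {F : E2 → V4} {e : E2 → T2} (h : I.Inv k P F e) :
    ∃ P' F' e', I.Step k P F e P' F' e' := by
  classical
  obtain ⟨w, e', O⟩ := I.stage P (I.hP0.trans h.hP) k I.Lam (dlt I.t k) I.F0 F I.gst e h.st
    h.thr.t1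
  have e1' : (fun y => (F y + w y) - F y) = w := by
    funext y
    abel
  by_cases hb : I.Inv (k + 1) (P + 8) (fun y => F y + w y) e'
  · refine ⟨P + 8, fun y => F y + w y, e', ?_, hb, Or.inr rfl, fun _ => rfl⟩
    rw [e1']
    exact O
  · refine ⟨P, fun y => F y + w y, e', ?_, I.inv_succ h O, Or.inl rfl, fun h2 => absurd h2 hb⟩
    rw [e1']
    exact O

theorem run_exists (e0 : E2 → T2) (h : I.Inv 0 I.P0 I.F0 e0) : ∃ P F e, I.Run e0 P F e := by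
  classical
  let S : ℕ → Type := fun k => {q : ℕ × (E2 → V4) × (E2 → T2) // I.Inv k q.1 q.2.1 q.2.2}
  have hstep : ∀ k (s : S k), ∃ s' : S (k + 1),
      I.Step k s.1.1 s.1.2.1 s.1.2.2 s'.1.1 s'.1.2.1 s'.1.2.2 := by
    intro k s
    obtain ⟨P', F', e', hs⟩ := I.step_exists s.2
    exact ⟨⟨(P', F', e'), hs.inv⟩, hs⟩
  choose nx hnx using hstep
  let sq : ∀ k, S k := fun k => Nat.rec (motive := S) ⟨(I.P0, I.F0, e0), h⟩ (fun k s => nx k s) k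
  exact ⟨fun k => (sq k).1.1, fun k => (sq k).1.2.1, fun k => (sq k).1.2.2,
    rfl, rfl, rfl, fun k => (sq k).2, fun k => hnx k (sq k)⟩

end ItData

end P205F
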