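import Mathlib
import Vale.Agent.Lib.P205F.TLA

/-! # P205F module TLC: bounds of all orders in a constant phase -/

open scoped ContDiff Topology
open Set Filter

namespace P205F

theorem TLC_sub : Metric.closedBall (0 : E2) 3 ⊆ Metric.ball 0 4 :=
  Metric.closedBall_subset_ball (by norm_num)

theorem TLC_cpt {W : Type} [NormedAddCommGroup W] [NormedSpace ℝ W] {f : E2 → W}
    (hf : ContDiffOn ℝ ∞ f (Metric.ball 0 4)) (r : ℕ) :
    ∃ K : ℝ, 1 ≤ K ∧ ∀ x ∈ Metric.closedBall (0 : E2) 3, ‖iteratedFDeriv ℝ r f x‖ ≤ K := by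
  have h1 : ContinuousOn (iteratedFDeriv ℝ r f) (Metric.ball (0 : E2) 4) := by
    have h2 := hf.continuousOn_iteratedFDerivWithin (m := r) (by exact_mod_cast le_top)
      Metric.isOpen_ball.uniqueDiffOn
    exact h2.congr (fun x hx => (iteratedFDerivWithin_of_isOpen r Metric.isOpen_ball hx).symm)
  obtain ⟨C, hC⟩ := (isCompact_closedBall (0 : E2) 3).exists_bound_of_continuousOn
    (h1.mono TLC_sub)
  exact ⟨max C 1, le_max_right _ _, fun x hx => (hC x hx).trans (le_max_left _ _)⟩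

theorem TLC_cpt_all {W : Type} [NormedAddCommGroup W] [NormedSpace ℝ W] {f : E2 → W}
    (hf : ContDiffOn ℝ ∞ f (Metric.ball 0 4)) (r : ℕ) :
    ∃ K : ℝ, 1 ≤ K ∧ ∀ j ≤ r, ∀ x ∈ Metric.closedBall (0 : E2) 3,
      ‖iteratedFDeriv ℝ j f x‖ ≤ K := by
  choose K hK1 hK using fun j => TLC_cpt hf j
  have hle : ∀ j ≤ r, K j ≤ ∑ j ∈ Finset.range (r + 1), K j := fun j hj =>
    Finset.single_le_sum (f := K) (fun i _ => zero_le_one.trans (hK1 i))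
      (Finset.mem_range.2 (by omega))
  exact ⟨∑ j ∈ Finset.range (r + 1), K j, (hK1 0).trans (hle 0 (Nat.zero_le _)),
    fun j hj x hx => (hK j x hx).trans (hle j hj)⟩

theorem TLC_add {F F' : E2 → V4} (hF : ContDiffOn ℝ ∞ F (Metric.ball 0 4))
    (hw : ContDiff ℝ ∞ (fun y => F' y - F y)) (j : ℕ) {x : E2}
    (hx : x ∈ Metric.closedBall (0 : E2) 3) :
    ‖iteratedFDeriv ℝ j F' x‖ ≤ ‖iteratedFDeriv ℝ j F x‖ +
      ‖iteratedFDeriv ℝ j (fun y => F' y - F y) x‖ := by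
  have h1 : ContDiffAt ℝ j F x :=
    ((hF x (TLC_sub hx)).contDiffAt (Metric.isOpen_ball.mem_nhds (TLC_sub hx))).of_le
      (by exact_mod_cast le_top)
  have h2 : ContDiffAt ℝ j (fun y => F' y - F y) x :=
    hw.contDiffAt.of_le (by exact_mod_cast le_top)
  have h3 : F' = F + (fun y => F' y - F y) := by
    funext y
    simp
  have h4 := iteratedFDeriv_add_apply h1 h2
  rw [← h3] at h4
  rw [h4]
  exact norm_add_le _ _

theorem TLC_qd_pos (P : ℕ) {δ : ℝ} (h : 0 < δ) : 0 < qd P δ := Real.rpow_pos_of_pos h _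

theorem TLC_qd_le (P : ℕ) {δ : ℝ} (h : 0 < δ) (h1 : δ ≤ 1) : qd P δ ≤ 1 :=
  Real.rpow_le_one h.le h1 (by positivity)

theorem TLC_one_le (P n : ℕ) {δ : ℝ} (h : 0 < δ) (h1 : δ ≤ 1) : 1 ≤ (qd P δ ^ n)⁻¹ :=
  (one_le_inv₀ (pow_pos (TLC_qd_pos P h) n)).2 (pow_le_one₀ (TLC_qd_pos P h).le (TLC_qd_le P h h1))

theorem TLC_kbd_mono {P r : ℕ} {K K' δ : ℝ} {F : E2 → V4} {gst e : E2 → T2} (h0 : 0 < δ)
    (h1 : δ ≤ 1) (hK : K ≤ K') (h : KBd P r K δ F gst e) : KBd P r K' δ F gst e := by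
  have hE := zero_le_one.trans (TLC_one_le P 20 h0 h1)
  refine ⟨fun j h3 hj x hx => (h.F j h3 hj x hx).trans ?_, fun j hj x hx =>
    (h.e j hj x hx).trans ?_, fun j h3 hj x hx => (h.g j h3 hj x hx).trans ?_⟩
  · exact mul_le_mul_of_nonneg_right hK (pow_nonneg hE _)
  · exact mul_le_mul_of_nonneg_right (mul_le_mul_of_nonneg_right hK h0.le) (pow_nonneg hE _)
  · exact mul_le_mul_of_nonneg_right hK (pow_nonneg hE _)

theorem TLC_kbd_le {P r j : ℕ} {K δ : ℝ} {F : E2 → V4} {gst e : E2 → T2} (hj : j ≤ r)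
    (h : KBd P r K δ F gst e) : KBd P j K δ F gst e :=
  ⟨fun i h3 hi x hx => h.F i h3 (by omega) x hx, fun i hi x hx => h.e i (by omega) x hx,
    fun i h3 hi x hx => h.g i h3 (by omega) x hx⟩

theorem TLC_exists {P : ℕ} {δ : ℝ} {F : E2 → V4} {gst e : E2 → T2} (h0 : 0 < δ)
    (h1 : δ ≤ 1) (hF : ContDiffOn ℝ ∞ F (Metric.ball 0 4))
    (hg : ContDiffOn ℝ ∞ gst (Metric.ball 0 4)) (he : ContDiffOn ℝ ∞ e (Metric.ball 0 4)) (r : ℕ) :
    ∃ K : ℝ, 1 ≤ K ∧ KBd P r K δ F gst e := by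
  obtain ⟨K1, hK1, b1⟩ := TLC_cpt_all hF (r + 1)
  obtain ⟨K2, hK2, b2⟩ := TLC_cpt_all he r
  obtain ⟨K3, hK3, b3⟩ := TLC_cpt_all hg r
  have hE := TLC_one_le P 20 h0 h1
  have hd : 0 ≤ K2 / δ := div_nonneg (zero_le_one.trans hK2) h0.le
  have hK0 : 0 ≤ K1 + K2 / δ + K3 := by linarith
  have hK : ∀ n : ℕ, K1 + K2 / δ + K3 ≤ (K1 + K2 / δ + K3) * ((qd P δ ^ 20)⁻¹) ^ n := fun n =>
    le_mul_of_one_le_right hK0 (one_le_pow₀ hE)
  refine ⟨K1 + K2 / δ + K3, by linarith, fun j h3 hj x hx => ?_, fun j hj x hx => ?_,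
    fun j h3 hj x hx => ?_⟩
  · have := b1 j hj x hx
    have := hK (j - 2)
    linarith
  · have h4 : K2 ≤ (K1 + K2 / δ + K3) * δ := by
      have h5 : K2 = K2 / δ * δ := by field_simp
      calc K2 = K2 / δ * δ := h5
        _ ≤ (K1 + K2 / δ + K3) * δ := mul_le_mul_of_nonneg_right (by linarith) h0.le
    exact ((b2 j hj x hx).trans h4).trans (le_mul_of_one_le_right (mul_nonneg hK0 h0.le)
      (one_le_pow₀ hE))
  · have := b3 j hj x hx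
    have := hK j
    linarith

/-- the factor of the step -/
theorem TLC_eta {P : ℕ} (hP : 10000 ≤ P) {δ : ℝ} (h0 : 0 < δ) (h1 : δ ≤ 1) :
    δ ^ (49 / 100 : ℝ) * (qd P δ ^ 25)⁻¹ ≤ 1 := by
  have hq := pow_pos (TLC_qd_pos P h0) 25
  rw [← div_eq_mul_inv, div_le_one hq]
  unfold qd
  rw [← Real.rpow_natCast, ← Real.rpow_mul h0.le]
  refine Real.rpow_le_rpow_of_exponent_ge h0 h1 ?_
  have hP' : (10000 : ℝ) ≤ P := by exact_mod_cast hP
  have hP0 : (0 : ℝ) < P := by linarith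
  rw [div_mul_eq_mul_div, div_le_iff₀ hP0]
  push_cast
  linarith

theorem TLC_pow_eq {P : ℕ} (hP : 10000 ≤ P) {δ δ' : ℝ} (h0 : 0 < δ)
    (hd : δ' = δ ^ (5 / 4 : ℝ)) {r : ℕ} (hr : 1 ≤ r) :
    δ ^ (49 / 100 : ℝ) * ((qd P δ ^ 25)⁻¹) ^ (r - 1) =
      δ' ^ (392 / 1000 - 20 * ((r : ℝ) - 1) / P : ℝ) := by
  have hP' : (10000 : ℝ) ≤ P := by exact_mod_cast hP
  have hP0 : (P : ℝ) ≠ 0 := by linarith
  have hq : ((qd P δ ^ 25)⁻¹) ^ (r - 1) = δ ^ (-(25 * ((r : ℝ) - 1) / P)) := by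
    unfold qd
    rw [← Real.rpow_natCast (δ ^ ((1 : ℝ) / P)) 25, ← Real.rpow_mul h0.le, ← Real.rpow_neg h0.le,
      ← Real.rpow_natCast, ← Real.rpow_mul h0.le]
    congr 1
    rw [Nat.cast_sub hr]
    push_cast
    field_simp
  rw [hq, ← Real.rpow_add h0, hd, ← Real.rpow_mul h0.le]
  congr 1
  field_simp
  ring

namespace ItData

variable (I : ItData)

theorem TLC_dlt_le_one (k : ℕ) : dlt I.t k ≤ 1 :=
  (dlt_le_t I.t_pos I.t_le k).trans (I.t_le.trans (by norm_num))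

theorem TLC_step {A K : ℝ} {r P k : ℕ} {F F' : E2 → V4} {e e' : E2 → T2}
    (hI : I.Inv k P F e)
    (O : StOut I.cs (I.Cr P) P k I.Lam (dlt I.t k) F I.gst e (fun y => F' y - F y) e')
    (hA : ∀ j ≤ r + 1, (I.Cr P j : ℝ) * I.Lam ^ I.Cr P j ≤ A)
    (hk : A * dlt I.t k ^ (1 / 8 : ℝ) ≤ 1) (hK1 : 1 ≤ K) (hK : 2 * A ≤ K)
    (h : KBd P r K (dlt I.t k) F I.gst e) : KBd P r K (dlt I.t (k + 1)) F' I.gst e' := by
  have hP : 10000 ≤ P := I.hP0.trans hI.hP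
  have h0 : 0 < dlt I.t k := dlt_pos I.t_pos k
  have h1 : dlt I.t k ≤ 1 := I.TLC_dlt_le_one k
  have hq0 : 0 < qd P (dlt I.t k) := TLC_qd_pos P h0
  have hEE : (qd P (dlt I.t (k + 1)) ^ 20)⁻¹ = (qd P (dlt I.t k) ^ 25)⁻¹ := by
    rw [qd_dlt I.t_pos P k]
  have ht3 : 2 * qd P (dlt I.t k) ^ 5 ≤ 1 := hI.thr.t3
  have hE1 : 1 ≤ (qd P (dlt I.t k) ^ 20)⁻¹ := TLC_one_le P 20 h0 h1
  have hE'1 : 1 ≤ (qd P (dlt I.t k) ^ 25)⁻¹ := TLC_one_le P 25 h0 h1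
  have hE2 : 2 * (qd P (dlt I.t k) ^ 20)⁻¹ ≤ (qd P (dlt I.t k) ^ 25)⁻¹ := by
    rw [← div_eq_mul_inv, div_le_iff₀ (pow_pos hq0 20), inv_mul_eq_div, le_div_iff₀ (pow_pos hq0 25)]
    calc 2 * qd P (dlt I.t k) ^ 25 = (2 * qd P (dlt I.t k) ^ 5) * qd P (dlt I.t k) ^ 20 := by ring
      _ ≤ 1 * qd P (dlt I.t k) ^ 20 := mul_le_mul_of_nonneg_right ht3 (pow_pos hq0 20).le
      _ = qd P (dlt I.t k) ^ 20 := one_mul _
  have heta := TLC_eta hP h0 h1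
  have hs := dlt_succ I.t_pos k
  have hd8 : dlt I.t k ^ (11 / 8 : ℝ) = dlt I.t k ^ (1 / 8 : ℝ) * dlt I.t (k + 1) := by
    rw [hs, ← Real.rpow_add h0]
    norm_num
  obtain ⟨δ, hδ⟩ : ∃ δ : ℝ, δ = dlt I.t k := ⟨_, rfl⟩
  obtain ⟨δ', hδ'⟩ : ∃ δ' : ℝ, δ' = dlt I.t (k + 1) := ⟨_, rfl⟩
  have hδ0' : 0 < δ' := by
    rw [hδ']
    exact dlt_pos I.t_pos (k + 1)
  rw [← hδ] at h0 h1 hE1 hE'1 hE2 heta hd8 hk hEE O h
  rw [← hδ'] at hd8 hEE
  rw [← hδ']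
  obtain ⟨E, hE⟩ : ∃ E : ℝ, E = (qd P δ ^ 20)⁻¹ := ⟨_, rfl⟩
  obtain ⟨E', hE'⟩ : ∃ E' : ℝ, E' = (qd P δ ^ 25)⁻¹ := ⟨_, rfl⟩
  rw [← hE] at hE1 hE2
  rw [← hE'] at hE'1 hE2 heta hEE
  have hE'0 : 0 ≤ E' := by linarith
  have hE0 : 0 ≤ E := by linarith
  have hEle : E ≤ E' := by linarith
  have hK0 : 0 ≤ K := by linarith
  have hA0 : 0 ≤ A := le_trans (by
    have := I.hLam
    positivity) (hA 0 (Nat.zero_le _))
  refine ⟨fun j h3 hj x hx => ?_, fun j hj x hx => ?_, fun j h3 hj x hx => ?_⟩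
  · rw [hEE]
    have a1 := TLC_add hI.st.smF O.w_sm j hx
    have a2 := h.F j h3 hj x hx
    have a3 := O.w_bd j x
    rw [← hE] at a2
    rw [← hE'] at a3
    obtain ⟨n, rfl⟩ : ∃ n, j = n + 3 := ⟨j - 3, by omega⟩
    have e1 : n + 3 - 2 = n + 1 := by omega
    have e2' : n + 3 - 1 = n + 1 + 1 := by omega
    rw [e1] at a2 ⊢
    rw [e2'] at a3
    have a4 : 2 * E ^ (n + 1) ≤ E' ^ (n + 1) := by
      have b1 : E ^ n ≤ E' ^ n := pow_le_pow_left₀ hE0 hEle n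
      calc 2 * E ^ (n + 1) = E ^ n * (2 * E) := by ring
        _ ≤ E' ^ n * E' := mul_le_mul b1 hE2 (by linarith) (pow_nonneg hE'0 n)
        _ = E' ^ (n + 1) := by ring
    have a5 : (I.Cr P (n + 3) : ℝ) * I.Lam ^ I.Cr P (n + 3) * δ ^ (49 / 100 : ℝ) *
        E' ^ (n + 1 + 1) ≤ A * E' ^ (n + 1) := by
      calc (I.Cr P (n + 3) : ℝ) * I.Lam ^ I.Cr P (n + 3) * δ ^ (49 / 100 : ℝ) * E' ^ (n + 1 + 1)
          = ((I.Cr P (n + 3) : ℝ) * I.Lam ^ I.Cr P (n + 3)) * E' ^ (n + 1) *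
            (δ ^ (49 / 100 : ℝ) * E') := by ring
        _ ≤ (A * E' ^ (n + 1)) * 1 :=
            mul_le_mul (mul_le_mul_of_nonneg_right (hA (n + 3) hj) (pow_nonneg hE'0 _)) heta
              (mul_nonneg (Real.rpow_nonneg h0.le _) hE'0) (mul_nonneg hA0 (pow_nonneg hE'0 _))
        _ = A * E' ^ (n + 1) := mul_one _
    have a6 : K * (2 * E ^ (n + 1)) ≤ K * E' ^ (n + 1) := mul_le_mul_of_nonneg_left a4 hK0
    have a7 : 2 * A * E' ^ (n + 1) ≤ K * E' ^ (n + 1) :=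
      mul_le_mul_of_nonneg_right hK (pow_nonneg hE'0 _)
    linarith
  · rw [hEE]
    have a3 := O.e_bd j K hK1 (TLC_kbd_le hj h) x
    rw [← hE'] at a3
    refine a3.trans ?_
    rw [hd8]
    have a8 : (I.Cr P j : ℝ) * I.Lam ^ I.Cr P j * δ ^ (1 / 8 : ℝ) ≤ 1 :=
      (mul_le_mul_of_nonneg_right (hA j (by omega)) (Real.rpow_nonneg h0.le _)).trans hk
    calc (I.Cr P j : ℝ) * I.Lam ^ I.Cr P j * K * (δ ^ (1 / 8 : ℝ) * δ') * E' ^ j
        = ((I.Cr P j : ℝ) * I.Lam ^ I.Cr P j * δ ^ (1 / 8 : ℝ)) * (K * δ' * E' ^ j) := by ring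
      _ ≤ 1 * (K * δ' * E' ^ j) := mul_le_mul_of_nonneg_right a8
          (mul_nonneg (mul_nonneg hK0 hδ0'.le) (pow_nonneg hE'0 _))
      _ = K * δ' * E' ^ j := one_mul _
  · rw [hEE]
    have a2 := h.g j h3 hj x hx
    rw [← hE] at a2
    exact a2.trans (mul_le_mul_of_nonneg_left (pow_le_pow_left₀ hE0 hEle j) hK0)

/-- the bounds `KBd` with a constant independent of `k` -/
theorem phase_kbd {e0 : E2 → T2} {P : ℕ → ℕ} {F : ℕ → E2 → V4} {e : ℕ → E2 → T2}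
    (R : I.Run e0 P F e) {P1 k0 : ℕ} (hP : ∀ k, k0 ≤ k → P k = P1) (r : ℕ) :
    ∃ K : ℝ, 1 ≤ K ∧ ∀ k, k0 ≤ k → KBd P1 r K (dlt I.t k) (F k) I.gst (e k) := by
  obtain ⟨A, hAdef⟩ : ∃ A : ℝ, A = ∑ j ∈ Finset.range (r + 2), (I.Cr P1 j : ℝ) *
    I.Lam ^ I.Cr P1 j := ⟨_, rfl⟩
  have hLam := I.hLam
  have hA : ∀ j ≤ r + 1, (I.Cr P1 j : ℝ) * I.Lam ^ I.Cr P1 j ≤ A := fun j hj => by
    rw [hAdef]
    exact Finset.single_le_sum (f := fun j => (I.Cr P1 j : ℝ) * I.Lam ^ I.Cr P1 j)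
      (fun i _ => by positivity) (Finset.mem_range.2 (by omega))
  have hA0 : 0 ≤ A := le_trans (by positivity) (hA 0 (Nat.zero_le _))
  obtain ⟨ks, hks⟩ := eventually_atTop.1 (dlt_beats I.t_pos I.t_le A (1 / 8) (by norm_num) 0)
  have hks' : ∀ k, ks ≤ k → A * dlt I.t k ^ (1 / 8 : ℝ) ≤ 1 := fun k hk => by
    have := hks k hk
    rwa [pow_zero, mul_one] at this
  have hex : ∀ k, ∃ K : ℝ, 1 ≤ K ∧ KBd P1 r K (dlt I.t k) (F k) I.gst (e k) := fun k =>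
    TLC_exists (dlt_pos I.t_pos k) (I.TLC_dlt_le_one k) (R.inv k).st.smF (R.inv k).st.smg
      (R.inv k).st.sme r
  choose Kk hKk1 hKk using hex
  obtain ⟨n1, hn1⟩ : ∃ n1 : ℕ, n1 = max ks k0 := ⟨_, rfl⟩
  obtain ⟨K, hKdef⟩ : ∃ K : ℝ, K = 2 * A + ∑ k ∈ Finset.range (n1 + 1), Kk k := ⟨_, rfl⟩
  have hle : ∀ k ≤ n1, Kk k ≤ K := fun k hk => by
    have := Finset.single_le_sum (f := Kk) (s := Finset.range (n1 + 1))
      (fun i _ => zero_le_one.trans (hKk1 i)) (Finset.mem_range.2 (by omega : k < n1 + 1))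
    linarith
  have hs0 : 0 ≤ ∑ k ∈ Finset.range (n1 + 1), Kk k :=
    Finset.sum_nonneg fun i _ => zero_le_one.trans (hKk1 i)
  have hK1 : 1 ≤ K := (hKk1 0).trans (hle 0 (Nat.zero_le _))
  have hsmall : ∀ k ≤ n1, KBd P1 r K (dlt I.t k) (F k) I.gst (e k) := fun k hk =>
    TLC_kbd_mono (dlt_pos I.t_pos k) (I.TLC_dlt_le_one k) (hle k hk) (hKk k)
  have hlarge : ∀ k, n1 ≤ k → KBd P1 r K (dlt I.t k) (F k) I.gst (e k) := by
    intro k hk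
    induction k, hk using Nat.le_induction with
    | base => exact hsmall n1 le_rfl
    | succ k hk ih =>
      have hk0 : k0 ≤ k := by
        have := le_max_right ks k0
        omega
      have hkks : ks ≤ k := by
        have := le_max_left ks k0
        omega
      have hPk := hP k hk0
      have hI := R.inv k
      have hO := (R.step k).out
      rw [hPk] at hI hO
      exact I.TLC_step hI hO hA (hks' k hkks) hK1 (by linarith) ih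
  refine ⟨K, hK1, fun k hk => ?_⟩
  rcases le_total k n1 with h | h
  · exact hsmall k h
  · exact hlarge k h

/-- better bounds of the maps -/
theorem phase_F {e0 : E2 → T2} {P : ℕ → ℕ} {F : ℕ → E2 → V4} {e : ℕ → E2 → T2}
    (R : I.Run e0 P F e) {P1 k0 : ℕ} (hP : ∀ k, k0 ≤ k → P k = P1) (r : ℕ) (hr : 1 ≤ r) :
    ∃ K : ℝ, ∀ k, k0 ≤ k → ∀ x ∈ Metric.closedBall (0 : E2) 3,
      ‖iteratedFDeriv ℝ r (F k) x‖ ≤
        K * (k + 1) * (1 + dlt I.t k ^ (392 / 1000 - 20 * ((r : ℝ) - 1) / P1 : ℝ)) := by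
  obtain ⟨b, hb⟩ : ∃ b : ℝ, b = 392 / 1000 - 20 * ((r : ℝ) - 1) / P1 := ⟨_, rfl⟩
  rw [← hb]
  have hLam := I.hLam
  obtain ⟨K0, hK0, hK⟩ := TLC_cpt (R.inv k0).st.smF r
  obtain ⟨A, hA⟩ : ∃ A : ℝ, A = (I.Cr P1 r : ℝ) * I.Lam ^ I.Cr P1 r := ⟨_, rfl⟩
  have hA0 : 0 ≤ A := by
    rw [hA]
    positivity
  have hKA : 0 ≤ K0 + A := by linarith
  have key : ∀ k, k0 ≤ k → ∀ x ∈ Metric.closedBall (0 : E2) 3,
      ‖iteratedFDeriv ℝ r (F k) x‖ ≤ (K0 + A) * (k + 1) * dlt I.t k ^ (min b 0) := by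
    intro k hk
    induction k, hk using Nat.le_induction with
    | base =>
      intro x hx
      have h1 : 1 ≤ dlt I.t k0 ^ (min b 0) :=
        Real.one_le_rpow_of_pos_of_le_one_of_nonpos (dlt_pos I.t_pos k0) (I.TLC_dlt_le_one k0)
          (min_le_right _ _)
      have h2 : (1 : ℝ) ≤ (k0 : ℝ) + 1 := by
        have : (0 : ℝ) ≤ k0 := Nat.cast_nonneg _
        linarith
      calc ‖iteratedFDeriv ℝ r (F k0) x‖ ≤ K0 := hK x hx
        _ ≤ (K0 + A) * 1 * 1 := by linarith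
        _ ≤ (K0 + A) * (k0 + 1) * dlt I.t k0 ^ (min b 0) :=
            mul_le_mul (mul_le_mul_of_nonneg_left h2 hKA) h1 zero_le_one
              (mul_nonneg hKA (by linarith))
    | succ k hk ih =>
      intro x hx
      have hPk := hP k hk
      have hI := R.inv k
      have hO := (R.step k).out
      rw [hPk] at hI hO
      have hP1 : 10000 ≤ P1 := I.hP0.trans hI.hP
      have h0 : 0 < dlt I.t k := dlt_pos I.t_pos k
      have h0' : 0 < dlt I.t (k + 1) := dlt_pos I.t_pos (k + 1)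
      have a1 := TLC_add hI.st.smF hO.w_sm r hx
      have a2 := ih x hx
      have a3 := hO.w_bd r x
      have a4 := TLC_pow_eq hP1 h0 (dlt_succ I.t_pos k) hr
      rw [← hb] at a4
      rw [mul_assoc, a4, ← hA] at a3
      have a5 : dlt I.t (k + 1) ^ b ≤ dlt I.t (k + 1) ^ (min b 0) :=
        Real.rpow_le_rpow_of_exponent_ge h0' (I.TLC_dlt_le_one (k + 1)) (min_le_left _ _)
      have a6 : dlt I.t k ^ (min b 0) ≤ dlt I.t (k + 1) ^ (min b 0) :=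
        Real.rpow_le_rpow_of_nonpos h0' (dlt_anti I.t_pos I.t_le (Nat.le_succ k))
          (min_le_right _ _)
      have hk1 : (0 : ℝ) ≤ (k : ℝ) + 1 := by positivity
      have a7 := mul_le_mul_of_nonneg_left a6 (mul_nonneg hKA hk1)
      have a8 := mul_le_mul_of_nonneg_left a5 hA0
      have a9 : 0 ≤ K0 * dlt I.t (k + 1) ^ (min b 0) :=
        mul_nonneg (by linarith) (Real.rpow_nonneg h0'.le _)
      have e1 : (K0 + A) * (((k + 1 : ℕ) : ℝ) + 1) * dlt I.t (k + 1) ^ (min b 0) =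
          (K0 + A) * ((k : ℝ) + 1) * dlt I.t (k + 1) ^ (min b 0) +
            K0 * dlt I.t (k + 1) ^ (min b 0) + A * dlt I.t (k + 1) ^ (min b 0) := by
        push_cast
        ring
      rw [e1]
      linarith
  refine ⟨K0 + A, fun k hk x hx => (key k hk x hx).trans ?_⟩
  refine mul_le_mul_of_nonneg_left ?_ (mul_nonneg hKA (by positivity))
  have h0 : 0 < dlt I.t k := dlt_pos I.t_pos k
  rcases le_total b 0 with h | h
  · rw [min_eq_left h]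
    linarith
  · rw [min_eq_right h, Real.rpow_zero]
    have := Real.rpow_nonneg h0.le b
    linarith

/-- the gaps (one step behind the bounds of the stage) -/
theorem phase_e {e0 : E2 → T2} {P : ℕ → ℕ} {F : ℕ → E2 → V4} {e : ℕ → E2 → T2}
    (R : I.Run e0 P F e) {P1 k0 : ℕ} (hP : ∀ k, k0 ≤ k → P k = P1) (r : ℕ) :
    ∃ K : ℝ, ∀ k, k0 ≤ k → ∀ x,
      ‖iteratedFDeriv ℝ r (e (k + 1)) x‖ ≤
        K * dlt I.t (k + 1) ^ (11 / 10 : ℝ) * ((qd P1 (dlt I.t (k + 1)) ^ 20)⁻¹) ^ r := by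
  obtain ⟨K, hK1, hK⟩ := I.phase_kbd R hP r
  refine ⟨(I.Cr P1 r : ℝ) * I.Lam ^ I.Cr P1 r * K, fun k hk x => ?_⟩
  have hPk := hP k hk
  have hO := (R.step k).out
  rw [hPk] at hO
  have h1 := hO.e_bd r K hK1 (hK k hk) x
  have h0 : 0 < dlt I.t k := dlt_pos I.t_pos k
  rw [qd_dlt I.t_pos P1 k, dlt_succ I.t_pos k, ← Real.rpow_mul h0.le]
  have e1 : (5 / 4 * (11 / 10) : ℝ) = 11 / 8 := by norm_num
  rw [e1]
  exact h1

end ItData

end P205F
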