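import Vale.Agent.Lib.P205F.TLC

/-! # P205F module TLD: change of phase -/

open scoped ContDiff Topology
open Set Filter

namespace P205F

private theorem TLD_q {P : ℕ} {δ : ℝ} (h : 0 < δ) (n : ℕ) :
    ((qd P δ ^ 20)⁻¹) ^ n = δ ^ (-(20 * (n : ℝ) / P)) := by
  rw [inv_pow, ← pow_mul, qd_rpow h, ← Real.rpow_neg h.le]
  push_cast
  rfl

/-- derivatives of a function smooth on the ball of radius `4` are bounded on the closed ball of
radius `3` -/
private theorem TLD_cpt {V : Type} [NormedAddCommGroup V] [NormedSpace ℝ V] {u : E2 → V}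
    (h : ContDiffOn ℝ ∞ u (Metric.ball 0 4)) (r : ℕ) :
    ∃ A : ℝ, ∀ x ∈ Metric.closedBall (0 : E2) 3, ‖iteratedFDeriv ℝ r u x‖ ≤ A := by
  have h1 : ContinuousOn (iteratedFDeriv ℝ r u) (Metric.ball 0 4) := by
    have h2 := h.continuousOn_iteratedFDerivWithin (m := r) (by exact_mod_cast le_top)
      Metric.isOpen_ball.uniqueDiffOn
    exact h2.congr fun x hx => (iteratedFDerivWithin_of_isOpen r Metric.isOpen_ball hx).symm
  have hs : Metric.closedBall (0 : E2) 3 ⊆ Metric.ball 0 4 :=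
    Metric.closedBall_subset_ball (by norm_num)
  exact (isCompact_closedBall (0 : E2) 3).exists_bound_of_continuousOn (h1.mono hs)

private theorem TLD_F {t : ℝ} (h : 0 < t) (h2 : t ≤ 1 / 2) {P1 : ℕ} (hP : 10000 ≤ P1) {r : ℕ}
    (hr : 3 ≤ r) (hr2 : r ≤ 2 * (P1 + 8) + 1) (K : ℝ) :
    ∀ᶠ m : ℕ in atTop,
      K * (m + 1) * (1 + dlt t m ^ (392 / 1000 - 20 * ((r : ℝ) - 1) / P1 : ℝ)) ≤
        ((qd (P1 + 8) (dlt t m) ^ 20)⁻¹) ^ (r - 2) := by
  have hP' : (10000 : ℝ) ≤ P1 := by exact_mod_cast hP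
  have hr' : (3 : ℝ) ≤ r := by exact_mod_cast hr
  have hr2' : (r : ℝ) ≤ 2 * (P1 + 8) + 1 := by exact_mod_cast hr2
  have hP0 : (0 : ℝ) < P1 := by linarith
  have hP8 : (0 : ℝ) < (P1 : ℝ) + 8 := by linarith
  set b : ℝ := 20 * ((r : ℝ) - 2) / (P1 + 8) with hb
  set a : ℝ := 392 / 1000 - 20 * ((r : ℝ) - 1) / P1 with ha
  have hb0 : 0 < b := by
    rw [hb]
    apply div_pos _ hP8
    linarith
  have hab : 0 < a + b := by
    have e1 : a + b = 392 / 1000 - 20 / P1 - 160 * (((r : ℝ) - 2) / (P1 + 8)) / P1 := by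
      rw [ha, hb]
      field_simp
      ring
    have e2 : ((r : ℝ) - 2) / (P1 + 8) ≤ 2 := by
      rw [div_le_iff₀ hP8]
      linarith
    have e3 : 20 / (P1 : ℝ) ≤ 1 / 100 := by
      rw [div_le_div_iff₀ hP0 (by norm_num)]
      linarith
    have e4 : 160 * (((r : ℝ) - 2) / (P1 + 8)) / P1 ≤ 1 / 10 := by
      rw [div_le_div_iff₀ hP0 (by norm_num)]
      nlinarith
    rw [e1]
    linarith
  filter_upwards [dlt_beats h h2 (2 * |K|) b hb0 1, dlt_beats h h2 (2 * |K|) (a + b) hab 1]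
    with m h3 h4
  have hd := dlt_pos h m
  rw [TLD_q hd]
  have e5 : (-(20 * ((r - 2 : ℕ) : ℝ) / ((P1 + 8 : ℕ) : ℝ))) = -b := by
    rw [hb, Nat.cast_sub (by omega)]
    push_cast
    rfl
  rw [e5]
  rw [pow_one] at h3 h4
  have hpb := Real.rpow_pos_of_pos hd (-b)
  have hm : (0 : ℝ) < m + 1 := by positivity
  have e6 : dlt t m ^ b * dlt t m ^ (-b) = 1 := by
    rw [← Real.rpow_add hd]
    simp
  have e7 : dlt t m ^ (a + b) * dlt t m ^ (-b) = dlt t m ^ a := by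
    rw [← Real.rpow_add hd]
    congr 1
    ring
  calc K * (m + 1) * (1 + dlt t m ^ a) ≤ |K| * (m + 1) * (1 + dlt t m ^ a) := by
        have := Real.rpow_pos_of_pos hd a
        gcongr
        exact le_abs_self K
    _ = ((2 * |K| * (m + 1) * dlt t m ^ b) + (2 * |K| * (m + 1) * dlt t m ^ (a + b))) / 2 *
        dlt t m ^ (-b) := by
        linear_combination (-|K| * (m + 1)) * e6 + (-|K| * (m + 1)) * e7
    _ ≤ (1 + 1) / 2 * dlt t m ^ (-b) := by
        gcongr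
    _ = dlt t m ^ (-b) := by ring

private theorem TLD_e {t : ℝ} (h : 0 < t) (h2 : t ≤ 1 / 2) {P1 : ℕ} (hP : 10000 ≤ P1) {r : ℕ}
    (hr2 : r ≤ 2 * (P1 + 8)) (K : ℝ) {n : ℝ} (hn : 0 < n) :
    ∀ᶠ m : ℕ in atTop,
      K * dlt t m ^ (11 / 10 : ℝ) * ((qd P1 (dlt t m) ^ 20)⁻¹) ^ r ≤
        n * dlt t m * ((qd (P1 + 8) (dlt t m) ^ 20)⁻¹) ^ r := by
  have hP' : (10000 : ℝ) ≤ P1 := by exact_mod_cast hP
  have hr2' : (r : ℝ) ≤ 2 * (P1 + 8) := by exact_mod_cast hr2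
  have hP0 : (0 : ℝ) < P1 := by linarith
  have hP8 : (0 : ℝ) < (P1 : ℝ) + 8 := by linarith
  set b : ℝ := 20 * (r : ℝ) / (P1 + 8) with hb
  set a : ℝ := 20 * (r : ℝ) / P1 with ha
  have hab : 0 < 1 / 10 - a + b := by
    have e1 : 1 / 10 - a + b = 1 / 10 - 160 * ((r : ℝ) / (P1 + 8)) / P1 := by
      rw [ha, hb]
      field_simp
      ring
    have e2 : (r : ℝ) / (P1 + 8) ≤ 2 := by
      rw [div_le_iff₀ hP8]
      linarith
    have e4 : 160 * ((r : ℝ) / (P1 + 8)) / P1 ≤ 1 / 20 := by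
      rw [div_le_div_iff₀ hP0 (by norm_num)]
      nlinarith
    rw [e1]
    linarith
  filter_upwards [dlt_beats h h2 (|K| / n) (1 / 10 - a + b) hab 0] with m h3
  have hd := dlt_pos h m
  rw [TLD_q hd, TLD_q hd]
  have e5 : (-(20 * (r : ℝ) / ((P1 + 8 : ℕ) : ℝ))) = -b := by
    rw [hb]
    push_cast
    rfl
  rw [e5]
  rw [pow_zero, mul_one] at h3
  have e6 : dlt t m ^ (11 / 10 : ℝ) * dlt t m ^ (-a) =
      dlt t m ^ (1 / 10 - a + b) * (dlt t m * dlt t m ^ (-b)) := by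
    rw [← Real.rpow_add hd]
    nth_rewrite 3 [← Real.rpow_one (dlt t m)]
    rw [← Real.rpow_add hd, ← Real.rpow_add hd]
    congr 1
    ring
  have hpb := Real.rpow_pos_of_pos hd (-b)
  have hpa := Real.rpow_pos_of_pos hd (-a)
  have hpc := Real.rpow_pos_of_pos hd (11 / 10 : ℝ)
  calc K * dlt t m ^ (11 / 10 : ℝ) * dlt t m ^ (-a)
      ≤ |K| * dlt t m ^ (11 / 10 : ℝ) * dlt t m ^ (-a) := by
        gcongr
        exact le_abs_self K
    _ = (|K| / n * dlt t m ^ (1 / 10 - a + b)) * (n * dlt t m * dlt t m ^ (-b)) := by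
        rw [mul_assoc, e6]
        field_simp
    _ ≤ 1 * (n * dlt t m * dlt t m ^ (-b)) := by
        gcongr
    _ = n * dlt t m * dlt t m ^ (-b) := one_mul _

private theorem TLD_g {t : ℝ} (h : 0 < t) (h2 : t ≤ 1 / 2) {P1 : ℕ} {r : ℕ}
    (hr : 1 ≤ r) (A : ℝ) :
    ∀ᶠ m : ℕ in atTop, A ≤ ((qd (P1 + 8) (dlt t m) ^ 20)⁻¹) ^ r := by
  have hr' : (1 : ℝ) ≤ r := by exact_mod_cast hr
  have hP0 : (0 : ℝ) ≤ P1 := Nat.cast_nonneg _
  set b : ℝ := 20 * (r : ℝ) / (P1 + 8) with hb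
  have hb0 : 0 < b := by
    rw [hb]
    positivity
  filter_upwards [dlt_beats h h2 A b hb0 0] with m h3
  have hd := dlt_pos h m
  rw [TLD_q hd]
  have e5 : (-(20 * (r : ℝ) / ((P1 + 8 : ℕ) : ℝ))) = -b := by
    rw [hb]
    push_cast
    rfl
  rw [e5]
  rw [pow_zero, mul_one] at h3
  have hpb := Real.rpow_pos_of_pos hd (-b)
  have e6 : dlt t m ^ b * dlt t m ^ (-b) = 1 := by
    rw [← Real.rpow_add hd]
    simp
  calc A = A * dlt t m ^ b * dlt t m ^ (-b) := by rw [mul_assoc, e6, mul_one]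
    _ ≤ 1 * dlt t m ^ (-b) := by gcongr
    _ = dlt t m ^ (-b) := one_mul _

namespace ItData

variable (I : ItData)

/-- in a constant phase the next phase can be started at some level -/
theorem switch {e0 : E2 → T2} {P : ℕ → ℕ} {F : ℕ → E2 → V4} {e : ℕ → E2 → T2}
    (R : I.Run e0 P F e) {P1 k0 : ℕ} (hP : ∀ k, k0 ≤ k → P k = P1) :
    ∃ k1, k0 ≤ k1 ∧ I.Inv (k1 + 1) (P1 + 8) (F (k1 + 1)) (e (k1 + 1)) := by
  have hPI : I.P0 ≤ P1 := by
    have := (R.inv k0).hP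
    rwa [hP k0 le_rfl] at this
  have hP1 : 10000 ≤ P1 := I.hP0.trans hPI
  have hnu : 0 < nu I.C0 I.m0 I.Lam / 4 := by
    have h1 : (0 : ℝ) < I.C0 := by
      have := I.hC0
      exact_mod_cast (by omega : 0 < I.C0)
    have h2 : 0 < I.Lam := zero_lt_one.trans_le I.hLam
    unfold nu
    positivity
  have hF : ∀ r, 3 ≤ r → r ≤ 2 * (P1 + 8) + 1 → ∀ᶠ m : ℕ in atTop,
      ∀ x ∈ Metric.closedBall (0 : E2) 3, ‖iteratedFDeriv ℝ r (F m) x‖ ≤
        ((qd (P1 + 8) (dlt I.t m) ^ 20)⁻¹) ^ (r - 2) := by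
    intro r h3 hr
    obtain ⟨K, hK⟩ := I.phase_F R hP r (by omega)
    filter_upwards [TLD_F I.t_pos I.t_le hP1 h3 hr K, eventually_ge_atTop k0] with m h4 h5 x hx
    exact (hK m h5 x hx).trans h4
  have he : ∀ r, r ≤ 2 * (P1 + 8) → ∀ᶠ m : ℕ in atTop,
      ∀ x ∈ Metric.closedBall (0 : E2) 3, ‖iteratedFDeriv ℝ r (e m) x‖ ≤
        nu I.C0 I.m0 I.Lam / 4 * dlt I.t m * ((qd (P1 + 8) (dlt I.t m) ^ 20)⁻¹) ^ r := by
    intro r hr
    obtain ⟨K, hK⟩ := I.phase_e R hP r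
    filter_upwards [TLD_e I.t_pos I.t_le hP1 hr K hnu, eventually_ge_atTop (k0 + 1)]
      with m h4 h5 x hx
    obtain ⟨j, rfl⟩ : ∃ j, m = j + 1 := ⟨m - 1, by omega⟩
    exact (hK j (by omega) x).trans h4
  have hg : ∀ r, 1 ≤ r → ∀ᶠ m : ℕ in atTop,
      ∀ x ∈ Metric.closedBall (0 : E2) 3, ‖iteratedFDeriv ℝ r I.gst x‖ ≤
        ((qd (P1 + 8) (dlt I.t m) ^ 20)⁻¹) ^ r := by
    intro r hr
    obtain ⟨A, hA⟩ := TLD_cpt (R.inv k0).st.smg r
    filter_upwards [TLD_g I.t_pos I.t_le (P1 := P1) hr A] with m h4 x hx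
    exact (hA x hx).trans h4
  have hF' : ∀ᶠ m : ℕ in atTop, ∀ r ∈ Finset.range (2 * (P1 + 8) + 2), 3 ≤ r →
      ∀ x ∈ Metric.closedBall (0 : E2) 3, ‖iteratedFDeriv ℝ r (F m) x‖ ≤
        ((qd (P1 + 8) (dlt I.t m) ^ 20)⁻¹) ^ (r - 2) := by
    rw [Filter.eventually_all_finset]
    intro r hr
    rw [Finset.mem_range] at hr
    by_cases h3 : 3 ≤ r
    · filter_upwards [hF r h3 (by omega)] with m h4 _
      exact h4
    · exact Filter.Eventually.of_forall fun m h4 => absurd h4 h3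
  have he' : ∀ᶠ m : ℕ in atTop, ∀ r ∈ Finset.range (2 * (P1 + 8) + 1),
      ∀ x ∈ Metric.closedBall (0 : E2) 3, ‖iteratedFDeriv ℝ r (e m) x‖ ≤
        nu I.C0 I.m0 I.Lam / 4 * dlt I.t m * ((qd (P1 + 8) (dlt I.t m) ^ 20)⁻¹) ^ r := by
    rw [Filter.eventually_all_finset]
    intro r hr
    rw [Finset.mem_range] at hr
    exact he r (by omega)
  have hg' : ∀ᶠ m : ℕ in atTop, ∀ r ∈ Finset.range (2 * (P1 + 8) + 2), 1 ≤ r →
      ∀ x ∈ Metric.closedBall (0 : E2) 3, ‖iteratedFDeriv ℝ r I.gst x‖ ≤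
        ((qd (P1 + 8) (dlt I.t m) ^ 20)⁻¹) ^ r := by
    rw [Filter.eventually_all_finset]
    intro r hr
    by_cases h3 : 1 ≤ r
    · filter_upwards [hg r h3] with m h4 _
      exact h4
    · exact Filter.Eventually.of_forall fun m h4 => absurd h4 h3
  have hth := thr_eventually I.C0 I.m0 I.Cr (P := P1 + 8) (by omega) I.hLam I.t_pos I.t_le
  obtain ⟨m, ⟨hm1, hm2, hm3, hm4⟩, hm5⟩ :=
    ((hF'.and (he'.and (hg'.and hth))).and (eventually_ge_atTop (k0 + 1))).exists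
  obtain ⟨j, rfl⟩ : ∃ j, m = j + 1 := ⟨m - 1, by omega⟩
  have hI := R.inv (j + 1)
  refine ⟨j, by omega, ?_⟩
  exact
    { hP := by omega
      st :=
        { hL := hI.st.hL
          d0 := hI.st.d0
          d1 := hI.st.d1
          smF0 := hI.st.smF0
          smF := hI.st.smF
          smg := hI.st.smg
          sme := hI.st.sme
          gsym := hI.st.gsym
          esym := hI.st.esym
          ok := hI.st.ok
          S1 := hI.st.S1
          S2 := fun r h3 hr => hm1 r (Finset.mem_range.2 (by omega)) h3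
          S3 := fun r hr => hm2 r (Finset.mem_range.2 (by omega))
          S4 := fun r h1 hr => hm3 r (Finset.mem_range.2 (by omega)) h1 }
      thr := hm4
      dsm := hI.dsm
      near := hI.near }

/-- the phases are unbounded -/
theorem run_unbdd {e0 : E2 → T2} {P : ℕ → ℕ} {F : ℕ → E2 → V4} {e : ℕ → E2 → T2}
    (R : I.Run e0 P F e) : Monotone P ∧ ∀ N, ∃ k0, ∀ k, k0 ≤ k → N ≤ P k := by
  have hmono : Monotone P := by
    apply monotone_nat_of_le_succ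
    intro k
    rcases (R.step k).hP' with h | h <;> omega
  refine ⟨hmono, ?_⟩
  by_contra hcon
  push Not at hcon
  obtain ⟨N, hN⟩ := hcon
  have hb : ∀ k, P k ≤ N := by
    intro k
    obtain ⟨k', h1, h2⟩ := hN k
    exact (hmono h1).trans h2.le
  have hbd : BddAbove (Set.range P) := ⟨N, by rintro _ ⟨k, rfl⟩; exact hb k⟩
  obtain ⟨k0, hk0⟩ := Nat.sSup_mem (Set.range_nonempty P) hbd
  have hc : ∀ k, k0 ≤ k → P k = P k0 := by
    intro k hk
    apply le_antisymm _ (hmono hk)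
    rw [hk0]
    exact le_csSup hbd ⟨k, rfl⟩
  obtain ⟨k1, h1, h2⟩ := I.switch R hc
  have h3 := (R.step k1).greedy (by rw [hc k1 h1]; exact h2)
  rw [hc k1 h1, hc (k1 + 1) (by omega)] at h3
  omega

end ItData

end P205F
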