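import Vale.Agent.Lib.P205F.StDefs

/-!
# P205F: definitions for the iteration (one-chart theorem TL)
-/

open scoped ContDiff Topology
open Set

namespace P205F

/-- the sequence of the parameters `δ_k = t ^ ((5/4) ^ k)` -/
noncomputable def dlt (t : ℝ) (k : ℕ) : ℝ := t ^ ((5 / 4 : ℝ) ^ k)

/-- sums of the sizes of the steps -/
noncomputable def ds (t : ℝ) (k : ℕ) : ℝ := ∑ j ∈ Finset.range k, dlt t j ^ (2 / 5 : ℝ)

/-- the stage lemma holds with these constants -/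
def StageOK (C0 m0 : ℕ) (cs : CutSeq) (Cr : ℕ → ℕ → ℕ) : Prop :=
  ∀ P, 10000 ≤ P → ∀ (k : ℕ) (Lam δ : ℝ) (F0 F : E2 → V4) (gst e : E2 → T2),
    St C0 m0 P k Lam δ F0 F gst e → Cr P 0 * Lam ^ Cr P 0 * δ ≤ 1 →
    ∃ (w : E2 → V4) (e' : E2 → T2), StOut cs (Cr P) P k Lam δ F gst e w e'

/-- smallness conditions for the phase `P` -/
structure Thr (C0 m0 : ℕ) (Cr : ℕ → ℕ → ℕ) (P : ℕ) (Lam δ : ℝ) : Prop where
  t1 : Cr P 0 * Lam ^ Cr P 0 * δ ≤ 1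
  t2 : ∀ r ≤ 2 * P + 1, 4 * C0 * Lam ^ m0 * (Cr P r * Lam ^ Cr P r) * δ ^ (1 / 20 : ℝ) ≤ 1
  t3 : 2 * qd P δ ^ 5 ≤ 1

/-- the data of the iteration -/
structure ItData where
  C0 : ℕ
  m0 : ℕ
  cs : CutSeq
  Cr : ℕ → ℕ → ℕ
  P0 : ℕ
  Lam : ℝ
  t : ℝ
  F0 : E2 → V4
  gst : E2 → T2
  hC0 : 20 ≤ C0
  stage : StageOK C0 m0 cs Cr
  hP0 : 10000 ≤ P0
  hLam : 1 ≤ Lam
  t_pos : 0 < t
  t_le : t ≤ 1 / 2
  ds_le : ∀ k, ds t k ≤ nu C0 m0 Lam / 4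

namespace ItData

variable (I : ItData)

/-- the invariant of the iteration -/
structure Inv (k P : ℕ) (F : E2 → V4) (e : E2 → T2) : Prop where
  hP : I.P0 ≤ P
  st : St I.C0 I.m0 P k I.Lam (dlt I.t k) I.F0 F I.gst e
  thr : Thr I.C0 I.m0 I.Cr P I.Lam (dlt I.t k)
  dsm : ContDiff ℝ ∞ (fun y => F y - I.F0 y)
  near : ∀ r, 1000 * r ≤ I.P0 → ∀ x,
    ‖iteratedFDeriv ℝ r (fun y => F y - I.F0 y) x‖ ≤ ds I.t k

/-- one step -/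
structure Step (k P : ℕ) (F : E2 → V4) (e : E2 → T2) (P' : ℕ) (F' : E2 → V4)
    (e' : E2 → T2) : Prop where
  out : StOut I.cs (I.Cr P) P k I.Lam (dlt I.t k) F I.gst e (fun y => F' y - F y) e'
  inv : I.Inv (k + 1) P' F' e'
  hP' : P' = P ∨ P' = P + 8
  greedy : I.Inv (k + 1) (P + 8) F' e' → P' = P + 8

/-- a sequence of steps -/
structure Run (e0 : E2 → T2) (P : ℕ → ℕ) (F : ℕ → E2 → V4) (e : ℕ → E2 → T2) : Prop where
  P_zero : P 0 = I.P0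
  F_zero : F 0 = I.F0
  e_zero : e 0 = e0
  inv : ∀ k, I.Inv k (P k) (F k) (e k)
  step : ∀ k, I.Step k (P k) (F k) (e k) (P (k + 1)) (F (k + 1)) (e (k + 1))

end ItData

/-- the tail function `∑_{k ≥ 1} δ_k psi_k ^ 2` -/
noncomputable def sg (cs : CutSeq) (t : ℝ) (x : E2) : ℝ :=
  ∑' k : ℕ, dlt t (k + 1) * cs.psi (k + 1) x ^ 2

end P205F
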