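import Mathlib
import Vale.Agent.Lib.P205F.TLB
import Vale.Agent.Lib.P205F.TLD

/-! # P205F module TLE: the limit -/

open scoped ContDiff Topology
open Set Filter

namespace P205F

/-! ### the tail function -/

theorem TLE_psi_root (cs : CutSeq) (k : ℕ) : cs.psi k = cs.root k 1 := by
  funext x
  have h := (cs.root_pow k 1 le_rfl x).2
  rw [pow_one] at h
  exact h.symm

theorem TLE_psi_sm (cs : CutSeq) (k : ℕ) : ContDiff ℝ ∞ (cs.psi k) := by
  rw [TLE_psi_root]
  exact cs.root_sm k 1 le_rfl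

/-- bound for the squares -/
noncomputable def TLE_B (cs : CutSeq) (r : ℕ) : ℝ :=
  ∑ i ∈ Finset.range (r + 1), (r.choose i : ℝ) * |cs.C 1 i| * |cs.C 1 (r - i)|

theorem TLE_B_nonneg (cs : CutSeq) (r : ℕ) : 0 ≤ TLE_B cs r :=
  Finset.sum_nonneg fun i _ => by positivity

theorem TLE_sq_bd (cs : CutSeq) (k r : ℕ) (x : E2) :
    ‖iteratedFDeriv ℝ r (fun y => cs.psi k y ^ 2) x‖ ≤ TLE_B cs r * ((2 : ℝ) ^ k) ^ r := by
  have h1 : (fun y => cs.psi k y ^ 2) = fun y => cs.psi k y * cs.psi k y := by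
    funext y
    ring
  have hs := TLE_psi_sm cs k
  have hb : ∀ j, ‖iteratedFDeriv ℝ j (cs.psi k) x‖ ≤ |cs.C 1 j| * ((2 : ℝ) ^ k) ^ j := by
    intro j
    rw [TLE_psi_root]
    exact (cs.root_bd k 1 le_rfl j x).trans
      (mul_le_mul_of_nonneg_right (le_abs_self _) (by positivity))
  rw [h1]
  refine (norm_iteratedFDeriv_mul_le hs hs x (n := r) (by exact_mod_cast le_top)).trans ?_
  unfold TLE_B
  rw [Finset.sum_mul]
  refine Finset.sum_le_sum fun i hi => ?_
  have hi' : i ≤ r := Nat.lt_succ_iff.1 (Finset.mem_range.1 hi)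
  calc (r.choose i : ℝ) * ‖iteratedFDeriv ℝ i (cs.psi k) x‖ *
        ‖iteratedFDeriv ℝ (r - i) (cs.psi k) x‖
      ≤ (r.choose i : ℝ) * (|cs.C 1 i| * ((2 : ℝ) ^ k) ^ i) *
        (|cs.C 1 (r - i)| * ((2 : ℝ) ^ k) ^ (r - i)) := by
        refine mul_le_mul (mul_le_mul_of_nonneg_left (hb i) (Nat.cast_nonneg _)) (hb (r - i))
          (norm_nonneg _) (by positivity)
    _ = (r.choose i : ℝ) * |cs.C 1 i| * |cs.C 1 (r - i)| *
        (((2 : ℝ) ^ k) ^ i * ((2 : ℝ) ^ k) ^ (r - i)) := by ring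
    _ = (r.choose i : ℝ) * |cs.C 1 i| * |cs.C 1 (r - i)| * ((2 : ℝ) ^ k) ^ r := by
        rw [← pow_add, Nat.add_sub_cancel' hi']

theorem TLE_term_bd (cs : CutSeq) {t : ℝ} (ht : 0 < t) (r k : ℕ) (x : E2) :
    ‖iteratedFDeriv ℝ r (fun y => dlt t (k + 1) * cs.psi (k + 1) y ^ 2) x‖ ≤
      TLE_B cs r * (((2 : ℝ) ^ (k + 1)) ^ r * dlt t (k + 1)) := by
  have hd := dlt_pos ht (k + 1)
  have h1 : (fun y => dlt t (k + 1) * cs.psi (k + 1) y ^ 2) =
      dlt t (k + 1) • fun y => cs.psi (k + 1) y ^ 2 := rfl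
  have h2 : ContDiffAt ℝ (r : ℕ∞ω) (fun y => cs.psi (k + 1) y ^ 2) x :=
    (((TLE_psi_sm cs (k + 1)).pow 2).of_le (by exact_mod_cast le_top)).contDiffAt
  rw [h1, iteratedFDeriv_const_smul_apply h2, norm_smul, Real.norm_of_nonneg hd.le]
  calc dlt t (k + 1) * ‖iteratedFDeriv ℝ r (fun y => cs.psi (k + 1) y ^ 2) x‖
      ≤ dlt t (k + 1) * (TLE_B cs r * ((2 : ℝ) ^ (k + 1)) ^ r) :=
        mul_le_mul_of_nonneg_left (TLE_sq_bd cs (k + 1) r x) hd.le
    _ = TLE_B cs r * (((2 : ℝ) ^ (k + 1)) ^ r * dlt t (k + 1)) := by ring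

theorem TLE_term_sm (cs : CutSeq) (t : ℝ) (k : ℕ) :
    ContDiff ℝ ∞ (fun y => dlt t (k + 1) * cs.psi (k + 1) y ^ 2) :=
  contDiff_const.mul ((TLE_psi_sm cs (k + 1)).pow 2)

/-- the tail function -/
theorem sg_bd (cs : CutSeq) : ∃ C : ℕ → ℝ, ∀ t : ℝ, 0 < t → t ≤ 1 / 2 →
    ContDiff ℝ ∞ (sg cs t) ∧ (∀ x, 0 ≤ sg cs t x) ∧ (∀ x, 5 / 2 ≤ ‖x‖ → sg cs t x = 0) ∧
    (∀ x, Summable fun k : ℕ => dlt t (k + 1) * cs.psi (k + 1) x ^ 2) ∧
    ∀ r x, ‖iteratedFDeriv ℝ r (sg cs t) x‖ ≤ C r * t ^ (5 / 4 : ℝ) := by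
  choose A hA using dlt_tail
  refine ⟨fun r => TLE_B cs r * A r, fun t ht ht2 => ?_⟩
  have hsum : ∀ r, Summable fun k : ℕ =>
      TLE_B cs r * (((2 : ℝ) ^ (k + 1)) ^ r * dlt t (k + 1)) :=
    fun r => ((hA r t ht ht2).1).mul_left _
  have hpt : ∀ x, Summable fun k : ℕ => dlt t (k + 1) * cs.psi (k + 1) x ^ 2 := by
    intro x
    refine Summable.of_nonneg_of_le (fun k => ?_) (fun k => ?_) ((hA 0 t ht ht2).1)
    · exact mul_nonneg (dlt_pos ht _).le (sq_nonneg _)
    · obtain ⟨h0, h1⟩ := cs.psi01 (k + 1) x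
      rw [pow_zero, one_mul]
      exact mul_le_of_le_one_right (dlt_pos ht _).le (pow_le_one₀ h0 h1)
  refine ⟨?_, ?_, ?_, hpt, ?_⟩
  · unfold sg
    exact contDiff_tsum (N := ⊤) (v := fun r k =>
      TLE_B cs r * (((2 : ℝ) ^ (k + 1)) ^ r * dlt t (k + 1)))
      (fun k => TLE_term_sm cs t k) (fun r _ => hsum r) (fun r k x _ => TLE_term_bd cs ht r k x)
  · intro x
    exact tsum_nonneg fun k => mul_nonneg (dlt_pos ht _).le (sq_nonneg _)
  · intro x hx
    unfold sg
    have h0 : (fun k : ℕ => dlt t (k + 1) * cs.psi (k + 1) x ^ 2) = fun _ => 0 := by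
      funext k
      rw [cs.psi_supp (k + 1) x ?_]
      · ring
      · refine le_trans ?_ hx
        unfold rad
        have : (0 : ℝ) < (1 / 2) ^ (k + 1) := by positivity
        rw [pow_succ (1 / 2 : ℝ) (k + 1)]
        linarith
    rw [h0, tsum_zero]
  · intro r x
    have h1 : iteratedFDeriv ℝ r (sg cs t) x =
        ∑' k : ℕ, iteratedFDeriv ℝ r (fun y => dlt t (k + 1) * cs.psi (k + 1) y ^ 2) x := by
      unfold sg
      exact iteratedFDeriv_tsum_apply (N := ⊤) (v := fun r k =>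
        TLE_B cs r * (((2 : ℝ) ^ (k + 1)) ^ r * dlt t (k + 1)))
        (fun k => TLE_term_sm cs t k) (fun r _ => hsum r)
        (fun r k x _ => TLE_term_bd cs ht r k x) (by exact_mod_cast le_top) x
    rw [h1]
    have h2 := tsum_of_norm_bounded (hsum r).hasSum (fun k => TLE_term_bd cs ht r k x)
    refine h2.trans ?_
    rw [tsum_mul_left, mul_assoc]
    exact mul_le_mul_of_nonneg_left (hA r t ht ht2).2 (TLE_B_nonneg cs r)

namespace ItData

variable (I : ItData)

/-- the induced metrics along the iteration -/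
theorem run_met {e0 : E2 → T2} {P : ℕ → ℕ} {F : ℕ → E2 → V4} {e : ℕ → E2 → T2}
    (R : I.Run e0 P F e) (n : ℕ) {x : E2} (hx : x ∈ Metric.ball (0 : E2) 4) (a b : Fin 2) :
    met (F (n + 1)) x a b = met I.F0 x a b + I.cs.psi 0 x ^ 2 * (I.t * I.gst x a b - e0 x a b)
      + (∑ k ∈ Finset.range n, dlt I.t (k + 1) * I.cs.psi (k + 1) x ^ 2) * I.gst x a b
      + e (n + 1) x a b := by
  have hstep : ∀ n, met (F (n + 1)) x a b = met (F n) x a b
      + I.cs.psi n x ^ 2 * (dlt I.t n * I.gst x a b - e n x a b) + e (n + 1) x a b := by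
    intro n
    have h1 := (R.step n).out.eq x hx a b
    have h2 : (fun y => F n y + (F (n + 1) y - F n y)) = F (n + 1) := by
      funext y
      abel
    rw [h2] at h1
    exact h1
  induction n with
  | zero =>
    rw [hstep 0, Finset.sum_range_zero, dlt_zero, R.F_zero, R.e_zero]
    ring
  | succ n ih =>
    rw [hstep (n + 1), ih, Finset.sum_range_succ]
    have h3 : I.cs.psi (n + 1) x ^ 2 * e (n + 1) x a b = e (n + 1) x a b := by
      rcases le_or_gt ‖x‖ (rad (n + 1)) with h | h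
      · rw [I.cs.psi_one (n + 1) (by omega) x h]
        ring
      · have h4 : rad n + (1 / 2) ^ n / 8 ≤ ‖x‖ := by
          refine le_trans ?_ h.le
          unfold rad
          have : (0 : ℝ) < (1 / 2) ^ n := by positivity
          rw [pow_succ (1 / 2 : ℝ) (n + 1), pow_succ (1 / 2 : ℝ) n]
          linarith
        rw [((R.step n).out.supp x h4).2]
        simp
    have h5 : I.cs.psi (n + 1) x ^ 2 * (dlt I.t (n + 1) * I.gst x a b - e (n + 1) x a b) =
        dlt I.t (n + 1) * I.cs.psi (n + 1) x ^ 2 * I.gst x a b - e (n + 1) x a b := by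
      rw [mul_sub, h3]
      ring
    rw [h5]
    ring

/-- summable bounds of the steps -/
theorem TLE_step_bd {e0 : E2 → T2} {P : ℕ → ℕ} {F : ℕ → E2 → V4} {e : ℕ → E2 → T2}
    (R : I.Run e0 P F e) (r : ℕ) : ∃ v : ℕ → ℝ, Summable v ∧
      ∀ k x, ‖iteratedFDeriv ℝ r (fun y => F (k + 1) y - F k y) x‖ ≤ v k := by
  obtain ⟨k0, hk0⟩ := (I.run_unbdd R).2 (1000 * r)
  set c : ℕ → ℝ := fun k => I.Cr (P k) r * I.Lam ^ I.Cr (P k) r * dlt I.t k ^ (49 / 100 : ℝ) *
    ((qd (P k) (dlt I.t k) ^ 25)⁻¹) ^ (r - 1) with hc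
  have hc0 : ∀ k, 0 ≤ c k := by
    intro k
    have h1 : 0 ≤ I.Lam := zero_le_one.trans I.hLam
    have h2 := dlt_pos I.t_pos k
    have h3 : 0 < qd (P k) (dlt I.t k) := qd_pos h2
    rw [hc]
    positivity
  refine ⟨fun k => dlt I.t k ^ (2 / 5 : ℝ) + (if k < k0 then c k else 0), ?_, ?_⟩
  · refine Summable.add ?_ ?_
    · have := dlt_summable I.t_pos I.t_le (2 / 5) (by norm_num) 0
      simpa using this
    · refine summable_of_ne_finset_zero (s := Finset.range k0) fun k hk => ?_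
      rw [if_neg]
      simpa using hk
  · intro k x
    have hd := dlt_pos I.t_pos k
    have hd2 : 0 ≤ dlt I.t k ^ (2 / 5 : ℝ) := Real.rpow_nonneg hd.le _
    change _ ≤ dlt I.t k ^ (2 / 5 : ℝ) + (if k < k0 then c k else 0)
    by_cases hk : k < k0
    · rw [if_pos hk]
      have h1 := (R.step k).out.w_bd r x
      have h2 : ‖iteratedFDeriv ℝ r (fun y => F (k + 1) y - F k y) x‖ ≤ c k := h1
      linarith
    · rw [if_neg hk, add_zero]
      have hd1 : dlt I.t k ≤ 1 / 2 := (dlt_le_t I.t_pos I.t_le k).trans I.t_le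
      exact step_small I.hC0 (I.hP0.trans (R.inv k).hP) I.hLam hd hd1 (R.inv k).thr
        (R.step k).out (hk0 k (not_lt.1 hk)) x

/-- the limit -/
theorem run_limit {e0 : E2 → T2} {P : ℕ → ℕ} {F : ℕ → E2 → V4} {e : ℕ → E2 → T2}
    (R : I.Run e0 P F e) : ∃ W : E2 → V4, ContDiff ℝ ∞ W ∧ (∀ x, 5 / 2 ≤ ‖x‖ → W x = 0) ∧
      (∀ x ∈ Metric.ball (0 : E2) 4, ∀ a b, met (fun y => I.F0 y + W y) x a b =
        met I.F0 x a b + I.cs.psi 0 x ^ 2 * (I.t * I.gst x a b - e0 x a b)
          + sg I.cs I.t x * I.gst x a b) ∧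
      ∀ (r : ℕ) (B : ℝ), 1000 * r ≤ I.P0 → (∀ k, ds I.t k ≤ B) → ∀ x,
        ‖iteratedFDeriv ℝ r W x‖ ≤ B := by
  choose v hv hvb using fun r => I.TLE_step_bd R r
  set w : ℕ → E2 → V4 := fun k y => F (k + 1) y - F k y with hw
  have wsm : ∀ k, ContDiff ℝ ∞ (w k) := fun k => (R.step k).out.w_sm
  have hWit : ∀ r x, iteratedFDeriv ℝ r (fun y => ∑' k, w k y) x =
      ∑' k, iteratedFDeriv ℝ r (w k) x := fun r x =>
    iteratedFDeriv_tsum_apply (N := ⊤) (v := v) wsm (fun r _ => hv r) (fun r k x _ => hvb r k x)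
      (by exact_mod_cast le_top) x
  have hWsm : ContDiff ℝ ∞ (fun y => ∑' k, w k y) :=
    contDiff_tsum (N := ⊤) (v := v) wsm (fun r _ => hv r) (fun r k x _ => hvb r k x)
  have htel : ∀ n, (fun y => F n y - I.F0 y) = fun y => ∑ k ∈ Finset.range n, w k y := by
    intro n
    funext y
    rw [hw]
    simp only
    rw [Finset.sum_range_sub (fun k => F k y) n, R.F_zero]
  have hsup : ∀ k x, 5 / 2 ≤ ‖x‖ → w k x = 0 ∧ e (k + 1) x = 0 := by
    intro k x hx
    refine (R.step k).out.supp x (le_trans ?_ hx)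
    unfold rad
    have : (0 : ℝ) < (1 / 2) ^ k := by positivity
    rw [pow_succ (1 / 2 : ℝ) k]
    linarith
  obtain ⟨_, hsg⟩ := sg_bd I.cs
  have hsgs := (hsg I.t I.t_pos I.t_le).2.2.2.1
  refine ⟨fun y => ∑' k, w k y, hWsm, ?_, ?_, ?_⟩
  · intro x hx
    have : (fun k => w k x) = fun _ => 0 := by
      funext k
      exact (hsup k x hx).1
    simp only [this, tsum_zero]
  · intro x hx a b
    -- derivatives
    have hF0 : DifferentiableAt ℝ I.F0 x :=
      (((R.inv 0).st.smF0.contDiffAt (Metric.isOpen_ball.mem_nhds hx)).differentiableAt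
        (by simp))
    have hwd : ∀ k, Differentiable ℝ (w k) := fun k => (wsm k).differentiable (by simp)
    have hv1 : ∀ k x, ‖fderiv ℝ (w k) x‖ ≤ v 1 k := by
      intro k x
      rw [← norm_iteratedFDeriv_one]
      exact hvb 1 k x
    have hs0 : Summable fun k => w k x := by
      refine Summable.of_norm_bounded (hv 0) fun k => ?_
      have := hvb 0 k x
      rwa [norm_iteratedFDeriv_zero] at this
    have hWd : HasFDerivAt (fun y => ∑' k, w k y) (∑' k, fderiv ℝ (w k) x) x :=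
      hasFDerivAt_tsum (hv 1) (fun k y => (hwd k y).hasFDerivAt) hv1 hs0 x
    have hsd : HasSum (fun k => fderiv ℝ (w k) x) (∑' k, fderiv ℝ (w k) x) :=
      (Summable.of_norm_bounded (hv 1) fun k => hv1 k x).hasSum
    have hpdn : ∀ n (i : Fin 2), pd i (F n) x =
        pd i I.F0 x + (∑ k ∈ Finset.range n, fderiv ℝ (w k) x) (bv i) := by
      intro n i
      have h1 : F n = fun y => I.F0 y + ∑ k ∈ Finset.range n, w k y := by
        funext y
        have h0 : F n y - I.F0 y = ∑ k ∈ Finset.range n, w k y := congrFun (htel n) y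
        rw [← h0]
        abel
      have h2 : HasFDerivAt (fun y => I.F0 y + ∑ k ∈ Finset.range n, w k y)
          (fderiv ℝ I.F0 x + ∑ k ∈ Finset.range n, fderiv ℝ (w k) x) x :=
        hF0.hasFDerivAt.add (HasFDerivAt.fun_sum fun k _ => (hwd k x).hasFDerivAt)
      unfold pd
      rw [h1, h2.fderiv]
      rfl
    have hpdW : ∀ i : Fin 2, pd i (fun y => I.F0 y + ∑' k, w k y) x =
        pd i I.F0 x + (∑' k, fderiv ℝ (w k) x) (bv i) := by
      intro i
      have h2 : HasFDerivAt (fun y => I.F0 y + ∑' k, w k y)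
          (fderiv ℝ I.F0 x + ∑' k, fderiv ℝ (w k) x) x := hF0.hasFDerivAt.add hWd
      unfold pd
      rw [h2.fderiv]
      rfl
    have hlim : ∀ i : Fin 2, Tendsto (fun n => pd i (F n) x) atTop
        (𝓝 (pd i (fun y => I.F0 y + ∑' k, w k y) x)) := by
      intro i
      simp only [hpdn, hpdW]
      refine tendsto_const_nhds.add ?_
      exact ((ContinuousLinearMap.apply ℝ V4 (bv i)).continuous.tendsto _).comp
        hsd.tendsto_sum_nat
    have hmet : Tendsto (fun n => met (F (n + 1)) x a b) atTop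
        (𝓝 (met (fun y => I.F0 y + ∑' k, w k y) x a b)) := by
      unfold met
      exact ((hlim a).inner (hlim b)).comp (tendsto_add_atTop_nat 1)
    -- the gaps
    have hdz : Tendsto (fun n => dlt I.t n) atTop (𝓝 0) := by
      have h1 := dlt_summable I.t_pos I.t_le 1 one_pos 0
      simp only [pow_zero, one_mul, Real.rpow_one] at h1
      exact h1.tendsto_atTop_zero
    have hez : Tendsto (fun n => e (n + 1) x a b) atTop (𝓝 0) := by
      have h2 : Tendsto (fun n => nu I.C0 I.m0 I.Lam / 4 * dlt I.t (n + 1)) atTop (𝓝 0) := by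
        have := (hdz.comp (tendsto_add_atTop_nat 1)).const_mul (nu I.C0 I.m0 I.Lam / 4)
        rw [mul_zero] at this
        exact this
      refine squeeze_zero_norm (fun n => ?_) h2
      rcases le_or_gt (5 / 2) ‖x‖ with h | h
      · rw [(hsup n x h).2]
        have h3 : 0 ≤ nu I.C0 I.m0 I.Lam := by
          unfold nu
          have h1 : 0 ≤ I.Lam := zero_le_one.trans I.hLam
          positivity
        have h4 := dlt_pos I.t_pos (n + 1)
        simp only [Pi.zero_apply, norm_zero]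
        positivity
      · have hx3 : x ∈ Metric.closedBall (0 : E2) 3 := by
          rw [mem_closedBall_zero_iff]
          linarith
        have h3 := (R.inv (n + 1)).st.S3 0 (Nat.zero_le _) x hx3
        rw [norm_iteratedFDeriv_zero, pow_zero, mul_one] at h3
        exact ((norm_le_pi_norm (e (n + 1) x a) b).trans
          (norm_le_pi_norm (e (n + 1) x) a)).trans h3
    have hsgl : Tendsto (fun n => ∑ k ∈ Finset.range n,
        dlt I.t (k + 1) * I.cs.psi (k + 1) x ^ 2) atTop (𝓝 (sg I.cs I.t x)) :=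
      (hsgs x).hasSum.tendsto_sum_nat
    have hR : Tendsto (fun n => met (F (n + 1)) x a b) atTop
        (𝓝 (met I.F0 x a b + I.cs.psi 0 x ^ 2 * (I.t * I.gst x a b - e0 x a b)
          + sg I.cs I.t x * I.gst x a b + 0)) := by
      have h1 : (fun n => met (F (n + 1)) x a b) = fun n =>
          met I.F0 x a b + I.cs.psi 0 x ^ 2 * (I.t * I.gst x a b - e0 x a b)
          + (∑ k ∈ Finset.range n, dlt I.t (k + 1) * I.cs.psi (k + 1) x ^ 2) * I.gst x a b
          + e (n + 1) x a b := by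
        funext n
        exact I.run_met R n hx a b
      rw [h1]
      exact (tendsto_const_nhds.add (hsgl.mul_const _)).add hez
    rw [add_zero] at hR
    exact tendsto_nhds_unique hmet hR
  · intro r B hr hB x
    rw [hWit r x]
    have hs : HasSum (fun k => iteratedFDeriv ℝ r (w k) x)
        (∑' k, iteratedFDeriv ℝ r (w k) x) :=
      (Summable.of_norm_bounded (hv r) fun k => hvb r k x).hasSum
    refine le_of_tendsto hs.tendsto_sum_nat.norm (Eventually.of_forall fun n => ?_)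
    have h1 := (R.inv n).near r hr x
    rw [htel n] at h1
    have h2 : iteratedFDeriv ℝ r (fun y => ∑ k ∈ Finset.range n, w k y) x =
        ∑ k ∈ Finset.range n, iteratedFDeriv ℝ r (w k) x :=
      iteratedFDeriv_fun_sum_apply fun k _ =>
        ((wsm k).of_le (by exact_mod_cast le_top)).contDiffAt
    rw [h2] at h1
    exact h1.trans (hB n)

end ItData

end P205F
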